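import Vale.Agent.P278.MathlibUsed
import Vale.Agent.P278.StmtF

set_option linter.all false

namespace AFastaeda18x5a
@[reducible] def a0.{u1, u2} {x1 : Type u1} {x2 : Type u2} [x3 : NormedAddCommGroup x1] [x4 : NormedAddCommGroup x2] [x5 : NormedSpace ℂ x1] [x6 : NormedSpace ℂ x2] : Module ℂ (x1 × x2) := inferInstance
@[reducible] noncomputable def a1 : DistribMulAction ℝ ℂ := inferInstance
@[reducible] noncomputable def a2 : SMulZeroClass ℝ ℂ := inferInstance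
theorem a3 : ContinuousSMul ℝ ℂ := inferInstance
@[reducible] noncomputable def a4 : DistribSMul ℝ ℂ := inferInstance
@[reducible] def a5.{u1, u2} {x1 : Type u1} {x2 : Type u2} [x3 : NormedAddCommGroup x2] [x4 : NormedAddCommGroup x1] : AddCommMonoid (x1 × x2) := inferInstance
@[reducible] noncomputable def a6 : Module ℝ (ℂ × ℂ) := inferInstance
@[reducible] def a7.{u1, u2} {x1 : Type u1} {x2 : Type u2} [x3 : NormedAddCommGroup x2] [x4 : NormedAddCommGroup x1] : TopologicalSpace (x1 × x2) := inferInstance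
@[reducible] noncomputable def a8 : Module ℝ (ℝ × ℂ) := inferInstance
@[reducible] noncomputable def a9 : MulAction ℝ ℂ := inferInstance
theorem a10 : IsTopologicalRing ℂ := inferInstance
theorem a11 : ContinuousAdd ℂ := inferInstance
theorem a12 : IsSemitopologicalSemiring ℂ := inferInstance
@[reducible] noncomputable def a13 : SemigroupAction ℝ ℂ := inferInstance
theorem a14 : CovariantClass ℝ ℝ (Function.swap fun x1 x2 => x1 + x2) fun x1 x2 => x1 ≤ x2 := inferInstance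
@[reducible] def a15.{u1, u2} {x1 : Type u1} {x2 : Type u2} [x3 : NormedAddCommGroup x2] [x4 : NormedAddCommGroup x1] : AddCommGroup (x1 × x2) := inferInstance
theorem a16 : IsSemitopologicalRing ℂ := inferInstance
@[reducible] def a17.{u1, u2} {x1 : Type u1} {x2 : Type u2} [x3 : NormedAddCommGroup x1] [x4 : NormedAddCommGroup x2] [x5 : NormedSpace ℂ x1] [x6 : NormedSpace ℂ x2] : DistribMulAction ℂ (x1 × x2) := inferInstance
theorem a18 : AddRightStrictMono ℝ := inferInstance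
theorem a19 : AddRightReflectLE ℝ := inferInstance
@[reducible] noncomputable def a20 : NormedSpace ℝ ℂ := inferInstance
@[reducible] noncomputable def a21 : MeasureTheory.MeasureSpace ℂ := inferInstance
@[reducible] def a22.{u1, u2} {x1 : Type u1} {x2 : Type u2} [x3 : NormedAddCommGroup x1] [x4 : NormedAddCommGroup x2] [x5 : NormedSpace ℂ x1] [x6 : NormedSpace ℂ x2] : Module ℂ (x1 × x2 →ₗ[ℂ] ℂ) := inferInstance
theorem a23 : IsRightCancelAdd ℝ := inferInstance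
@[reducible] def a24.{u1} {x1 : Type u1} [x2 : NormedAddCommGroup x1] [x3 : NormedSpace ℂ x1] : Module ℂ (x1 →ₗ[ℂ] ℂ) := inferInstance
@[reducible] noncomputable def a25.{u1, u2} {x1 : Type u1} [x2 : NormedAddCommGroup x1] [x3 : NormedSpace ℂ x1] {x4 : Type u2} [x5 : TopologicalSpace x4] [x6 : ChartedSpace x1 x4] {x7 : x4} : AddCommMonoid (TangentSpace (modelWithCornersSelf ℂ x1) x7) := inferInstance
theorem a26 : AddLeftReflectLE ℝ := inferInstance
theorem a27 : T2Space ℝ := inferInstance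
theorem a28 : ContinuousSMul ℝ ℝ := inferInstance
theorem a29 : CharZero ℝ := inferInstance
theorem a30 : ContinuousSMul ℂ ℂ := inferInstance
theorem a31 : ContinuousSMul ℝ (ℂ × ℂ) := inferInstance
@[reducible] noncomputable def a32 : NormedSpace ℝ ℝ := inferInstance
theorem a33 : IsTopologicalAddGroup ℂ := inferInstance
theorem a34 : ContravariantClass ℝ ℝ (fun x1 x2 => x1 + x2) fun x1 x2 => x1 < x2 := inferInstance
@[reducible] def a35.{u1, u2} {x1 : Type u1} {x2 : Type u2} [x3 : NormedAddCommGroup x2] [x4 : NormedAddCommGroup x1] : Zero (x1 × x2) := inferInstance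
theorem a36 : AddLeftMono ℝ := inferInstance
theorem a37 : IsTopologicalDivisionRing ℂ := inferInstance
theorem a38 : IsLeftCancelAdd ℝ := inferInstance
theorem a39 : IsTopologicalSemiring ℂ := inferInstance
@[reducible] noncomputable def a40.{u1, u2} {x1 : Type u1} {x2 : Type u2} [x3 : NormedAddCommGroup x1] [x4 : NormedAddCommGroup x2] [x5 : NormedSpace ℂ x1] [x6 : NormedSpace ℂ x2] : NormedSpace ℂ (x1 × x2) := inferInstance
@[reducible] def a41 : Monoid ℂ := inferInstance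
theorem a42 : ContravariantClass ℝ ℝ (Function.swap fun x1 x2 => x1 + x2) fun x1 x2 => x1 < x2 := inferInstance
@[reducible] noncomputable def a43.{u1} {x1 : Type u1} [x2 : NormedAddCommGroup x1] [x3 : NormedSpace ℂ x1] : SMul ℂ (x1 →L[ℝ] ℂ) := inferInstance
@[reducible] noncomputable def a44 : SMul ℝ ℂ := inferInstance
@[reducible] def a45.{u1, u2} {x1 : Type u1} {x2 : Type u2} [x3 : NormedAddCommGroup x2] [x4 : NormedAddCommGroup x1] : AddZeroClass (x1 × x2) := inferInstance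
@[reducible] def a46.{u1, u2} {x1 : Type u1} {x2 : Type u2} [x3 : NormedAddCommGroup x2] [x4 : NormedAddCommGroup x1] : AddMonoid (x1 × x2) := inferInstance
theorem a47 : IsBoundedSMul ℝ ℂ := inferInstance
@[reducible] def a48.{u1, u2} {x1 : Type u1} {x2 : Type u2} [x3 : NormedAddCommGroup x2] [x4 : NormedAddCommGroup x1] : AddZero (x1 × x2) := inferInstance
@[reducible] def a49 : SMulZeroClass ℂ ℂ := inferInstance
theorem a50 : ContinuousSub ℂ := inferInstance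
theorem a51 : IsModuleTopology ℂ ℂ := inferInstance
@[reducible] def a52.{u1, u2} {x1 : Type u1} {x2 : Type u2} [x3 : NormedAddCommGroup x2] [x4 : NormedAddCommGroup x1] : Sub (x1 × x2) := inferInstance
theorem a53 : ContinuousConstSMul ℂ ℂ := inferInstance
theorem a54 : SeparatelyContinuousMul ℂ := inferInstance
@[reducible] def a55.{u1, u2} {x1 : Type u1} {x2 : Type u2} [x3 : NormedAddCommGroup x2] [x4 : NormedAddCommGroup x1] : AddGroup (x1 × x2) := inferInstance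
@[reducible] noncomputable def a56 : NormedSpace ℝ (ℂ × ℂ) := inferInstance
@[reducible] def a57.{u1, u2} {x1 : Type u1} {x2 : Type u2} [x3 : NormedAddCommGroup x2] [x4 : NormedAddCommGroup x1] : SubNegMonoid (x1 × x2) := inferInstance
theorem a58 : LocallyCompactSpace ℂ := inferInstance
@[reducible] def a59.{u1, u2} {x1 : Type u1} {x2 : Type u2} [x3 : NormedAddCommGroup x2] [x4 : NormedAddCommGroup x1] : PseudoMetricSpace (x1 × x2) := inferInstance
theorem a60 : PosMulReflectLT ℝ := inferInstance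
theorem a61 : PosMulReflectLE ℝ := inferInstance
@[reducible] def a62 : SMulZeroClass ℝ ℝ := inferInstance
theorem a63 : TopologicalSpace.SeparableSpace ℂ := inferInstance
theorem a64 : SigmaCompactSpace ℂ := inferInstance
@[reducible] def a65 : DistribMulAction ℂ ℂ := inferInstance
theorem a66 : PosMulStrictMono ℝ := inferInstance
theorem a67 : SecondCountableTopology ℂ := inferInstance
@[reducible] def a68.{u1, u2} {x1 : Type u1} {x2 : Type u2} [x3 : NormedAddCommGroup x2] [x4 : NormedAddCommGroup x1] : UniformSpace (x1 × x2) := inferInstance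
@[reducible] def a69.{u1, u2} {x1 : Type u1} {x2 : Type u2} [x3 : NormedAddCommGroup x2] [x4 : NormedAddCommGroup x1] : Norm (x1 × x2) := inferInstance
theorem a70 : OrderClosedTopology ℝ := inferInstance
@[reducible] noncomputable def a71 : DistribMulAction ℝ (ℂ × ℂ) := inferInstance
theorem a72 : ContinuousAdd (ℂ × ℂ) := inferInstance
@[reducible] def a73.{u1} {x1 : Type u1} [x2 : NormedAddCommGroup x1] [x3 : NormedSpace ℂ x1] : SMulZeroClass ℂ (x1 →ₗ[ℂ] ℂ) := inferInstance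
@[reducible] noncomputable def a74 : MulActionWithZero ℝ ℂ := inferInstance
theorem a75 : ContinuousSub ℝ := inferInstance
theorem a76 : @MeasureTheory.IsFiniteMeasureOnCompacts Real Real.measurableSpace (@UniformSpace.toTopologicalSpace Real (@PseudoMetricSpace.toUniformSpace Real Real.pseudoMetricSpace)) (@MeasureTheory.volume Real Real.measureSpace) := inferInstance
end AFastaeda18x5a
attribute [local instance] AFastaeda18x5a.a0 AFastaeda18x5a.a1 AFastaeda18x5a.a2 AFastaeda18x5a.a3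
  AFastaeda18x5a.a4 AFastaeda18x5a.a5 AFastaeda18x5a.a6 AFastaeda18x5a.a7 AFastaeda18x5a.a8
  AFastaeda18x5a.a9 AFastaeda18x5a.a10 AFastaeda18x5a.a11 AFastaeda18x5a.a12 AFastaeda18x5a.a13
  AFastaeda18x5a.a14 AFastaeda18x5a.a15 AFastaeda18x5a.a16 AFastaeda18x5a.a17 AFastaeda18x5a.a18
  AFastaeda18x5a.a19 AFastaeda18x5a.a20 AFastaeda18x5a.a21 AFastaeda18x5a.a22 AFastaeda18x5a.a23
  AFastaeda18x5a.a24 AFastaeda18x5a.a25 AFastaeda18x5a.a26 AFastaeda18x5a.a27 AFastaeda18x5a.a28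
  AFastaeda18x5a.a29 AFastaeda18x5a.a30 AFastaeda18x5a.a31 AFastaeda18x5a.a32 AFastaeda18x5a.a33
  AFastaeda18x5a.a34 AFastaeda18x5a.a35 AFastaeda18x5a.a36 AFastaeda18x5a.a37 AFastaeda18x5a.a38
  AFastaeda18x5a.a39 AFastaeda18x5a.a40 AFastaeda18x5a.a41 AFastaeda18x5a.a42 AFastaeda18x5a.a43
  AFastaeda18x5a.a44 AFastaeda18x5a.a45 AFastaeda18x5a.a46 AFastaeda18x5a.a47 AFastaeda18x5a.a48
  AFastaeda18x5a.a49 AFastaeda18x5a.a50 AFastaeda18x5a.a51 AFastaeda18x5a.a52 AFastaeda18x5a.a53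
  AFastaeda18x5a.a54 AFastaeda18x5a.a55 AFastaeda18x5a.a56 AFastaeda18x5a.a57 AFastaeda18x5a.a58
  AFastaeda18x5a.a59 AFastaeda18x5a.a60 AFastaeda18x5a.a61 AFastaeda18x5a.a62 AFastaeda18x5a.a63
  AFastaeda18x5a.a64 AFastaeda18x5a.a65 AFastaeda18x5a.a66 AFastaeda18x5a.a67 AFastaeda18x5a.a68
  AFastaeda18x5a.a69 AFastaeda18x5a.a70 AFastaeda18x5a.a71 AFastaeda18x5a.a72 AFastaeda18x5a.a73
  AFastaeda18x5a.a74 AFastaeda18x5a.a75 AFastaeda18x5a.a76
namespace AFastaeda18x5b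
@[reducible] noncomputable def a0 : Module ℝ ℂ := inferInstance
@[reducible] def a1.{u1, u2} {x1 : Type u1} {x2 : Type u2} [x3 : NormedAddCommGroup x2] [x4 : NormedSpace ℂ x2] [x5 : NormedAddCommGroup x1] [x6 : NormedSpace ℂ x1] : SMul ℂ (x1 × x2) := inferInstance
theorem a2.{u1, u2} {x1 : Type u1} {x2 : Type u2} [x3 : NormedAddCommGroup x1] [x4 : NormedAddCommGroup x2] [x5 : NormedSpace ℂ x1] [x6 : NormedSpace ℂ x2] [x7 : FiniteDimensional ℂ x1] [x8 : FiniteDimensional ℂ x2] : CompleteSpace (x1 × x2) := inferInstance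
@[reducible] def a3.{u1, u2} {x1 : Type u1} {x2 : Type u2} [x3 : NormedAddCommGroup x1] [x4 : NormedAddCommGroup x2] [x5 : NormedSpace ℂ x1] [x6 : NormedSpace ℂ x2] : SMulZeroClass ℂ (x1 × x2) := inferInstance
@[reducible] def a4.{u1, u2} {x1 : Type u1} {x2 : Type u2} [x3 : NormedAddCommGroup x1] [x4 : NormedAddCommGroup x2] [x5 : NormedSpace ℂ x1] [x6 : NormedSpace ℂ x2] : DistribSMul ℂ (x1 × x2) := inferInstance
theorem a5.{u1, u2} {x1 : Type u1} {x2 : Type u2} [x3 : NormedAddCommGroup x1] [x4 : NormedSpace ℂ x1] [x5 : NormedAddCommGroup x2] [x6 : NormedSpace ℂ x2] : IsScalarTower ℂ ℂ (x1 × x2) := inferInstance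
theorem a6.{u1, u2} {x1 : Type u1} {x2 : Type u2} [x3 : NormedAddCommGroup x1] [x4 : NormedAddCommGroup x2] [x5 : NormedSpace ℂ x1] [x6 : NormedSpace ℂ x2] : ContinuousSMul ℂ (x1 × x2) := inferInstance
theorem a7 : @MeasureTheory.SFinite Complex (@MeasureTheory.MeasureSpace.toMeasurableSpace Complex (@measureSpaceOfInnerProductSpace Complex Complex.instNormedAddCommGroup instInnerProductSpaceRealComplex Complex.instFiniteDimensionalReal Complex.measurableSpace Complex.borelSpace)) (@MeasureTheory.volume Complex (@measureSpaceOfInnerProductSpace Complex Complex.instNormedAddCommGroup instInnerProductSpaceRealComplex Complex.instFiniteDimensionalReal Complex.measurableSpace Complex.borelSpace)) := inferInstance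
theorem a8 : @MeasureTheory.SigmaFinite Complex (@MeasureTheory.MeasureSpace.toMeasurableSpace Complex (@measureSpaceOfInnerProductSpace Complex Complex.instNormedAddCommGroup instInnerProductSpaceRealComplex Complex.instFiniteDimensionalReal Complex.measurableSpace Complex.borelSpace)) (@MeasureTheory.volume Complex (@measureSpaceOfInnerProductSpace Complex Complex.instNormedAddCommGroup instInnerProductSpaceRealComplex Complex.instFiniteDimensionalReal Complex.measurableSpace Complex.borelSpace)) := inferInstance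
theorem a9.{u1, u2} {x1 : Type u1} {x2 : Type u2} [x3 : NormedAddCommGroup x1] [x4 : NormedAddCommGroup x2] [x5 : NormedSpace ℂ x1] [x6 : NormedSpace ℂ x2] : IsScalarTower ℝ ℂ (x1 × x2) := inferInstance
@[reducible] noncomputable def a10.{u1} {x1 : Type u1} [x2 : NormedAddCommGroup x1] [x3 : NormedSpace ℂ x1] : Module ℝ (x1 →L[ℝ] ℂ) := inferInstance
theorem a11 : ContinuousSMul ℝ (ℝ × ℂ) := inferInstance
theorem a12.{u1, u2} {x1 : Type u1} {x2 : Type u2} [x3 : NormedAddCommGroup x1] [x4 : NormedAddCommGroup x2] [x5 : NormedSpace ℂ x1] [x6 : NormedSpace ℂ x2] [x7 : FiniteDimensional ℂ x1] [x8 : FiniteDimensional ℂ x2] : ProperSpace (x1 × x2) := inferInstance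
theorem a13 : SMulCommClass ℝ ℝ ℂ := inferInstance
theorem a14 : SemilinearMapClass (ℂ × ℂ →L[ℝ] ℝ) (RingHom.id ℝ) (ℂ × ℂ) ℝ := inferInstance
theorem a15 : IsScalarTower ℝ ℝ ℂ := inferInstance
theorem a16.{u1, u2} {x1 : Type u1} [x2 : NormedAddCommGroup x1] {x3 : Type u2} [x4 : NormedAddCommGroup x3] [x5 : NormedSpace ℂ x1] [x6 : NormedSpace ℂ x3] : MulActionSemiHomClass (x1 →L[ℂ] x3) (⇑(RingHom.id ℂ)) x1 x3 := inferInstance
theorem a17.{u1, u2} {x1 : Type u1} [x2 : NormedAddCommGroup x1] {x3 : Type u2} [x4 : NormedAddCommGroup x3] [x5 : NormedSpace ℂ x1] [x6 : NormedSpace ℂ x3] : SemilinearMapClass (x1 →L[ℂ] x3) (RingHom.id ℂ) x1 x3 := inferInstance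
theorem a18 : SemilinearMapClass (ℂ →L[ℝ] ℝ) (RingHom.id ℝ) ℂ ℝ := inferInstance
theorem a19.{u1, u2} {x1 : Type u1} {x2 : Type u2} [x3 : NormedAddCommGroup x1] [x4 : NormedSpace ℂ x1] [x5 : NormedAddCommGroup x2] [x6 : NormedSpace ℂ x2] : ContinuousSMul ℂ (x1 × x2) := inferInstance
theorem a20 : SemilinearMapClass (ℂ × ℂ →L[ℝ] ℂ) (RingHom.id ℝ) (ℂ × ℂ) ℂ := inferInstance
theorem a21 : AddHomClass (ℂ × ℂ →L[ℝ] ℝ) (ℂ × ℂ) ℝ := inferInstance
theorem a22.{u1, u2} {x1 : Type u1} {x2 : Type u2} [x3 : NormedAddCommGroup x1] [x4 : NormedAddCommGroup x2] [x5 : NormedSpace ℂ x1] [x6 : NormedSpace ℂ x2] : ZeroHomClass (x1 × x2 →ₗ⋆[ℂ] x1 × x2 →ₗ[ℂ] ℂ) (x1 × x2) (x1 × x2 →ₗ[ℂ] ℂ) := inferInstance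
end AFastaeda18x5b
attribute [local instance] AFastaeda18x5b.a0 AFastaeda18x5b.a1 AFastaeda18x5b.a2 AFastaeda18x5b.a3
  AFastaeda18x5b.a4 AFastaeda18x5b.a5 AFastaeda18x5b.a6 AFastaeda18x5b.a7 AFastaeda18x5b.a8
  AFastaeda18x5b.a9 AFastaeda18x5b.a10 AFastaeda18x5b.a11 AFastaeda18x5b.a12 AFastaeda18x5b.a13
  AFastaeda18x5b.a14 AFastaeda18x5b.a15 AFastaeda18x5b.a16 AFastaeda18x5b.a17 AFastaeda18x5b.a18
  AFastaeda18x5b.a19 AFastaeda18x5b.a20 AFastaeda18x5b.a21 AFastaeda18x5b.a22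
section

section

open Topology Set Filter Complex
open scoped ContDiff Manifold ComplexConjugate

namespace Vale.Agent.P278

universe u

section flat
variable {V : Type*} [NormedAddCommGroup V] [NormedSpace ℂ V]

/-- The Wirtinger derivative `∂_u f` at `p` of a complex valued function. -/
noncomputable def wd (f : V → ℂ) (u p : V) : ℂ :=
  (fderiv ℝ f p u - I * fderiv ℝ f p (I • u)) / 2

/-- The conjugate Wirtinger derivative. -/
noncomputable def wdb (f : V → ℂ) (u p : V) : ℂ :=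
  (fderiv ℝ f p u + I * fderiv ℝ f p (I • u)) / 2

/-- `Γ` is the Christoffel vector `Γ_ξ v` of the metric `H` at `p`:
`H(y, Γ) = ∂_ξ H(y, v)` for all `y`. -/
def IsChristoffel (H : V → V →ₗ⋆[ℂ] V →ₗ[ℂ] ℂ) (p ξ v Γ : V) : Prop :=
  ∀ y, H p y Γ = wd (fun q => H q y v) ξ p

/-- The bisectional curvature `R(ξ, ξ̄, v, v̄) = |Γ_ξ v|² - ∂_ξ ∂̄_ξ H(v, v)` at `p`,
where `Γ = Γ_ξ v`. -/
noncomputable def curv (H : V → V →ₗ⋆[ℂ] V →ₗ[ℂ] ℂ) (p ξ v Γ : V) : ℝ :=
  (H p Γ Γ).re - (wd (fun q => wdb (fun r => H r v v) ξ q) ξ p).re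

/-- The trace over `Z ⊗ W` of the curvature is nonpositive at `p`. -/
def MixedNonpos (H : V → V →ₗ⋆[ℂ] V →ₗ[ℂ] ℂ) (p : V) (Z W : Submodule ℂ V) : Prop :=
  ∀ (m n : ℕ) (v : Fin m → V) (ξ : Fin n → V) (Γ : Fin n → Fin m → V),
    Submodule.span ℂ (range v) = Z → Submodule.span ℂ (range ξ) = W →
    (∀ a b, H p (v a) (v b) = if a = b then 1 else 0) →
    (∀ a b, H p (ξ a) (ξ b) = if a = b then 1 else 0) →
    (∀ j a, IsChristoffel H p (ξ j) (v a) (Γ j a)) →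
    ∑ j, ∑ a, curv H p (ξ j) (v a) (Γ j a) ≤ 0

end flat

section
variable (E : Type*) [NormedAddCommGroup E] [NormedSpace ℂ E]
  (X : Type*) [TopologicalSpace X] [ChartedSpace E X]

/-- A (set theoretic) family of complex subspaces of the holomorphic tangent spaces. -/
abbrev TangentDist : Type _ := ∀ x : X, Submodule ℂ (TangentSpace 𝓘(ℂ, E) x)

/-- A field of sesquilinear forms on the holomorphic tangent spaces. -/
abbrev TangentForm : Type _ :=
  ∀ x : X, TangentSpace 𝓘(ℂ, E) x →ₗ⋆[ℂ] TangentSpace 𝓘(ℂ, E) x →ₗ[ℂ] ℂ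

end

section
variable {E : Type*} [NormedAddCommGroup E] [NormedSpace ℂ E]
  {X : Type*} [TopologicalSpace X] [ChartedSpace E X] [IsManifold 𝓘(ℂ, E) 1 X]

/-- `V` is a holomorphic vector field on the set `U`. -/
def IsHolField (U : Set X) (V : ∀ x : X, TangentSpace 𝓘(ℂ, E) x) : Prop :=
  ContMDiffOn 𝓘(ℂ, E) 𝓘(ℂ, E).tangent ω (fun x => (⟨x, V x⟩ : TangentBundle 𝓘(ℂ, E) X)) U

/-- `F` is a holomorphic subbundle: it has local holomorphic frames. -/
def IsHolSubbundle (F : TangentDist E X) : Prop :=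
  ∀ x₀ : X, ∃ U : Set X, IsOpen U ∧ x₀ ∈ U ∧
    ∃ (r : ℕ) (s : Fin r → ∀ x : X, TangentSpace 𝓘(ℂ, E) x), (∀ j, IsHolField U (s j)) ∧
      ∀ x ∈ U, LinearIndependent ℂ (fun j => s j x) ∧
        Submodule.span ℂ (range fun j => s j x) = F x

/-- `F` is integrable: its local holomorphic sections are closed under the Lie bracket. -/
def IsIntegrable (F : TangentDist E X) : Prop :=
  ∀ (U : Set X) (V W : ∀ x : X, TangentSpace 𝓘(ℂ, E) x), IsOpen U →
    IsHolField U V → IsHolField U W → (∀ x ∈ U, V x ∈ F x) → (∀ x ∈ U, W x ∈ F x) →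
    ∀ x ∈ U, VectorField.mlieBracket 𝓘(ℂ, E) V W x ∈ F x

end

section
variable {E : Type*} [NormedAddCommGroup E] [NormedSpace ℂ E]
  {X : Type*} [TopologicalSpace X] [ChartedSpace E X]
  {E' : Type*} [NormedAddCommGroup E'] [NormedSpace ℂ E']

/-- The derivative at `p` of the parametrisation `φ⁻¹` of `X`. -/
noncomputable def chartD (φ : OpenPartialHomeomorph X E') (p : E') :
    E' →L[ℂ] TangentSpace 𝓘(ℂ, E) (φ.symm p) :=
  mfderiv 𝓘(ℂ, E') 𝓘(ℂ, E) φ.symm p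

/-- The sesquilinear form `h` in the coordinates given by the chart `φ`. -/
noncomputable def localForm (h : TangentForm E X) (φ : OpenPartialHomeomorph X E') (p : E') :
    E' →ₗ⋆[ℂ] E' →ₗ[ℂ] ℂ :=
  LinearMap.mk₂'ₛₗ (starRingEnd ℂ) (RingHom.id ℂ)
    (fun u v => h (φ.symm p) (chartD φ p u) (chartD φ p v))
    (fun u u' v => by rw [map_add, map_add, LinearMap.add_apply])
    (fun c u v => by rw [map_smul, LinearMap.map_smulₛₗ, LinearMap.smul_apply])
    (fun u v v' => by rw [map_add, map_add])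
    (fun c u v => by rw [map_smul, LinearMap.map_smul, RingHom.id_apply])

/-- The family of subspaces `F` in the coordinates given by the chart `φ`. -/
noncomputable def localDist (F : TangentDist E X) (φ : OpenPartialHomeomorph X E') (p : E') :
    Submodule ℂ E' :=
  (F (φ.symm p)).comap (chartD φ p).toLinearMap

/-- `h` is a Kähler metric: a smooth Hermitian metric whose imaginary part is a closed form. -/
structure IsKahlerMetric (h : TangentForm E X) : Prop where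
  symm : ∀ x u v, conj (h x u v) = h x v u
  pos : ∀ x u, u ≠ 0 → 0 < (h x u u).re
  smooth : ∀ φ ∈ IsManifold.maximalAtlas 𝓘(ℂ, E) ω X, ∀ u v : E,
    ContDiffOn ℝ ∞ (fun p => localForm h φ p u v) φ.target
  closed : ∀ φ ∈ IsManifold.maximalAtlas 𝓘(ℂ, E) ω X, ∀ p ∈ φ.target, ∀ u v w : E,
    fderiv ℝ (fun q => (localForm h φ q v w).im) p u +
      fderiv ℝ (fun q => (localForm h φ q w u).im) p v +
      fderiv ℝ (fun q => (localForm h φ q u v).im) p w = 0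

/-- Nonpositive mixed scalar curvature: the trace over `F₁ ⊗ F₂` of the holomorphic bisectional
curvature is nonpositive. -/
def NonposMixed (h : TangentForm E X) (F₁ F₂ : TangentDist E X) : Prop :=
  ∀ φ ∈ IsManifold.maximalAtlas 𝓘(ℂ, E) ω X, ∀ p ∈ φ.target,
    MixedNonpos (localForm h φ) p (localDist F₁ φ p) (localDist F₂ φ p)

end

/-- A complex manifold (Hausdorff, second countable). -/
structure CxManifold : Type (u + 1) where
  dim : ℕ
  Pt : Type u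
  [top : TopologicalSpace Pt]
  [t2 : T2Space Pt]
  [sc : SecondCountableTopology Pt]
  [charted : ChartedSpace (EuclideanSpace ℂ (Fin dim)) Pt]
  [mfd : IsManifold 𝓘(ℂ, EuclideanSpace ℂ (Fin dim)) ω Pt]

attribute [instance] CxManifold.top CxManifold.t2 CxManifold.sc CxManifold.charted CxManifold.mfd

/-- The model vector space. -/
abbrev CxManifold.Model (Y : CxManifold.{u}) : Type := EuclideanSpace ℂ (Fin Y.dim)

section
variable {E : Type*} [NormedAddCommGroup E] [NormedSpace ℂ E]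
  {X : Type*} [TopologicalSpace X] [ChartedSpace E X]
  {M : Type u} [TopologicalSpace M] [ChartedSpace E M]

/-- The pull back `π^* F` of a family of subspaces of the tangent spaces. -/
noncomputable def pullDist (π : M → X) (F : TangentDist E X) : TangentDist E M := fun x =>
  (F (π x)).comap (mfderiv 𝓘(ℂ, E) 𝓘(ℂ, E) π x).toLinearMap

end

end Vale.Agent.P278
end
end

section

section

open Topology Set Filter Complex
open scoped ContDiff Matrix ComplexConjugate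

namespace Vale.Agent.P278

variable {V : Type*} [NormedAddCommGroup V] [NormedSpace ℂ V]

variable {f g : V → ℂ} {p u v : V}

lemma wd_congr (h : f =ᶠ[𝓝 p] g) (u : V) : wd f u p = wd g u p := by
  unfold wd; rw [h.fderiv_eq]

lemma wdb_congr (h : f =ᶠ[𝓝 p] g) (u : V) : wdb f u p = wdb g u p := by
  unfold wdb; rw [h.fderiv_eq]

/-- conj of `f`. -/
lemma fderiv_conj_apply (f : V → ℂ) (p u : V) :
    fderiv ℝ (fun q => conj (f q)) p u = conj (fderiv ℝ f p u) := by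
  have : (fun q => conj (f q)) = (Complex.conjCLE : ℂ → ℂ) ∘ f := rfl
  rw [this, ContinuousLinearEquiv.comp_fderiv]
  simp

lemma wdb_conj (f : V → ℂ) (u p : V) : wdb (fun q => conj (f q)) u p = conj (wd f u p) := by
  unfold wd wdb
  rw [fderiv_conj_apply, fderiv_conj_apply]
  simp only [map_div₀, map_sub, map_mul, conj_I]
  have : conj (2 : ℂ) = 2 := Complex.conj_ofNat 2
  rw [this]; ring

end Vale.Agent.P278
end
end

section

section

open Topology Set Filter Complex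
open scoped ContDiff Matrix ComplexConjugate

namespace Vale.Agent.P278

variable {V : Type*} [NormedAddCommGroup V] [NormedSpace ℂ V]
variable {ι : Type*} [Fintype ι] [DecidableEq ι]

lemma contDiffAt_wdb {f : V → ℂ} {p : V} {n : WithTop ℕ∞} (hf : ContDiffAt ℝ (n + 1) f p)
    (u : V) : ContDiffAt ℝ n (fun q => wdb f u q) p := by
  unfold wdb
  have h1 : ContDiffAt ℝ n (fderiv ℝ f) p := hf.fderiv_right le_rfl
  have h2 : ∀ v : V, ContDiffAt ℝ n (fun q => fderiv ℝ f q v) p := fun v =>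
    h1.clm_apply contDiffAt_const
  exact ((h2 u).add (contDiffAt_const.mul (h2 _))).div_const _

/-- symmetric second derivatives for Wirtinger derivatives -/
lemma wd_wdb_comm {f : V → ℂ} {p : V} (hf : ContDiffAt ℝ 2 f p) (u v : V) :
    wd (fun q => wdb f v q) u p = wdb (fun q => wd f u q) v p := by
  have hsymm : ∀ a b : V, fderiv ℝ (fun q => fderiv ℝ f q b) p a =
      fderiv ℝ (fun q => fderiv ℝ f q a) p b := by
    intro a b
    have h1 : DifferentiableAt ℝ (fderiv ℝ f) p :=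
      (hf.fderiv_right (m := 1) le_rfl).differentiableAt (by norm_num)
    have h2 : ∀ c d : V, fderiv ℝ (fun q => fderiv ℝ f q c) p d = fderiv ℝ (fderiv ℝ f) p d c := by
      intro c d
      rw [fderiv_clm_apply h1 (differentiableAt_const c)]
      simp
    rw [h2, h2]
    exact (hf.isSymmSndFDerivAt (by simp)) a b
  have hd : ∀ c : V, DifferentiableAt ℝ (fun q => fderiv ℝ f q c) p := by
    intro c
    have h1 : DifferentiableAt ℝ (fderiv ℝ f) p :=
      (hf.fderiv_right (m := 1) le_rfl).differentiableAt (by norm_num)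
    exact h1.clm_apply (differentiableAt_const c)
  have hW : ∀ a : V, fderiv ℝ (fun q => wdb f v q) p a =
      (fderiv ℝ (fun q => fderiv ℝ f q v) p a + I * fderiv ℝ (fun q => fderiv ℝ f q (I • v)) p a) / 2 := by
    intro a
    have e : HasFDerivAt (fun q => wdb f v q)
        ((2 : ℂ)⁻¹ • (fderiv ℝ (fun q => fderiv ℝ f q v) p + I • fderiv ℝ (fun q => fderiv ℝ f q (I • v)) p)) p := by
      unfold wdb
      simp only [div_eq_inv_mul]
      exact (((hd v).hasFDerivAt).add ((hd (I • v)).hasFDerivAt.const_mul I)).const_mul _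
    rw [e.fderiv]; simp only [smul_add, add_apply, smul_apply, smul_eq_mul, div_eq_inv_mul]; ring
  have hW' : ∀ a : V, fderiv ℝ (fun q => wd f u q) p a =
      (fderiv ℝ (fun q => fderiv ℝ f q u) p a - I * fderiv ℝ (fun q => fderiv ℝ f q (I • u)) p a) / 2 := by
    intro a
    have e : HasFDerivAt (fun q => wd f u q)
        ((2 : ℂ)⁻¹ • (fderiv ℝ (fun q => fderiv ℝ f q u) p - I • fderiv ℝ (fun q => fderiv ℝ f q (I • u)) p)) p := by
      unfold wd
      simp only [div_eq_inv_mul]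
      exact (((hd u).hasFDerivAt).sub ((hd (I • u)).hasFDerivAt.const_mul I)).const_mul _
    rw [e.fderiv]; simp only [smul_apply, sub_apply, smul_eq_mul, div_eq_inv_mul]
  rw [wd, wdb, hW, hW, hW', hW', hsymm u v, hsymm u (I • v), hsymm (I • u) v, hsymm (I • u) (I • v)]
  ring

end Vale.Agent.P278
end
end

section

section

open Topology Set Filter Complex
open scoped ContDiff Matrix ComplexConjugate

namespace Vale.Agent.P278

set_option linter.unusedSectionVars false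

variable {E : Type*} [NormedAddCommGroup E] [NormedSpace ℂ E]
variable {ι κ : Type*} [Fintype ι] [DecidableEq ι] [Fintype κ] [DecidableEq κ]

/-- A Kähler metric on an open subset of a complex vector space. -/
structure FlatKahler (H : E → E →ₗ⋆[ℂ] E →ₗ[ℂ] ℂ) (Ω : Set E) : Prop where
  isOpen : IsOpen Ω
  symm : ∀ p ∈ Ω, ∀ u v, conj (H p u v) = H p v u
  pos : ∀ p ∈ Ω, ∀ u, u ≠ 0 → 0 < (H p u u).re
  smooth : ∀ u v, ContDiffOn ℝ ∞ (fun p => H p u v) Ω
  kahler : ∀ p ∈ Ω, ∀ u v y, wd (fun q => H q y v) u p = wd (fun q => H q y u) v p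

variable {H : E → E →ₗ⋆[ℂ] E →ₗ[ℂ] ℂ} {Ω : Set E}

lemma FlatKahler.contDiffAt (hK : FlatKahler H Ω) {p : E} (hp : p ∈ Ω) (u v : E) :
    ContDiffAt ℝ ∞ (fun q => H q u v) p :=
  (hK.smooth u v).contDiffAt (hK.isOpen.mem_nhds hp)

end Vale.Agent.P278
end
end

section

section

open Set Topology Filter Metric MeasureTheory
open scoped ContDiff Manifold ComplexConjugate ENNReal

set_option linter.all false

namespace Vale.Agent.P278.Full

variable {X : Type*} [TopologicalSpace X] {A B : Type*} [NormedAddCommGroup A] [NormedSpace ℂ A]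
  [NormedAddCommGroup B] [NormedSpace ℂ B]

/-- An atlas of product charts with holomorphic transition maps, together with a Kähler metric
(given in each chart by `H φ`). -/
structure KAtlas (𝒬 : Set (OpenPartialHomeomorph X (A × B)))
    (H : OpenPartialHomeomorph X (A × B) → A × B → (A × B) →ₗ⋆[ℂ] (A × B) →ₗ[ℂ] ℂ) : Prop where
  cover : ∀ x, ∃ φ ∈ 𝒬, x ∈ φ.source
  ana : ∀ φ ∈ 𝒬, ∀ ψ ∈ 𝒬, ∀ x ∈ φ.source, x ∈ ψ.source →
    AnalyticAt ℂ (fun p => ψ (φ.symm p)) (φ x)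
  trans : ∀ φ ∈ 𝒬, ∀ ψ ∈ 𝒬, ∀ x ∈ φ.source, x ∈ ψ.source →
    ∀ᶠ y in 𝓝 x, (φ y).2 = (φ x).2 → (ψ y).2 = (ψ x).2
  trans' : ∀ φ ∈ 𝒬, ∀ ψ ∈ 𝒬, ∀ x ∈ φ.source, x ∈ ψ.source →
    ∀ᶠ y in 𝓝 x, (φ y).1 = (φ x).1 → (ψ y).1 = (ψ x).1
  kahler : ∀ φ ∈ 𝒬, FlatKahler (H φ) φ.target
  compat : ∀ φ ∈ 𝒬, ∀ ψ ∈ 𝒬, ∀ x ∈ φ.source, x ∈ ψ.source → ∀ u v : A × B,
    H φ (φ x) u v = H ψ (ψ x) (fderiv ℂ (fun p => ψ (φ.symm p)) (φ x) u)
      (fderiv ℂ (fun p => ψ (φ.symm p)) (φ x) v)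

/-- `u` is holomorphic at `z`. -/
def IsDisc (𝒬 : Set (OpenPartialHomeomorph X (A × B))) (u : ℂ → X) (z : ℂ) : Prop :=
  ∃ φ ∈ 𝒬, (∀ᶠ y in 𝓝 z, u y ∈ φ.source) ∧ AnalyticAt ℂ (fun y => φ (u y)) z

/-- `Ψ` is an F-map near `p`: in a product chart, it is `(f(z), g(w))`. -/
def IsF (𝒬 : Set (OpenPartialHomeomorph X (A × B))) (Ψ : ℂ × ℂ → X) (p : ℂ × ℂ) : Prop :=
  ∃ φ ∈ 𝒬, ∃ (f : ℂ → A) (g : ℂ → B), AnalyticAt ℂ f p.1 ∧ AnalyticAt ℂ g p.2 ∧
    ∀ᶠ q in 𝓝 p, Ψ q ∈ φ.source ∧ φ (Ψ q) = (f q.1, g q.2)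

/-- F-maps on (a neighbourhood of) a set. -/
def FOn (𝒬 : Set (OpenPartialHomeomorph X (A × B))) (Ψ : ℂ × ℂ → X) (S : Set (ℂ × ℂ)) : Prop :=
  ∀ p ∈ S, IsF 𝒬 Ψ p

open Classical in
/-- The energy density `|u'|²`. -/
noncomputable def eden (𝒬 : Set (OpenPartialHomeomorph X (A × B)))
    (H : OpenPartialHomeomorph X (A × B) → A × B → (A × B) →ₗ⋆[ℂ] (A × B) →ₗ[ℂ] ℂ)
    (u : ℂ → X) (z : ℂ) : ℝ :=
  if h : ∃ φ ∈ 𝒬, u z ∈ φ.source then
    (H h.choose (h.choose (u z)) (deriv (fun y => h.choose (u y)) z)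
      (deriv (fun y => h.choose (u y)) z)).re
  else 0

/-- The energy. -/
noncomputable def energy (𝒬 : Set (OpenPartialHomeomorph X (A × B)))
    (H : OpenPartialHomeomorph X (A × B) → A × B → (A × B) →ₗ⋆[ℂ] (A × B) →ₗ[ℂ] ℂ)
    (u : ℂ → X) (S : Set ℂ) : ℝ≥0∞ :=
  ∫⁻ y in S, ENNReal.ofReal (eden 𝒬 H u y)

end Vale.Agent.P278.Full
end
end

section

section

open Set Topology Filter Metric MeasureTheory
open scoped ContDiff Manifold ComplexConjugate ENNReal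

set_option linter.all false

namespace Vale.Agent.P278.Full

variable {X : Type*} [TopologicalSpace X] {A B : Type*} [NormedAddCommGroup A] [NormedSpace ℂ A]
  [NormedAddCommGroup B] [NormedSpace ℂ B] {𝒬 : Set (OpenPartialHomeomorph X (A × B))}
  {H : OpenPartialHomeomorph X (A × B) → A × B → (A × B) →ₗ⋆[ℂ] (A × B) →ₗ[ℂ] ℂ}
  [FiniteDimensional ℂ A] [FiniteDimensional ℂ B]

omit [FiniteDimensional ℂ A] [FiniteDimensional ℂ B] in
theorem IsDisc.continuousAt {u : ℂ → X} {z : ℂ} (hu : IsDisc 𝒬 u z) : ContinuousAt u z := by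
  obtain ⟨φ, hφ, h1, h2⟩ := hu
  have h3 : u z ∈ φ.source := h1.self_of_nhds
  have h4 : ContinuousAt (fun y => φ.symm (φ (u y))) z :=
    ContinuousAt.comp (g := φ.symm) (f := fun y => φ (u y)) (x := z)
      (φ.continuousAt_symm (φ.map_source h3)) h2.continuousAt
  refine h4.congr ?_
  filter_upwards [h1] with y hy
  exact φ.left_inv hy

theorem IsDisc.eventually {u : ℂ → X} {z : ℂ} (hu : IsDisc 𝒬 u z) : ∀ᶠ y in 𝓝 z, IsDisc 𝒬 u y := by
  haveI := FiniteDimensional.complete ℂ A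
  haveI := FiniteDimensional.complete ℂ B
  obtain ⟨φ, hφ, h1, h2⟩ := hu
  filter_upwards [h1.eventually_nhds, h2.eventually_analyticAt] with y hy hy'
  exact ⟨φ, hφ, hy, hy'⟩

theorem IsDisc.congr {u v : ℂ → X} {z : ℂ} (hu : IsDisc 𝒬 u z) (h : u =ᶠ[𝓝 z] v) :
    IsDisc 𝒬 v z := by
  obtain ⟨φ, hφ, h1, h2⟩ := hu
  refine ⟨φ, hφ, ?_, h2.congr ?_⟩
  · filter_upwards [h1, h] with y hy hy'
    rw [← hy']; exact hy
  · filter_upwards [h] with y hy'
    rw [hy']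

/-- Change of chart. -/
theorem IsDisc.chart (hQ : KAtlas 𝒬 H) {u : ℂ → X} {z : ℂ} (hu : IsDisc 𝒬 u z)
    {ψ : OpenPartialHomeomorph X (A × B)} (hψ : ψ ∈ 𝒬) (hz : u z ∈ ψ.source) :
    (∀ᶠ y in 𝓝 z, u y ∈ ψ.source) ∧ AnalyticAt ℂ (fun y => ψ (u y)) z := by
  have hc := hu.continuousAt
  obtain ⟨φ, hφ, h1, h2⟩ := hu
  have h3 : u z ∈ φ.source := h1.self_of_nhds
  refine ⟨hc.eventually_mem (ψ.open_source.mem_nhds hz), ?_⟩
  have h4 : AnalyticAt ℂ (fun y => ψ (φ.symm (φ (u y)))) z :=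
    AnalyticAt.comp (g := fun p => ψ (φ.symm p)) (f := fun y => φ (u y)) (x := z)
      (hQ.ana φ hφ ψ hψ _ h3 hz) h2
  refine h4.congr ?_
  filter_upwards [h1] with y hy
  rw [φ.left_inv hy]

theorem deriv_chart (hQ : KAtlas 𝒬 H) {u : ℂ → X} {z : ℂ} (hu : IsDisc 𝒬 u z)
    {φ ψ : OpenPartialHomeomorph X (A × B)} (hφ : φ ∈ 𝒬) (hψ : ψ ∈ 𝒬) (hz : u z ∈ φ.source)
    (hz' : u z ∈ ψ.source) :
    deriv (fun y => ψ (u y)) z =
      fderiv ℂ (fun p => ψ (φ.symm p)) (φ (u z)) (deriv (fun y => φ (u y)) z) := by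
  obtain ⟨h1, h2⟩ := hu.chart hQ hφ hz
  have h3 := (hQ.ana φ hφ ψ hψ _ hz hz').differentiableAt.hasFDerivAt
  have h4 := h3.comp_hasDerivAt (f := fun y => φ (u y)) z h2.differentiableAt.hasDerivAt
  have h5 : (fun y => ψ (u y)) =ᶠ[𝓝 z] ((fun p => ψ (φ.symm p)) ∘ fun y => φ (u y)) := by
    filter_upwards [h1] with y hy
    show _ = ψ (φ.symm (φ (u y)))
    rw [φ.left_inv hy]
  exact (h4.congr_of_eventuallyEq h5).deriv

/-- The energy density in a chart. -/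
theorem eden_eq (hQ : KAtlas 𝒬 H) {u : ℂ → X} {z : ℂ} (hu : IsDisc 𝒬 u z)
    {φ : OpenPartialHomeomorph X (A × B)} (hφ : φ ∈ 𝒬) (hz : u z ∈ φ.source) :
    eden 𝒬 H u z = (H φ (φ (u z)) (deriv (fun y => φ (u y)) z)
      (deriv (fun y => φ (u y)) z)).re := by
  have hex : ∃ φ ∈ 𝒬, u z ∈ φ.source := ⟨φ, hφ, hz⟩
  rw [eden, dif_pos hex]
  obtain ⟨h1, h2⟩ := hex.choose_spec
  rw [hQ.compat φ hφ _ h1 _ hz h2, ← deriv_chart hQ hu hφ h1 hz h2]

theorem eden_nonneg (hQ : KAtlas 𝒬 H) {u : ℂ → X} {z : ℂ} : 0 ≤ eden 𝒬 H u z := by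
  rw [eden]
  split_ifs with h
  · obtain ⟨h1, h2⟩ := h.choose_spec
    rcases eq_or_ne (deriv (fun y => h.choose (u y)) z) 0 with h0 | h0
    · rw [h0]; simp
    · exact ((hQ.kahler _ h1).pos _ (h.choose.map_source h2) _ h0).le
  · exact le_rfl

/-- The form in a basis. -/
theorem form_basis {V : Type*} [NormedAddCommGroup V] [NormedSpace ℂ V] {ι : Type*} [Fintype ι]
    (b : Module.Basis ι ℂ V) (S : V →ₗ⋆[ℂ] V →ₗ[ℂ] ℂ) (u v : V) :
    S u v = ∑ i, ∑ j, conj (b.repr u i) * (b.repr v j) * S (b i) (b j) := by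
  conv_lhs => rw [← b.sum_repr u, ← b.sum_repr v]
  simp only [map_sum, LinearMap.sum_apply, LinearMap.map_smulₛₗ, LinearMap.smul_apply,
    LinearMap.map_smul, smul_eq_mul, RingHom.id_apply, Finset.mul_sum]
  rw [Finset.sum_comm]
  refine Finset.sum_congr rfl fun i _ => Finset.sum_congr rfl fun j _ => ?_
  ring

theorem continuousOn_form {V : Type*} [NormedAddCommGroup V] [NormedSpace ℂ V]
    [FiniteDimensional ℂ V] {S : V → V →ₗ⋆[ℂ] V →ₗ[ℂ] ℂ} {Ω : Set V} (hS : FlatKahler S Ω) :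
    ContinuousOn (fun q : V × V × V => S q.1 q.2.1 q.2.2) (Ω ×ˢ univ) := by
  set b := Module.finBasis ℂ V
  have h1 : (fun q : V × V × V => S q.1 q.2.1 q.2.2) = fun q : V × V × V =>
      ∑ i, ∑ j, conj (b.repr q.2.1 i) * (b.repr q.2.2 j) * S q.1 (b i) (b j) := by
    funext q; exact form_basis b _ _ _
  rw [h1]
  have hb : ∀ i, Continuous fun v : V => b.repr v i := fun i =>
    (LinearMap.continuous_of_finiteDimensional (b.coord i))
  refine continuousOn_finset_sum _ fun i _ => continuousOn_finset_sum _ fun j _ => ?_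
  refine ContinuousOn.mul (Continuous.continuousOn ?_) ?_
  · exact ((Complex.continuous_conj.comp ((hb i).comp (by fun_prop))).mul
      ((hb j).comp (by fun_prop)))
  · exact (hS.smooth (b i) (b j)).continuousOn.comp continuous_fst.continuousOn
      (fun q hq => hq.1)

theorem form_bounds {V : Type*} [NormedAddCommGroup V] [NormedSpace ℂ V]
    [FiniteDimensional ℂ V] {S : V → V →ₗ⋆[ℂ] V →ₗ[ℂ] ℂ} {Ω : Set V} (hS : FlatKahler S Ω)
    {K : Set V} (hK : IsCompact K) (hKΩ : K ⊆ Ω) :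
    ∃ c > 0, ∃ C > 0, ∀ p ∈ K, ∀ v, c * ‖v‖ ^ 2 ≤ (S p v v).re ∧ (S p v v).re ≤ C * ‖v‖ ^ 2 := by
  haveI : ProperSpace V := FiniteDimensional.proper ℂ V
  have hcont : ContinuousOn (fun q : V × V => (S q.1 q.2 q.2).re) (K ×ˢ sphere (0 : V) 1) := by
    refine Complex.continuous_re.comp_continuousOn ?_
    exact (continuousOn_form hS).comp (f := fun q : V × V => (q.1, q.2, q.2))
      (by fun_prop) (fun q hq => ⟨hKΩ hq.1, mem_univ _⟩)
  have hcomp : IsCompact (K ×ˢ sphere (0 : V) 1) := hK.prod (isCompact_sphere 0 1)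
  have hhom : ∀ p v, v ≠ 0 → (S p v v).re =
      (S p ((‖v‖⁻¹ : ℂ) • v) ((‖v‖⁻¹ : ℂ) • v)).re * ‖v‖ ^ 2 := by
    intro p v hv
    have hn : (‖v‖ : ℝ) ≠ 0 := norm_ne_zero_iff.2 hv
    have h1 : S p ((‖v‖⁻¹ : ℂ) • v) ((‖v‖⁻¹ : ℂ) • v) = (((‖v‖⁻¹ * ‖v‖⁻¹ : ℝ)) : ℂ) * S p v v := by
      rw [LinearMap.map_smulₛₗ, LinearMap.map_smulₛₗ, LinearMap.smul_apply]
      simp only [map_inv₀, RingHom.id_apply, Complex.conj_ofReal, smul_eq_mul]
      push_cast
      ring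
    rw [h1, Complex.re_ofReal_mul]
    (clear * - hn; field_simp)
  have hunit : ∀ v : V, v ≠ 0 → ((‖v‖⁻¹ : ℂ) • v) ∈ sphere (0 : V) 1 := by
    intro v hv
    rw [mem_sphere_zero_iff_norm, norm_smul, norm_inv, Complex.norm_real, norm_norm]
    exact inv_mul_cancel₀ (norm_ne_zero_iff.2 hv)
  rcases (K ×ˢ sphere (0 : V) 1).eq_empty_or_nonempty with hem | hne
  · refine ⟨1, one_pos, 1, one_pos, fun p hp v => ?_⟩
    rcases eq_or_ne v 0 with rfl | hv
    · simp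
    · exfalso
      have : ((p, (‖v‖⁻¹ : ℂ) • v) : V × V) ∈ K ×ˢ sphere (0 : V) 1 := ⟨hp, hunit v hv⟩
      rw [hem] at this
      exact this
  · obtain ⟨q₁, hq₁, hmin⟩ := hcomp.exists_isMinOn hne hcont
    obtain ⟨q₂, hq₂, hmax⟩ := hcomp.exists_isMaxOn hne hcont
    have hpos : ∀ q ∈ K ×ˢ sphere (0 : V) 1, 0 < (S q.1 q.2 q.2).re := by
      intro q hq
      apply hS.pos _ (hKΩ hq.1)
      intro h0
      have := hq.2
      rw [h0, mem_sphere_zero_iff_norm, norm_zero] at this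
      norm_num at this
    refine ⟨_, hpos q₁ hq₁, _, hpos q₂ hq₂, fun p hp v => ?_⟩
    rcases eq_or_ne v 0 with rfl | hv
    · simp
    · rw [hhom p v hv]
      have hm : ((p, (‖v‖⁻¹ : ℂ) • v) : V × V) ∈ K ×ˢ sphere (0 : V) 1 := ⟨hp, hunit v hv⟩
      exact ⟨mul_le_mul_of_nonneg_right (hmin hm) (by positivity),
        mul_le_mul_of_nonneg_right (hmax hm) (by positivity)⟩

/-- Uniform boxes. -/
theorem exists_uniform_box [CompactSpace X] (hQ : KAtlas 𝒬 H) :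
    ∃ δ > 0, ∃ c > 0, ∃ C > 0, ∀ x : X, ∃ φ ∈ 𝒬, x ∈ φ.source ∧
      closedBall (φ x) δ ⊆ φ.target ∧ ∀ p ∈ closedBall (φ x) δ, ∀ v,
        c * ‖v‖ ^ 2 ≤ (H φ p v v).re ∧ (H φ p v v).re ≤ C * ‖v‖ ^ 2 := by
  haveI : ProperSpace (A × B) := FiniteDimensional.proper ℂ (A × B)
  choose φ hφ hx using hQ.cover
  have h1 : ∀ x, ∃ r > 0, closedBall (φ x x) (2 * r) ⊆ (φ x).target := by
    intro x
    obtain ⟨r, hr, hrs⟩ := Metric.nhds_basis_closedBall.mem_iff.1
      ((φ x).open_target.mem_nhds ((φ x).map_source (hx x)))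
    exact ⟨r / 2, by (clear * - hr; positivity), by rwa [mul_div_cancel₀ _ two_ne_zero]⟩
  choose r hr hrs using h1
  have h2 : ∀ x, ∃ c > 0, ∃ C > 0, ∀ p ∈ closedBall (φ x x) (2 * r x), ∀ v,
      c * ‖v‖ ^ 2 ≤ (H (φ x) p v v).re ∧ (H (φ x) p v v).re ≤ C * ‖v‖ ^ 2 := fun x =>
    form_bounds (hQ.kahler _ (hφ x)) (isCompact_closedBall _ _) (hrs x)
  choose c hc C hC hcC using h2
  set U : X → Set X := fun x => {y | y ∈ (φ x).source ∧ φ x y ∈ ball (φ x x) (r x)} with hU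
  have hUo : ∀ x, IsOpen (U x) := fun x => (φ x).isOpen_inter_preimage isOpen_ball
  have hUx : ∀ x, x ∈ U x := fun x => ⟨hx x, mem_ball_self (hr x)⟩
  obtain ⟨t, ht⟩ := isCompact_univ.elim_finite_subcover U hUo
    (fun x _ => mem_iUnion.2 ⟨x, hUx x⟩)
  classical
  have hδ : ∃ δ > 0, ∀ x ∈ t, δ ≤ r x := by
    clear ht
    induction t using Finset.induction_on with
    | empty => exact ⟨1, one_pos, by simp only [Finset.notMem_empty, IsEmpty.forall_iff, implies_true]⟩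
    | insert a s ha ih =>
      obtain ⟨δ, h1, h2⟩ := ih
      refine ⟨min δ (r a), lt_min h1 (hr a), fun x hx => ?_⟩
      rcases Finset.mem_insert.1 hx with rfl | h
      · exact min_le_right _ _
      · exact (min_le_left _ _).trans (h2 x h)
  have hcc : ∃ c' > 0, ∀ x ∈ t, c' ≤ c x := by
    clear ht hδ
    induction t using Finset.induction_on with
    | empty => exact ⟨1, one_pos, by simp⟩
    | insert a s ha ih =>
      obtain ⟨δ, h1, h2⟩ := ih
      refine ⟨min δ (c a), lt_min h1 (hc a), fun x hx => ?_⟩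
      rcases Finset.mem_insert.1 hx with rfl | h
      · exact min_le_right _ _
      · exact (min_le_left _ _).trans (h2 x h)
  have hCC : ∃ C' > 0, ∀ x ∈ t, C x ≤ C' := by
    clear ht hδ hcc
    induction t using Finset.induction_on with
    | empty => exact ⟨1, one_pos, by simp⟩
    | insert a s ha ih =>
      obtain ⟨δ, h1, h2⟩ := ih
      refine ⟨max δ (C a), lt_max_of_lt_left h1, fun x hx => ?_⟩
      rcases Finset.mem_insert.1 hx with rfl | h
      · exact le_max_right _ _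
      · exact (h2 x h).trans (le_max_left _ _)
  obtain ⟨δ, hδ0, hδ⟩ := hδ
  obtain ⟨c', hc0, hc'⟩ := hcc
  obtain ⟨C', hC0, hC'⟩ := hCC
  refine ⟨δ, hδ0, c', hc0, C', hC0, fun y => ?_⟩
  obtain ⟨x, hxt, hy⟩ := mem_iUnion₂.1 (ht (mem_univ y))
  have hsub : closedBall (φ x y) δ ⊆ closedBall (φ x x) (2 * r x) := by
    intro p hp
    rw [mem_closedBall] at hp ⊢
    have := hy.2
    rw [mem_ball] at this
    have h3 := dist_triangle p (φ x y) (φ x x)
    have h4 := hδ x hxt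
    linarith only [hp, this, h3, h4]
  refine ⟨φ x, hφ x, hy.1, hsub.trans (hrs x), fun p hp v => ?_⟩
  obtain ⟨h5, h6⟩ := hcC x p (hsub hp) v
  exact ⟨(mul_le_mul_of_nonneg_right (hc' x hxt) (by (clear * -; positivity))).trans h5,
    h6.trans (mul_le_mul_of_nonneg_right (hC' x hxt) (by (clear * -; positivity)))⟩

end Vale.Agent.P278.Full
end
end

section

section

open Set Topology Filter Metric MeasureTheory
open scoped ContDiff Manifold ComplexConjugate ENNReal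

set_option linter.all false

namespace Vale.Agent.P278.Full

variable {X : Type*} [TopologicalSpace X] {A B : Type*} [NormedAddCommGroup A] [NormedSpace ℂ A]
  [NormedAddCommGroup B] [NormedSpace ℂ B] {𝒬 : Set (OpenPartialHomeomorph X (A × B))}
  {H : OpenPartialHomeomorph X (A × B) → A × B → (A × B) →ₗ⋆[ℂ] (A × B) →ₗ[ℂ] ℂ}
  [FiniteDimensional ℂ A] [FiniteDimensional ℂ B]

/-- The derivative in a chart is bounded by the energy density. -/
theorem norm_deriv_le (hQ : KAtlas 𝒬 H) {u : ℂ → X} {z : ℂ} (hu : IsDisc 𝒬 u z)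
    {φ : OpenPartialHomeomorph X (A × B)} (hφ : φ ∈ 𝒬) (hz : u z ∈ φ.source) {c L : ℝ}
    (hc : 0 < c) (hL : 0 ≤ L) (hlow : ∀ v, c * ‖v‖ ^ 2 ≤ (H φ (φ (u z)) v v).re)
    (he : eden 𝒬 H u z ≤ c * L ^ 2) : ‖deriv (fun y => φ (u y)) z‖ ≤ L := by
  rw [eden_eq hQ hu hφ hz] at he
  have h1 := hlow (deriv (fun y => φ (u y)) z)
  have h2 : ‖deriv (fun y => φ (u y)) z‖ ^ 2 ≤ L ^ 2 := by
    have := h1.trans he
    exact le_of_mul_le_mul_left this hc
  exact (pow_le_pow_iff_left₀ (norm_nonneg _) hL two_ne_zero).1 h2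

/-- Confinement of a disc in a chart along a segment. -/
theorem seg_confined [T2Space X] (hQ : KAtlas 𝒬 H) {φ : OpenPartialHomeomorph X (A × B)}
    (hφ : φ ∈ 𝒬) {b : A × B} {δ c : ℝ} (hc : 0 < c) (hsub : closedBall b δ ⊆ φ.target)
    (hlow : ∀ p ∈ closedBall b δ, ∀ v, c * ‖v‖ ^ 2 ≤ (H φ p v v).re) {u : ℂ → X} {z₁ z₂ : ℂ}
    (hu : ∀ z ∈ segment ℝ z₁ z₂, IsDisc 𝒬 u z) {L : ℝ} (hL : 0 ≤ L)
    (he : ∀ z ∈ segment ℝ z₁ z₂, eden 𝒬 H u z ≤ c * L ^ 2) (h1 : u z₁ ∈ φ.source)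
    (hlen : dist (φ (u z₁)) b + L * ‖z₂ - z₁‖ < δ) :
    u z₂ ∈ φ.source ∧ dist (φ (u z₂)) (φ (u z₁)) ≤ L * ‖z₂ - z₁‖ := by
  haveI : ProperSpace (A × B) := FiniteDimensional.proper ℂ (A × B)
  set γ : ℝ → ℂ := fun t => z₁ + t • (z₂ - z₁) with hγ
  have hγc : Continuous γ := by fun_prop
  have hγseg : ∀ t ∈ Icc (0 : ℝ) 1, γ t ∈ segment ℝ z₁ z₂ := by
    intro t ht
    rw [segment_eq_image']
    exact ⟨t, ht, rfl⟩
  set g : ℝ → X := fun t => u (γ t) with hg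
  have hgc : ∀ t ∈ Icc (0 : ℝ) 1, ContinuousAt g t := fun t ht =>
    ContinuousAt.comp (g := u) (f := γ) (hu _ (hγseg t ht)).continuousAt hγc.continuousAt
  set l : ℝ := L * ‖z₂ - z₁‖ with hl
  have hl0 : 0 ≤ l := by (clear * - hL; positivity)
  -- derivative of the path in the chart
  have hder : ∀ t ∈ Icc (0 : ℝ) 1, g t ∈ φ.source → φ (g t) ∈ closedBall b δ →
      ∃ D : A × B, HasDerivAt (fun s => φ (g s)) D t ∧ ‖D‖ ≤ l := by
    intro t ht hts htb
    have hd := hu _ (hγseg t ht)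
    obtain ⟨-, h2⟩ := hd.chart hQ hφ hts
    have h3 := h2.differentiableAt.hasDerivAt
    have h4 : HasDerivAt γ (z₂ - z₁) t := by
      have := ((hasDerivAt_id t).smul_const (z₂ - z₁)).const_add z₁
      rw [one_smul] at this
      exact this
    refine ⟨_, h3.scomp_of_eq t h4 rfl, ?_⟩
    rw [norm_smul, mul_comm]
    exact mul_le_mul_of_nonneg_right (norm_deriv_le hQ hd hφ hts hc hL (hlow _ htb)
      (he _ (hγseg t ht))) (norm_nonneg _)
  set κ : Set X := φ.symm '' closedBall b δ with hκ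
  have hκc : IsClosed κ := ((isCompact_closedBall b δ).image_of_continuousOn
    (φ.continuousOn_symm.mono hsub)).isClosed
  have hκs : κ ⊆ φ.source := by
    rintro _ ⟨p, hp, rfl⟩
    exact φ.map_target (hsub hp)
  have hκφ : ∀ x ∈ κ, φ x ∈ closedBall b δ := by
    rintro _ ⟨p, hp, rfl⟩
    rw [φ.right_inv (hsub hp)]; exact hp
  have hκm : ∀ x ∈ φ.source, φ x ∈ closedBall b δ → x ∈ κ := fun x hx hxb =>
    ⟨φ x, hxb, φ.left_inv hx⟩
  set S : Set ℝ := {t | g t ∈ κ ∧ dist (φ (g t)) (φ (g 0)) ≤ l * t} with hS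
  have hg0 : g 0 = u z₁ := by simp [hg, hγ]
  have hg1 : g 1 = u z₂ := by simp [hg, hγ]
  have hgcOn : ContinuousOn g (Icc 0 1) := fun t ht => (hgc t ht).continuousWithinAt
  have hTc : IsClosed (Icc (0 : ℝ) 1 ∩ g ⁻¹' κ) := hgcOn.preimage_isClosed_of_isClosed isClosed_Icc hκc
  have hφg : ContinuousOn (fun t => φ (g t)) (Icc (0 : ℝ) 1 ∩ g ⁻¹' κ) := by
    intro t ht
    exact (ContinuousAt.comp (g := φ) (f := g) (φ.continuousAt (hκs ht.2))
      (hgc t ht.1)).continuousWithinAt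
  have hSc : IsClosed (S ∩ Icc 0 1) := by
    have h5 : IsClosed ((Icc (0 : ℝ) 1 ∩ g ⁻¹' κ) ∩
        (fun t => dist (φ (g t)) (φ (g 0)) - l * t) ⁻¹' Iic 0) := by
      refine ContinuousOn.preimage_isClosed_of_isClosed ?_ hTc isClosed_Iic
      exact (continuous_dist.comp_continuousOn (ContinuousOn.prodMk hφg continuousOn_const)).sub
        (by fun_prop)
    convert h5 using 1
    ext t
    simp only [hS, mem_inter_iff, mem_setOf_eq, mem_preimage, mem_Iic, sub_nonpos]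
    (clear * -; tauto)
  have h0b : dist (φ (u z₁)) b < δ := by linarith only [hlen, hl0]
  have hsubI : Icc (0 : ℝ) 1 ⊆ S := by
    refine hSc.Icc_subset_of_forall_mem_nhdsWithin ?_ ?_
    · refine ⟨?_, by simp⟩
      show g 0 ∈ κ
      rw [hg0]
      exact hκm _ h1 (mem_closedBall.2 h0b.le)
    · rintro t ⟨⟨htκ, htd⟩, ht0, ht1⟩
      have hts := hκs htκ
      have htb : dist (φ (g t)) b < δ := by
        have h6 := dist_triangle (φ (g t)) (φ (g 0)) b
        rw [hg0] at h6 htd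
        have h7 : l * t ≤ l := mul_le_of_le_one_right hl0 ht1.le
        linarith only [hlen, htd, h6, h7]
      -- an open neighbourhood where the path stays in the chart ball
      have hopen : ∀ᶠ s in 𝓝 t, g s ∈ φ.source ∧ φ (g s) ∈ ball b δ := by
        have hct := hgc t ⟨ht0, ht1.le⟩
        refine (hct.eventually_mem (φ.open_source.mem_nhds hts)).and ?_
        exact (ContinuousAt.comp (g := φ) (f := g) (φ.continuousAt hts) hct).eventually_mem
          (isOpen_ball.mem_nhds htb)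
      obtain ⟨η, hη, hηs⟩ := Metric.eventually_nhds_iff.1 hopen
      have hmem : Ioo t (min 1 (t + η)) ∈ 𝓝[>] t :=
        Ioo_mem_nhdsGT (lt_min ht1 (by linarith only [hη]))
      filter_upwards [hmem] with s hs
      have hs1 : s < 1 := lt_of_lt_of_le hs.2 (min_le_left _ _)
      have hsη : s < t + η := lt_of_lt_of_le hs.2 (min_le_right _ _)
      have hin : ∀ r ∈ Icc t s, g r ∈ φ.source ∧ φ (g r) ∈ ball b δ := by
        intro r hr
        apply hηs
        rw [Real.dist_eq, abs_of_nonneg (by linarith only [hr.1])]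
        linarith only [hsη, hr.2]
      have hr01 : ∀ r ∈ Icc t s, r ∈ Icc (0 : ℝ) 1 := fun r hr =>
        ⟨ht0.trans hr.1, hr.2.trans hs1.le⟩
      have hmv : ‖φ (g s) - φ (g t)‖ ≤ l * (s - t) := by
        choose! D hD hDn using fun r (hr : r ∈ Icc t s) =>
          hder r (hr01 r hr) (hin r hr).1 (ball_subset_closedBall (hin r hr).2)
        have := norm_image_sub_le_of_norm_deriv_le_segment' (f := fun r => φ (g r))
          (f' := D) (C := l) (a := t) (b := s)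
          (fun r hr => (hD r hr).hasDerivWithinAt) (fun r hr => hDn r ⟨hr.1, hr.2.le⟩) s
          ⟨hs.1.le, le_rfl⟩
        exact this
      obtain ⟨k1, k2⟩ := hin s ⟨hs.1.le, le_rfl⟩
      refine ⟨hκm _ k1 (ball_subset_closedBall k2), ?_⟩
      have h8 := dist_triangle (φ (g s)) (φ (g t)) (φ (g 0))
      rw [dist_eq_norm (φ (g s)) (φ (g t))] at h8
      linarith only [htd, hmv, h8]
  obtain ⟨h9, h10⟩ := hsubI (right_mem_Icc.2 zero_le_one)
  rw [hg0, hg1, mul_one] at h10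
  rw [hg1] at h9
  exact ⟨hκs h9, h10⟩

end Vale.Agent.P278.Full
end
end

section

section

open Set Topology Filter Metric MeasureTheory
open scoped ContDiff Manifold ComplexConjugate ENNReal Real

set_option linter.all false

namespace Vale.Agent.P278.Full

variable {X : Type*} [TopologicalSpace X] {A B : Type*} [NormedAddCommGroup A] [NormedSpace ℂ A]
  [NormedAddCommGroup B] [NormedSpace ℂ B] {𝒬 : Set (OpenPartialHomeomorph X (A × B))}
  {H : OpenPartialHomeomorph X (A × B) → A × B → (A × B) →ₗ⋆[ℂ] (A × B) →ₗ[ℂ] ℂ}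
  [FiniteDimensional ℂ A] [FiniteDimensional ℂ B]

omit [FiniteDimensional ℂ A] [FiniteDimensional ℂ B] in
theorem IsDisc.comp_map {u : ℂ → X} {g : ℂ → ℂ} {z : ℂ} (hu : IsDisc 𝒬 u (g z))
    (hg : AnalyticAt ℂ g z) : IsDisc 𝒬 (fun y => u (g y)) z := by
  obtain ⟨φ, hφ, h1, h2⟩ := hu
  exact ⟨φ, hφ, hg.continuousAt.eventually h1,
    AnalyticAt.comp (g := fun y => φ (u y)) (f := g) (x := z) h2 hg⟩

theorem form_smul_smul {V : Type*} [NormedAddCommGroup V] [NormedSpace ℂ V]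
    (S : V →ₗ⋆[ℂ] V →ₗ[ℂ] ℂ) (a : ℂ) (v : V) : (S (a • v) (a • v)).re = ‖a‖ ^ 2 * (S v v).re := by
  rw [LinearMap.map_smulₛₗ, LinearMap.map_smulₛₗ, LinearMap.smul_apply, RingHom.id_apply]
  have : a • conj a • S v v = ((‖a‖ ^ 2 : ℝ) : ℂ) * S v v := by
    rw [smul_eq_mul, smul_eq_mul, ← mul_assoc, Complex.mul_conj']
    push_cast
    ring
  rw [this, Complex.re_ofReal_mul]

/-- The energy density of a reparametrised disc. -/
theorem eden_comp_map (hQ : KAtlas 𝒬 H) {u : ℂ → X} {g : ℂ → ℂ} {z : ℂ} (hu : IsDisc 𝒬 u (g z))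
    (hg : AnalyticAt ℂ g z) :
    eden 𝒬 H (fun y => u (g y)) z = ‖deriv g z‖ ^ 2 * eden 𝒬 H u (g z) := by
  have hc := hu.comp_map hg
  obtain ⟨φ, hφ, h1, h2⟩ := id hu
  have h3 : u (g z) ∈ φ.source := h1.self_of_nhds
  rw [eden_eq hQ hu hφ h3, eden_eq hQ hc hφ h3]
  have h4 : deriv (fun y => φ (u (g y))) z = deriv g z • deriv (fun y => φ (u y)) (g z) := by
    have := HasDerivAt.scomp z h2.differentiableAt.hasDerivAt hg.differentiableAt.hasDerivAt
    exact this.deriv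
  rw [h4, form_smul_smul]

theorem eden_congr (hQ : KAtlas 𝒬 H) {u v : ℂ → X} {z : ℂ} (hu : IsDisc 𝒬 u z)
    (h : u =ᶠ[𝓝 z] v) : eden 𝒬 H u z = eden 𝒬 H v z := by
  have h0 : u z = v z := h.self_of_nhds
  have hv := hu.congr h
  obtain ⟨φ, hφ, h1, h2⟩ := id hu
  have h3 : u z ∈ φ.source := h1.self_of_nhds
  have h4 : deriv (fun y => φ (u y)) z = deriv (fun y => φ (v y)) z := by
    apply Filter.EventuallyEq.deriv_eq
    filter_upwards [h] with y hy
    rw [hy]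
  rw [eden_eq hQ hu hφ h3, eden_eq hQ hv hφ (h0 ▸ h3), h4, h0]

end Vale.Agent.P278.Full
end
end

section

section

open Set Topology Filter Metric MeasureTheory
open scoped ContDiff Manifold ComplexConjugate ENNReal

set_option linter.all false

namespace Vale.Agent.P278.Full

variable {X : Type*} [TopologicalSpace X] {A B : Type*} [NormedAddCommGroup A] [NormedSpace ℂ A]
  [NormedAddCommGroup B] [NormedSpace ℂ B] {𝒬 : Set (OpenPartialHomeomorph X (A × B))}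
  {H : OpenPartialHomeomorph X (A × B) → A × B → (A × B) →ₗ⋆[ℂ] (A × B) →ₗ[ℂ] ℂ}

/-- Composition with a holomorphic change of variable. -/
theorem IsDisc.comp {u : ℂ → X} {g : ℂ → ℂ} {z : ℂ} (hu : IsDisc 𝒬 u (g z))
    (hg : AnalyticAt ℂ g z) : IsDisc 𝒬 (fun y => u (g y)) z := by
  obtain ⟨φ, hφ, h1, h2⟩ := hu
  refine ⟨φ, hφ, hg.continuousAt.eventually h1, ?_⟩
  exact AnalyticAt.comp (g := fun y => φ (u y)) (f := g) h2 hg

theorem form_smul_self {V : Type*} [NormedAddCommGroup V] [NormedSpace ℂ V]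
    (S : V →ₗ⋆[ℂ] V →ₗ[ℂ] ℂ) (a : ℂ) (v : V) :
    (S (a • v) (a • v)).re = ‖a‖ ^ 2 * (S v v).re := by
  rw [LinearMap.map_smulₛₗ, LinearMap.map_smulₛₗ, LinearMap.smul_apply]
  simp only [smul_eq_mul, RingHom.id_apply]
  have h1 : (conj a) * (a * S v v) = ((‖a‖ ^ 2 : ℝ) : ℂ) * S v v := by
    rw [← mul_assoc, ← Complex.normSq_eq_conj_mul_self, Complex.normSq_eq_norm_sq]
  rw [mul_left_comm] at h1 ⊢
  first
    | rw [h1, Complex.re_ofReal_mul]
    | (rw [mul_left_comm, h1, Complex.re_ofReal_mul])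

/-- The energy density after a holomorphic change of variable. -/
theorem eden_comp [FiniteDimensional ℂ A] [FiniteDimensional ℂ B] (hQ : KAtlas 𝒬 H) {u : ℂ → X}
    {g : ℂ → ℂ} {z : ℂ} (hu : IsDisc 𝒬 u (g z)) (hg : AnalyticAt ℂ g z) :
    eden 𝒬 H (fun y => u (g y)) z = ‖deriv g z‖ ^ 2 * eden 𝒬 H u (g z) := by
  obtain ⟨φ, hφ, h1, h2⟩ := id hu
  have h3 : u (g z) ∈ φ.source := h1.self_of_nhds
  rw [eden_eq hQ (hu.comp hg) hφ h3, eden_eq hQ hu hφ h3]
  have h4 : deriv (fun y => φ (u (g y))) z = deriv g z • deriv (fun y => φ (u y)) (g z) := by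
    have h5 := h2.differentiableAt.hasDerivAt.scomp z hg.differentiableAt.hasDerivAt
    exact h5.deriv
  rw [h4, form_smul_self]

/-- A disc of small energy density along a segment stays in the box. -/
theorem seg_box [T2Space X] [FiniteDimensional ℂ A] [FiniteDimensional ℂ B] (hQ : KAtlas 𝒬 H)
    {φ : OpenPartialHomeomorph X (A × B)} (hφ : φ ∈ 𝒬) {δ c κ : ℝ} (hc : 0 < c) {a₀ : A × B}
    (hsub : closedBall a₀ δ ⊆ φ.target)
    (hcb : ∀ p ∈ closedBall a₀ δ, ∀ v, c * ‖v‖ ^ 2 ≤ (H φ p v v).re) {u : ℂ → X} {a b : ℂ}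
    (hu : ∀ z ∈ segment ℝ a b, IsDisc 𝒬 u z)
    (hκ : ∀ z ∈ segment ℝ a b, eden 𝒬 H u z * ‖b - a‖ ^ 2 ≤ c * κ ^ 2) (hκ0 : 0 ≤ κ)
    (ha : u a ∈ φ.source) (hlen : ‖φ (u a) - a₀‖ + κ < δ) :
    u b ∈ φ.source ∧ ‖φ (u b) - φ (u a)‖ ≤ κ := by
  haveI : ProperSpace (A × B) := FiniteDimensional.proper ℂ (A × B)
  haveI := FiniteDimensional.complete ℂ A
  haveI := FiniteDimensional.complete ℂ B
  set γ : ℝ → ℂ := fun t => a + t * (b - a) with hγ
  have hγseg : ∀ t ∈ Icc (0 : ℝ) 1, γ t ∈ segment ℝ a b := by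
    intro t ht
    refine ⟨1 - t, t, by linarith only [ht.2], ht.1, by ring, ?_⟩
    simp only [hγ, Complex.real_smul]
    push_cast
    ring
  have hγc : Continuous γ := by
    simp only [hγ]
    fun_prop
  have hγd : ∀ t, HasDerivAt γ (b - a) t := by
    intro t
    have h1 : HasDerivAt (fun t : ℝ => (t : ℂ)) 1 t := Complex.ofRealCLM.hasDerivAt
    have h2 := (h1.mul_const (b - a)).const_add a
    simpa [hγ] using h2
  set S : Set ℝ := {t | u (γ t) ∈ φ.source ∧ ‖φ (u (γ t)) - φ (u a)‖ ≤ t * κ} with hS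
  have hball : closedBall (φ (u a)) κ ⊆ closedBall a₀ δ := by
    intro p hp
    rw [mem_closedBall, dist_eq_norm] at hp ⊢
    have := norm_sub_le_norm_sub_add_norm_sub p (φ (u a)) a₀
    linarith only [hlen, hp, this]
  have huc : ContinuousOn (fun t => u (γ t)) (Icc 0 1) := by
    intro t ht
    exact ((hu _ (hγseg t ht)).continuousAt.comp (f := γ) (x := t)
      hγc.continuousAt).continuousWithinAt
  -- closedness
  have hclosed : IsClosed (S ∩ Icc 0 1) := by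
    set K : Set X := φ.symm '' closedBall (φ (u a)) κ with hK
    have hKc : IsClosed K := by
      apply IsCompact.isClosed
      apply (isCompact_closedBall _ _).image_of_continuousOn
      exact φ.continuousOn_symm.mono (hball.trans hsub)
    have hKs : K ⊆ φ.source := by
      rintro _ ⟨p, hp, rfl⟩
      exact φ.map_target (hsub (hball hp))
    have hT1 : IsClosed (Icc (0 : ℝ) 1 ∩ (fun t => u (γ t)) ⁻¹' K) :=
      huc.preimage_isClosed_of_isClosed isClosed_Icc hKc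
    have hcont : ContinuousOn (fun t => ‖φ (u (γ t)) - φ (u a)‖ - t * κ)
        (Icc (0 : ℝ) 1 ∩ (fun t => u (γ t)) ⁻¹' K) := by
      refine ContinuousOn.sub (ContinuousOn.norm (ContinuousOn.sub ?_ continuousOn_const)) ?_
      · exact φ.continuousOn.comp (huc.mono inter_subset_left) (fun t ht => hKs ht.2)
      · fun_prop
    have hT2 := hcont.preimage_isClosed_of_isClosed hT1 (isClosed_Iic (a := (0 : ℝ)))
    convert hT2 using 1
    ext t
    simp only [hS, mem_inter_iff, mem_setOf_eq, mem_preimage, mem_Iic]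
    constructor
    · rintro ⟨⟨h1, h2⟩, h3⟩
      refine ⟨⟨h3, φ (u (γ t)), ?_, φ.left_inv h1⟩, by linarith only [h2]⟩
      rw [mem_closedBall, dist_eq_norm]
      refine h2.trans ?_
      nlinarith only [hκ0, h3.2]
    · rintro ⟨⟨h1, h2⟩, h3⟩
      exact ⟨⟨hKs h2, by linarith only [h3]⟩, h1⟩
  have hγ0 : γ 0 = a := by simp [hγ]
  have hγ1 : γ 1 = b := by simp [hγ]
  have h0 : (0 : ℝ) ∈ S := by
    simp only [hS, mem_setOf_eq, hγ0]
    exact ⟨ha, by simp⟩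
  have key : Icc (0 : ℝ) 1 ⊆ S := by
    refine hclosed.Icc_subset_of_forall_exists_gt h0 ?_
    rintro x ⟨⟨hx1, hx2⟩, hx⟩ y hy
    have hxI : x ∈ Icc (0 : ℝ) 1 := ⟨hx.1, hx.2.le⟩
    have hd := hu _ (hγseg x hxI)
    obtain ⟨h1, h2⟩ := hd.chart hQ hφ hx1
    have hin : φ (u (γ x)) ∈ ball a₀ δ := by
      rw [mem_ball, dist_eq_norm]
      have h3 := norm_sub_le_norm_sub_add_norm_sub (φ (u (γ x))) (φ (u a)) a₀
      have h4 : x * κ ≤ κ := by nlinarith only [hκ0, hx.2]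
      linarith only [hlen, hx2, h3, h4]
    have hev : ∀ᶠ z in 𝓝 (γ x), u z ∈ φ.source ∧ AnalyticAt ℂ (fun y => φ (u y)) z ∧
        φ (u z) ∈ ball a₀ δ :=
      h1.and (h2.eventually_analyticAt.and
        (h2.continuousAt.eventually (isOpen_ball.mem_nhds hin)))
    have hev2 : ∀ᶠ t in 𝓝 x, u (γ t) ∈ φ.source ∧ AnalyticAt ℂ (fun y => φ (u y)) (γ t) ∧
        φ (u (γ t)) ∈ ball a₀ δ := hγc.continuousAt.eventually hev
    obtain ⟨ε, hε, hball2⟩ := Metric.eventually_nhds_iff_ball.1 hev2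
    set t := min (min y 1) (x + ε / 2) with ht
    have hxt : x < t := lt_min (lt_min hy hx.2) (by linarith only [hε])
    have ht1 : t ≤ 1 := (min_le_left _ _).trans (min_le_right _ _)
    have hty : t ≤ y := (min_le_left _ _).trans (min_le_left _ _)
    have htε : t ≤ x + ε / 2 := min_le_right _ _
    have hall : ∀ s ∈ Icc x t, u (γ s) ∈ φ.source ∧ AnalyticAt ℂ (fun y => φ (u y)) (γ s) ∧
        φ (u (γ s)) ∈ ball a₀ δ := by
      intro s hs
      apply hball2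
      rw [mem_ball, Real.dist_eq, abs_lt]
      constructor <;> linarith only [hxt, htε, hs.1, hs.2]
    refine ⟨t, ⟨(hall t ⟨hxt.le, le_rfl⟩).1, ?_⟩, hxt, hty⟩
    have hmv : ‖φ (u (γ t)) - φ (u (γ x))‖ ≤ κ * ‖t - x‖ := by
      refine (convex_Icc x t).norm_image_sub_le_of_norm_hasDerivWithin_le
        (f := fun s => φ (u (γ s)))
        (f' := fun s => (b - a) • deriv (fun y => φ (u y)) (γ s)) ?_ ?_
        (left_mem_Icc.2 hxt.le) (right_mem_Icc.2 hxt.le)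
      · intro s hs
        have h5 := (hall s hs).2.1.differentiableAt.hasDerivAt.scomp s (hγd s)
        exact h5.hasDerivWithinAt
      · intro s hs
        obtain ⟨h6, h7, h8⟩ := hall s hs
        have hsI : s ∈ Icc (0 : ℝ) 1 := ⟨hx.1.trans hs.1, hs.2.trans ht1⟩
        have h9 := hκ _ (hγseg s hsI)
        rw [eden_eq hQ (hu _ (hγseg s hsI)) hφ h6] at h9
        have h10 := hcb _ (ball_subset_closedBall h8) (deriv (fun y => φ (u y)) (γ s))
        rw [norm_smul]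
        have h11 : c * (‖b - a‖ * ‖deriv (fun y => φ (u y)) (γ s)‖) ^ 2 ≤ c * κ ^ 2 := by
          calc c * (‖b - a‖ * ‖deriv (fun y => φ (u y)) (γ s)‖) ^ 2
              = (c * ‖deriv (fun y => φ (u y)) (γ s)‖ ^ 2) * ‖b - a‖ ^ 2 := by ring
            _ ≤ _ := mul_le_mul_of_nonneg_right h10 (by (clear * -; positivity))
            _ ≤ _ := h9
        have h12 := le_of_mul_le_mul_left h11 hc
        exact (pow_le_pow_iff_left₀ (by (clear * -; positivity)) hκ0 two_ne_zero).1 h12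
    have h13 := norm_sub_le_norm_sub_add_norm_sub (φ (u (γ t))) (φ (u (γ x))) (φ (u a))
    rw [Real.norm_of_nonneg (by linarith only [hxt] : (0 : ℝ) ≤ t - x)] at hmv
    linarith only [h13, hmv, hx2]
  have := key (right_mem_Icc.2 zero_le_one)
  simp only [hS, mem_setOf_eq, hγ1, one_mul] at this
  exact this

/-- A disc on an annulus whose energy density is at most `κ²/|z|²` lies in one box. -/
theorem annulus_box [T2Space X] [FiniteDimensional ℂ A] [FiniteDimensional ℂ B]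
    (hQ : KAtlas 𝒬 H) {φ : OpenPartialHomeomorph X (A × B)} (hφ : φ ∈ 𝒬) {δ c κ κ' r₁ r₂ : ℝ}
    (hc : 0 < c) (hr₁ : 0 < r₁) {u : ℂ → X} {z₀ : ℂ} (hz₀ : r₁ < ‖z₀‖ ∧ ‖z₀‖ < r₂)
    (h0 : u z₀ ∈ φ.source) (hsub : closedBall (φ (u z₀)) δ ⊆ φ.target)
    (hcb : ∀ p ∈ closedBall (φ (u z₀)) δ, ∀ v, c * ‖v‖ ^ 2 ≤ (H φ p v v).re)
    (hu : ∀ z : ℂ, r₁ < ‖z‖ → ‖z‖ < r₂ → IsDisc 𝒬 u z) (hκ0 : 0 ≤ κ) (hκ0' : 0 ≤ κ')
    (hκ : ∀ z : ℂ, r₁ < ‖z‖ → ‖z‖ < r₂ → eden 𝒬 H u z * ‖z‖ ^ 2 ≤ κ ^ 2)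
    (hκ' : κ ^ 2 * (Real.log (r₂ / r₁) + 2 * Real.pi) ^ 2 ≤ c * κ' ^ 2) (hδ : κ' < δ) {z : ℂ}
    (hz : r₁ < ‖z‖ ∧ ‖z‖ < r₂) :
    u z ∈ φ.source ∧ ‖φ (u z) - φ (u z₀)‖ ≤ κ' := by
  have hz0 : z ≠ 0 := by
    rintro rfl
    rw [norm_zero] at hz
    linarith only [hr₁, hz]
  have hz00 : z₀ ≠ 0 := by
    rintro rfl
    rw [norm_zero] at hz₀
    linarith only [hr₁, hz₀]
  have hr₂ : 0 < r₂ := hr₁.trans (hz.1.trans hz.2)
  set v : ℂ → X := fun ζ => u (Complex.exp ζ) with hv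
  set a := Complex.log z₀ with ha
  set b := Complex.log z with hb
  have hea : Complex.exp a = z₀ := Complex.exp_log hz00
  have heb : Complex.exp b = z := Complex.exp_log hz0
  have hre : ∀ w : ℂ, w ≠ 0 → r₁ < ‖w‖ ∧ ‖w‖ < r₂ →
      Real.log r₁ < (Complex.log w).re ∧ (Complex.log w).re < Real.log r₂ := by
    intro w hw h
    rw [Complex.log_re]
    exact ⟨Real.log_lt_log hr₁ h.1, Real.log_lt_log (norm_pos_iff.2 hw) h.2⟩
  have hexp : ∀ ζ ∈ segment ℝ a b, r₁ < ‖Complex.exp ζ‖ ∧ ‖Complex.exp ζ‖ < r₂ := by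
    intro ζ hζ
    have h1 : ζ ∈ {w : ℂ | Real.log r₁ < w.re ∧ w.re < Real.log r₂} := by
      have hconv : Convex ℝ {w : ℂ | Real.log r₁ < w.re ∧ w.re < Real.log r₂} :=
        (convex_halfSpace_re_gt _).inter (convex_halfSpace_re_lt _)
      exact hconv.segment_subset (hre z₀ hz00 hz₀) (hre z hz0 hz) hζ
    rw [Complex.norm_exp]
    constructor
    · rw [← Real.log_lt_iff_lt_exp hr₁]
      exact h1.1
    · rw [← Real.lt_log_iff_exp_lt hr₂]
      exact h1.2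
  have han : ∀ ζ : ℂ, AnalyticAt ℂ Complex.exp ζ := fun ζ => analyticAt_cexp
  have hdisc : ∀ ζ ∈ segment ℝ a b, IsDisc 𝒬 u (Complex.exp ζ) := fun ζ hζ =>
    hu _ (hexp ζ hζ).1 (hexp ζ hζ).2
  have hlen : ‖b - a‖ ≤ Real.log (r₂ / r₁) + 2 * Real.pi := by
    have h1 := hre z₀ hz00 hz₀
    have h2 := hre z hz0 hz
    have h3 : Real.log (r₂ / r₁) = Real.log r₂ - Real.log r₁ :=
      Real.log_div hr₂.ne' hr₁.ne'
    have h4 : |(b - a).re| ≤ Real.log (r₂ / r₁) := by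
      rw [abs_le, Complex.sub_re, h3]
      constructor <;> linarith only [h1, h2]
    have h5 : |(b - a).im| ≤ 2 * Real.pi := by
      rw [abs_le, Complex.sub_im]
      have h6 := Complex.neg_pi_lt_log_im z
      have h7 := Complex.log_im_le_pi z
      have h8 := Complex.neg_pi_lt_log_im z₀
      have h9 := Complex.log_im_le_pi z₀
      constructor <;> linarith only [h6, h9, h7, h8]
    exact (Complex.norm_le_abs_re_add_abs_im _).trans (add_le_add h4 h5)
  have hlen0 : 0 ≤ ‖b - a‖ := norm_nonneg _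
  have hmain := seg_box (a := a) (b := b) (u := v) hQ hφ hc (a₀ := φ (u z₀)) hsub hcb
    (fun ζ hζ => (hdisc ζ hζ).comp (han ζ)) (κ := κ') ?_ hκ0' ?_ ?_
  · simp only [hv, heb, hea] at hmain
    exact hmain
  · intro ζ hζ
    have h1 : eden 𝒬 H v ζ = ‖deriv Complex.exp ζ‖ ^ 2 * eden 𝒬 H u (Complex.exp ζ) :=
      eden_comp hQ (hdisc ζ hζ) (han ζ)
    rw [h1, Complex.deriv_exp]
    have h2 := hκ _ (hexp ζ hζ).1 (hexp ζ hζ).2
    have h3 : ‖b - a‖ ^ 2 ≤ (Real.log (r₂ / r₁) + 2 * Real.pi) ^ 2 :=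
      pow_le_pow_left₀ hlen0 hlen 2
    calc ‖Complex.exp ζ‖ ^ 2 * eden 𝒬 H u (Complex.exp ζ) * ‖b - a‖ ^ 2
        ≤ κ ^ 2 * ‖b - a‖ ^ 2 := by
          apply mul_le_mul_of_nonneg_right _ (by (clear * -; positivity))
          linarith only [h2]
      _ ≤ κ ^ 2 * (Real.log (r₂ / r₁) + 2 * Real.pi) ^ 2 :=
          mul_le_mul_of_nonneg_left h3 (by (clear * -; positivity))
      _ ≤ _ := hκ'
  · simp only [hv, hea]
    exact h0
  · simp only [hv, hea, sub_self, norm_zero, zero_add]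
    exact hδ

end Vale.Agent.P278.Full
end
end

section

section

open MeasureTheory Set Filter Topology Complex Metric
open scoped ContDiff

namespace Vale.Agent.P278.Full

/-- The integral of a directional derivative of a compactly supported `C¹` function vanishes. -/
theorem integral_fderiv_eq_zero {f : ℂ → ℝ} (hf : ContDiff ℝ 1 f) (hc : HasCompactSupport f)
    (v : ℂ) : ∫ z, fderiv ℝ f z v = 0 := by
  have h1 : Continuous (fun z => fderiv ℝ f z v) :=
    (hf.continuous_fderiv (by norm_num)).clm_apply continuous_const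
  have hc1 : HasCompactSupport (fun z => fderiv ℝ f z v) :=
    HasCompactSupport.intro (K := tsupport (fderiv ℝ f)) (hc.fderiv (𝕜 := ℝ)).isCompact
      fun x hx => by rw [image_eq_zero_of_notMem_tsupport hx]; rfl
  have := integral_mul_fderiv_eq_neg_fderiv_mul_of_integrable (μ := (volume : Measure ℂ))
    (f := fun _ : ℂ => (1 : ℝ)) (g := f) (v := v) ?_ ?_ ?_ ?_ ?_
  · simpa only [one_mul, fderiv_fun_const, Pi.zero_apply, zero_apply, zero_mul, integral_zero, neg_zero] using     this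
  · simp only [fderiv_fun_const, Pi.zero_apply, zero_apply, zero_mul, integrable_fun_zero]
  · simpa only [one_mul] using h1.integrable_of_hasCompactSupport hc1
  · simpa only [one_mul] using hf.continuous.integrable_of_hasCompactSupport hc
  · intro x _; fun_prop
  · intro x _; exact (hf.differentiable (by norm_num)).differentiableAt

/-- Smooth compactly supported modification outside of a compact set. -/
theorem exists_global {E : Type*} [NormedAddCommGroup E] [NormedSpace ℝ E] [FiniteDimensional ℝ E]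
    {F : Type*} [NormedAddCommGroup F] [NormedSpace ℝ F]
    {Ω K : Set E} (hΩ : IsOpen Ω) (hK : IsCompact K) (hKΩ : K ⊆ Ω) {f : E → F}
    (hf : ContDiffOn ℝ 1 f Ω) :
    ∃ g : E → F, ContDiff ℝ 1 g ∧ HasCompactSupport g ∧ ∀ x ∈ K, g =ᶠ[𝓝 x] f := by
  obtain ⟨L, hL, hKL, hLΩ⟩ := exists_compact_between hK hΩ hKΩ
  obtain ⟨χ, h1, h0, -⟩ := exists_contMDiffMap_one_nhds_of_subset_interior (n := 1)
    (modelWithCornersSelf ℝ E) hK.isClosed hKL
  have hχ : ContDiff ℝ 1 χ := χ.contMDiff.contDiff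
  refine ⟨fun x => χ x • f x, ?_, ?_, ?_⟩
  · rw [contDiff_iff_contDiffAt]
    intro x
    by_cases hx : x ∈ Ω
    · exact hχ.contDiffAt.smul (hf.contDiffAt (hΩ.mem_nhds hx))
    · have hx' : Lᶜ ∈ 𝓝 x := hL.isClosed.isOpen_compl.mem_nhds fun h => hx (hLΩ h)
      have : (fun x => χ x • f x) =ᶠ[𝓝 x] fun _ => 0 := by
        filter_upwards [hx'] with y hy
        rw [h0 y hy, zero_smul]
      exact contDiffAt_const.congr_of_eventuallyEq this
  · exact HasCompactSupport.intro hL fun x hx => by rw [h0 x hx, zero_smul]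
  · intro x hx
    have := (eventually_nhdsSet_iff_forall.mp h1) x hx
    filter_upwards [this] with y hy
    rw [hy, one_smul]

/-- The cut-off function. -/
noncomputable def cone (K δ m : ℝ) (y : ℝ × ℂ) : ℝ :=
  Real.smoothTransition ((m + δ + K * y.1 - √(‖y.2‖ ^ 2 + δ ^ 2)) / δ)

section cone
variable {K δ m : ℝ}

lemma contDiff_sqrt (hδ : 0 < δ) : ContDiff ℝ 1 (fun z : ℂ => √(‖z‖ ^ 2 + δ ^ 2)) := by
  have h1 : ContDiff ℝ 1 (fun z : ℂ => ‖z‖ ^ 2 + δ ^ 2) := (contDiff_norm_sq ℝ).add contDiff_const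
  exact h1.sqrt fun z => by positivity

lemma contDiff_cone (hδ : 0 < δ) : ContDiff ℝ 1 (cone K δ m) := by
  have h1 : ContDiff ℝ 1 (fun y : ℝ × ℂ => √(‖y.2‖ ^ 2 + δ ^ 2)) :=
    (contDiff_sqrt hδ).comp contDiff_snd
  have h2 : ContDiff ℝ 1
      (fun y : ℝ × ℂ => (m + δ + K * y.1 - √(‖y.2‖ ^ 2 + δ ^ 2)) / δ) := by
    refine ContDiff.div_const (ContDiff.sub ?_ h1) _
    fun_prop
  exact (Real.smoothTransition.contDiff (n := 1)).comp h2

lemma cone_nonneg (y : ℝ × ℂ) : 0 ≤ cone K δ m y := Real.smoothTransition.nonneg _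

lemma cone_le_one (y : ℝ × ℂ) : cone K δ m y ≤ 1 := Real.smoothTransition.le_one _

lemma norm_le_sqrt (z : ℂ) : ‖z‖ ≤ √(‖z‖ ^ 2 + δ ^ 2) :=
  Real.le_sqrt_of_sq_le (by nlinarith [sq_nonneg δ])

lemma sqrt_le_norm (hδ : 0 < δ) (z : ℂ) : √(‖z‖ ^ 2 + δ ^ 2) ≤ ‖z‖ + δ := by
  rw [Real.sqrt_le_left (by positivity)]
  (by_contra nlg; linarith only [nlg, mul_pos (sub_pos.2 (not_le.1 nlg)) (sub_pos.2 hδ), mul_nonneg (sq_nonneg (δ : ℝ)) (sub_nonneg.2 (norm_nonneg z))])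

lemma cone_eq_one (hδ : 0 < δ) {y : ℝ × ℂ} (h : ‖y.2‖ + δ ≤ m + K * y.1) : cone K δ m y = 1 := by
  apply Real.smoothTransition.one_of_one_le
  rw [le_div_iff₀ hδ]
  linarith only [h, sqrt_le_norm hδ y.2]

lemma cone_eq_zero (hδ : 0 < δ) {y : ℝ × ℂ} (h : m + δ + K * y.1 ≤ ‖y.2‖) : cone K δ m y = 0 := by
  apply Real.smoothTransition.zero_of_nonpos
  apply div_nonpos_of_nonpos_of_nonneg _ hδ.le
  linarith only [h, norm_le_sqrt (δ := δ) y.2]

/-- The cut-off function grows at least as fast in time as `K` times its space derivative. -/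
lemma cone_deriv (hδ : 0 < δ) (y : ℝ × ℂ) {e p q : ℝ} (hK : 0 ≤ K) (he : 0 ≤ e)
    (hpq : p ^ 2 + q ^ 2 ≤ K ^ 2 * e ^ 2) :
    0 ≤ fderiv ℝ (cone K δ m) y (1, 0) * e - fderiv ℝ (cone K δ m) y (0, 1) * p -
      fderiv ℝ (cone K δ m) y (0, I) * q := by
  set N : ℝ := √(‖y.2‖ ^ 2 + δ ^ 2) with hN
  have hNpos : 0 < N := Real.sqrt_pos.2 (by positivity)
  set T : ℝ := deriv Real.smoothTransition ((m + δ + K * y.1 - N) / δ) with hT
  have hT0 : 0 ≤ T := Real.smoothTransition.monotone.deriv_nonneg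
  have hsq : HasFDerivAt (fun y : ℝ × ℂ => ‖y.2‖ ^ 2 + δ ^ 2)
      (2 • (innerSL ℝ y.2) ∘SL (ContinuousLinearMap.snd ℝ ℝ ℂ)) y :=
    (HasFDerivAt.norm_sq (f := fun y : ℝ × ℂ => y.2) hasFDerivAt_snd).add_const _
  have hrt := hsq.sqrt (by (clear * - hδ; positivity))
  have hlin : HasFDerivAt (fun y : ℝ × ℂ => m + δ + K * y.1)
      (K • ContinuousLinearMap.fst ℝ ℝ ℂ) y :=
    (hasFDerivAt_fst.const_mul K).const_add (m + δ)
  have harg := (hlin.sub hrt).mul_const (δ⁻¹)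
  have hst : HasDerivAt Real.smoothTransition T ((m + δ + K * y.1 - N) * δ⁻¹) := by
    rw [← div_eq_mul_inv]
    exact ((Real.smoothTransition.contDiff (n := 1)).differentiable
      (by norm_num)).differentiableAt.hasDerivAt
  have hall := hst.comp_hasFDerivAt y harg
  have hfd : fderiv ℝ (cone K δ m) y = T • (δ⁻¹ • (K • ContinuousLinearMap.fst ℝ ℝ ℂ -
      (1 / (2 * N)) • (2 • (innerSL ℝ y.2) ∘SL (ContinuousLinearMap.snd ℝ ℝ ℂ)))) := by
    rw [← hall.fderiv]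
    rfl
  have e1 : fderiv ℝ (cone K δ m) y (1, 0) = T * (δ⁻¹ * K) := by
    rw [hfd]; simp only [one_div, mul_inv_rev, smul_apply, sub_apply, ContinuousLinearMap.coe_fst', smul_eq_mul, mul_one, ContinuousLinearMap.comp_apply, ContinuousLinearMap.coe_snd', coe_innerSL_apply, inner_zero_right, nsmul_zero, mul_zero, sub_zero]
  have e2 : fderiv ℝ (cone K δ m) y (0, 1) = - (T * (δ⁻¹ * (y.2.re / N))) := by
    rw [hfd]; simp only [one_div, mul_inv_rev, smul_apply, sub_apply, ContinuousLinearMap.coe_fst', smul_eq_mul, mul_zero, ContinuousLinearMap.comp_apply, ContinuousLinearMap.coe_snd', coe_innerSL_apply, Complex.inner, one_mul, conj_re, nsmul_eq_mul, Nat.cast_ofNat, zero_sub, mul_neg, neg_inj, mul_eq_mul_left_iff, inv_eq_zero]; field_simp; simp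
  have e3 : fderiv ℝ (cone K δ m) y (0, I) = - (T * (δ⁻¹ * (y.2.im / N))) := by
    rw [hfd]; simp only [one_div, mul_inv_rev, smul_apply, sub_apply, ContinuousLinearMap.coe_fst', smul_eq_mul, mul_zero, ContinuousLinearMap.comp_apply, ContinuousLinearMap.coe_snd', coe_innerSL_apply, Complex.inner, mul_re, I_re, conj_re, zero_mul, I_im, conj_im, mul_neg, one_mul, sub_neg_eq_add, zero_add, nsmul_eq_mul, Nat.cast_ofNat, zero_sub, neg_inj, mul_eq_mul_left_iff, inv_eq_zero]; field_simp; simp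
  rw [e1, e2, e3]
  have key : -(K * e * N) ≤ p * y.2.re + q * y.2.im := by
    have h1 : ‖y.2‖ ^ 2 ≤ N ^ 2 := by
      rw [hN, Real.sq_sqrt (by (clear * - hδ; positivity))]; nlinarith only []
    have h2 : ‖y.2‖ ^ 2 = y.2.re ^ 2 + y.2.im ^ 2 := by
      rw [← Complex.normSq_eq_norm_sq, Complex.normSq_apply]; ring
    have h3 : (p * y.2.re + q * y.2.im) ^ 2 ≤ (K * e * N) ^ 2 := by
      have : (p * y.2.re + q * y.2.im) ^ 2 ≤ (p ^ 2 + q ^ 2) * (y.2.re ^ 2 + y.2.im ^ 2) := by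
        linarith only [sq_nonneg (p * y.2.im - q * y.2.re)]
      calc _ ≤ (p ^ 2 + q ^ 2) * (y.2.re ^ 2 + y.2.im ^ 2) := this
        _ ≤ (K ^ 2 * e ^ 2) * N ^ 2 := by
            apply mul_le_mul hpq (by rw [← h2]; exact h1) (by (clear * -; positivity)) (by (clear * -; positivity))
        _ = _ := by ring
    exact (abs_le.1 (abs_le_of_sq_le_sq h3 (by (clear * - hK he hδ; positivity)))).1
  have : T * (δ⁻¹ * K) * e - -(T * (δ⁻¹ * (y.2.re / N))) * p - -(T * (δ⁻¹ * (y.2.im / N))) * q =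
      T * δ⁻¹ * N⁻¹ * (K * e * N + (p * y.2.re + q * y.2.im)) := by
    field_simp; ring
  rw [this]
  have : 0 ≤ K * e * N + (p * y.2.re + q * y.2.im) := by linarith only [key]
  (clear * - hT0 hδ this; positivity)

/-- Finite propagation, cut-off form. -/
theorem cone_mono {e p q : ℝ × ℂ → ℝ} (he : ContDiff ℝ 1 e) (hp : ContDiff ℝ 1 p)
    (hq : ContDiff ℝ 1 q) (hK : 0 ≤ K) (hδ : 0 < δ) {s₀ s₁ : ℝ} (h01 : s₀ ≤ s₁)
    (H : ∀ y : ℝ × ℂ, y.1 ∈ Icc s₀ s₁ → ‖y.2‖ ≤ m + δ + K * y.1 → 0 ≤ e y ∧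
      fderiv ℝ e y (1, 0) = fderiv ℝ p y (0, 1) + fderiv ℝ q y (0, I) ∧
      p y ^ 2 + q y ^ 2 ≤ K ^ 2 * e y ^ 2) :
    ∫ z, cone K δ m (s₀, z) * e (s₀, z) ≤ ∫ z, cone K δ m (s₁, z) * e (s₁, z) := by
  have hψ : ContDiff ℝ 1 (cone K δ m) := contDiff_cone hδ
  have hψd : Differentiable ℝ (cone K δ m) := hψ.differentiable (by norm_num)
  -- slices
  have hslice : ∀ (s : ℝ) (g : ℝ × ℂ → ℝ), ContDiff ℝ 1 g →
      ContDiff ℝ 1 (fun z : ℂ => cone K δ m (s, z) * g (s, z)) := fun s g hg => by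
    have : ContDiff ℝ 1 (fun z : ℂ => ((s, z) : ℝ × ℂ)) := by fun_prop
    exact (hψ.comp this).mul (hg.comp this)
  have hsupp : ∀ (s : ℝ) (g : ℝ × ℂ → ℝ),
      HasCompactSupport (fun z : ℂ => cone K δ m (s, z) * g (s, z)) := fun s g =>
    HasCompactSupport.intro (isCompact_closedBall (0 : ℂ) (m + δ + K * s)) fun z hz => by
      rw [cone_eq_zero hδ, zero_mul]
      rw [mem_closedBall_zero_iff, not_le] at hz
      exact hz.le
  have hsliced : ∀ (s : ℝ) (g : ℝ × ℂ → ℝ), ContDiff ℝ 1 g → ∀ z v : ℂ,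
      fderiv ℝ (fun z : ℂ => cone K δ m (s, z) * g (s, z)) z v =
        cone K δ m (s, z) * fderiv ℝ g (s, z) (0, v) +
          fderiv ℝ (cone K δ m) (s, z) (0, v) * g (s, z) := by
    intro s g hg z v
    have hι : HasFDerivAt (fun z : ℂ => ((s, z) : ℝ × ℂ)) (ContinuousLinearMap.inr ℝ ℝ ℂ) z :=
      hasFDerivAt_prodMk_right s z
    have h1 := (hψd (s, z)).hasFDerivAt.comp z hι
    have h2 := ((hg.differentiable (by norm_num)) (s, z)).hasFDerivAt.comp z hι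
    have h3 : fderiv ℝ (fun z : ℂ => cone K δ m (s, z) * g (s, z)) z = _ := (h1.mul h2).fderiv
    rw [h3]
    simp only [Function.comp, add_apply, smul_apply, ContinuousLinearMap.comp_apply, ContinuousLinearMap.inr_apply, smul_eq_mul]
    ring
  -- the time derivative
  set D : ℝ × ℂ → ℝ := fun y => cone K δ m y * fderiv ℝ e y (1, 0) +
    fderiv ℝ (cone K δ m) y (1, 0) * e y with hD
  have hDc : Continuous D := by
    have h1 : Continuous (fun y => fderiv ℝ e y (1, 0)) :=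
      (he.continuous_fderiv (by norm_num)).clm_apply continuous_const
    have h2 : Continuous (fun y => fderiv ℝ (cone K δ m) y (1, 0)) :=
      (hψ.continuous_fderiv (by norm_num)).clm_apply continuous_const
    exact (hψ.continuous.mul h1).add (h2.mul he.continuous)
  have hder : ∀ (z : ℂ) (s : ℝ), HasDerivAt (fun s => cone K δ m (s, z) * e (s, z)) (D (s, z)) s := by
    intro z s
    have hι : HasFDerivAt (fun s : ℝ => ((s, z) : ℝ × ℂ)) (ContinuousLinearMap.inl ℝ ℝ ℂ) s :=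
      hasFDerivAt_prodMk_left s z
    have h1 := ((hψd (s, z)).hasFDerivAt.comp s hι).hasDerivAt
    have h2 := (((he.differentiable (by norm_num)) (s, z)).hasFDerivAt.comp s hι).hasDerivAt
    have h3 := h1.mul h2
    have h4 : D (s, z) = fderiv ℝ (cone K δ m) (s, z) (1, 0) * e (s, z) +
        cone K δ m (s, z) * fderiv ℝ e (s, z) (1, 0) := by
      show cone K δ m (s, z) * fderiv ℝ e (s, z) (1, 0) +
        fderiv ℝ (cone K δ m) (s, z) (1, 0) * e (s, z) = _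
      ring
    rw [h4]
    exact h3
  -- vanishing outside of the cone
  have hzero : ∀ s z, m + δ + K * s < ‖z‖ → D (s, z) = 0 := by
    intro s z hz
    have hev : cone K δ m =ᶠ[𝓝 ((s, z) : ℝ × ℂ)] fun _ => 0 := by
      have : ∀ᶠ y : ℝ × ℂ in 𝓝 (s, z), m + δ + K * y.1 < ‖y.2‖ :=
        (isOpen_lt (by fun_prop) (by fun_prop)).mem_nhds hz
      filter_upwards [this] with y hy using cone_eq_zero hδ hy.le
    have h1 : cone K δ m (s, z) = 0 := hev.self_of_nhds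
    have h2 : fderiv ℝ (cone K δ m) (s, z) = 0 := by rw [hev.fderiv_eq]; simp
    simp only [hD, h1, h2]; simp
  have hint : Integrable (Function.uncurry fun (s : ℝ) (z : ℂ) => D (s, z))
      ((volume.restrict (uIoc s₀ s₁)).prod volume) := by
    have h1 : IntegrableOn D (Icc s₀ s₁ ×ˢ closedBall (0 : ℂ) (m + δ + K * s₁))
        (volume.prod volume) :=
      hDc.continuousOn.integrableOn_compact (isCompact_Icc.prod (isCompact_closedBall _ _))
    have h2 : IntegrableOn D (Icc s₀ s₁ ×ˢ (univ : Set ℂ)) (volume.prod volume) := by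
      refine h1.of_forall_sdiff_eq_zero (measurableSet_Icc.prod MeasurableSet.univ) ?_
      rintro ⟨s, z⟩ ⟨⟨hs, -⟩, hn⟩
      apply hzero
      by_contra hcon
      apply hn
      refine ⟨hs, ?_⟩
      rw [mem_closedBall_zero_iff]
      have : K * s ≤ K * s₁ := mul_le_mul_of_nonneg_left hs.2 hK
      linarith only [hcon, this]
    have h3 : IntegrableOn D (uIoc s₀ s₁ ×ˢ (univ : Set ℂ)) (volume.prod volume) := by
      refine h2.mono_set (prod_mono ?_ Subset.rfl)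
      rw [uIoc_of_le h01]; exact Ioc_subset_Icc_self
    rw [IntegrableOn, ← Measure.prod_restrict, Measure.restrict_univ] at h3
    exact h3
  have hswap := intervalIntegral_integral_swap hint
  have hftc : ∀ z, ∫ s in s₀..s₁, D (s, z) =
      cone K δ m (s₁, z) * e (s₁, z) - cone K δ m (s₀, z) * e (s₀, z) := by
    intro z
    apply intervalIntegral.integral_eq_sub_of_hasDerivAt (fun s _ => hder z s)
    exact (hDc.comp (by fun_prop)).intervalIntegrable _ _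
  have hint2 : ∀ s, Integrable (fun z : ℂ => cone K δ m (s, z) * e (s, z)) := fun s =>
    (hslice s e he).continuous.integrable_of_hasCompactSupport (hsupp s e)
  have hpos : ∀ s ∈ Icc s₀ s₁, 0 ≤ ∫ z, D (s, z) := by
    intro s hs
    have i1 := integral_fderiv_eq_zero (hslice s p hp) (hsupp s p) 1
    have i2 := integral_fderiv_eq_zero (hslice s q hq) (hsupp s q) I
    have c1 : ∀ (g : ℝ × ℂ → ℝ), ContDiff ℝ 1 g → ∀ v : ℂ, Integrable (fun z =>
        fderiv ℝ (fun z : ℂ => cone K δ m (s, z) * g (s, z)) z v) := by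
      intro g hg v
      have h1 : Continuous (fun z =>
          fderiv ℝ (fun z : ℂ => cone K δ m (s, z) * g (s, z)) z v) :=
        ((hslice s g hg).continuous_fderiv (by norm_num)).clm_apply continuous_const
      refine h1.integrable_of_hasCompactSupport ?_
      exact HasCompactSupport.intro
        (K := tsupport (fderiv ℝ (fun z : ℂ => cone K δ m (s, z) * g (s, z))))
        ((hsupp s g).fderiv (𝕜 := ℝ)).isCompact
        fun x hx => by rw [image_eq_zero_of_notMem_tsupport hx]; rfl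
    have hDi : Integrable (fun z => D (s, z)) := by
      refine (hDc.comp (by fun_prop : Continuous fun z : ℂ => ((s, z) : ℝ × ℂ))
        ).integrable_of_hasCompactSupport ?_
      refine HasCompactSupport.intro (isCompact_closedBall (0 : ℂ) (m + δ + K * s)) fun z hz => ?_
      rw [mem_closedBall_zero_iff, not_le] at hz
      exact hzero s z hz
    have hsum : ∫ z, D (s, z) = ∫ z, (D (s, z) -
        fderiv ℝ (fun z : ℂ => cone K δ m (s, z) * p (s, z)) z 1 -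
        fderiv ℝ (fun z : ℂ => cone K δ m (s, z) * q (s, z)) z I) := by
      have a1 := integral_sub (hDi.sub (c1 p hp 1)) (c1 q hq I)
      have a2 := integral_sub hDi (c1 p hp 1)
      simp only [Pi.sub_apply] at a1
      rw [a1, a2, i1, i2]
      ring
    rw [hsum]
    apply integral_nonneg
    intro z
    show 0 ≤ D (s, z) - _ - _
    rw [hsliced s p hp, hsliced s q hq]
    by_cases hz : ‖z‖ ≤ m + δ + K * s
    · obtain ⟨h1, h2, h3⟩ := H (s, z) hs hz
      have := cone_deriv (m := m) hδ (s, z) hK h1 h3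
      simp only [hD, h2]
      linarith
    · rw [not_le] at hz
      have hev : cone K δ m =ᶠ[𝓝 ((s, z) : ℝ × ℂ)] fun _ => 0 := by
        have : ∀ᶠ y : ℝ × ℂ in 𝓝 (s, z), m + δ + K * y.1 < ‖y.2‖ :=
          (isOpen_lt (by fun_prop) (by fun_prop)).mem_nhds hz
        filter_upwards [this] with y hy using cone_eq_zero hδ hy.le
      have h1 : cone K δ m (s, z) = 0 := hev.self_of_nhds
      have h2 : fderiv ℝ (cone K δ m) (s, z) = 0 := by rw [hev.fderiv_eq]; simp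
      rw [hzero s z hz, h1, h2]; simp
  have hfin : 0 ≤ ∫ s in s₀..s₁, ∫ z, D (s, z) := by
    apply intervalIntegral.integral_nonneg h01
    exact hpos
  rw [hswap] at hfin
  simp_rw [hftc] at hfin
  rw [integral_sub (hint2 s₁) (hint2 s₀)] at hfin
  linarith only [hfin]

end cone

end Vale.Agent.P278.Full
end
end

section

section

/-! Abstract continuation theorem (Theorem C of the proof of Beauville's splitting conjecture):
a class of maps of two complex variables with an identity theorem, for which maps on ellipsoids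
extend across the boundary points off the two axes, has the Hartogs type property. -/

open Set Filter Topology Metric

namespace Vale.Agent.P278

/-- A class of maps `ℂ × ℂ → X` on open sets, with gluing and an identity theorem. -/
structure FClass (X : Type*) where
  /-- the map `Ψ` belongs to the class on `Ω` -/
  F : (ℂ × ℂ → X) → Set (ℂ × ℂ) → Prop
  isOpen : ∀ {Ψ Ω}, F Ψ Ω → IsOpen Ω
  mono : ∀ {Ψ Ω Ω'}, F Ψ Ω → IsOpen Ω' → Ω' ⊆ Ω → F Ψ Ω'
  loc : ∀ {Ψ Ω}, IsOpen Ω → (∀ p ∈ Ω, ∃ N, p ∈ N ∧ F Ψ N) → F Ψ Ω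
  congr : ∀ {Ψ Ψ' Ω}, F Ψ Ω → EqOn Ψ Ψ' Ω → F Ψ' Ω
  ident : ∀ {Ψ Ψ' Ω p}, F Ψ Ω → F Ψ' Ω → IsPreconnected Ω → p ∈ Ω → Ψ =ᶠ[𝓝 p] Ψ' →
    EqOn Ψ Ψ' Ω

/-- The ellipsoid `|z - z₀|² + M |w - w₀|² < c`. -/
def ellipsoid (z₀ w₀ : ℂ) (M c : ℝ) : Set (ℂ × ℂ) :=
  {p | ‖p.1 - z₀‖ ^ 2 + M * ‖p.2 - w₀‖ ^ 2 < c}

/-- Extension across the boundary points of ellipsoids which are not on the two axes. -/
def FClass.EllExt {X : Type*} (C : FClass X) : Prop :=
  ∀ (Ψ : ℂ × ℂ → X) (z₀ w₀ z₂ w₂ : ℂ) (M c : ℝ), 0 < M → z₂ ≠ z₀ → w₂ ≠ w₀ →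
    ‖z₂ - z₀‖ ^ 2 + M * ‖w₂ - w₀‖ ^ 2 = c → C.F Ψ (ellipsoid z₀ w₀ M c) →
    ∃ (N : Set (ℂ × ℂ)) (Ψ' : ℂ × ℂ → X), (z₂, w₂) ∈ N ∧ C.F Ψ' N ∧
      EqOn Ψ Ψ' (N ∩ ellipsoid z₀ w₀ M c)

open Classical in
/-- Gluing a family of maps of the class. -/
theorem FClass.glueFamily {X : Type*} (C : FClass X) {ι : Type*} [Nonempty ι]
    (U : ι → Set (ℂ × ℂ))
    (Φ : ι → ℂ × ℂ → X) (hF : ∀ i, C.F (Φ i) (U i)) (hag : ∀ i j, EqOn (Φ i) (Φ j) (U i ∩ U j)) :
    ∃ Θ : ℂ × ℂ → X, C.F Θ (⋃ i, U i) ∧ ∀ i, EqOn Θ (Φ i) (U i) := by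
  let Θ : ℂ × ℂ → X := fun p => if h : ∃ i, p ∈ U i then Φ h.choose p else Φ (Classical.arbitrary ι) p
  have h1 : ∀ i, EqOn Θ (Φ i) (U i) := by
    intro i p hp
    have hex : ∃ i, p ∈ U i := ⟨i, hp⟩
    show (if h : ∃ i, p ∈ U i then Φ h.choose p else Φ (Classical.arbitrary ι) p) = Φ i p
    rw [dif_pos hex]
    exact hag _ _ ⟨hex.choose_spec, hp⟩
  refine ⟨Θ, C.loc (isOpen_iUnion fun i => C.isOpen (hF i)) fun p hp => ?_, h1⟩
  obtain ⟨i, hi⟩ := mem_iUnion.1 hp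
  exact ⟨U i, hi, C.congr (hF i) (h1 i).symm⟩

namespace ThmC

variable {X : Type*} (C : FClass X) (Ψ : ℂ × ℂ → X) (D : Set ℂ) (z₀ : ℂ) (R : ℝ)

/-- Admissible radii at `y`. -/
def Adm (y : ℂ) (ρ : ℝ) : Prop :=
  0 < ρ ∧ ρ ≤ R ∧ ∃ τ > 0, ball y τ ⊆ D ∧ ∃ Ψ' : ℂ × ℂ → X, C.F Ψ' (ball z₀ ρ ×ˢ ball y τ) ∧
    ∀ y' ∈ ball y τ, Ψ' =ᶠ[𝓝 (z₀, y')] Ψ

/-- The radius function. -/
noncomputable def rad (y : ℂ) : ℝ := sSup {ρ | Adm C Ψ D z₀ R y ρ}

variable {C Ψ D z₀ R}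

theorem Adm.mono {y : ℂ} {ρ ρ' : ℝ} (h : Adm C Ψ D z₀ R y ρ) (h0 : 0 < ρ') (hle : ρ' ≤ ρ) :
    Adm C Ψ D z₀ R y ρ' := by
  obtain ⟨h1, h2, τ, hτ, hD, Ψ', hF, he⟩ := h
  refine ⟨h0, hle.trans h2, τ, hτ, hD, Ψ', C.mono hF (isOpen_ball.prod isOpen_ball)
    (prod_mono (ball_subset_ball hle) subset_rfl), he⟩

theorem bddAbove (y : ℂ) : BddAbove {ρ | Adm C Ψ D z₀ R y ρ} := ⟨R, fun _ h => h.2.1⟩

theorem le_rad {y : ℂ} {ρ : ℝ} (h : Adm C Ψ D z₀ R y ρ) : ρ ≤ rad C Ψ D z₀ R y :=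
  le_csSup (bddAbove y) h

theorem adm_of_lt {y : ℂ} {ρ : ℝ} (h0 : 0 < ρ) (h : ρ < rad C Ψ D z₀ R y) :
    Adm C Ψ D z₀ R y ρ := by
  have hne : {ρ | Adm C Ψ D z₀ R y ρ}.Nonempty := by
    by_contra hne
    rw [Set.not_nonempty_iff_eq_empty] at hne
    rw [rad, hne, Real.sSup_empty] at h
    linarith
  obtain ⟨ρ', hρ', hlt⟩ := exists_lt_of_lt_csSup hne h
  exact Adm.mono hρ' h0 hlt.le

/-- Lower semicontinuity of the radius function. -/
theorem lsc {y : ℂ} {ρ : ℝ} (h : Adm C Ψ D z₀ R y ρ) :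
    ∃ τ > 0, ball y τ ⊆ D ∧ ∀ y' ∈ ball y τ, Adm C Ψ D z₀ R y' ρ := by
  obtain ⟨h1, h2, τ, hτ, hD, Ψ', hF, he⟩ := h
  refine ⟨τ, hτ, hD, fun y' hy' => ?_⟩
  obtain ⟨ε, hε, hsub⟩ := Metric.isOpen_iff.1 (isOpen_ball (x := y) (ε := τ)) y' hy'
  exact ⟨h1, h2, ε, hε, hsub.trans hD, Ψ',
    C.mono hF (isOpen_ball.prod isOpen_ball) (prod_mono subset_rfl hsub),
    fun y'' hy'' => he y'' (hsub hy'')⟩

/-- Two admissible extensions agree. -/
theorem agree {y₁ y₂ : ℂ} {ρ₁ ρ₂ τ₁ τ₂ : ℝ} {Ψ₁ Ψ₂ : ℂ × ℂ → X}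
    (h₁ : C.F Ψ₁ (ball z₀ ρ₁ ×ˢ ball y₁ τ₁)) (h₂ : C.F Ψ₂ (ball z₀ ρ₂ ×ˢ ball y₂ τ₂))
    (e₁ : ∀ y' ∈ ball y₁ τ₁, Ψ₁ =ᶠ[𝓝 (z₀, y')] Ψ) (e₂ : ∀ y' ∈ ball y₂ τ₂, Ψ₂ =ᶠ[𝓝 (z₀, y')] Ψ)
    {p : ℂ × ℂ} (hp₁ : p ∈ ball z₀ ρ₁ ×ˢ ball y₁ τ₁) (hp₂ : p ∈ ball z₀ ρ₂ ×ˢ ball y₂ τ₂) :
    Ψ₁ p = Ψ₂ p := by
  have hconv : IsPreconnected ((ball z₀ ρ₁ ∩ ball z₀ ρ₂) ×ˢ (ball y₁ τ₁ ∩ ball y₂ τ₂)) :=
    (((convex_ball z₀ ρ₁).inter (convex_ball z₀ ρ₂)).isPreconnected).prod
      (((convex_ball y₁ τ₁).inter (convex_ball y₂ τ₂)).isPreconnected)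
  have hopen : IsOpen ((ball z₀ ρ₁ ∩ ball z₀ ρ₂) ×ˢ (ball y₁ τ₁ ∩ ball y₂ τ₂)) :=
    (isOpen_ball.inter isOpen_ball).prod (isOpen_ball.inter isOpen_ball)
  have hρ₁ : 0 < ρ₁ := (dist_nonneg).trans_lt (mem_ball.1 hp₁.1)
  have hρ₂ : 0 < ρ₂ := (dist_nonneg).trans_lt (mem_ball.1 hp₂.1)
  have hz : (z₀, p.2) ∈ (ball z₀ ρ₁ ∩ ball z₀ ρ₂) ×ˢ (ball y₁ τ₁ ∩ ball y₂ τ₂) :=
    ⟨⟨mem_ball_self hρ₁, mem_ball_self hρ₂⟩, ⟨hp₁.2, hp₂.2⟩⟩
  have key := C.ident (C.mono h₁ hopen (prod_mono inter_subset_left inter_subset_left))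
    (C.mono h₂ hopen (prod_mono inter_subset_right inter_subset_right)) hconv hz
    ((e₁ _ hp₁.2).trans (e₂ _ hp₂.2).symm)
  exact key ⟨⟨hp₁.1, hp₂.1⟩, ⟨hp₁.2, hp₂.2⟩⟩

variable (C Ψ D z₀ R)

/-- The Hartogs domain. -/
def dom : Set (ℂ × ℂ) := {p | p.2 ∈ D ∧ ‖p.1 - z₀‖ < rad C Ψ D z₀ R p.2}

/-- A local extension at a point of the domain. -/
def LocExt (p : ℂ × ℂ) (q : ℝ × ℂ × ℝ × (ℂ × ℂ → X)) : Prop :=
  q.1 ≤ R ∧ ball q.2.1 q.2.2.1 ⊆ D ∧ C.F q.2.2.2 (ball z₀ q.1 ×ˢ ball q.2.1 q.2.2.1) ∧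
    (∀ y' ∈ ball q.2.1 q.2.2.1, q.2.2.2 =ᶠ[𝓝 (z₀, y')] Ψ) ∧
    p ∈ ball z₀ q.1 ×ˢ ball q.2.1 q.2.2.1

open Classical in
/-- The glued map. -/
noncomputable def glue (p : ℂ × ℂ) : X :=
  if h : ∃ q, LocExt C Ψ D z₀ R p q then h.choose.2.2.2 p else Ψ p

variable {C Ψ D z₀ R}

theorem glue_eq {ρ τ : ℝ} {y : ℂ} {Ψ' : ℂ × ℂ → X} (hρ : ρ ≤ R) (hD : ball y τ ⊆ D)
    (hF : C.F Ψ' (ball z₀ ρ ×ˢ ball y τ)) (he : ∀ y' ∈ ball y τ, Ψ' =ᶠ[𝓝 (z₀, y')] Ψ) :
    EqOn Ψ' (glue C Ψ D z₀ R) (ball z₀ ρ ×ˢ ball y τ) := by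
  intro p hp
  have hex : ∃ q, LocExt C Ψ D z₀ R p q := ⟨(ρ, y, τ, Ψ'), hρ, hD, hF, he, hp⟩
  have hch := hex.choose_spec
  rw [glue, dif_pos hex]
  exact agree hF hch.2.2.1 he hch.2.2.2.1 hp hch.2.2.2.2

theorem exists_locExt {p : ℂ × ℂ} (hp : p ∈ dom C Ψ D z₀ R) :
    ∃ (ρ τ : ℝ) (Ψ' : ℂ × ℂ → X), 0 < τ ∧ ρ ≤ R ∧ ball p.2 τ ⊆ D ∧ 
      C.F Ψ' (ball z₀ ρ ×ˢ ball p.2 τ) ∧
      (∀ y' ∈ ball p.2 τ, Ψ' =ᶠ[𝓝 (z₀, y')] Ψ) ∧ p ∈ ball z₀ ρ ×ˢ ball p.2 τ := by
  obtain ⟨ρ, h1, h2⟩ := exists_between hp.2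
  obtain ⟨h0, hR, τ, hτ, hD, Ψ', hF, he⟩ := adm_of_lt (lt_of_le_of_lt (norm_nonneg _) h1) h2
  refine ⟨ρ, τ, Ψ', hτ, hR, hD, hF, he, ?_, mem_ball_self hτ⟩
  rw [mem_ball, dist_eq_norm]; exact h1

theorem dom_open : IsOpen (dom C Ψ D z₀ R) := by
  rw [isOpen_iff_mem_nhds]
  intro p hp
  obtain ⟨ρ, τ, Ψ', hτ, hR, hD, hF, he, hmem⟩ := exists_locExt hp
  refine Filter.mem_of_superset ((isOpen_ball.prod isOpen_ball).mem_nhds hmem) ?_
  rintro q ⟨hq1, hq2⟩
  have h0 : 0 < ρ := dist_nonneg.trans_lt (mem_ball.1 hmem.1)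
  refine ⟨hD hq2, ?_⟩
  have hadm : Adm C Ψ D z₀ R q.2 ρ := by
    obtain ⟨τ', hτ', hsub⟩ := Metric.isOpen_iff.1 (isOpen_ball (x := p.2) (ε := τ)) q.2 hq2
    exact ⟨h0, hR, τ', hτ', hsub.trans hD, Ψ',
      C.mono hF (isOpen_ball.prod isOpen_ball) (prod_mono subset_rfl hsub),
      fun y' hy' => he y' (hsub hy')⟩
  rw [mem_ball, dist_eq_norm] at hq1
  exact hq1.trans_le (le_rad hadm)

theorem glue_F : C.F (glue C Ψ D z₀ R) (dom C Ψ D z₀ R) := by
  refine C.loc dom_open fun p hp => ?_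
  obtain ⟨ρ, τ, Ψ', hτ, hR, hD, hF, he, hmem⟩ := exists_locExt hp
  exact ⟨_, hmem, C.congr hF (glue_eq hR hD hF he)⟩

theorem glue_germ {y : ℂ} (hy : y ∈ D) (hpos : 0 < rad C Ψ D z₀ R y) :
    glue C Ψ D z₀ R =ᶠ[𝓝 (z₀, y)] Ψ := by
  have hp : ((z₀, y) : ℂ × ℂ) ∈ dom C Ψ D z₀ R := ⟨hy, by simpa using hpos⟩
  obtain ⟨ρ, τ, Ψ', hτ, hR, hD, hF, he, hmem⟩ := exists_locExt hp
  have h1 : glue C Ψ D z₀ R =ᶠ[𝓝 (z₀, y)] Ψ' := by
    filter_upwards [(isOpen_ball.prod isOpen_ball).mem_nhds hmem] with q hq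
    exact (glue_eq hR hD hF he hq).symm
  exact h1.trans (he y (mem_ball_self hτ))

/-- The radius cannot be attained at an interior touching point. -/
theorem no_touch (hE : C.EllExt)
    {w y₁ : ℂ} {M c : ℝ} (hM : 0 < M) (hy₁ : y₁ ∈ D) (hne : y₁ ≠ w)
    (hpos : 0 < rad C Ψ D z₀ R y₁) (hlt : rad C Ψ D z₀ R y₁ < R)
    (hc : rad C Ψ D z₀ R y₁ ^ 2 + M * ‖y₁ - w‖ ^ 2 = c)
    (hmin : ∀ y, M * ‖y - w‖ ^ 2 < c → y ∈ D ∧ c ≤ rad C Ψ D z₀ R y ^ 2 + M * ‖y - w‖ ^ 2)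
    (hnonneg : ∀ y, 0 ≤ rad C Ψ D z₀ R y) : False := by
  have : Nonempty X := ⟨Ψ (z₀, y₁)⟩
  set r := rad C Ψ D z₀ R with hr
  set G := glue C Ψ D z₀ R with hG
  -- the ellipsoid is contained in the domain
  have hsub : ellipsoid z₀ w M c ⊆ dom C Ψ D z₀ R := by
    rintro ⟨z, y⟩ hzy
    have hzy' : ‖z - z₀‖ ^ 2 + M * ‖y - w‖ ^ 2 < c := hzy
    have hy : M * ‖y - w‖ ^ 2 < c := by linarith only [sq_nonneg ‖z - z₀‖, hzy']
    obtain ⟨h1, h2⟩ := hmin y hy
    refine ⟨h1, ?_⟩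
    have : ‖z - z₀‖ ^ 2 < r y ^ 2 := by linarith
    exact lt_of_pow_lt_pow_left₀ 2 (hnonneg y) this
  have hopen : IsOpen (ellipsoid z₀ w M c) := by
    apply isOpen_lt _ continuous_const
    fun_prop
  have hFell : C.F G (ellipsoid z₀ w M c) := C.mono glue_F hopen hsub
  -- extension near all points of the circle
  have hext : ∀ z₂ ∈ sphere z₀ (r y₁), ∃ δ > 0, ∃ Ψ₂ : ℂ × ℂ → X, 
      C.F Ψ₂ (ball z₂ δ ×ˢ ball y₁ δ) ∧
        EqOn G Ψ₂ ((ball z₂ δ ×ˢ ball y₁ δ) ∩ ellipsoid z₀ w M c) := by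
    intro z₂ hz₂
    have hz2n : ‖z₂ - z₀‖ = r y₁ := by rw [← dist_eq_norm]; exact hz₂
    have hz2ne : z₂ ≠ z₀ := by
      intro h; rw [h, sub_self, norm_zero] at hz2n; linarith
    obtain ⟨N, Ψ', hN, hF, he⟩ := hE G z₀ w z₂ y₁ M c hM hz2ne hne (by rw [hz2n]; exact hc) hFell
    obtain ⟨δ, hδ, hball⟩ := Metric.isOpen_iff.1 (C.isOpen hF) _ hN
    have hsub' : ball z₂ δ ×ˢ ball y₁ δ ⊆ N := by
      rw [ball_prod_same]; exact hball
    exact ⟨δ, hδ, Ψ', C.mono hF (isOpen_ball.prod isOpen_ball) hsub',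
      he.mono (inter_subset_inter_left _ hsub')⟩
  -- a uniform size
  obtain ⟨η, hη, hunif⟩ : ∃ η > 0, ∀ z₂ ∈ sphere z₀ (r y₁), ∃ Ψ₂ : ℂ × ℂ → X,
      C.F Ψ₂ (ball z₂ η ×ˢ ball y₁ η) ∧
        EqOn G Ψ₂ ((ball z₂ η ×ˢ ball y₁ η) ∩ ellipsoid z₀ w M c) := by
    choose! δ hδ Ψ₂ hF₂ he₂ using hext
    obtain ⟨η, hη, hcov⟩ := lebesgue_number_lemma_of_metric
      (s := sphere z₀ (r y₁) ×ˢ ({y₁} : Set ℂ))
      (c := fun i : sphere z₀ (r y₁) => ball (i : ℂ) (δ i) ×ˢ ball y₁ (δ i))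
      ((isCompact_sphere z₀ (r y₁)).prod isCompact_singleton)
      (fun i => isOpen_ball.prod isOpen_ball)
      (by
        rintro ⟨z, y⟩ ⟨hz, hy⟩
        rw [mem_singleton_iff] at hy
        simp only at hy hz
        subst hy
        exact mem_iUnion.2 ⟨⟨z, hz⟩, mem_ball_self (hδ z hz), mem_ball_self (hδ z hz)⟩)
    refine ⟨η, hη, fun z₂ hz₂ => ?_⟩
    obtain ⟨i, hi⟩ := hcov (z₂, y₁) ⟨hz₂, rfl⟩
    rw [← ball_prod_same] at hi
    exact ⟨Ψ₂ i, C.mono (hF₂ i i.2) (isOpen_ball.prod isOpen_ball) hi,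
      (he₂ i i.2).mono (inter_subset_inter_left _ hi)⟩
  choose! Ψ₂ hF₂ he₂ using hunif
  -- choice of the inner radius
  obtain ⟨ρ₀, hρ₀, hρ₀'⟩ : ∃ ρ₀, max 0 (r y₁ - η / 2) < ρ₀ ∧ ρ₀ < r y₁ := by
    apply exists_between
    rw [max_lt_iff]; constructor <;> linarith
  rw [max_lt_iff] at hρ₀
  obtain ⟨τ₀, hτ₀, hτ₀D, hadm⟩ := lsc (adm_of_lt hρ₀.1 hρ₀')
  set τ := min τ₀ η with hτ
  have hτpos : 0 < τ := lt_min hτ₀ hη
  -- the family of pieces
  let U : Option (sphere z₀ (r y₁)) → Set (ℂ × ℂ) := fun o => match o with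
    | none => ball z₀ ρ₀ ×ˢ ball y₁ τ
    | some z₂ => ball (z₂ : ℂ) (η / 2) ×ˢ ball y₁ τ
  let Φ : Option (sphere z₀ (r y₁)) → ℂ × ℂ → X := fun o => match o with
    | none => G
    | some z₂ => Ψ₂ z₂
  have hbη : ball y₁ τ ⊆ ball y₁ η := ball_subset_ball (min_le_right _ _)
  have hFG : C.F G (ball z₀ ρ₀ ×ˢ ball y₁ τ) := by
    refine C.mono glue_F (isOpen_ball.prod isOpen_ball) ?_
    rintro ⟨z, y⟩ ⟨hz, hy⟩
    have hy' : y ∈ ball y₁ τ₀ := ball_subset_ball (min_le_left _ _) hy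
    refine ⟨hτ₀D hy', ?_⟩
    rw [mem_ball, dist_eq_norm] at hz
    exact lt_of_lt_of_le hz (le_rad (hadm y hy'))
  have hFU : ∀ o, C.F (Φ o) (U o) := by
    rintro (_ | z₂)
    · exact hFG
    · exact C.mono (hF₂ z₂ z₂.2) (isOpen_ball.prod isOpen_ball)
        (prod_mono (ball_subset_ball (by linarith)) hbη)
  have hell : ∀ z : ℂ, ‖z - z₀‖ < r y₁ → ((z, y₁) : ℂ × ℂ) ∈ ellipsoid z₀ w M c := by
    intro z hz
    show ‖z - z₀‖ ^ 2 + M * ‖y₁ - w‖ ^ 2 < c
    have : ‖z - z₀‖ ^ 2 < r y₁ ^ 2 := pow_lt_pow_left₀ hz (norm_nonneg _) two_ne_zero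
    linarith
  -- agreement between the central piece and the others
  have hag1 : ∀ z₂ : sphere z₀ (r y₁), EqOn G (Ψ₂ z₂)
      ((ball z₀ ρ₀ ∩ ball (z₂ : ℂ) η) ×ˢ ball y₁ τ) := by
    intro z₂
    have hz₂n : ‖(z₂ : ℂ) - z₀‖ = r y₁ := by rw [← dist_eq_norm]; exact z₂.2
    -- the point on the segment
    obtain ⟨s, hs1, hs2⟩ : ∃ s, max 0 (r y₁ - η) < s ∧ s < ρ₀ := by
      apply exists_between
      rw [max_lt_iff]; constructor <;> linarith
    rw [max_lt_iff] at hs1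
    set z' : ℂ := z₀ + ((s / r y₁ : ℝ) : ℂ) * ((z₂ : ℂ) - z₀) with hz'
    have hn1 : ‖z' - z₀‖ = s := by
      rw [hz', add_sub_cancel_left, norm_mul, hz₂n, Complex.norm_real, Real.norm_eq_abs,
        abs_of_pos (div_pos hs1.1 hpos)]
      field_simp
    have hn2 : ‖z' - (z₂ : ℂ)‖ = r y₁ - s := by
      have : z' - (z₂ : ℂ) = -(((1 - s / r y₁ : ℝ) : ℂ) * ((z₂ : ℂ) - z₀)) := by
        rw [hz']; push_cast; ring
      rw [this, norm_neg, norm_mul, hz₂n, Complex.norm_real, Real.norm_eq_abs, abs_of_pos]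
      · field_simp
      · rw [sub_pos, div_lt_one hpos]; linarith only [hs2, hρ₀']
    have hmem : ((z', y₁) : ℂ × ℂ) ∈ (ball z₀ ρ₀ ∩ ball (z₂ : ℂ) η) ×ˢ ball y₁ τ := by
      refine ⟨⟨?_, ?_⟩, mem_ball_self hτpos⟩
      · rw [mem_ball, dist_eq_norm, hn1]; exact hs2
      · rw [mem_ball, dist_eq_norm, hn2]; linarith
    have hev : G =ᶠ[𝓝 (z', y₁)] Ψ₂ z₂ := by
      have h1 : (ball (z₂ : ℂ) η ×ˢ ball y₁ η) ∩ ellipsoid z₀ w M c ∈ 𝓝 (z', y₁) := by
        refine ((isOpen_ball.prod isOpen_ball).inter hopen).mem_nhds ⟨⟨hmem.1.2, hbη hmem.2⟩, ?_⟩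
        exact hell z' (by rw [hn1]; linarith)
      filter_upwards [h1] with q hq
      exact he₂ z₂ z₂.2 hq
    exact C.ident (C.mono hFG ((isOpen_ball.inter isOpen_ball).prod isOpen_ball)
        (prod_mono inter_subset_left subset_rfl))
      (C.mono (hF₂ z₂ z₂.2) ((isOpen_ball.inter isOpen_ball).prod isOpen_ball)
        (prod_mono inter_subset_right hbη))
      (((convex_ball _ _).inter (convex_ball _ _)).isPreconnected.prod
        (convex_ball _ _).isPreconnected) hmem hev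
  -- agreement between two boundary pieces
  have hag2 : ∀ z₂ z₃ : sphere z₀ (r y₁), EqOn (Ψ₂ z₂) (Ψ₂ z₃)
      ((ball (z₂ : ℂ) (η / 2) ∩ ball (z₃ : ℂ) (η / 2)) ×ˢ ball y₁ τ) := by
    intro z₂ z₃ q hq
    have hz₂n : ‖(z₂ : ℂ) - z₀‖ = r y₁ := by rw [← dist_eq_norm]; exact z₂.2
    have hz₃n : ‖(z₃ : ℂ) - z₀‖ = r y₁ := by rw [← dist_eq_norm]; exact z₃.2
    have hd : ‖(z₂ : ℂ) - z₃‖ < η := by
      rw [← dist_eq_norm]
      calc dist (z₂ : ℂ) z₃ ≤ dist (z₂ : ℂ) q.1 + dist q.1 (z₃ : ℂ) := dist_triangle _ _ _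
        _ < η / 2 + η / 2 := by
            have h7 := mem_ball.1 hq.1.1
            have h8 := mem_ball.1 hq.1.2
            rw [dist_comm (z₂ : ℂ) q.1]
            exact add_lt_add h7 h8
        _ = η := by ring
    set t : ℝ := 1 - min (1 / 2) (η / (2 * r y₁)) with ht
    have hm0 : 0 < min (1 / 2) (η / (2 * r y₁)) := lt_min (by norm_num) (by positivity)
    have ht1 : t < 1 := by linarith only [hm0]
    have ht0 : 0 ≤ t := by
      have := min_le_left (1 / 2 : ℝ) (η / (2 * r y₁)); linarith only [this, ht1]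
    have htη : (1 - t) * r y₁ ≤ η / 2 := by
      have h := min_le_right (1 / 2 : ℝ) (η / (2 * r y₁))
      have : (1 - t) * r y₁ = min (1 / 2) (η / (2 * r y₁)) * r y₁ := by rw [ht]; ring
      rw [this]
      calc min (1 / 2) (η / (2 * r y₁)) * r y₁ ≤ (η / (2 * r y₁)) * r y₁ :=
            mul_le_mul_of_nonneg_right h hpos.le
        _ = η / 2 := by field_simp
    set m : ℂ := ((z₂ : ℂ) + z₃) / 2 with hm
    set z' : ℂ := z₀ + (t : ℂ) * (m - z₀) with hz'
    have hmn : ‖m - z₀‖ ≤ r y₁ := by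
      have : m - z₀ = (((z₂ : ℂ) - z₀) + ((z₃ : ℂ) - z₀)) / 2 := by rw [hm]; ring
      rw [this, norm_div]
      have h2 : ‖(2 : ℂ)‖ = 2 := by simp
      rw [h2]
      have := norm_add_le ((z₂ : ℂ) - z₀) ((z₃ : ℂ) - z₀)
      rw [hz₂n, hz₃n] at this
      linarith only [this]
    have hn1 : ‖z' - z₀‖ < r y₁ := by
      rw [hz', add_sub_cancel_left, norm_mul, Complex.norm_real, Real.norm_eq_abs,
        abs_of_nonneg ht0]
      (by_contra nlg; linarith only [nlg, mul_nonneg (sub_nonneg.2 ht0) (sub_nonneg.2 hmn), mul_pos (sub_pos.2 hpos) (sub_pos.2 ht1), mul_nonneg (sub_nonneg.2 (not_lt.1 nlg)) (sub_nonneg.2 ht0), mul_nonneg (sub_nonneg.2 (not_lt.1 nlg)) (le_of_lt (sub_pos.2 ht1))])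
    have hclose : ‖z' - m‖ ≤ η / 2 := by
      have : z' - m = -(((1 - t : ℝ) : ℂ) * (m - z₀)) := by rw [hz']; push_cast; ring
      rw [this, norm_neg, norm_mul, Complex.norm_real, Real.norm_eq_abs,
        abs_of_nonneg (by linarith : (0 : ℝ) ≤ 1 - t)]
      refine le_trans ?_ htη
      exact mul_le_mul_of_nonneg_left hmn (by linarith only [ht1])
    have hn2 : ‖z' - (z₂ : ℂ)‖ < η := by
      have h3 : ‖m - (z₂ : ℂ)‖ < η / 2 := by
        have : m - (z₂ : ℂ) = -(((z₂ : ℂ) - z₃) / 2) := by rw [hm]; ring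
        rw [this, norm_neg, norm_div]
        have h2 : ‖(2 : ℂ)‖ = 2 := by simp
        rw [h2]; linarith only [hd]
      have : z' - (z₂ : ℂ) = (z' - m) + (m - z₂) := by ring
      rw [this]
      linarith only [norm_add_le (z' - m) (m - (z₂ : ℂ)), h3, hclose]
    have hn3 : ‖z' - (z₃ : ℂ)‖ < η := by
      have h3 : ‖m - (z₃ : ℂ)‖ < η / 2 := by
        have : m - (z₃ : ℂ) = ((z₂ : ℂ) - z₃) / 2 := by rw [hm]; ring
        rw [this, norm_div]
        have h2 : ‖(2 : ℂ)‖ = 2 := by simp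
        rw [h2]; linarith only [hd]
      have : z' - (z₃ : ℂ) = (z' - m) + (m - z₃) := by ring
      rw [this]
      linarith only [norm_add_le (z' - m) (m - (z₃ : ℂ)), h3, hclose]
    have hmem : ((z', y₁) : ℂ × ℂ) ∈ (ball (z₂ : ℂ) η ∩ ball (z₃ : ℂ) η) ×ˢ ball y₁ τ := by
      refine ⟨⟨?_, ?_⟩, mem_ball_self hτpos⟩
      · rw [mem_ball, dist_eq_norm]; exact hn2
      · rw [mem_ball, dist_eq_norm]; exact hn3
    have hev : Ψ₂ z₂ =ᶠ[𝓝 (z', y₁)] Ψ₂ z₃ := by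
      have h1 : (ball (z₂ : ℂ) η ×ˢ ball y₁ η) ∩ ellipsoid z₀ w M c ∈ 𝓝 (z', y₁) :=
        ((isOpen_ball.prod isOpen_ball).inter hopen).mem_nhds
          ⟨⟨hmem.1.1, hbη hmem.2⟩, hell z' hn1⟩
      have h2 : (ball (z₃ : ℂ) η ×ˢ ball y₁ η) ∩ ellipsoid z₀ w M c ∈ 𝓝 (z', y₁) :=
        ((isOpen_ball.prod isOpen_ball).inter hopen).mem_nhds
          ⟨⟨hmem.1.2, hbη hmem.2⟩, hell z' hn1⟩
      filter_upwards [h1, h2] with q hq hq'
      exact (he₂ z₂ z₂.2 hq).symm.trans (he₂ z₃ z₃.2 hq')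
    have key := C.ident (C.mono (hF₂ z₂ z₂.2) ((isOpen_ball.inter isOpen_ball).prod isOpen_ball)
        (prod_mono inter_subset_left hbη))
      (C.mono (hF₂ z₃ z₃.2) ((isOpen_ball.inter isOpen_ball).prod isOpen_ball)
        (prod_mono inter_subset_right hbη))
      (((convex_ball _ _).inter (convex_ball _ _)).isPreconnected.prod
        (convex_ball _ _).isPreconnected) hmem hev
    exact key ⟨⟨ball_subset_ball (by linarith) hq.1.1, ball_subset_ball (by linarith) hq.1.2⟩, hq.2⟩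
  have hag : ∀ o o', EqOn (Φ o) (Φ o') (U o ∩ U o') := by
    rintro (_ | z₂) (_ | z₃) q ⟨hq, hq'⟩
    · rfl
    · exact hag1 z₃ ⟨⟨hq.1, ball_subset_ball (by linarith) hq'.1⟩, hq.2⟩
    · exact (hag1 z₂ ⟨⟨hq'.1, ball_subset_ball (by linarith) hq.1⟩, hq.2⟩).symm
    · exact hag2 z₂ z₃ ⟨⟨hq.1, hq'.1⟩, hq.2⟩
  obtain ⟨Θ, hΘF, hΘ⟩ := C.glueFamily U Φ hFU hag
  -- the new radius
  set ρ₁ := min R (r y₁ + η / 2) with hρ₁
  have hρ₁r : r y₁ < ρ₁ := lt_min hlt (by linarith)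
  have hcover : ball z₀ ρ₁ ×ˢ ball y₁ τ ⊆ ⋃ o, U o := by
    rintro ⟨z, y⟩ ⟨hz, hy⟩
    rw [mem_ball, dist_eq_norm] at hz
    by_cases h : ‖z - z₀‖ < ρ₀
    · exact mem_iUnion.2 ⟨none, by rw [mem_ball, dist_eq_norm]; exact h, hy⟩
    · push Not at h
      have hzpos : 0 < ‖z - z₀‖ := lt_of_lt_of_le hρ₀.1 h
      set z₂ : ℂ := z₀ + ((r y₁ / ‖z - z₀‖ : ℝ) : ℂ) * (z - z₀) with hz₂
      have hz₂s : z₂ ∈ sphere z₀ (r y₁) := by
        rw [mem_sphere, dist_eq_norm, hz₂, add_sub_cancel_left, norm_mul, Complex.norm_real,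
          Real.norm_eq_abs, abs_of_pos (div_pos hpos hzpos)]
        field_simp
      refine mem_iUnion.2 ⟨some ⟨z₂, hz₂s⟩, ?_, hy⟩
      have : z - z₂ = ((1 - r y₁ / ‖z - z₀‖ : ℝ) : ℂ) * (z - z₀) := by
        rw [hz₂]; push_cast; ring
      show z ∈ ball z₂ (η / 2)
      rw [mem_ball, dist_eq_norm, this, norm_mul, Complex.norm_real, Real.norm_eq_abs,
        ← abs_of_pos hzpos, ← abs_mul, abs_of_pos hzpos]
      have : (1 - r y₁ / ‖z - z₀‖) * ‖z - z₀‖ = ‖z - z₀‖ - r y₁ := by field_simp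
      rw [this, abs_lt]
      have h5 : ρ₁ ≤ r y₁ + η / 2 := min_le_right _ _
      constructor <;> linarith
  have hadm₁ : Adm C Ψ D z₀ R y₁ ρ₁ := by
    refine ⟨by linarith, min_le_left _ _, τ, hτpos,
      (ball_subset_ball (min_le_left _ _)).trans hτ₀D, Θ,
      C.mono hΘF (isOpen_ball.prod isOpen_ball) hcover, fun y' hy' => ?_⟩
    have h1 : Θ =ᶠ[𝓝 (z₀, y')] G := by
      filter_upwards [(isOpen_ball.prod isOpen_ball).mem_nhds
        (⟨mem_ball_self hρ₀.1, hy'⟩ : ((z₀, y') : ℂ × ℂ) ∈ ball z₀ ρ₀ ×ˢ ball y₁ τ)] with q hq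
      exact hΘ none hq
    have hy'' : y' ∈ ball y₁ τ₀ := ball_subset_ball (min_le_left _ _) hy'
    exact h1.trans (glue_germ (hτ₀D hy'') (lt_of_lt_of_le hρ₀.1 (le_rad (hadm y' hy''))))
  have := le_rad hadm₁
  linarith

end ThmC

open ThmC in
/-- **Theorem C.** A map of the class near `(D(z₀,R) × {b}) ∪ ({z₀} × D)`, with `D` open and
connected, extends to `D(z₀,R) × D`. -/
theorem FClass.extend {X : Type*} (C : FClass X) (hE : C.EllExt) {Ψ : ℂ × ℂ → X} {D : Set ℂ}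
    {z₀ b : ℂ} {R : ℝ} (hR : 0 < R) (hDo : IsOpen D) (hDc : IsPreconnected D) (hb : b ∈ D)
    {Ω : Set (ℂ × ℂ)} (hF : C.F Ψ Ω) (h1 : ball z₀ R ×ˢ {b} ⊆ Ω) (h2 : {z₀} ×ˢ D ⊆ Ω) :
    ∃ Ψ' : ℂ × ℂ → X, C.F Ψ' (ball z₀ R ×ˢ D) ∧ (∀ y ∈ D, Ψ' =ᶠ[𝓝 (z₀, y)] Ψ) ∧
      ∀ z ∈ ball z₀ R, Ψ' =ᶠ[𝓝 (z, b)] Ψ := by
  have hΩ := C.isOpen hF
  -- positivity of the radius
  have hpos : ∀ y ∈ D, ∃ ρ, Adm C Ψ D z₀ R y ρ := by
    intro y hy
    obtain ⟨δ, hδ, hball⟩ := Metric.isOpen_iff.1 hΩ (z₀, y) (h2 ⟨rfl, hy⟩)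
    obtain ⟨δ', hδ', hball'⟩ := Metric.isOpen_iff.1 hDo y hy
    refine ⟨min R δ, lt_min hR hδ, min_le_left _ _, min δ δ', lt_min hδ hδ',
      (ball_subset_ball (min_le_right _ _)).trans hball', Ψ, ?_, fun y' _ => Filter.EventuallyEq.rfl⟩
    refine C.mono hF (isOpen_ball.prod isOpen_ball) (Subset.trans ?_ hball)
    rw [← ball_prod_same]
    exact prod_mono (ball_subset_ball (min_le_right _ _)) (ball_subset_ball (min_le_left _ _))
  have hrpos : ∀ y ∈ D, 0 < rad C Ψ D z₀ R y := by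
    intro y hy
    obtain ⟨ρ, hρ⟩ := hpos y hy
    exact hρ.1.trans_le (le_rad hρ)
  have hrle : ∀ y, rad C Ψ D z₀ R y ≤ R := by
    intro y
    by_cases hne : {ρ | Adm C Ψ D z₀ R y ρ}.Nonempty
    · exact csSup_le hne fun ρ hρ => hρ.2.1
    · rw [rad, Set.not_nonempty_iff_eq_empty.1 hne, Real.sSup_empty]; exact hR.le
  have hnonneg : ∀ y, 0 ≤ rad C Ψ D z₀ R y := by
    intro y
    exact Real.sSup_nonneg fun ρ hρ => hρ.1.le
  -- admissibility at `b`, with `Ψ` itself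
  have hb' : ∀ ρ, 0 < ρ → ρ < R → ∃ τ > 0, ball b τ ⊆ D ∧ ball z₀ ρ ×ˢ ball b τ ⊆ Ω := by
    intro ρ h0 hρ
    obtain ⟨U, V, hU, hV, hKU, hbV, hUV⟩ := generalized_tube_lemma (isCompact_closedBall z₀ ρ)
      (isCompact_singleton (x := b)) hΩ
      (Subset.trans (prod_mono (closedBall_subset_ball hρ) subset_rfl) h1)
    obtain ⟨τ, hτ, hτV⟩ := Metric.isOpen_iff.1 hV b (hbV rfl)
    obtain ⟨τ', hτ', hτD⟩ := Metric.isOpen_iff.1 hDo b hb
    refine ⟨min τ τ', lt_min hτ hτ', (ball_subset_ball (min_le_right _ _)).trans hτD,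
      Subset.trans (prod_mono (ball_subset_closedBall.trans hKU)
        ((ball_subset_ball (min_le_left _ _)).trans hτV)) hUV⟩
  have hadmb : ∀ ρ, 0 < ρ → ρ < R → Adm C Ψ D z₀ R b ρ := by
    intro ρ h0 hρ
    obtain ⟨τ, hτ, hD, hsub⟩ := hb' ρ h0 hρ
    exact ⟨h0, hρ.le, τ, hτ, hD, Ψ, C.mono hF (isOpen_ball.prod isOpen_ball) hsub,
      fun y' _ => Filter.EventuallyEq.rfl⟩
  have hrb : rad C Ψ D z₀ R b = R := by
    refine le_antisymm (hrle b) (le_of_forall_lt fun ρ hρ => ?_)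
    obtain ⟨ρ', h3, h4⟩ := exists_between (max_lt hρ hR)
    exact (le_max_left _ _).trans_lt (h3.trans_le (le_rad (hadmb ρ' ((le_max_right _ _).trans_lt h3) h4)))
  -- the key inequality
  have key : ∀ y₀ ∈ D, ∃ τ > 0, ball y₀ τ ⊆ D ∧ ∃ M, 0 < M ∧ ∀ w ∈ ball y₀ τ, ∀ y ∈ ball y₀ τ,
      rad C Ψ D z₀ R w ^ 2 ≤ rad C Ψ D z₀ R y ^ 2 + M * ‖y - w‖ ^ 2 := by
    intro y₀ hy₀
    obtain ⟨τ', hτ', hτD⟩ := Metric.isOpen_iff.1 hDo y₀ hy₀
    set τ := τ' / 4 with hτ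
    have hτpos : 0 < τ := by positivity
    have hclD : closedBall y₀ (2 * τ) ⊆ D :=
      (closedBall_subset_ball (by linarith)).trans hτD
    refine ⟨τ, hτpos, (ball_subset_ball (by linarith)).trans hτD, (R / τ) ^ 2 + 1,
      by positivity, fun w hw y hy => ?_⟩
    set M := (R / τ) ^ 2 + 1 with hM
    have hMpos : 0 < M := by positivity
    have hMτ : R ^ 2 < M * τ ^ 2 := by
      have : M * τ ^ 2 = R ^ 2 + τ ^ 2 := by rw [hM]; field_simp
      rw [this]; (by_contra nlg; linarith only [nlg, mul_eq_zero_of_left (sub_eq_zero.2 this) (M - (0)), mul_pos (sub_pos.2 hτpos) (sub_pos.2 hτpos), mul_pos (sub_pos.2 hR) (sub_pos.2 hR), mul_nonneg (sub_nonneg.2 (not_lt.1 nlg)) (le_of_lt (sub_pos.2 hMpos)), mul_eq_zero_of_left (sub_eq_zero.2 this) (0 - (0 - (1 * (R / τ)) ^ 2))])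
    -- the minimum is attained
    have hlsc : LowerSemicontinuousOn
        (fun y => rad C Ψ D z₀ R y ^ 2 + M * ‖y - w‖ ^ 2) (closedBall y₀ (2 * τ)) := by
      apply LowerSemicontinuousOn.add
      · intro y hy a ha
        -- lower semicontinuity of the square
        have hyD := hclD hy
        have : ∃ ρ, 0 < ρ ∧ ρ < rad C Ψ D z₀ R y ∧ a < ρ ^ 2 := by
          by_cases ha0 : a < 0
          · obtain ⟨ρ, h3, h4⟩ := exists_between (hrpos y hyD)
            exact ⟨ρ, h3, h4, ha0.trans (by positivity)⟩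
          · push Not at ha0
            have h3 : Real.sqrt a < rad C Ψ D z₀ R y := by
              rw [Real.sqrt_lt' (hrpos y hyD)]; exact ha
            obtain ⟨ρ, h4, h5⟩ := exists_between h3
            refine ⟨ρ, (Real.sqrt_nonneg a).trans_lt h4, h5, ?_⟩
            rw [← Real.sq_sqrt ha0]
            exact pow_lt_pow_left₀ h4 (Real.sqrt_nonneg a) two_ne_zero
        obtain ⟨ρ, h3, h4, h5⟩ := this
        obtain ⟨τ₁, hτ₁, -, hadm⟩ := lsc (adm_of_lt h3 h4)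
        apply Filter.Eventually.filter_mono nhdsWithin_le_nhds
        filter_upwards [ball_mem_nhds y hτ₁] with y' hy'
        exact h5.trans_le (pow_le_pow_left₀ h3.le (le_rad (hadm y' hy')) 2)
      · apply ContinuousOn.lowerSemicontinuousOn
        fun_prop
    obtain ⟨y₁, hy₁, hmin⟩ := hlsc.exists_isMinOn ⟨w, ball_subset_closedBall
      (ball_subset_ball (by linarith) hw)⟩ (isCompact_closedBall y₀ (2 * τ))
    have hwcl : w ∈ closedBall y₀ (2 * τ) := ball_subset_closedBall (ball_subset_ball (by linarith) hw)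
    have hmin' : ∀ y ∈ closedBall y₀ (2 * τ), rad C Ψ D z₀ R y₁ ^ 2 + M * ‖y₁ - w‖ ^ 2 ≤
        rad C Ψ D z₀ R y ^ 2 + M * ‖y - w‖ ^ 2 := fun y hy => hmin hy
    have hminw := hmin' w hwcl
    rw [sub_self, norm_zero] at hminw
    have hycl : y ∈ closedBall y₀ (2 * τ) := ball_subset_closedBall (ball_subset_ball (by linarith) hy)
    by_cases hne : y₁ = w
    · have := hmin' y hycl
      rw [hne, sub_self, norm_zero] at this
      linarith
    · exfalso
      have hn : 0 < ‖y₁ - w‖ := norm_pos_iff.2 (sub_ne_zero.2 hne)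
      have hlt2 : rad C Ψ D z₀ R y₁ ^ 2 < rad C Ψ D z₀ R w ^ 2 := by
        have : 0 < M * ‖y₁ - w‖ ^ 2 := by positivity
        linarith
      have hlt : rad C Ψ D z₀ R y₁ < R :=
        (lt_of_pow_lt_pow_left₀ 2 (hnonneg w) hlt2).trans_le (hrle w)
      have hy₁D := hclD hy₁
      have hwD := hclD hwcl
      have hcle : rad C Ψ D z₀ R y₁ ^ 2 + M * ‖y₁ - w‖ ^ 2 ≤ R ^ 2 := by
        have := pow_le_pow_left₀ (hnonneg w) (hrle w) 2
        linarith
      refine no_touch hE (c := rad C Ψ D z₀ R y₁ ^ 2 + M * ‖y₁ - w‖ ^ 2) hMpos hy₁D hne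
        (hrpos y₁ hy₁D) hlt rfl (fun y' hy' => ?_) hnonneg
      have h6 : ‖y' - w‖ < τ := by
        have : M * ‖y' - w‖ ^ 2 < M * τ ^ 2 := by linarith
        have := lt_of_mul_lt_mul_left this hMpos.le
        exact lt_of_pow_lt_pow_left₀ 2 hτpos.le this
      have hy'cl : y' ∈ closedBall y₀ (2 * τ) := by
        rw [mem_closedBall, dist_eq_norm]
        have h7 : ‖w - y₀‖ < τ := by rw [← dist_eq_norm]; exact hw
        have : y' - y₀ = (y' - w) + (w - y₀) := by ring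
        rw [this]
        linarith [norm_add_le (y' - w) (w - y₀)]
      exact ⟨hclD hy'cl, hmin' y' hy'cl⟩
  -- the radius is constant
  have hderiv : ∀ y₀ ∈ D, HasFDerivAt (fun y => rad C Ψ D z₀ R y ^ 2) (0 : ℂ →L[ℝ] ℝ) y₀ := by
    intro y₀ hy₀
    obtain ⟨τ, hτ, hτD, M, hM, hkey⟩ := key y₀ hy₀
    rw [hasFDerivAt_iff_isLittleO]
    have hO : (fun y => rad C Ψ D z₀ R y ^ 2 - rad C Ψ D z₀ R y₀ ^ 2 - (0 : ℂ →L[ℝ] ℝ) (y - y₀))
        =O[𝓝 y₀] fun y => ‖y - y₀‖ ^ 2 := by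
      apply Asymptotics.IsBigO.of_bound M
      filter_upwards [ball_mem_nhds y₀ hτ] with y hy
      have h3 := hkey y hy y₀ (mem_ball_self hτ)
      have h4 := hkey y₀ (mem_ball_self hτ) y hy
      rw [norm_sub_rev] at h3
      simp only [zero_apply, sub_zero, Real.norm_eq_abs]
      rw [abs_of_nonneg (sq_nonneg ‖y - y₀‖), abs_le]
      constructor <;> linarith
    refine hO.trans_isLittleO ?_
    have : (fun y => ‖y - y₀‖ ^ 2) = fun y : ℂ => ‖y - y₀‖ * ‖y - y₀‖ := by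
      funext y; ring
    rw [this]
    have h5 : (fun y : ℂ => ‖y - y₀‖ * ‖y - y₀‖) =o[𝓝 y₀] fun y : ℂ => 1 * ‖y - y₀‖ := by
      apply Asymptotics.IsLittleO.mul_isBigO _ (Asymptotics.isBigO_refl _ _)
      rw [Asymptotics.isLittleO_one_iff]
      have : Tendsto (fun y : ℂ => ‖y - y₀‖) (𝓝 y₀) (𝓝 ‖y₀ - y₀‖) := by
        apply Continuous.tendsto; fun_prop
      simpa using this
    simp only [one_mul] at h5
    exact (Asymptotics.isLittleO_norm_right.1 h5)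
  have hconst : ∀ y ∈ D, rad C Ψ D z₀ R y = R := by
    intro y hy
    have h3 := hDo.is_const_of_fderiv_eq_zero (𝕜 := ℝ) hDc
      (fun y hy => (hderiv y hy).differentiableAt.differentiableWithinAt)
      (fun y hy => (hderiv y hy).fderiv) hy hb
    rw [hrb] at h3
    exact (pow_left_inj₀ (hnonneg y) hR.le two_ne_zero).1 h3
  have hdom : ball z₀ R ×ˢ D ⊆ dom C Ψ D z₀ R := by
    rintro ⟨z, y⟩ ⟨hz, hy⟩
    refine ⟨hy, ?_⟩
    rw [hconst y hy, ← dist_eq_norm]; exact hz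
  refine ⟨glue C Ψ D z₀ R, C.mono glue_F (isOpen_ball.prod hDo) hdom,
    fun y hy => glue_germ hy (hrpos y hy), fun z hz => ?_⟩
  rw [mem_ball] at hz
  obtain ⟨ρ, h3, h4⟩ := exists_between hz
  have h0 : 0 < ρ := dist_nonneg.trans_lt h3
  obtain ⟨τ, hτ, hD, hsub⟩ := hb' ρ h0 h4
  filter_upwards [(isOpen_ball.prod isOpen_ball).mem_nhds
    (⟨mem_ball.2 h3, mem_ball_self hτ⟩ : ((z, b) : ℂ × ℂ) ∈ ball z₀ ρ ×ˢ ball b τ)] with q hq
  exact (glue_eq h4.le hD (C.mono hF (isOpen_ball.prod isOpen_ball) hsub)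
    (fun y' _ => Filter.EventuallyEq.rfl) hq).symm

end Vale.Agent.P278
end
end

section

section

/-! Continuation of a map of the class along a horizontal disc (abstract form). -/

open Set Filter Topology Metric

namespace Vale.Agent.P278

namespace Tube

variable {X : Type*}

/-- Gluing around a circle. -/
theorem circleGlue (C : FClass X) {G : ℂ × ℂ → X} {l : ℂ → X} {z₀ w₀ : ℂ} {r ρ₀ τ₀ η : ℝ}
    (hr : 0 < r) (hρ₀ : 0 < ρ₀) (hρr : ρ₀ ≤ r) (hρη : r - η / 4 < ρ₀) (hτ₀ : 0 < τ₀) (hη : 0 < η)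
    (hG : C.F G (ball z₀ ρ₀ ×ˢ ball w₀ τ₀)) (hGl : ∀ z ∈ ball z₀ ρ₀, G (z, w₀) = l z)
    (hext : ∀ z₂ ∈ sphere z₀ r, ∃ τ > 0, ∃ Ψ₂ : ℂ × ℂ → X, C.F Ψ₂ (ball z₂ η ×ˢ ball w₀ τ) ∧
      (∀ z ∈ ball z₂ η, Ψ₂ (z, w₀) = l z) ∧
      ∃ z' ∈ ball z₂ η ∩ ball z₀ ρ₀, Ψ₂ =ᶠ[𝓝 (z', w₀)] G) :
    ∃ Θ : ℂ × ℂ → X, ∃ τ > 0, C.F Θ (ball z₀ (r + η / 4) ×ˢ ball w₀ τ) ∧
      (∀ z ∈ ball z₀ (r + η / 4), Θ (z, w₀) = l z) ∧
      ∀ z ∈ ball z₀ ρ₀, Θ =ᶠ[𝓝 (z, w₀)] G := by
  have : Nonempty X := ⟨G (z₀, w₀)⟩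
  choose! τ₂ hτ₂ Ψ₂ hF₂ hl₂ he₂ using hext
  -- agreement with `G`
  have hag1 : ∀ z₂ ∈ sphere z₀ r, EqOn G (Ψ₂ z₂)
      ((ball z₀ ρ₀ ∩ ball z₂ η) ×ˢ (ball w₀ τ₀ ∩ ball w₀ (τ₂ z₂))) := by
    intro z₂ hz₂
    obtain ⟨z', ⟨h1, h2⟩, h3⟩ := he₂ z₂ hz₂
    exact C.ident (C.mono hG ((isOpen_ball.inter isOpen_ball).prod (isOpen_ball.inter isOpen_ball))
        (prod_mono inter_subset_left inter_subset_left))
      (C.mono (hF₂ z₂ hz₂)
        ((isOpen_ball.inter isOpen_ball).prod (isOpen_ball.inter isOpen_ball))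
        (prod_mono inter_subset_right inter_subset_right))
      (((convex_ball _ _).inter (convex_ball _ _)).isPreconnected.prod
        ((convex_ball _ _).inter (convex_ball _ _)).isPreconnected)
      ⟨⟨h2, h1⟩, mem_ball_self hτ₀, mem_ball_self (hτ₂ z₂ hz₂)⟩ h3.symm
  -- agreement between two boundary pieces
  have hag2 : ∀ z₂ ∈ sphere z₀ r, ∀ z₃ ∈ sphere z₀ r, EqOn (Ψ₂ z₂) (Ψ₂ z₃)
      ((ball z₂ (η / 2) ∩ ball z₃ (η / 2)) ×ˢ (ball w₀ (τ₂ z₂) ∩ ball w₀ (τ₂ z₃))) := by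
    intro z₂ hz₂ z₃ hz₃ q hq
    have hz₂n : ‖z₂ - z₀‖ = r := by rw [← dist_eq_norm]; exact hz₂
    have hz₃n : ‖z₃ - z₀‖ = r := by rw [← dist_eq_norm]; exact hz₃
    have hd : ‖z₂ - z₃‖ < η := by
      rw [← dist_eq_norm]
      calc dist z₂ z₃ ≤ dist z₂ q.1 + dist q.1 z₃ := dist_triangle _ _ _
        _ < η / 2 + η / 2 := by
            have h7 := mem_ball.1 hq.1.1
            have h8 := mem_ball.1 hq.1.2
            rw [dist_comm z₂ q.1]
            exact add_lt_add h7 h8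
        _ = η := by ring
    obtain ⟨ρ', hρ'1, hρ'2⟩ : ∃ ρ', max 0 (r - η / 4) < ρ' ∧ ρ' < ρ₀ :=
      exists_between (max_lt hρ₀ hρη)
    rw [max_lt_iff] at hρ'1
    set t : ℝ := ρ' / r with ht
    have ht0 : 0 ≤ t := div_nonneg hρ'1.1.le hr.le
    have ht1 : t ≤ 1 := by rw [ht, div_le_one hr]; linarith
    have htr : t * r = ρ' := by rw [ht]; field_simp
    set m : ℂ := (z₂ + z₃) / 2 with hm
    set z' : ℂ := z₀ + (t : ℂ) * (m - z₀) with hz'
    have hmn : ‖m - z₀‖ ≤ r := by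
      have : m - z₀ = ((z₂ - z₀) + (z₃ - z₀)) / 2 := by rw [hm]; ring
      rw [this, norm_div]
      have h2 : ‖(2 : ℂ)‖ = 2 := by simp
      rw [h2]
      have := norm_add_le (z₂ - z₀) (z₃ - z₀)
      rw [hz₂n, hz₃n] at this
      linarith only [this]
    have hn1 : ‖z' - z₀‖ < ρ₀ := by
      rw [hz', add_sub_cancel_left, norm_mul, Complex.norm_real, Real.norm_eq_abs,
        abs_of_nonneg ht0]
      calc t * ‖m - z₀‖ ≤ t * r := mul_le_mul_of_nonneg_left hmn ht0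
        _ = ρ' := htr
        _ < ρ₀ := hρ'2
    have hclose : ‖z' - m‖ < η / 4 := by
      have : z' - m = -(((1 - t : ℝ) : ℂ) * (m - z₀)) := by rw [hz']; push_cast; ring
      rw [this, norm_neg, norm_mul, Complex.norm_real, Real.norm_eq_abs,
        abs_of_nonneg (by linarith : (0 : ℝ) ≤ 1 - t)]
      calc (1 - t) * ‖m - z₀‖ ≤ (1 - t) * r := mul_le_mul_of_nonneg_left hmn (by linarith)
        _ = r - ρ' := by rw [sub_mul, htr]; ring
        _ < η / 4 := by linarith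
    have h2 : ‖(2 : ℂ)‖ = 2 := by simp
    have hn2 : ‖z' - z₂‖ < η := by
      have h3 : ‖m - z₂‖ < η / 2 := by
        have : m - z₂ = -((z₂ - z₃) / 2) := by rw [hm]; ring
        rw [this, norm_neg, norm_div, h2]; linarith only [hd]
      have : z' - z₂ = (z' - m) + (m - z₂) := by ring
      rw [this]
      linarith only [norm_add_le (z' - m) (m - z₂), h3, hclose, hη]
    have hn3 : ‖z' - z₃‖ < η := by
      have h3 : ‖m - z₃‖ < η / 2 := by
        have : m - z₃ = (z₂ - z₃) / 2 := by rw [hm]; ring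
        rw [this, norm_div, h2]; linarith only [hd]
      have : z' - z₃ = (z' - m) + (m - z₃) := by ring
      rw [this]
      linarith only [norm_add_le (z' - m) (m - z₃), h3, hclose, hη]
    have hz'0 : z' ∈ ball z₀ ρ₀ := by rw [mem_ball, dist_eq_norm]; exact hn1
    have hz'2 : z' ∈ ball z₂ η := by rw [mem_ball, dist_eq_norm]; exact hn2
    have hz'3 : z' ∈ ball z₃ η := by rw [mem_ball, dist_eq_norm]; exact hn3
    have hev : Ψ₂ z₂ =ᶠ[𝓝 (z', w₀)] Ψ₂ z₃ := by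
      have h1 : (ball z₀ ρ₀ ∩ ball z₂ η) ×ˢ (ball w₀ τ₀ ∩ ball w₀ (τ₂ z₂)) ∈ 𝓝 (z', w₀) :=
        ((isOpen_ball.inter isOpen_ball).prod (isOpen_ball.inter isOpen_ball)).mem_nhds
          ⟨⟨hz'0, hz'2⟩, mem_ball_self hτ₀, mem_ball_self (hτ₂ z₂ hz₂)⟩
      have h2 : (ball z₀ ρ₀ ∩ ball z₃ η) ×ˢ (ball w₀ τ₀ ∩ ball w₀ (τ₂ z₃)) ∈ 𝓝 (z', w₀) :=
        ((isOpen_ball.inter isOpen_ball).prod (isOpen_ball.inter isOpen_ball)).mem_nhds
          ⟨⟨hz'0, hz'3⟩, mem_ball_self hτ₀, mem_ball_self (hτ₂ z₃ hz₃)⟩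
      filter_upwards [h1, h2] with q hq hq'
      exact (hag1 z₂ hz₂ hq).symm.trans (hag1 z₃ hz₃ hq')
    have key := C.ident (C.mono (hF₂ z₂ hz₂)
        ((isOpen_ball.inter isOpen_ball).prod (isOpen_ball.inter isOpen_ball))
        (prod_mono inter_subset_left inter_subset_left))
      (C.mono (hF₂ z₃ hz₃) ((isOpen_ball.inter isOpen_ball).prod (isOpen_ball.inter isOpen_ball))
        (prod_mono inter_subset_right inter_subset_right))
      (((convex_ball _ _).inter (convex_ball _ _)).isPreconnected.prod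
        ((convex_ball _ _).inter (convex_ball _ _)).isPreconnected)
      ⟨⟨hz'2, hz'3⟩, mem_ball_self (hτ₂ z₂ hz₂), mem_ball_self (hτ₂ z₃ hz₃)⟩ hev
    exact key ⟨⟨ball_subset_ball (by linarith only [hη]) hq.1.1, ball_subset_ball (by linarith) hq.1.2⟩, hq.2⟩
  -- the family of pieces
  let U : Option (sphere z₀ r) → Set (ℂ × ℂ) := fun o => match o with
    | none => ball z₀ ρ₀ ×ˢ ball w₀ τ₀
    | some z₂ => ball (z₂ : ℂ) (η / 2) ×ˢ ball w₀ (τ₂ z₂)
  let Φ : Option (sphere z₀ r) → ℂ × ℂ → X := fun o => match o with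
    | none => G
    | some z₂ => Ψ₂ z₂
  have hFU : ∀ o, C.F (Φ o) (U o) := by
    rintro (_ | z₂)
    · exact hG
    · exact C.mono (hF₂ z₂ z₂.2) (isOpen_ball.prod isOpen_ball)
        (prod_mono (ball_subset_ball (by linarith)) subset_rfl)
  have hag : ∀ o o', EqOn (Φ o) (Φ o') (U o ∩ U o') := by
    rintro (_ | z₂) (_ | z₃) q ⟨hq, hq'⟩
    · rfl
    · exact hag1 z₃ z₃.2 ⟨⟨hq.1, ball_subset_ball (by linarith) hq'.1⟩, hq.2, hq'.2⟩
    · exact (hag1 z₂ z₂.2 ⟨⟨hq'.1, ball_subset_ball (by linarith) hq.1⟩, hq'.2, hq.2⟩).symm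
    · exact hag2 z₂ z₂.2 z₃ z₃.2 ⟨⟨hq.1, hq'.1⟩, hq.2, hq'.2⟩
  obtain ⟨Θ, hΘF, hΘ⟩ := C.glueFamily U Φ hFU hag
  have hcov : closedBall z₀ (r + η / 4) ×ˢ {w₀} ⊆ ⋃ o, U o := by
    rintro ⟨z, y⟩ ⟨hz, hy⟩
    simp only [mem_singleton_iff] at hy
    subst hy
    rw [mem_closedBall, dist_eq_norm] at hz
    by_cases h : ‖z - z₀‖ < ρ₀
    · exact mem_iUnion.2 ⟨none, by rw [mem_ball, dist_eq_norm]; exact h, mem_ball_self hτ₀⟩
    · push Not at h
      have hzpos : 0 < ‖z - z₀‖ := lt_of_lt_of_le hρ₀ h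
      set z₂ : ℂ := z₀ + ((r / ‖z - z₀‖ : ℝ) : ℂ) * (z - z₀) with hz₂
      have hz₂s : z₂ ∈ sphere z₀ r := by
        rw [mem_sphere, dist_eq_norm, hz₂, add_sub_cancel_left, norm_mul, Complex.norm_real,
          Real.norm_eq_abs, abs_of_pos (div_pos hr hzpos)]
        field_simp
      refine mem_iUnion.2 ⟨some ⟨z₂, hz₂s⟩, ?_, mem_ball_self (hτ₂ z₂ hz₂s)⟩
      have : z - z₂ = ((1 - r / ‖z - z₀‖ : ℝ) : ℂ) * (z - z₀) := by
        rw [hz₂]; push_cast; ring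
      show z ∈ ball z₂ (η / 2)
      rw [mem_ball, dist_eq_norm, this, norm_mul, Complex.norm_real, Real.norm_eq_abs,
        ← abs_of_pos hzpos, ← abs_mul, abs_of_pos hzpos]
      have : (1 - r / ‖z - z₀‖) * ‖z - z₀‖ = ‖z - z₀‖ - r := by field_simp
      rw [this, abs_lt]
      constructor <;> linarith
  have hopenU : IsOpen (⋃ o, U o) := C.isOpen hΘF
  obtain ⟨U', V', hU', hV', hKU', hwV', hUV'⟩ := generalized_tube_lemma
    (isCompact_closedBall z₀ (r + η / 4)) (isCompact_singleton (x := w₀)) hopenU hcov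
  obtain ⟨τ, hτ, hτV⟩ := Metric.isOpen_iff.1 hV' w₀ (hwV' rfl)
  refine ⟨Θ, τ, hτ, C.mono hΘF (isOpen_ball.prod isOpen_ball)
    (Subset.trans (prod_mono (ball_subset_closedBall.trans hKU') hτV) hUV'), fun z hz => ?_,
    fun z hz => ?_⟩
  · obtain ⟨o, ho⟩ := mem_iUnion.1 (hcov (show ((z, w₀) : ℂ × ℂ) ∈
      closedBall z₀ (r + η / 4) ×ˢ ({w₀} : Set ℂ) from ⟨ball_subset_closedBall hz, rfl⟩))
    rw [hΘ o ho]
    match o, ho with
    | none, ho => exact hGl z ho.1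
    | some z₂, ho => exact hl₂ z₂ z₂.2 z (ball_subset_ball (by linarith) ho.1)
  · filter_upwards [(isOpen_ball.prod isOpen_ball).mem_nhds
      (⟨hz, mem_ball_self hτ₀⟩ : ((z, w₀) : ℂ × ℂ) ∈ ball z₀ ρ₀ ×ˢ ball w₀ τ₀)] with q hq
    exact hΘ none hq

/-- Local continuation along the disc `l` at height `w₀` around `z₁`. -/
def LocCont (C : FClass X) (l : ℂ → X) (w₀ z₁ : ℂ) (δ : ℝ) : Prop :=
  ∀ z' ∈ ball z₁ δ, ∀ (Θ : ℂ × ℂ → X) (Ω : Set (ℂ × ℂ)), C.F Θ Ω → (z', w₀) ∈ Ω →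
    (∀ᶠ z in 𝓝 z', Θ (z, w₀) = l z) →
    ∃ τ > 0, ∃ Θ' : ℂ × ℂ → X, C.F Θ' (ball z₁ δ ×ˢ ball w₀ τ) ∧ Θ' =ᶠ[𝓝 (z', w₀)] Θ ∧
      ∀ z ∈ ball z₁ δ, Θ' (z, w₀) = l z

/-- **Continuation along a disc.** -/
theorem tube (C : FClass X) {l : ℂ → X} {z₀ w₀ : ℂ} {R : ℝ} (hR : 0 < R)
    (hloc : ∀ z₁ ∈ ball z₀ R, ∃ δ > 0, LocCont C l w₀ z₁ δ) {Θ₀ : ℂ × ℂ → X} {Ω₀ : Set (ℂ × ℂ)}
    (hF₀ : C.F Θ₀ Ω₀) (hmem₀ : (z₀, w₀) ∈ Ω₀) (hl₀ : ∀ᶠ z in 𝓝 z₀, Θ₀ (z, w₀) = l z) :
    ∃ (Ψ : ℂ × ℂ → X) (Ω : Set (ℂ × ℂ)), C.F Ψ Ω ∧ ball z₀ R ×ˢ {w₀} ⊆ Ω ∧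
      (∀ z ∈ ball z₀ R, Ψ (z, w₀) = l z) ∧ Ψ =ᶠ[𝓝 (z₀, w₀)] Θ₀ := by
  have : Nonempty X := ⟨Θ₀ (z₀, w₀)⟩
  set T : Set ℝ := {ρ | 0 < ρ ∧ ρ ≤ R ∧ ∃ τ > 0, ∃ Ψ : ℂ × ℂ → X,
    C.F Ψ (ball z₀ ρ ×ˢ ball w₀ τ) ∧ (∀ z ∈ ball z₀ ρ, Ψ (z, w₀) = l z) ∧
      Ψ =ᶠ[𝓝 (z₀, w₀)] Θ₀} with hT
  have hTmono : ∀ ρ ∈ T, ∀ ρ', 0 < ρ' → ρ' ≤ ρ → ρ' ∈ T := by
    rintro ρ ⟨h1, h2, τ, hτ, Ψ, hF, hl, he⟩ ρ' h0 hle
    exact ⟨h0, hle.trans h2, τ, hτ, Ψ, C.mono hF (isOpen_ball.prod isOpen_ball)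
      (prod_mono (ball_subset_ball hle) subset_rfl), fun z hz => hl z (ball_subset_ball hle hz), he⟩
  have hne : T.Nonempty := by
    obtain ⟨δ, hδ, hδl⟩ := hloc z₀ (mem_ball_self hR)
    obtain ⟨τ, hτ, Θ', hF', he', hl'⟩ := hδl z₀ (mem_ball_self hδ) Θ₀ Ω₀ hF₀ hmem₀ hl₀
    refine ⟨min δ R, lt_min hδ hR, min_le_right _ _, τ, hτ, Θ',
      C.mono hF' (isOpen_ball.prod isOpen_ball)
        (prod_mono (ball_subset_ball (min_le_left _ _)) subset_rfl),
      fun z hz => hl' z (ball_subset_ball (min_le_left _ _) hz), he'⟩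
  have hbdd : BddAbove T := ⟨R, fun ρ h => h.2.1⟩
  set r := sSup T with hrdef
  have hrpos : 0 < r := by
    obtain ⟨ρ, hρ⟩ := hne
    exact hρ.1.trans_le (le_csSup hbdd hρ)
  have hrle : r ≤ R := csSup_le hne fun ρ h => h.2.1
  have hlt : ∀ ρ, 0 < ρ → ρ < r → ρ ∈ T := by
    intro ρ h0 h
    obtain ⟨ρ', hρ', h'⟩ := exists_lt_of_lt_csSup hne h
    exact hTmono ρ' hρ' ρ h0 h'.le
  have hrR : r = R := by
    by_contra hneq
    have hrlt : r < R := lt_of_le_of_ne hrle hneq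
    have hsph : ∀ z₂ ∈ sphere z₀ r, z₂ ∈ ball z₀ R := fun z₂ hz₂ => by
      rw [mem_ball]; rw [mem_sphere] at hz₂; linarith
    choose! δ hδ hδl using hloc
    obtain ⟨η, hη, hcov⟩ := lebesgue_number_lemma_of_metric (s := sphere z₀ r)
      (c := fun i : sphere z₀ r => ball (i : ℂ) (δ i)) (isCompact_sphere z₀ r)
      (fun i => isOpen_ball)
      (fun z hz => mem_iUnion.2 ⟨⟨z, hz⟩, mem_ball_self (hδ z (hsph z hz))⟩)
    obtain ⟨ρ₀, hρ₀1, hρ₀2⟩ : ∃ ρ₀, max 0 (r - min η r / 4) < ρ₀ ∧ ρ₀ < r := by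
      apply exists_between
      have := lt_min hη hrpos
      exact max_lt hrpos (by linarith)
    rw [max_lt_iff] at hρ₀1
    obtain ⟨h1, h2, τ₀, hτ₀, G, hG, hGl, hGe⟩ := hlt ρ₀ hρ₀1.1 hρ₀2
    have hηr : 0 < min η r := lt_min hη hrpos
    obtain ⟨Θ, τ, hτ, hΘ, hΘl, hΘe⟩ := circleGlue C (η := min η r) hrpos h1 hρ₀2.le hρ₀1.2 hτ₀ hηr
      hG hGl (by
        intro z₂ hz₂
        obtain ⟨i, hi⟩ := hcov z₂ hz₂
        have hiR := hsph i i.2
        have hsub : ball z₂ (min η r) ⊆ ball (i : ℂ) (δ i) :=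
          (ball_subset_ball (min_le_left _ _)).trans hi
        -- a point of the inner ball
        obtain ⟨s, hs1, hs2⟩ : ∃ s, max 0 (r - min η r) < s ∧ s < ρ₀ := by
          apply exists_between
          exact max_lt h1 (by linarith)
        rw [max_lt_iff] at hs1
        have hz₂n : ‖z₂ - z₀‖ = r := by rw [← dist_eq_norm]; exact hz₂
        set z' : ℂ := z₀ + ((s / r : ℝ) : ℂ) * (z₂ - z₀) with hz'
        have hn1 : ‖z' - z₀‖ = s := by
          rw [hz', add_sub_cancel_left, norm_mul, hz₂n, Complex.norm_real, Real.norm_eq_abs,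
            abs_of_pos (div_pos hs1.1 hrpos)]
          field_simp
        have hn2 : ‖z' - z₂‖ = r - s := by
          have : z' - z₂ = -(((1 - s / r : ℝ) : ℂ) * (z₂ - z₀)) := by
            rw [hz']; push_cast; ring
          rw [this, norm_neg, norm_mul, hz₂n, Complex.norm_real, Real.norm_eq_abs, abs_of_pos]
          · field_simp
          · rw [sub_pos, div_lt_one hrpos]; linarith only [hs2, hρ₀2]
        have hz'0 : z' ∈ ball z₀ ρ₀ := by rw [mem_ball, dist_eq_norm, hn1]; exact hs2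
        have hz'2 : z' ∈ ball z₂ (min η r) := by rw [mem_ball, dist_eq_norm, hn2]; linarith
        obtain ⟨τ, hτ, Θ', hF', he', hl'⟩ := hδl i hiR z' (hsub hz'2) G _ hG
          ⟨hz'0, mem_ball_self hτ₀⟩ (by
            filter_upwards [isOpen_ball.mem_nhds hz'0] with z hz
            exact hGl z hz)
        exact ⟨τ, hτ, Θ', C.mono hF' (isOpen_ball.prod isOpen_ball) (prod_mono hsub subset_rfl),
          fun z hz => hl' z (hsub hz), z', ⟨hz'2, hz'0⟩, he'⟩)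
    have hmemT : min R (r + min η r / 4) ∈ T := by
      refine ⟨lt_min hR (by linarith), min_le_left _ _, τ, hτ, Θ,
        C.mono hΘ (isOpen_ball.prod isOpen_ball)
          (prod_mono (ball_subset_ball (min_le_right _ _)) subset_rfl),
        fun z hz => hΘl z (ball_subset_ball (min_le_right _ _) hz), ?_⟩
      exact (hΘe z₀ (mem_ball_self h1)).trans hGe
    have h5 := le_csSup hbdd hmemT
    have h6 : r < min R (r + min η r / 4) := lt_min hrlt (by linarith)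
    linarith
  -- glue all the maps
  let ι := {ρ : ℝ // 0 < ρ ∧ ρ < R}
  have hι : ∀ i : ι, (i : ℝ) ∈ T := fun i => hlt i i.2.1 (by rw [hrR]; exact i.2.2)
  choose h0 hRR τ hτ Ψ hF hl he using hι
  have : Nonempty ι := ⟨⟨R / 2, by constructor <;> linarith⟩⟩
  obtain ⟨Θ, hΘF, hΘ⟩ := C.glueFamily (fun i : ι => ball z₀ (i : ℝ) ×ˢ ball w₀ (τ i)) Ψ hF (by
    intro i j q hq
    have key := C.ident (C.mono (hF i)
        ((isOpen_ball.inter isOpen_ball).prod (isOpen_ball.inter isOpen_ball))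
        (prod_mono inter_subset_left inter_subset_left))
      (C.mono (hF j) ((isOpen_ball.inter isOpen_ball).prod (isOpen_ball.inter isOpen_ball))
        (prod_mono inter_subset_right inter_subset_right))
      (((convex_ball _ _).inter (convex_ball _ _)).isPreconnected.prod
        ((convex_ball _ _).inter (convex_ball _ _)).isPreconnected)
      (p := (z₀, w₀))
      ⟨⟨mem_ball_self i.2.1, mem_ball_self j.2.1⟩, mem_ball_self (hτ i), mem_ball_self (hτ j)⟩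
      ((he i).trans (he j).symm)
    exact key ⟨⟨hq.1.1, hq.2.1⟩, hq.1.2, hq.2.2⟩)
  refine ⟨Θ, _, hΘF, ?_, ?_, ?_⟩
  · rintro ⟨z, w⟩ ⟨hz, hw⟩
    simp only [mem_singleton_iff] at hw
    subst hw
    obtain ⟨ρ, h1, h2⟩ := exists_between (mem_ball.1 hz)
    have h3 : 0 < ρ := dist_nonneg.trans_lt h1
    exact mem_iUnion.2 ⟨⟨ρ, h3, h2⟩, h1, mem_ball_self (hτ _)⟩
  · intro z hz
    obtain ⟨ρ, h1, h2⟩ := exists_between (mem_ball.1 hz)
    have h3 : 0 < ρ := dist_nonneg.trans_lt h1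
    rw [hΘ ⟨ρ, h3, h2⟩ (show ((z, w₀) : ℂ × ℂ) ∈ ball z₀ ρ ×ˢ ball w₀ (τ ⟨ρ, h3, h2⟩) from
      ⟨h1, mem_ball_self (hτ _)⟩)]
    exact hl _ z h1
  · have i : ι := Classical.arbitrary ι
    have h1 : Θ =ᶠ[𝓝 (z₀, w₀)] Ψ i := by
      filter_upwards [(isOpen_ball.prod isOpen_ball).mem_nhds
        (⟨mem_ball_self i.2.1, mem_ball_self (hτ i)⟩ :
          ((z₀, w₀) : ℂ × ℂ) ∈ ball z₀ (i : ℝ) ×ˢ ball w₀ (τ i))] with q hq
      exact hΘ i hq
    exact h1.trans (he i)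

end Tube

end Vale.Agent.P278
end
end

section

section

set_option autoImplicit false

open Set Filter Topology Metric

namespace Vale.Agent.P278.Full

/-- Abstract theory of F-maps on open subsets of `ℂ × ℂ` with values in `X`:
`IsF Ψ p` says that `Ψ` is an F-map near `p`. -/
structure FTh (X : Type*) where
  /-- `Ψ` is an F-map near `p` -/
  IsF : (ℂ × ℂ → X) → ℂ × ℂ → Prop
  ev : ∀ {Ψ : ℂ × ℂ → X} {p : ℂ × ℂ}, IsF Ψ p → ∀ᶠ q in 𝓝 p, IsF Ψ q
  congr : ∀ {Ψ Ψ' : ℂ × ℂ → X} {p : ℂ × ℂ}, IsF Ψ p → Ψ =ᶠ[𝓝 p] Ψ' → IsF Ψ' p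
  ident : ∀ {Ψ Ψ' : ℂ × ℂ → X} {U : Set (ℂ × ℂ)}, IsPreconnected U →
    (∀ p ∈ U, IsF Ψ p) → (∀ p ∈ U, IsF Ψ' p) → (∃ p ∈ U, Ψ =ᶠ[𝓝 p] Ψ') →
    ∀ p ∈ U, Ψ =ᶠ[𝓝 p] Ψ'
  /-- Lemma T, discs in the first variable, parameter segment in the second one -/
  T : ∀ {Ψ0 Ψ1 : ℂ × ℂ → X} {z0 : ℂ} {R : ℝ} {w0 w1 : ℂ}, 0 < R →
    (∀ z ∈ closedBall z0 R, IsF Ψ0 (z, w0)) →
    (∀ z ∈ sphere z0 R, ∀ w ∈ segment ℝ w0 w1, IsF Ψ1 (z, w)) →
    (∀ z ∈ sphere z0 R, Ψ0 =ᶠ[𝓝 (z, w0)] Ψ1) →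
    ∃ Ψ2 : ℂ × ℂ → X, (∀ z ∈ closedBall z0 R, ∀ w ∈ segment ℝ w0 w1, IsF Ψ2 (z, w)) ∧
      (∀ z ∈ closedBall z0 R, Ψ2 =ᶠ[𝓝 (z, w0)] Ψ0)
  /-- Lemma T with the roles of the variables exchanged -/
  T' : ∀ {Ψ0 Ψ1 : ℂ × ℂ → X} {w0 : ℂ} {R : ℝ} {z0 z1 : ℂ}, 0 < R →
    (∀ w ∈ closedBall w0 R, IsF Ψ0 (z0, w)) →
    (∀ w ∈ sphere w0 R, ∀ z ∈ segment ℝ z0 z1, IsF Ψ1 (z, w)) →
    (∀ w ∈ sphere w0 R, Ψ0 =ᶠ[𝓝 (z0, w)] Ψ1) →
    ∃ Ψ2 : ℂ × ℂ → X, (∀ w ∈ closedBall w0 R, ∀ z ∈ segment ℝ z0 z1, IsF Ψ2 (z, w)) ∧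
      (∀ w ∈ closedBall w0 R, Ψ2 =ᶠ[𝓝 (z0, w)] Ψ0)

variable {X : Type*}

/-- the ball `B((1,-1), √2)`, touching the origin -/
def touchBall : Set (ℂ × ℂ) := {p | ‖p.1‖ ^ 2 + ‖p.2‖ ^ 2 < 2 * (p.1 - p.2).re}

/-- the open annulus `a < |z| < b` -/
def ann (a b : ℝ) : Set ℂ := {z | a < ‖z‖ ∧ ‖z‖ < b}

theorem isOpen_ann (a b : ℝ) : IsOpen (ann a b) :=
  (isOpen_lt continuous_const continuous_norm).inter (isOpen_lt continuous_norm continuous_const)

theorem isPreconnected_ann {a b : ℝ} (ha : 0 ≤ a) : IsPreconnected (ann a b) := by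
  have h : ann a b = (fun p : ℝ × ℝ => (p.1 : ℂ) * Complex.exp (p.2 * Complex.I)) ''
      (Ioo a b ×ˢ (univ : Set ℝ)) := by
    ext z
    simp only [ann, mem_ofPred_eq, mem_image, mem_prod, mem_Ioo, mem_univ, and_true, Prod.exists]
    constructor
    · rintro ⟨h1, h2⟩
      exact ⟨‖z‖, Complex.arg z, ⟨h1, h2⟩, Complex.norm_mul_exp_arg_mul_I z⟩
    · rintro ⟨x, y, ⟨h1, h2⟩, rfl⟩
      have hx : 0 < x := lt_of_le_of_lt ha h1
      rw [norm_mul, Complex.norm_exp_ofReal_mul_I, mul_one, Complex.norm_real, Real.norm_eq_abs,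
        abs_of_pos hx]
      exact ⟨h1, h2⟩
  rw [h]
  refine IsPreconnected.image ?_ _ ?_
  · exact isPreconnected_Ioo.prod isPreconnected_univ
  · fun_prop

theorem isPreconnected_circle (c : ℂ) (R : ℝ) : IsPreconnected (sphere c R) := by
  have h1 : 1 < Module.rank ℝ ℂ := by
    rw [Complex.rank_real_complex]; norm_num
  exact isPreconnected_sphere h1 c R

theorem touchBall_convex : Convex ℝ touchBall := by
  have h : touchBall = {p : ℂ × ℂ | ‖p.1‖ ^ 2 + ‖p.2‖ ^ 2 - 2 * (p.1 - p.2).re < 0} := by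
    ext p; simp only [touchBall, mem_ofPred_eq]; constructor <;> intro h <;> linarith
  have hc : ConvexOn ℝ univ (fun p : ℂ × ℂ => ‖p.1‖ ^ 2 + ‖p.2‖ ^ 2 - 2 * (p.1 - p.2).re) := by
    have h1 : ConvexOn ℝ univ (fun p : ℂ × ℂ => ‖p.1‖ ^ 2) := by
      have := ((convexOn_norm (convex_univ : Convex ℝ (univ : Set ℂ))).pow
        (fun x _ => norm_nonneg x) 2).comp_linearMap (LinearMap.fst ℝ ℂ ℂ)
      rw [preimage_univ] at this
      exact this
    have h2 : ConvexOn ℝ univ (fun p : ℂ × ℂ => ‖p.2‖ ^ 2) := by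
      have := ((convexOn_norm (convex_univ : Convex ℝ (univ : Set ℂ))).pow
        (fun x _ => norm_nonneg x) 2).comp_linearMap (LinearMap.snd ℝ ℂ ℂ)
      rw [preimage_univ] at this
      exact this
    have h3 : ConcaveOn ℝ univ (fun p : ℂ × ℂ => 2 * (p.1 - p.2).re) := by
      refine ⟨convex_univ, fun p _ q _ a b _ _ _ => ?_⟩
      simp only [Prod.fst_add, Prod.snd_add, Prod.smul_fst, Prod.smul_snd, smul_eq_mul,
        Complex.sub_re, Complex.add_re, Complex.real_smul, Complex.re_ofReal_mul]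
      apply le_of_eq; ring
    exact (h1.add h2).sub h3
  rw [h]
  simpa using hc.convex_lt 0


/-- the chain of segments and circles used in the connectivity argument -/
theorem agree_chain (F : FTh X) {Ψ Ψ1 : ℂ × ℂ → X} {r s : ℝ} (hr : 0 < r) (hs : 0 < s)
    (h1 : 10000 * s ≤ r) (h2 : 40000 * r ^ 2 ≤ s)
    (hΨ : ∀ p ∈ touchBall, F.IsF Ψ p)
    (hΨ1 : ∀ z ∈ ann (r / 25) (25 * r), ∀ w ∈ ann (r / 25) (25 * r), F.IsF Ψ1 (z, w))
    (hd : ∀ z ∈ ann (r / 25) (25 * r), z - s ∈ ann (r / 25) (25 * r) →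
      Ψ1 =ᶠ[𝓝 (z, z - s)] Ψ) :
    (∀ w : ℂ, ‖w‖ = 4 * r → Ψ1 =ᶠ[𝓝 (((8 * r : ℝ) : ℂ), w)] Ψ) ∧
    (∀ z : ℂ, ‖z‖ = r → Ψ1 =ᶠ[𝓝 (z, ((-2 * r : ℝ) : ℂ))] Ψ) := by
  have hr1 : r ≤ 1 / 400000000 := by (by_contra nlg; linarith only [nlg, mul_nonneg (sub_nonneg.2 h1) (sub_nonneg.2 h1), mul_nonneg (le_of_lt (sub_pos.2 hs)) (sub_nonneg.2 h1), mul_pos (sub_pos.2 (not_le.1 nlg)) (sub_pos.2 hs), mul_nonneg (mul_self_nonneg (1 : ℝ)) (sub_nonneg.2 h2)])
  -- the pieces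
  set A := ann (r / 25) (25 * r) with hA
  have hreal : ∀ x : ℝ, r / 25 < |x| → |x| < 25 * r → (x : ℂ) ∈ A := by
    intro x hx1 hx2
    simp only [hA, ann, mem_ofPred_eq, Complex.norm_real, Real.norm_eq_abs]
    exact ⟨hx1, hx2⟩
  have hnorm : ∀ z : ℂ, r ≤ ‖z‖ → ‖z‖ ≤ 8 * r → z ∈ A := by
    intro z hz1 hz2
    simp only [hA, ann, mem_ofPred_eq]
    constructor <;> linarith
  have hB : ∀ z w : ℂ, ‖z‖ ≤ 8 * r → ‖w‖ ≤ 8 * r → s ≤ (z - w).re → (z, w) ∈ touchBall := by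
    intro z w hz hw h
    simp only [touchBall, mem_ofPred_eq]
    have h3 : ‖z‖ ^ 2 ≤ (8 * r) ^ 2 := by gcongr
    have h4 : ‖w‖ ^ 2 ≤ (8 * r) ^ 2 := by gcongr
    linarith only [h4, h3, h, h2, hs]
  -- general step: on a preconnected set
  have step : ∀ U : Set (ℂ × ℂ), IsPreconnected U →
      (∀ p ∈ U, r ≤ ‖p.1‖ ∧ ‖p.1‖ ≤ 8 * r ∧ r ≤ ‖p.2‖ ∧ ‖p.2‖ ≤ 8 * r ∧ s ≤ (p.1 - p.2).re) →
      (∃ p ∈ U, Ψ1 =ᶠ[𝓝 p] Ψ) → ∀ p ∈ U, Ψ1 =ᶠ[𝓝 p] Ψ := by
    intro U hU hUp hex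
    refine F.ident hU ?_ ?_ hex
    · rintro ⟨z, w⟩ hp
      obtain ⟨a1, a2, a3, a4, _⟩ := hUp _ hp
      exact hΨ1 z (hnorm z a1 a2) w (hnorm w a3 a4)
    · rintro ⟨z, w⟩ hp
      obtain ⟨_, a2, _, a4, a5⟩ := hUp _ hp
      exact hΨ _ (hB z w a2 a4 a5)
  -- piece 1: {8r} × [4r, 8r - s]
  have p1 : Ψ1 =ᶠ[𝓝 (((8 * r : ℝ) : ℂ), ((4 * r : ℝ) : ℂ))] Ψ := by
    refine step ((fun x : ℝ => (((8 * r : ℝ) : ℂ), (x : ℂ))) '' Icc (4 * r) (8 * r - s))
      (isPreconnected_Icc.image _ (by fun_prop)) ?_ ?_ _ ⟨4 * r, ⟨le_rfl, by linarith only [h1, hs]⟩, rfl⟩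
    · rintro _ ⟨x, ⟨hx1, hx2⟩, rfl⟩
      simp only [Complex.norm_real, Real.norm_eq_abs, Complex.sub_re, Complex.ofReal_re]
      rw [abs_of_pos (by positivity), abs_of_pos (by linarith only [hx1, h1, hs])]
      refine ⟨by linarith, le_rfl, by linarith, by linarith, by linarith⟩
    · refine ⟨_, ⟨8 * r - s, ⟨by linarith only [h1, hs], le_rfl⟩, rfl⟩, ?_⟩
      have h8 := hd ((8 * r : ℝ) : ℂ) (hreal _ (by rw [abs_of_pos (by positivity)]; linarith)
        (by rw [abs_of_pos (by positivity)]; linarith))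
        (by
          rw [← Complex.ofReal_sub]
          exact hreal _ (by rw [abs_of_pos (by linarith only [h1, hs])]; linarith only [h1, hs])
            (by rw [abs_of_pos (by linarith only [h1, hs])]; linarith only [h1, hs]))
      rw [← Complex.ofReal_sub] at h8
      exact h8
  -- piece 2: {8r} × circle 4r
  have p2 : ∀ w : ℂ, ‖w‖ = 4 * r → Ψ1 =ᶠ[𝓝 (((8 * r : ℝ) : ℂ), w)] Ψ := by
    intro w hw
    refine step ((fun x : ℂ => (((8 * r : ℝ) : ℂ), x)) '' sphere (0 : ℂ) (4 * r))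
      ((isPreconnected_circle 0 _).image _ (by fun_prop)) ?_ ?_ _ ⟨w, by simpa using hw, rfl⟩
    · rintro _ ⟨x, hx, rfl⟩
      have hx' : ‖x‖ = 4 * r := by simpa using hx
      simp only [Complex.norm_real, Real.norm_eq_abs, Complex.sub_re, Complex.ofReal_re]
      rw [abs_of_pos (by positivity)]
      have hre : x.re ≤ ‖x‖ := Complex.re_le_norm x
      refine ⟨by linarith, le_rfl, by linarith, by linarith, by linarith only [hre, hx', h1, hs]⟩
    · refine ⟨_, ⟨((4 * r : ℝ) : ℂ), ?_, rfl⟩, p1⟩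
      simp only [mem_sphere_iff_norm, sub_zero, Complex.norm_real, Real.norm_eq_abs]
      exact abs_of_pos (by positivity)
  refine ⟨p2, ?_⟩
  -- piece 3: {8r} × [-4r, -2r]
  have p3 : Ψ1 =ᶠ[𝓝 (((8 * r : ℝ) : ℂ), ((-2 * r : ℝ) : ℂ))] Ψ := by
    refine step ((fun x : ℝ => (((8 * r : ℝ) : ℂ), (x : ℂ))) '' Icc (-4 * r) (-2 * r))
      (isPreconnected_Icc.image _ (by fun_prop)) ?_ ?_ _ ⟨-2 * r, ⟨by linarith, le_rfl⟩, rfl⟩
    · rintro _ ⟨x, ⟨hx1, hx2⟩, rfl⟩
      simp only [Complex.norm_real, Real.norm_eq_abs, Complex.sub_re, Complex.ofReal_re]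
      rw [abs_of_pos (by positivity), abs_of_neg (by linarith)]
      refine ⟨by linarith, le_rfl, by linarith, by linarith, by linarith only [hx2, h1, hs]⟩
    · refine ⟨_, ⟨-4 * r, ⟨le_rfl, by linarith⟩, rfl⟩, ?_⟩
      refine p2 _ ?_
      rw [Complex.norm_real, Real.norm_eq_abs, abs_of_neg (by linarith)]; ring
  -- piece 4: [r, 8r] × {-2r}
  have p4 : Ψ1 =ᶠ[𝓝 ((r : ℂ), ((-2 * r : ℝ) : ℂ))] Ψ := by
    refine step ((fun x : ℝ => ((x : ℂ), ((-2 * r : ℝ) : ℂ))) '' Icc r (8 * r))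
      (isPreconnected_Icc.image _ (by fun_prop)) ?_ ?_ _ ⟨r, ⟨le_rfl, by linarith⟩, rfl⟩
    · rintro _ ⟨x, ⟨hx1, hx2⟩, rfl⟩
      simp only [Complex.norm_real, Real.norm_eq_abs, Complex.sub_re, Complex.ofReal_re]
      rw [abs_of_pos (by linarith), abs_of_neg (by linarith)]
      refine ⟨by linarith, by linarith, by linarith, by linarith, by linarith only [hx1, h1, hs]⟩
    · exact ⟨_, ⟨8 * r, ⟨by linarith, le_rfl⟩, rfl⟩, p3⟩
  -- piece 5: circle r × {-2r}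
  intro z hz
  refine step ((fun x : ℂ => (x, ((-2 * r : ℝ) : ℂ))) '' sphere (0 : ℂ) r)
    ((isPreconnected_circle 0 _).image _ (by fun_prop)) ?_ ?_ _ ⟨z, by simpa using hz, rfl⟩
  · rintro _ ⟨x, hx, rfl⟩
    have hx' : ‖x‖ = r := by simpa using hx
    simp only [Complex.norm_real, Real.norm_eq_abs, Complex.sub_re, Complex.ofReal_re]
    rw [abs_of_neg (by linarith : -2 * r < 0)]
    have hre : -‖x‖ ≤ x.re := (abs_le.1 (Complex.abs_re_le_norm x)).1
    refine ⟨by linarith, by linarith, by linarith, by linarith, by linarith only [hre, hx', h1, hs]⟩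
  · refine ⟨_, ⟨(r : ℂ), ?_, rfl⟩, p4⟩
    simp only [mem_sphere_iff_norm, sub_zero, Complex.norm_real, Real.norm_eq_abs]
    exact abs_of_pos (by positivity)

/-- `z` is good: there is an F-map near `{z} × closedBall 0 ρ` which agrees with `Ψ1` near
`{z} × sphere 0 ρ`. -/
def GoodC (F : FTh X) (Ψ1 : ℂ × ℂ → X) (ρ : ℝ) (Φ : ℂ × ℂ → X) (z : ℂ) : Prop :=
  (∀ w ∈ closedBall (0 : ℂ) ρ, F.IsF Φ (z, w)) ∧ ∀ w ∈ sphere (0 : ℂ) ρ, Φ =ᶠ[𝓝 (z, w)] Ψ1

theorem GoodC.ev {F : FTh X} {Ψ1 : ℂ × ℂ → X} {ρ : ℝ} {Φ : ℂ × ℂ → X} {z : ℂ}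
    (h : GoodC F Ψ1 ρ Φ z) : ∀ᶠ z' in 𝓝 z, GoodC F Ψ1 ρ Φ z' := by
  have h1 : ∀ᶠ z' in 𝓝 z, ∀ w ∈ closedBall (0 : ℂ) ρ, F.IsF Φ (z', w) :=
    (isCompact_closedBall (0 : ℂ) ρ).eventually_forall_of_forall_eventually
      (P := fun z' w => F.IsF Φ (z', w)) fun w hw => F.ev (h.1 w hw)
  have h2 : ∀ᶠ z' in 𝓝 z, ∀ w ∈ sphere (0 : ℂ) ρ, Φ =ᶠ[𝓝 (z', w)] Ψ1 :=
    (isCompact_sphere (0 : ℂ) ρ).eventually_forall_of_forall_eventually
      (P := fun z' w => Φ =ᶠ[𝓝 (z', w)] Ψ1) fun w hw => (h.2 w hw).eventuallyEq_nhds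
  exact h1.and h2

theorem GoodC.eq {F : FTh X} {Ψ1 : ℂ × ℂ → X} {ρ : ℝ} (hρ : 0 < ρ) {Φ Φ' : ℂ × ℂ → X} {z : ℂ}
    (h : GoodC F Ψ1 ρ Φ z) (h' : GoodC F Ψ1 ρ Φ' z) {w : ℂ} (hw : w ∈ closedBall (0 : ℂ) ρ) :
    Φ =ᶠ[𝓝 (z, w)] Φ' := by
  have hU : IsPreconnected ((fun x : ℂ => (z, x)) '' closedBall (0 : ℂ) ρ) :=
    (convex_closedBall (0 : ℂ) ρ).isPreconnected.image _ (by fun_prop)
  refine F.ident hU ?_ ?_ ?_ _ ⟨w, hw, rfl⟩
  · rintro _ ⟨x, hx, rfl⟩; exact h.1 x hx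
  · rintro _ ⟨x, hx, rfl⟩; exact h'.1 x hx
  · have hm : ((ρ : ℝ) : ℂ) ∈ sphere (0 : ℂ) ρ := by
      simp only [mem_sphere_iff_norm, sub_zero, Complex.norm_real, Real.norm_eq_abs]
      exact abs_of_pos hρ
    exact ⟨_, ⟨_, sphere_subset_closedBall hm, rfl⟩, (h.2 _ hm).trans (h'.2 _ hm).symm⟩

theorem GoodC.seg {F : FTh X} {Ψ1 : ℂ × ℂ → X} {ρ : ℝ} (hρ : 0 < ρ) {A : Set ℂ}
    (hΨ1 : ∀ z ∈ A, ∀ w ∈ sphere (0 : ℂ) ρ, F.IsF Ψ1 (z, w)) {Φ : ℂ × ℂ → X} {z0 z1 : ℂ}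
    (h : GoodC F Ψ1 ρ Φ z0) (hseg : segment ℝ z0 z1 ⊆ A) : ∃ Φ', GoodC F Ψ1 ρ Φ' z1 := by
  obtain ⟨Ψ2, h1, h2⟩ := F.T' hρ h.1 (fun w hw z hz => hΨ1 z (hseg hz) w hw)
    (fun w hw => h.2 w hw)
  refine ⟨Ψ2, fun w hw => h1 w hw z1 (right_mem_segment ℝ z0 z1), fun w hw => ?_⟩
  have hU : IsPreconnected ((fun x : ℂ => (x, w)) '' segment ℝ z0 z1) :=
    (convex_segment z0 z1).isPreconnected.image _ (by fun_prop)
  refine F.ident hU ?_ ?_ ?_ _ ⟨z1, right_mem_segment ℝ z0 z1, rfl⟩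
  · rintro _ ⟨x, hx, rfl⟩; exact h1 w (sphere_subset_closedBall hw) x hx
  · rintro _ ⟨x, hx, rfl⟩; exact hΨ1 x (hseg hx) w hw
  · exact ⟨_, ⟨z0, left_mem_segment ℝ z0 z1, rfl⟩,
      (h2 w (sphere_subset_closedBall hw)).trans (h.2 w hw)⟩

theorem GoodC.spread {F : FTh X} {Ψ1 : ℂ × ℂ → X} {ρ : ℝ} (hρ : 0 < ρ) {A : Set ℂ}
    (hAo : IsOpen A) (hAc : IsPreconnected A)
    (hΨ1 : ∀ z ∈ A, ∀ w ∈ sphere (0 : ℂ) ρ, F.IsF Ψ1 (z, w)) {z0 : ℂ} (hz0 : z0 ∈ A)
    (h : ∃ Φ, GoodC F Ψ1 ρ Φ z0) : ∀ z ∈ A, ∃ Φ, GoodC F Ψ1 ρ Φ z := by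
  set u : Set ℂ := {z | z ∈ A ∧ ∃ Φ, GoodC F Ψ1 ρ Φ z} with hu
  have huo : IsOpen u := by
    rw [isOpen_iff_eventually]
    rintro z ⟨hz, Φ, hΦ⟩
    filter_upwards [hAo.mem_nhds hz, hΦ.ev] with z' h1 h2
    exact ⟨h1, Φ, h2⟩
  have hsub : A ⊆ u := by
    refine hAc.subset_of_closure_inter_subset huo ⟨z0, hz0, hz0, h⟩ ?_
    rintro z ⟨hz1, hz2⟩
    obtain ⟨ε, hε, hball⟩ := Metric.isOpen_iff.1 hAo z hz2
    obtain ⟨z', hz', hd⟩ := Metric.mem_closure_iff.1 hz1 ε hε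
    obtain ⟨_, Φ, hΦ⟩ := hz'
    refine ⟨hz2, hΦ.seg hρ hΨ1 (A := A) ?_⟩
    refine ((convex_ball z ε).segment_subset ?_ (mem_ball_self hε)).trans hball
    rw [mem_ball, dist_comm]; exact hd
  exact fun z hz => (hsub hz).2

/-- **TT1**: from an F-map on `annulus × annulus` agreeing with `Ψ` near the shifted diagonal to
the extension of `Ψ` across the origin. -/
theorem tt1 (F : FTh X) {Ψ Ψ1 : ℂ × ℂ → X} {r s : ℝ} (hr : 0 < r) (hs : 0 < s)
    (h1 : 10000 * s ≤ r) (h2 : 40000 * r ^ 2 ≤ s)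
    (hΨ : ∀ p ∈ touchBall, F.IsF Ψ p)
    (hΨ1 : ∀ z ∈ ann (r / 25) (25 * r), ∀ w ∈ ann (r / 25) (25 * r), F.IsF Ψ1 (z, w))
    (hd : ∀ z ∈ ann (r / 25) (25 * r), z - s ∈ ann (r / 25) (25 * r) →
      Ψ1 =ᶠ[𝓝 (z, z - s)] Ψ) :
    ∃ Ψ3 : ℂ × ℂ → X, F.IsF Ψ3 (0, 0) ∧ ∀ᶠ p in 𝓝 ((0 : ℂ), (0 : ℂ)), p ∈ touchBall → Ψ3 p = Ψ p := by
  have hr1 : r ≤ 1 / 400000000 := by nlinarith
  obtain ⟨c1, c2⟩ := agree_chain F hr hs h1 h2 hΨ hΨ1 hd
  set A := ann (r / 25) (25 * r) with hA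
  have hmemA : ∀ z : ℂ, r ≤ ‖z‖ → ‖z‖ ≤ 8 * r → z ∈ A := by
    intro z hz1 hz2
    simp only [hA, ann, mem_ofPred_eq]
    constructor <;> linarith
  have hρ : (0 : ℝ) < 4 * r := by positivity
  have hsph : ∀ w ∈ sphere (0 : ℂ) (4 * r), w ∈ A := by
    intro w hw
    rw [mem_sphere_iff_norm, sub_zero] at hw
    exact hmemA w (by linarith) (by linarith)
  have h8 : ((8 * r : ℝ) : ℂ) ∈ A := by
    apply hmemA <;> rw [Complex.norm_real, Real.norm_eq_abs, abs_of_pos (by positivity)] <;>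
      linarith
  -- start of the spreading
  have hstart : GoodC F Ψ1 (4 * r) Ψ ((8 * r : ℝ) : ℂ) := by
    refine ⟨fun w hw => hΨ _ ?_, fun w hw => ?_⟩
    · rw [mem_closedBall, dist_zero_right] at hw
      simp only [touchBall, mem_ofPred_eq, Complex.norm_real, Real.norm_eq_abs, Complex.sub_re,
        Complex.ofReal_re]
      rw [abs_of_pos (by positivity)]
      have hre : w.re ≤ ‖w‖ := Complex.re_le_norm w
      have h3 : ‖w‖ ^ 2 ≤ (4 * r) ^ 2 := by gcongr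
      linarith only [h3, hre, hw, h2, h1, hs]
    · rw [mem_sphere_iff_norm, sub_zero] at hw
      exact (c1 w hw).symm
  have hgood : ∀ z ∈ A, ∃ Φ, GoodC F Ψ1 (4 * r) Φ z :=
    GoodC.spread hρ (isOpen_ann _ _) (isPreconnected_ann (by positivity))
      (fun z hz w hw => hΨ1 z hz w (hsph w hw)) h8 ⟨Ψ, hstart⟩
  haveI : Nonempty (ℂ × ℂ → X) := ⟨Ψ⟩
  choose! Φ hΦ using hgood
  -- the glued map
  set Ψ2 : ℂ × ℂ → X := fun p => Φ p.1 p with hΨ2
  have hglue : ∀ z ∈ A, ∀ w ∈ ball (0 : ℂ) (4 * r), Ψ2 =ᶠ[𝓝 (z, w)] Φ z := by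
    intro z hz w hw
    have e1 : ∀ᶠ p : ℂ × ℂ in 𝓝 (z, w), p.1 ∈ A :=
      continuous_fst.continuousAt.eventually ((isOpen_ann _ _).mem_nhds hz)
    have e2 : ∀ᶠ p : ℂ × ℂ in 𝓝 (z, w), p.2 ∈ ball (0 : ℂ) (4 * r) :=
      continuous_snd.continuousAt.eventually (isOpen_ball.mem_nhds hw)
    have e3 : ∀ᶠ p : ℂ × ℂ in 𝓝 (z, w), GoodC F Ψ1 (4 * r) (Φ z) p.1 :=
      continuous_fst.continuousAt.eventually (hΦ z hz).ev
    filter_upwards [e1, e2, e3] with p q1 q2 q3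
    exact ((hΦ p.1 q1).eq hρ q3 (ball_subset_closedBall q2)).eq_of_nhds
  have hΨ2F : ∀ z ∈ A, ∀ w ∈ ball (0 : ℂ) (4 * r), F.IsF Ψ2 (z, w) := by
    intro z hz w hw
    exact F.congr ((hΦ z hz).1 w (ball_subset_closedBall hw)) (hglue z hz w hw).symm
  -- agreement with Ψ1 near circle × {-2r}
  have hagree : ∀ z ∈ A, Φ z =ᶠ[𝓝 (z, ((-2 * r : ℝ) : ℂ))] Ψ1 := by
    intro z hz
    refine F.ident (U := (fun x : ℝ => (z, (x : ℂ))) '' Icc (-4 * r) (-2 * r))
      (isPreconnected_Icc.image _ (by fun_prop)) ?_ ?_ ?_ _ ⟨-2 * r, ⟨by linarith, le_rfl⟩, rfl⟩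
    · rintro _ ⟨x, ⟨hx1, hx2⟩, rfl⟩
      refine (hΦ z hz).1 _ ?_
      rw [mem_closedBall, dist_zero_right, Complex.norm_real, Real.norm_eq_abs,
        abs_of_neg (by linarith)]
      linarith
    · rintro _ ⟨x, ⟨hx1, hx2⟩, rfl⟩
      refine hΨ1 z hz _ (hmemA _ ?_ ?_) <;>
        rw [Complex.norm_real, Real.norm_eq_abs, abs_of_neg (by linarith)] <;> linarith
    · refine ⟨_, ⟨-4 * r, ⟨le_rfl, by linarith⟩, rfl⟩, (hΦ z hz).2 _ ?_⟩
      rw [mem_sphere_iff_norm, sub_zero, Complex.norm_real, Real.norm_eq_abs,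
        abs_of_neg (by linarith)]
      ring
  have hseg : ∀ w ∈ segment ℝ ((-2 * r : ℝ) : ℂ) 0, w ∈ ball (0 : ℂ) (4 * r) := by
    have hsub := (convex_ball (0 : ℂ) (4 * r)).segment_subset (x := ((-2 * r : ℝ) : ℂ)) (y := 0)
      (by
        rw [mem_ball, dist_zero_right, Complex.norm_real, Real.norm_eq_abs,
          abs_of_neg (by linarith)]
        linarith) (mem_ball_self hρ)
    exact fun w hw => hsub hw
  -- second use of Lemma T
  obtain ⟨Ψ3, t1, t2⟩ := F.T (Ψ0 := Ψ) (Ψ1 := Ψ2) (z0 := 0) (R := r)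
    (w0 := ((-2 * r : ℝ) : ℂ)) (w1 := 0) hr
    (by
      intro z hz
      rw [mem_closedBall, dist_zero_right] at hz
      refine hΨ _ ?_
      simp only [touchBall, mem_ofPred_eq, Complex.norm_real, Real.norm_eq_abs, Complex.sub_re,
        Complex.ofReal_re]
      rw [abs_of_neg (by linarith)]
      have hre : -‖z‖ ≤ z.re := (abs_le.1 (Complex.abs_re_le_norm z)).1
      have h3 : ‖z‖ ^ 2 ≤ r ^ 2 := by gcongr
      linarith only [h3, hre, hz, h2, h1, hs])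
    (by
      intro z hz w hw
      rw [mem_sphere_iff_norm, sub_zero] at hz
      exact hΨ2F z (hmemA z (by linarith) (by linarith)) w (hseg w hw))
    (by
      intro z hz
      rw [mem_sphere_iff_norm, sub_zero] at hz
      have hzA := hmemA z (by linarith) (by linarith)
      have g1 := hglue z hzA _ (hseg _ (left_mem_segment ℝ _ _))
      exact ((c2 z hz).symm.trans (hagree z hzA).symm).trans g1.symm)
  have h0 : F.IsF Ψ3 (0, 0) :=
    t1 0 (mem_closedBall_self hr.le) 0 (right_mem_segment ℝ _ _)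
  refine ⟨Ψ3, h0, ?_⟩
  -- agreement along the negative real axis
  have hx : ∀ x : ℝ, -2 * r ≤ x → x < 0 → Ψ3 =ᶠ[𝓝 ((0 : ℂ), (x : ℂ))] Ψ := by
    intro x hx1 hx2
    refine F.ident (U := (fun x : ℝ => ((0 : ℂ), (x : ℂ))) '' Ico (-2 * r) 0)
      (isPreconnected_Ico.image _ (by fun_prop)) ?_ ?_ ?_ _ ⟨x, ⟨hx1, hx2⟩, rfl⟩
    · rintro _ ⟨y, ⟨hy1, hy2⟩, rfl⟩
      refine t1 0 (mem_closedBall_self hr.le) _ ?_
      refine ⟨y / (-2 * r), 1 - y / (-2 * r), ?_, ?_, by ring, ?_⟩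
      · exact div_nonneg_of_nonpos hy2.le (by linarith)
      · have : y / (-2 * r) ≤ 1 := by
          rw [div_le_one_of_neg (by linarith)]; exact hy1
        linarith
      · rw [smul_zero, add_zero, Complex.real_smul, ← Complex.ofReal_mul, div_mul_cancel₀ _
          (by linarith only [h1, hs])]
    · rintro _ ⟨y, ⟨hy1, hy2⟩, rfl⟩
      refine hΨ _ ?_
      simp only [touchBall, mem_ofPred_eq, Complex.norm_real, Real.norm_eq_abs, Complex.sub_re,
        Complex.ofReal_re, norm_zero, Complex.zero_re]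
      rw [abs_of_neg hy2]
      (by_contra nlg; linarith only [nlg, mul_nonneg (sub_nonneg.2 hy1) (le_of_lt (sub_pos.2 hy2)), mul_nonneg (sub_nonneg.2 hr1) (le_of_lt (sub_pos.2 hy2)), mul_nonneg (sub_nonneg.2 h1) (le_of_lt (sub_pos.2 hy2)), mul_pos (sub_pos.2 hs) (sub_pos.2 hy2), mul_nonneg (sub_nonneg.2 (not_lt.1 nlg)) (le_of_lt (sub_pos.2 hy2)), mul_nonneg (sub_nonneg.2 (not_lt.1 nlg)) (sub_nonneg.2 hy1), mul_nonneg (sub_nonneg.2 (not_lt.1 nlg)) (sub_nonneg.2 hr1)])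
    · exact ⟨_, ⟨-2 * r, ⟨le_rfl, by linarith⟩, rfl⟩, t2 0 (mem_closedBall_self hr.le)⟩
  obtain ⟨ε, hε, hball⟩ := Metric.eventually_nhds_iff_ball.1 (F.ev h0)
  have hN : IsPreconnected (ball ((0 : ℂ), (0 : ℂ)) ε ∩ touchBall) :=
    ((convex_ball _ _).inter touchBall_convex).isPreconnected
  have hall : ∀ p ∈ ball ((0 : ℂ), (0 : ℂ)) ε ∩ touchBall, Ψ3 =ᶠ[𝓝 p] Ψ := by
    refine F.ident hN (fun p hp => hball p hp.1) (fun p hp => hΨ p hp.2) ?_
    set y : ℝ := -(min (ε / 2) (2 * r)) with hy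
    have hy0 : y < 0 := by rw [hy, neg_lt_zero]; positivity
    have hy1 : -2 * r ≤ y := by rw [hy]; linarith [min_le_right (ε / 2) (2 * r)]
    have hy2 : -(ε / 2) ≤ y := by rw [hy]; linarith [min_le_left (ε / 2) (2 * r)]
    refine ⟨((0 : ℂ), (y : ℂ)), ⟨?_, ?_⟩, hx y hy1 hy0⟩
    · rw [mem_ball, Prod.dist_eq]
      simp only [dist_self, dist_zero_right, Complex.norm_real, Real.norm_eq_abs]
      rw [abs_of_neg hy0]
      exact max_lt hε (by linarith)
    · simp only [touchBall, mem_ofPred_eq, Complex.norm_real, Real.norm_eq_abs, Complex.sub_re,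
        Complex.ofReal_re, norm_zero, Complex.zero_re]
      rw [abs_of_neg hy0]
      (by_contra nlg; linarith only [nlg, mul_nonneg (le_of_lt (sub_pos.2 hy0)) (sub_nonneg.2 hy1), mul_nonneg (sub_nonneg.2 hr1) (le_of_lt (sub_pos.2 hy0)), mul_nonneg (sub_nonneg.2 h1) (le_of_lt (sub_pos.2 hy0)), mul_pos (sub_pos.2 hs) (sub_pos.2 hy0), mul_nonneg (sub_nonneg.2 (not_lt.1 nlg)) (sub_nonneg.2 hy1), mul_nonneg (sub_nonneg.2 (not_lt.1 nlg)) (le_of_lt (sub_pos.2 hy0)), mul_nonneg (sub_nonneg.2 (not_lt.1 nlg)) (sub_nonneg.2 hr1)])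
  filter_upwards [ball_mem_nhds _ hε] with p hp hpt
  exact (hall p ⟨hp, hpt⟩).eq_of_nhds

end Vale.Agent.P278.Full
end
end

section

section

open Topology Set Filter Complex
open scoped ContDiff Manifold ComplexConjugate

namespace Vale.Agent.P278.Stmt

section
variable (E : Type*) [NormedAddCommGroup E] [NormedSpace ℂ E]
  (X : Type*) [TopologicalSpace X] [ChartedSpace E X]

/-- A family of complex subspaces of the holomorphic tangent spaces. -/
abbrev TangentDist : Type _ := ∀ x : X, Submodule ℂ (TangentSpace 𝓘(ℂ, E) x)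

end

section
variable {E : Type*} [NormedAddCommGroup E] [NormedSpace ℂ E]
  {X : Type*} [TopologicalSpace X] [ChartedSpace E X]

end

section
variable {E : Type*} [NormedAddCommGroup E] [NormedSpace ℂ E]
  {X : Type*} [TopologicalSpace X] [ChartedSpace E X] [IsManifold 𝓘(ℂ, E) 1 X]

/-- `V` is a holomorphic vector field on the set `U`. -/
def IsHolField (U : Set X) (V : ∀ x : X, TangentSpace 𝓘(ℂ, E) x) : Prop :=
  ContMDiffOn 𝓘(ℂ, E) 𝓘(ℂ, E).tangent ω (fun x => (⟨x, V x⟩ : TangentBundle 𝓘(ℂ, E) X)) U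

/-- `F` is an integrable holomorphic subbundle of the tangent bundle. -/
structure IsFoliation (F : TangentDist E X) : Prop where
  frame : ∀ x₀ : X, ∃ U ∈ 𝓝 x₀, ∃ (r : ℕ) (s : Fin r → ∀ x : X, TangentSpace 𝓘(ℂ, E) x),
    (∀ j, IsHolField U (s j)) ∧ ∀ x ∈ U, LinearIndependent ℂ (fun j => s j x) ∧
      Submodule.span ℂ (range fun j => s j x) = F x
  bracket : ∀ (U : Set X) (V W : ∀ x : X, TangentSpace 𝓘(ℂ, E) x), IsOpen U →
    IsHolField U V → IsHolField U W → (∀ x ∈ U, V x ∈ F x ∧ W x ∈ F x) →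
    ∀ x ∈ U, VectorField.mlieBracket 𝓘(ℂ, E) V W x ∈ F x

end

end Vale.Agent.P278.Stmt
end
end

section

section

open Set Topology

namespace Vale.Agent.P278

/-- A criterion for a map to be a covering map, in terms of families of plaques. -/
theorem isCoveringMap_of_plaques {M₁ N : Type*} [TopologicalSpace M₁] [TopologicalSpace N]
    (q : M₁ → N) (hqc : Continuous q) (hqo : IsOpenMap q) (hqs : Function.Surjective q)
    (P P' P'' : M₁ → Set M₁)
    (hPo : ∀ x, IsOpen (P x)) (hxP : ∀ x, x ∈ P x)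
    (h1 : ∀ x y, y ∈ P x → x ∈ P' y) (h2 : ∀ x y, y ∈ P' x → x ∈ P'' y)
    (h3 : ∀ x, P x ⊆ P'' x) (h3' : ∀ x, P' x ⊆ P'' x)
    (inj : ∀ x, InjOn q (P'' x))
    (trP : ∀ x x', q x = q x' → q '' (P x) ⊆ q '' (P x'))
    (trP' : ∀ x x', q x = q x' → q '' (P' x) ⊆ q '' (P' x')) :
    IsCoveringMap q := by
  intro n
  obtain ⟨x₀, rfl⟩ := hqs n
  set U : Set N := q '' (P x₀) with hU
  have hUo : IsOpen U := hqo _ (hPo x₀)
  have hUx : q x₀ ∈ U := ⟨x₀, hxP x₀, rfl⟩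
  let I : Type _ := {y : M₁ // q y = q x₀}
  let _ : TopologicalSpace I := ⊥
  have _ : DiscreteTopology I := ⟨rfl⟩
  -- existence of sheet
  have hex : ∀ z : M₁, q z ∈ U → ∃ y : I, z ∈ P y.1 := by
    rintro z ⟨p, hp, hpz⟩
    have hx₀ : x₀ ∈ P' p := h1 _ _ hp
    obtain ⟨y, hy, hyx⟩ := trP' p z hpz ⟨x₀, hx₀, rfl⟩
    refine ⟨⟨y, hyx⟩, ?_⟩
    obtain ⟨p', hp', hp'p⟩ := trP x₀ y hyx.symm ⟨p, hp, rfl⟩
    have hz : z ∈ P'' y := h2 _ _ hy
    have : p' = z := inj y (h3 y hp') hz (hp'p.trans hpz)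
    rwa [← this]
  have huniq : ∀ (z : M₁) (y y' : I), z ∈ P y.1 → z ∈ P y'.1 → y = y' := by
    intro z y y' hy hy'
    have a := h3' z (h1 _ _ hy)
    have b := h3' z (h1 _ _ hy')
    exact Subtype.ext (inj z a b (y.2.trans y'.2.symm))
  have hsheet : ∀ (y : I) (u : N), u ∈ U → ∃ z ∈ P y.1, q z = u := by
    rintro y u ⟨p, hp, rfl⟩
    obtain ⟨z, hz, hzp⟩ := trP x₀ y.1 y.2.symm ⟨p, hp, rfl⟩
    exact ⟨z, hz, hzp⟩
  have _ : Nonempty I := ⟨⟨x₀, rfl⟩⟩
  choose! idx hidx using hex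
  choose s hs hqs' using hsheet
  have hPU : ∀ (y : I) (z : M₁), z ∈ P y.1 → q z ∈ U := by
    intro y z hz
    exact trP y.1 x₀ y.2 ⟨z, hz, rfl⟩
  refine IsEvenlyCovered.to_isEvenlyCovered_preimage (I := I) ⟨inferInstance, U, hUx, hUo,
    hUo.preimage hqc, ?_⟩
  refine ⟨{ toFun := fun z => (⟨q z.1, z.2⟩, idx z.1)
            invFun := fun w => ⟨s w.2 w.1.1 w.1.2, by
              show q _ ∈ U
              rw [hqs']; exact w.1.2⟩
            left_inv := ?_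
            right_inv := ?_
            continuous_toFun := ?_
            continuous_invFun := ?_ }, ?_⟩
  · rintro ⟨z, hz⟩
    apply Subtype.ext
    have hz' : q z ∈ U := hz
    exact inj _ (h3 _ (hs _ _ _)) (h3 _ (hidx z hz')) (hqs' _ _ _)
  · rintro ⟨⟨u, hu⟩, y⟩
    have e1 : q (s y u hu) = u := hqs' _ _ _
    refine Prod.ext (Subtype.ext e1) ?_
    exact huniq (s y u hu) _ _ (hidx _ (by rw [e1]; exact hu)) (hs _ _ _)
  · refine Continuous.prodMk ((hqc.comp continuous_subtype_val).subtype_mk _) ?_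
    rw [continuous_discrete_rng]
    intro y
    have : (fun z : q ⁻¹' U => idx z.1) ⁻¹' {y} = Subtype.val ⁻¹' (P y.1) := by
      ext ⟨z, hz⟩
      constructor
      · intro h
        have h' : idx z = y := h
        show z ∈ P y.1
        rw [← h']; exact hidx z hz
      · intro h
        exact huniq z _ _ (hidx z hz) h
    rw [this]
    exact (hPo _).preimage continuous_subtype_val
  · rw [continuous_induced_rng]
    rw [continuous_iff_continuousAt]
    rintro ⟨⟨u, hu⟩, y⟩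
    -- neighborhoods in a product with a discrete space
    have hy : 𝓝 y = pure y := by rw [nhds_discrete]
    rw [ContinuousAt, nhds_prod_eq, hy, Filter.prod_pure, Filter.tendsto_map'_iff]
    show Filter.Tendsto (fun w : U => s y w.1 w.2) (𝓝 ⟨u, hu⟩) (𝓝 (s y u hu))
    intro V hV
    -- V ∩ P y is a nhd; its image is a nhd of u
    obtain ⟨W, hWV, hWo, hsW⟩ := mem_nhds_iff.1 (Filter.inter_mem hV ((hPo y.1).mem_nhds (hs y u hu)))
    have himg : IsOpen (q '' W) := hqo _ hWo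
    have hu' : u ∈ q '' W := ⟨_, hsW, hqs' _ _ _⟩
    have : (Subtype.val : U → N) ⁻¹' (q '' W) ∈ 𝓝 (⟨u, hu⟩ : U) :=
      (himg.preimage continuous_subtype_val).mem_nhds hu'
    rw [Filter.mem_map]
    refine Filter.mem_of_superset this ?_
    rintro ⟨w, hw⟩ ⟨z, hzW, hzw⟩
    have hz := hWV hzW
    have : s y w hw = z := inj y.1 (h3 _ (hs _ _ _)) (h3 _ hz.2) ((hqs' _ _ _).trans hzw.symm)
    show s y w hw ∈ V
    rw [this]; exact hz.1
  · rintro ⟨z, hz⟩
    rfl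

end Vale.Agent.P278
end
end

section

section

open Set Topology Filter Metric
open scoped Manifold ContDiff

namespace Vale.Agent.P278

variable {M N E E' : Type*} [NormedAddCommGroup E] [NormedSpace ℂ E] [NormedAddCommGroup E']
  [NormedSpace ℂ E'] [CompleteSpace E'] [TopologicalSpace M] [ChartedSpace E M]
  [TopologicalSpace N] [ChartedSpace E' N]

/-- The identity theorem for analytic maps between manifolds. -/
theorem eventuallyEq_of_isPreconnected [T2Space N] {f g : M → N} {U : Set M} (hU : IsPreconnected U)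
    (hf : ∀ x ∈ U, ContMDiffAt 𝓘(ℂ, E) 𝓘(ℂ, E') ω f x)
    (hg : ∀ x ∈ U, ContMDiffAt 𝓘(ℂ, E) 𝓘(ℂ, E') ω g x) {x₀ : M} (hx₀ : x₀ ∈ U)
    (h : f =ᶠ[𝓝 x₀] g) : ∀ x ∈ U, f =ᶠ[𝓝 x] g := by
  let u : Set M := {x | f =ᶠ[𝓝 x] g}
  have huo : IsOpen u := isOpen_setOf_eventually_nhds
  have hsub : U ⊆ u := by
    refine hU.subset_of_closure_inter_subset huo ⟨x₀, hx₀, h⟩ ?_
    rintro x ⟨hxc, hxU⟩
    have hne : (𝓝[u] x).NeBot := mem_closure_iff_nhdsWithin_neBot.1 hxc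
    have hfx := (hf x hxU).continuousAt
    have hgx := (hg x hxU).continuousAt
    have hfg : f x = g x := by
      have h1 : Tendsto f (𝓝[u] x) (𝓝 (f x)) := hfx.mono_left nhdsWithin_le_nhds
      have h2 : Tendsto g (𝓝[u] x) (𝓝 (g x)) := hgx.mono_left nhdsWithin_le_nhds
      have h3 : f =ᶠ[𝓝[u] x] g := by
        filter_upwards [self_mem_nhdsWithin] with y hy
        exact hy.self_of_nhds
      exact tendsto_nhds_unique (h1.congr' h3) h2
    set φ := extChartAt 𝓘(ℂ, E) x with hφ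
    set ψ := extChartAt 𝓘(ℂ, E') (f x) with hψ
    let F : E → E' := ψ ∘ f ∘ φ.symm
    let G : E → E' := ψ ∘ g ∘ φ.symm
    have hF : AnalyticAt ℂ F (φ x) := by
      have := (contMDiffAt_iff.1 (hf x hxU)).2
      rw [modelWithCornersSelf_coe, range_id, contDiffWithinAt_univ] at this
      exact this.analyticAt
    have hG : AnalyticAt ℂ G (φ x) := by
      have := (contMDiffAt_iff.1 (hg x hxU)).2
      rw [modelWithCornersSelf_coe, range_id, contDiffWithinAt_univ, ← hfg] at this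
      exact this.analyticAt
    have hφs : φ.source ∈ 𝓝 x := extChartAt_source_mem_nhds x
    have hφt : φ.target ∈ 𝓝 (φ x) := by
      have := extChartAt_target_mem_nhdsWithin (I := 𝓘(ℂ, E)) x
      rwa [modelWithCornersSelf_coe, range_id, nhdsWithin_univ] at this
    have hφc : ContinuousAt φ x := continuousAt_extChartAt x
    -- a ball on which everything is fine
    obtain ⟨ρ, hρ, hball⟩ := Metric.eventually_nhds_iff_ball.1
      ((hF.eventually_analyticAt.and hG.eventually_analyticAt).and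
        (eventually_mem_nhds_iff.2 hφt))
    have hFb : AnalyticOnNhd ℂ F (ball (φ x) ρ) := fun z hz => (hball z hz).1.1
    have hGb : AnalyticOnNhd ℂ G (ball (φ x) ρ) := fun z hz => (hball z hz).1.2
    -- a point of `u` close to `x`
    have hex : ∃ y ∈ u, y ∈ φ.source ∧ φ y ∈ ball (φ x) ρ := by
      have h1 : ∀ᶠ y in 𝓝[u] x, y ∈ φ.source ∧ φ y ∈ ball (φ x) ρ :=
        nhdsWithin_le_nhds (Filter.inter_mem hφs (hφc (ball_mem_nhds _ hρ)))
      obtain ⟨y, hy1, hy2⟩ := (h1.and self_mem_nhdsWithin).exists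
      exact ⟨y, hy2, hy1⟩
    obtain ⟨y, hyu, hys, hyb⟩ := hex
    have hFG : F =ᶠ[𝓝 (φ y)] G := by
      have hct : ContinuousAt φ.symm (φ y) := by
        have h1 : φ y ∈ φ.target := φ.map_source hys
        have h2 : φ.target ∈ 𝓝 (φ y) := (hball _ hyb).2
        exact (continuousOn_extChartAt_symm x).continuousAt h2
      have h3 : φ.symm (φ y) = y := φ.left_inv hys
      have h4 : Tendsto φ.symm (𝓝 (φ y)) (𝓝 y) := by
        have := hct.tendsto
        rwa [h3] at this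
      filter_upwards [h4.eventually (show ∀ᶠ z in 𝓝 y, f z = g z from hyu)] with z hz
      show ψ (f (φ.symm z)) = ψ (g (φ.symm z))
      rw [hz]
    have hEq := hFb.eqOn_of_preconnected_of_eventuallyEq hGb
      ((convex_ball (φ x) ρ).isPreconnected) hyb hFG
    -- conclude near `x`
    have hψs : ψ.source ∈ 𝓝 (f x) := extChartAt_source_mem_nhds (f x)
    have h5 : ∀ᶠ z in 𝓝 x, f z ∈ ψ.source := hfx hψs
    have h6 : ∀ᶠ z in 𝓝 x, g z ∈ ψ.source := hgx (by rw [← hfg]; exact hψs)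
    have h7 : ∀ᶠ z in 𝓝 x, φ z ∈ ball (φ x) ρ := hφc (ball_mem_nhds _ hρ)
    show f =ᶠ[𝓝 x] g
    filter_upwards [h5, h6, h7, hφs] with z z1 z2 z3 z4
    have h8 := hEq z3
    have h9 : ψ (f z) = ψ (g z) := by
      have e : φ.symm (φ z) = z := φ.left_inv z4
      have : ψ (f (φ.symm (φ z))) = ψ (g (φ.symm (φ z))) := h8
      rwa [e] at this
    exact ψ.injOn z1 z2 h9
  exact fun x hx => hsub hx

end Vale.Agent.P278
end
end

section

section

open Topology Set Filter Complex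
open scoped ContDiff Matrix ComplexConjugate

namespace Vale.Agent.P278

set_option linter.unusedSectionVars false

variable {E : Type*} [NormedAddCommGroup E] [NormedSpace ℂ E]
variable {ι κ : Type*} [Fintype ι] [DecidableEq ι] [Fintype κ] [DecidableEq κ]
variable {H : E → E →ₗ⋆[ℂ] E →ₗ[ℂ] ℂ} {Ω : Set E}

lemma FlatKahler.wdb_eq (hK : FlatKahler H Ω) {p : E} (hp : p ∈ Ω) (x y ξ : E) :
    wdb (fun q => H q x y) ξ p = conj (wd (fun q => H q y x) ξ p) := by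
  rw [← wdb_conj]
  apply wdb_congr
  filter_upwards [hK.isOpen.mem_nhds hp] with q hq
  exact (hK.symm q hq y x).symm

end Vale.Agent.P278
end
end

section

section

open Topology Set Filter Complex
open scoped ContDiff Matrix ComplexConjugate

namespace Vale.Agent.P278

set_option linter.unusedSectionVars false

variable {E : Type*} [NormedAddCommGroup E] [NormedSpace ℂ E] [FiniteDimensional ℂ E]
variable {ι κ : Type*} [Fintype ι] [DecidableEq ι] [Fintype κ] [DecidableEq κ]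

omit [FiniteDimensional ℂ E] in
lemma fderiv_comp_holo {F : Type*} [NormedAddCommGroup F] [NormedSpace ℂ F] {f : F → ℂ}
    {τ : E → F} {q : E} (h : DifferentiableAt ℂ τ q)
    (hf : DifferentiableAt ℝ f (τ q)) (u : E) :
    fderiv ℝ (fun x => f (τ x)) q u = fderiv ℝ f (τ q) (fderiv ℂ τ q u) := by
  have := (hf.hasFDerivAt.comp q (h.hasFDerivAt.restrictScalars ℝ)).fderiv
  rw [show (fun x => f (τ x)) = f ∘ τ from rfl, this]; rfl

omit [FiniteDimensional ℂ E] in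
lemma wdb_comp_holo {F : Type*} [NormedAddCommGroup F] [NormedSpace ℂ F] {f : F → ℂ}
    {τ : E → F} {q : E} (h : DifferentiableAt ℂ τ q)
    (hf : DifferentiableAt ℝ f (τ q)) (u : E) :
    wdb (fun x => f (τ x)) u q = wdb f (fderiv ℂ τ q u) (τ q) := by
  unfold wdb
  rw [fderiv_comp_holo h hf, fderiv_comp_holo h hf, map_smul]

omit [FiniteDimensional ℂ E] in
lemma wd_comp_holo {F : Type*} [NormedAddCommGroup F] [NormedSpace ℂ F] {f : F → ℂ}
    {τ : E → F} {q : E} (h : DifferentiableAt ℂ τ q)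
    (hf : DifferentiableAt ℝ f (τ q)) (u : E) :
    wd (fun x => f (τ x)) u q = wd f (fderiv ℂ τ q u) (τ q) := by
  unfold wd
  rw [fderiv_comp_holo h hf, fderiv_comp_holo h hf, map_smul]

/-- Transition data between two product charts. -/
structure TransData (b : Module.Basis (ι ⊕ κ) ℂ E) (H₁ H₂ : E → E →ₗ⋆[ℂ] E →ₗ[ℂ] ℂ)
    (Ω₁ Ω₂ : Set E) (τ : E → E) (U : Set E) : Prop where
  K1 : FlatKahler H₁ Ω₁
  K2 : FlatKahler H₂ Ω₂
  isOpen : IsOpen U
  sub : U ⊆ Ω₁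
  maps : ∀ q ∈ U, τ q ∈ Ω₂
  ana : ∀ q ∈ U, ContDiffAt ℂ ω τ q
  met : ∀ q ∈ U, ∀ u v, H₁ q u v = H₂ (τ q) (fderiv ℂ τ q u) (fderiv ℂ τ q v)
  z : ∀ q ∈ U, ∀ i j, b.repr (fderiv ℂ τ q (b (Sum.inl i))) (Sum.inr j) = 0
  w : ∀ q ∈ U, ∀ j i, b.repr (fderiv ℂ τ q (b (Sum.inr j))) (Sum.inl i) = 0

namespace TransData

variable {b : Module.Basis (ι ⊕ κ) ℂ E} {H₁ H₂ : E → E →ₗ⋆[ℂ] E →ₗ[ℂ] ℂ}
    {Ω₁ Ω₂ : Set E} {τ : E → E} {U : Set E}

/-- swapping the roles of the two factors -/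
lemma swap (T : TransData b H₁ H₂ Ω₁ Ω₂ τ U) :
    TransData (b.reindex (Equiv.sumComm ι κ)) H₁ H₂ Ω₁ Ω₂ τ U where
  K1 := T.K1
  K2 := T.K2
  isOpen := T.isOpen
  sub := T.sub
  maps := T.maps
  ana := T.ana
  met := T.met
  z := fun q hq i j => by
    rw [Module.Basis.repr_reindex_apply, Module.Basis.reindex_apply]
    exact T.w q hq i j
  w := fun q hq i j => by
    rw [Module.Basis.repr_reindex_apply, Module.Basis.reindex_apply]
    exact T.z q hq i j

end TransData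

namespace TransData

variable {b : Module.Basis (ι ⊕ κ) ℂ E} {H₁ H₂ : E → E →ₗ⋆[ℂ] E →ₗ[ℂ] ℂ}
    {Ω₁ Ω₂ : Set E} {τ : E → E} {U : Set E}

end TransData

end Vale.Agent.P278
end
end

section

section

open Topology Set Filter Complex
open scoped ContDiff Matrix ComplexConjugate

namespace Vale.Agent.P278

variable {E : Type*} [NormedAddCommGroup E] [NormedSpace ℂ E] [FiniteDimensional ℂ E]
variable {X : Type*} [TopologicalSpace X] [CompactSpace X] [T2Space X]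

end Vale.Agent.P278
end
end

section

section

open Topology Set Filter
open scoped ContDiff Manifold

namespace Vale.Agent.P278.Full

variable {E : Type*} [NormedAddCommGroup E] [NormedSpace ℂ E]
  {X : Type*} [TopologicalSpace X] [ChartedSpace E X] [IsManifold 𝓘(ℂ, E) 1 X]

/-- The sum of independent holomorphic subbundles is a holomorphic subbundle. -/
theorem isSubbundle_sum {k : ℕ} {F : Fin k → StmtF.Dist E X} (hF : ∀ i, StmtF.IsSubbundle (F i))
    (hc : ∀ x, iSupIndep fun i => F i x) (I : Set (Fin k)) :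
    StmtF.IsSubbundle fun x => ⨆ i ∈ I, F i x := by
  classical
  intro x₀
  choose U hU r s hs hsp using fun i => hF i x₀
  let J := Σ i : I, Fin (r i)
  let e : J ≃ Fin (Fintype.card J) := Fintype.equivFin J
  refine ⟨⋂ i, U i, Filter.iInter_mem.2 hU, Fintype.card J,
    fun j => s (e.symm j).1 (e.symm j).2, ?_, ?_⟩
  · intro j
    refine ⟨(hs (e.symm j).1 (e.symm j).2).1.mono (iInter_subset _ _), fun x hx => ?_⟩
    have h1 := (hs (e.symm j).1 (e.symm j).2).2 x (mem_iInter.1 hx _)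
    exact (le_iSup₂ (f := fun i (_ : i ∈ I) => F i x) _ (e.symm j).1.2) h1
  · intro x hx
    have hx' : ∀ i, x ∈ U i := fun i => mem_iInter.1 hx i
    constructor
    · have h1 : LinearIndependent ℂ (fun ji : J => s ji.1 ji.2 x) := by
        refine linearIndependent_iUnion_finite (f := fun (i : I) (j : Fin (r i)) => s i j x)
          (fun i => (hsp i x (hx' i)).1) ?_
        intro i t _ hit
        rw [(hsp i x (hx' i)).2]
        refine (hc x (i : Fin k)).mono_right ?_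
        refine iSup₂_le fun j hj => ?_
        rw [(hsp j x (hx' j)).2]
        have hji : (j : Fin k) ≠ i := by
          intro h
          apply hit
          rwa [← Subtype.ext h]
        exact le_iSup₂ (f := fun l (_ : l ≠ (i : Fin k)) => F l x) (j : Fin k) hji
      exact h1.comp e.symm e.symm.injective
    · have h2 : (range fun j => s (e.symm j).1 (e.symm j).2 x) =
          ⋃ i : I, range fun j : Fin (r i) => s i j x := by
        ext v
        constructor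
        · rintro ⟨j, rfl⟩
          exact mem_iUnion.2 ⟨(e.symm j).1, (e.symm j).2, rfl⟩
        · intro hv
          obtain ⟨i, j, rfl⟩ := mem_iUnion.1 hv
          refine ⟨e ⟨i, j⟩, ?_⟩
          show (fun ji : J => s ji.1 ji.2 x) (e.symm (e ⟨i, j⟩)) = s i j x
          rw [e.symm_apply_apply]
      rw [h2, Submodule.span_iUnion, iSup_subtype]
      refine iSup_congr fun i => iSup_congr fun hi => ?_
      exact (hsp i x (hx' i)).2

/-- The sums are integrable holomorphic subbundles. -/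
theorem isFoliation_sum {k : ℕ} {F : Fin k → StmtF.Dist E X} (hF : ∀ i, StmtF.IsSubbundle (F i))
    (hI : ∀ I : Set (Fin k), StmtF.IsIntegrable fun x => ⨆ i ∈ I, F i x)
    (hc : ∀ x, DirectSum.IsInternal fun i => F i x) (I : Set (Fin k)) :
    Stmt.IsFoliation fun x => ⨆ i ∈ I, F i x where
  frame := by
    intro x₀
    obtain ⟨U, hU, r, s, hs, hsp⟩ := isSubbundle_sum hF (fun x =>
      ((DirectSum.isInternal_submodule_iff_iSupIndep_and_iSup_eq_top _).mp (hc x)).1) I x₀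
    exact ⟨U, hU, r, s, fun j => (hs j).1, hsp⟩
  bracket := by
    intro U V W hU hV hW h x hx
    exact hI I U V W hU ⟨hV, fun y hy => (h y hy).1⟩ ⟨hW, fun y hy => (h y hy).2⟩ x hx

end Vale.Agent.P278.Full
end
end

section

section

open Topology Set Filter Complex

set_option linter.unusedSectionVars false
open scoped ContDiff Manifold Matrix ComplexConjugate

namespace Vale.Agent.P278

variable {E : Type*} [NormedAddCommGroup E] [NormedSpace ℂ E] [FiniteDimensional ℂ E]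
  {X : Type*} [TopologicalSpace X] [ChartedSpace E X] [IsManifold 𝓘(ℂ, E) ω X]
  {A : Type*} [NormedAddCommGroup A] [NormedSpace ℂ A] [FiniteDimensional ℂ A]
  {B : Type*} [NormedAddCommGroup B] [NormedSpace ℂ B] [FiniteDimensional ℂ B]
  {F₁ F₂ : TangentDist E X} {𝒬 : Set (OpenPartialHomeomorph X (A × B))}

end Vale.Agent.P278
end
end

section

section

/-! The identity theorem for F-maps, and the corresponding abstract class. -/

open Set Topology Filter Metric MeasureTheory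
open scoped ContDiff Manifold ComplexConjugate ENNReal

set_option linter.all false

namespace Vale.Agent.P278.Full

variable {X : Type*} [TopologicalSpace X] {A B : Type*} [NormedAddCommGroup A] [NormedSpace ℂ A]
  [NormedAddCommGroup B] [NormedSpace ℂ B]
  {𝒬 : Set (OpenPartialHomeomorph X (A × B))} {Ψ Ψ' : ℂ × ℂ → X} {p : ℂ × ℂ}
  [CompleteSpace A] [CompleteSpace B]

/-- The set of points where `Ψ` is an F-map is open. -/
theorem IsF.eventually (h : IsF 𝒬 Ψ p) : ∀ᶠ q in 𝓝 p, IsF 𝒬 Ψ q := by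
  obtain ⟨φ, hφ, f, g, hf, hg, he⟩ := h
  have hf' : ∀ᶠ q : ℂ × ℂ in 𝓝 p, AnalyticAt ℂ f q.1 :=
    continuousAt_fst.eventually hf.eventually_analyticAt
  have hg' : ∀ᶠ q : ℂ × ℂ in 𝓝 p, AnalyticAt ℂ g q.2 :=
    continuousAt_snd.eventually hg.eventually_analyticAt
  filter_upwards [hf', hg', he.eventually_nhds] with q h1 h2 h3
  exact ⟨φ, hφ, f, g, h1, h2, h3⟩

theorem IsF.congr (h : IsF 𝒬 Ψ p) (he : Ψ =ᶠ[𝓝 p] Ψ') : IsF 𝒬 Ψ' p := by
  obtain ⟨φ, hφ, f, g, hf, hg, h3⟩ := h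
  refine ⟨φ, hφ, f, g, hf, hg, ?_⟩
  filter_upwards [h3, he] with q h4 h5
  rw [← h5]; exact h4

theorem FOn.mono {S S' : Set (ℂ × ℂ)} (h : FOn 𝒬 Ψ S) (hS : S' ⊆ S) : FOn 𝒬 Ψ S' :=
  fun p hp => h p (hS hp)

theorem FOn.exists_open {S : Set (ℂ × ℂ)} (h : FOn 𝒬 Ψ S) :
    ∃ Ω, IsOpen Ω ∧ S ⊆ Ω ∧ FOn 𝒬 Ψ Ω := by
  refine ⟨{p | IsF 𝒬 Ψ p}, ?_, h, fun p hp => hp⟩
  rw [isOpen_iff_mem_nhds]
  intro p hp
  exact IsF.eventually hp

/-- An F-map in a chart. -/
theorem IsF.analyticAt_chart (h : IsF 𝒬 Ψ p) :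
    ∃ φ ∈ 𝒬, (∀ᶠ q in 𝓝 p, Ψ q ∈ φ.source) ∧ AnalyticAt ℂ (fun q => φ (Ψ q)) p := by
  obtain ⟨φ, hφ, f, g, hf, hg, he⟩ := h
  refine ⟨φ, hφ, he.mono fun q hq => hq.1, ?_⟩
  have h1 : AnalyticAt ℂ (fun q : ℂ × ℂ => (f q.1, g q.2)) p :=
    (hf.comp' analyticAt_fst).prod (hg.comp' analyticAt_snd)
  exact h1.congr (he.mono fun q hq => hq.2.symm)

theorem IsF.continuousAt (h : IsF 𝒬 Ψ p) : ContinuousAt Ψ p := by
  obtain ⟨φ, hφ, hs, ha⟩ := h.analyticAt_chart
  have h1 : ContinuousAt (fun q => φ.symm (φ (Ψ q))) p :=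
    ContinuousAt.comp (φ.continuousAt_symm (φ.map_source hs.self_of_nhds)) ha.continuousAt
  exact h1.congr (hs.mono fun q hq => φ.left_inv hq)

variable {H : OpenPartialHomeomorph X (A × B) → A × B → (A × B) →ₗ⋆[ℂ] (A × B) →ₗ[ℂ] ℂ}

/-- An F-map is analytic in every chart. -/
theorem IsF.analyticAt_of_mem (K : KAtlas 𝒬 H) (h : IsF 𝒬 Ψ p)
    {φ : OpenPartialHomeomorph X (A × B)} (hφ : φ ∈ 𝒬) (hp : Ψ p ∈ φ.source) :
    (∀ᶠ q in 𝓝 p, Ψ q ∈ φ.source) ∧ AnalyticAt ℂ (fun q => φ (Ψ q)) p := by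
  obtain ⟨ψ, hψ, hs, ha⟩ := h.analyticAt_chart
  refine ⟨h.continuousAt.eventually (φ.open_source.mem_nhds hp), ?_⟩
  have h1 : AnalyticAt ℂ (fun y => φ (ψ.symm y)) (ψ (Ψ p)) :=
    K.ana ψ hψ φ hφ (Ψ p) hs.self_of_nhds hp
  have h2 : AnalyticAt ℂ (fun q => φ (ψ.symm (ψ (Ψ q)))) p :=
    AnalyticAt.comp' (g := fun y => φ (ψ.symm y)) (f := fun q => ψ (Ψ q)) h1 ha
  exact h2.congr (hs.mono fun q hq => by simp only; rw [ψ.left_inv hq])

/-- Two F-maps with the same value at `p` agreeing at points close to `p` agree near `p`. -/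
theorem IsF.eventuallyEq_of_frequently [T2Space X] (K : KAtlas 𝒬 H) (h : IsF 𝒬 Ψ p)
    (h' : IsF 𝒬 Ψ' p) (hfr : ∃ᶠ q in 𝓝 p, Ψ =ᶠ[𝓝 q] Ψ') : Ψ =ᶠ[𝓝 p] Ψ' := by
  -- the values at `p` agree
  have hval : Ψ p = Ψ' p := by
    by_contra hne
    obtain ⟨U, V, hU, hV, hpU, hpV, hUV⟩ := t2_separation hne
    have h1 := h.continuousAt.eventually (hU.mem_nhds hpU)
    have h2 := h'.continuousAt.eventually (hV.mem_nhds hpV)
    obtain ⟨q, hq, h3, h4⟩ := (hfr.and_eventually (h1.and h2)).exists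
    exact disjoint_left.1 hUV h3 (hq.self_of_nhds ▸ h4)
  obtain ⟨φ, hφ, hs, ha⟩ := h.analyticAt_chart
  obtain ⟨hs', ha'⟩ := h'.analyticAt_of_mem K hφ (hval ▸ hs.self_of_nhds)
  -- a ball where everything is analytic
  have hev := ((ha.eventually_analyticAt.and ha'.eventually_analyticAt).and (hs.and hs'))
  obtain ⟨ε, hε, hball⟩ := Metric.eventually_nhds_iff_ball.1 hev
  obtain ⟨q, hq, hqb⟩ := (hfr.and_eventually (ball_mem_nhds p hε)).exists
  have han : AnalyticOnNhd ℂ (fun q => φ (Ψ q)) (ball p ε) := fun y hy => (hball y hy).1.1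
  have han' : AnalyticOnNhd ℂ (fun q => φ (Ψ' q)) (ball p ε) := fun y hy => (hball y hy).1.2
  have heq : EqOn (fun q => φ (Ψ q)) (fun q => φ (Ψ' q)) (ball p ε) :=
    han.eqOn_of_preconnected_of_eventuallyEq han' (convex_ball p ε).isPreconnected hqb
      (hq.mono fun y hy => by simp only; rw [hy])
  filter_upwards [ball_mem_nhds p hε] with y hy
  exact φ.injOn (hball y hy).2.1 (hball y hy).2.2 (heq hy)

/-- **Identity theorem.** -/
theorem FOn.eventuallyEq [T2Space X] (K : KAtlas 𝒬 H) {S : Set (ℂ × ℂ)} (h : FOn 𝒬 Ψ S)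
    (h' : FOn 𝒬 Ψ' S) (hS : IsPreconnected S) (hp : p ∈ S) (he : Ψ =ᶠ[𝓝 p] Ψ') :
    ∀ q ∈ S, Ψ =ᶠ[𝓝 q] Ψ' := by
  -- the agreement set is relatively clopen
  set U : Set (ℂ × ℂ) := {q | Ψ =ᶠ[𝓝 q] Ψ'} with hU
  set V : Set (ℂ × ℂ) := {q | ¬ ∃ᶠ q' in 𝓝 q, Ψ =ᶠ[𝓝 q'] Ψ'} with hV
  have hUo : IsOpen U := by
    rw [isOpen_iff_mem_nhds]; intro q hq; exact hq.eventually_nhds
  have hVo : IsOpen V := by
    rw [isOpen_iff_mem_nhds]
    intro q hq
    have hq' : ∀ᶠ q' in 𝓝 q, ¬ (Ψ =ᶠ[𝓝 q'] Ψ') := not_frequently.1 hq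
    filter_upwards [hq'.eventually_nhds] with y hy
    exact not_frequently.2 hy
  by_contra hcon
  push Not at hcon
  obtain ⟨q, hqS, hq⟩ := hcon
  have hcover : S ⊆ U ∪ V := by
    intro y hy
    by_cases hfr : ∃ᶠ q' in 𝓝 y, Ψ =ᶠ[𝓝 q'] Ψ'
    · left; exact (h y hy).eventuallyEq_of_frequently K (h' y hy) hfr
    · right; exact hfr
  have hqV : q ∈ V := (hcover hqS).resolve_left hq
  obtain ⟨y, hyS, hyU, hyV⟩ := hS U V hUo hVo hcover ⟨p, hp, he⟩ ⟨q, hqS, hqV⟩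
  apply hyV
  exact Filter.Eventually.frequently (hUo.mem_nhds hyU)

/-- F-maps on open sets form an abstract class. -/
def fclass [T2Space X] (K : KAtlas 𝒬 H) : FClass X where
  F Ψ Ω := IsOpen Ω ∧ FOn 𝒬 Ψ Ω
  isOpen h := h.1
  mono h ho hs := ⟨ho, h.2.mono hs⟩
  loc ho h := ⟨ho, fun p hp => by
    obtain ⟨N, hpN, hN⟩ := h p hp
    exact hN.2 p hpN⟩
  congr h he := ⟨h.1, fun p hp => (h.2 p hp).congr
    (Filter.eventuallyEq_of_mem (h.1.mem_nhds hp) he)⟩
  ident h h' hc hp he := fun q hq => (FOn.eventuallyEq K h.2 h'.2 hc hp he q hq).self_of_nhds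

end Vale.Agent.P278.Full
end
end

section

section

/-! Lemma T (leafwise Hartogs): the definition of a good point, and the statements of the pieces. -/

open Set Topology Filter Metric MeasureTheory
open scoped ContDiff Manifold ComplexConjugate ENNReal

set_option linter.all false

namespace Vale.Agent.P278.Full

variable {X : Type*} [TopologicalSpace X] {A B : Type*} [NormedAddCommGroup A] [NormedSpace ℂ A]
  [NormedAddCommGroup B] [NormedSpace ℂ B]

/-- `p` is a good point at time `T`: `Ψ` (an F-map near `{p} × [0,T)`) continues as an F-map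
to a neighbourhood of `(p, T)`, from the left. -/
def Good (𝒬 : Set (OpenPartialHomeomorph X (A × B))) (Ψ : ℂ × ℂ → X) (T : ℝ) (p : ℂ) : Prop :=
  ∃ Θ : ℂ × ℂ → X, IsF 𝒬 Θ (p, (T : ℂ)) ∧ ∀ᶠ t : ℝ in 𝓝[<] T, Θ =ᶠ[𝓝 (p, (t : ℂ))] Ψ

end Vale.Agent.P278.Full
end
end

section

section

open Set Topology Filter Metric MeasureTheory Complex
open scoped ENNReal Real

set_option linter.all false

namespace Vale.Agent.P278.Full

variable {V : Type*} [NormedAddCommGroup V] [NormedSpace ℂ V] [CompleteSpace V]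

theorem circle_mean_sq {f : ℂ → V} {z : ℂ} {R r : ℝ} (hr : 0 < r) (hrR : r < R)
    (hf : DifferentiableOn ℂ f (ball z R)) :
    2 * π * ‖f z‖ ^ 2 ≤ ∫ θ in (-π)..π, ‖f (circleMap z r θ)‖ ^ 2 := by
  have hcl : closedBall z r ⊆ ball z R := closedBall_subset_ball hrR
  have hd : DiffContOnCl ℂ f (ball z |r|) := by
    rw [abs_of_pos hr]
    exact (hf.mono hcl).diffContOnCl_ball subset_rfl
  have hmean := hd.circleAverage
  have hcont : Continuous fun θ : ℝ => f (circleMap z r θ) := by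
    refine (hf.continuousOn).comp_continuous (continuous_circleMap z r) fun θ => ?_
    exact hcl (circleMap_mem_closedBall z hr.le θ)
  have hper : Function.Periodic (fun θ : ℝ => ‖f (circleMap z r θ)‖ ^ 2) (2 * π) := by
    intro θ
    simp only
    rw [periodic_circleMap z r θ]
  have h1 : ∫ θ in (-π)..π, ‖f (circleMap z r θ)‖ ^ 2 =
      ∫ θ in (0:ℝ)..(2 * π), ‖f (circleMap z r θ)‖ ^ 2 := by
    have := hper.intervalIntegral_add_eq (-π) 0
    rw [zero_add, show -π + 2 * π = π by ring] at this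
    exact this
  rw [h1]
  set N : ℝ := ‖f z‖ with hN
  have hpi : (0 : ℝ) < 2 * π := by positivity
  have h2 : 2 * π * N ≤ ∫ θ in (0:ℝ)..(2 * π), ‖f (circleMap z r θ)‖ := by
    rw [Real.circleAverage_def] at hmean
    have h3 : N ≤ (2 * π)⁻¹ * ∫ θ in (0:ℝ)..(2 * π), ‖f (circleMap z r θ)‖ := by
      rw [hN, ← hmean, norm_smul, Real.norm_of_nonneg (by positivity)]
      exact mul_le_mul_of_nonneg_left
        (intervalIntegral.norm_integral_le_integral_norm hpi.le) (by positivity)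
    calc 2 * π * N ≤ 2 * π * ((2 * π)⁻¹ * ∫ θ in (0:ℝ)..(2 * π), ‖f (circleMap z r θ)‖) :=
          mul_le_mul_of_nonneg_left h3 hpi.le
      _ = _ := by (clear * -; field_simp)
  have h4 : ∫ θ in (0:ℝ)..(2 * π), (2 * N * ‖f (circleMap z r θ)‖ - N ^ 2) ≤
      ∫ θ in (0:ℝ)..(2 * π), ‖f (circleMap z r θ)‖ ^ 2 := by
    refine intervalIntegral.integral_mono_on hpi.le ?_ ?_ ?_
    · exact ((continuous_const.mul hcont.norm).sub continuous_const).intervalIntegrable _ _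
    · exact (hcont.norm.pow 2).intervalIntegrable _ _
    · intro θ _
      nlinarith only [sq_nonneg (‖f (circleMap z r θ)‖ - N)]
  have h5 : ∫ θ in (0:ℝ)..(2 * π), (2 * N * ‖f (circleMap z r θ)‖ - N ^ 2) =
      2 * N * (∫ θ in (0:ℝ)..(2 * π), ‖f (circleMap z r θ)‖) - 2 * π * N ^ 2 := by
    rw [intervalIntegral.integral_sub, intervalIntegral.integral_const_mul,
      intervalIntegral.integral_const]
    · simp only [sub_zero, smul_eq_mul]
    · exact (continuous_const.mul hcont.norm).intervalIntegrable _ _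
    · exact intervalIntegrable_const
  have hN0 : 0 ≤ N := norm_nonneg _
  have h6 := mul_le_mul_of_nonneg_left h2 (by (clear * -; positivity) : 0 ≤ 2 * N)
  linarith

/-- The area mean inequality. -/
theorem area_mean_sq {f : ℂ → V} {z : ℂ} {R : ℝ} (hR : 0 < R)
    (hf : DifferentiableOn ℂ f (ball z R)) :
    ENNReal.ofReal (π * R ^ 2 * ‖f z‖ ^ 2) ≤ ∫⁻ y in ball z R, ENNReal.ofReal (‖f y‖ ^ 2) := by
  set G : ℂ → ℝ≥0∞ := fun y => (ball z R).indicator (fun y => ENNReal.ofReal (‖f y‖ ^ 2)) y with hG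
  have h1 : ∫⁻ y in ball z R, ENNReal.ofReal (‖f y‖ ^ 2) = ∫⁻ y, G (z + y) := by
    rw [lintegral_add_left_eq_self G z, hG, lintegral_indicator measurableSet_ball]
  rw [h1, ← Complex.lintegral_comp_polarCoord_symm]
  have hsub : Ioo 0 R ×ˢ Ioo (-π) π ⊆ polarCoord.target := by
    rintro ⟨r, θ⟩ ⟨h, h'⟩
    exact ⟨h.1, h'⟩
  have hval : ∀ p ∈ Ioo 0 R ×ˢ Ioo (-π) π, ENNReal.ofReal p.1 • G (z + Complex.polarCoord.symm p) =
      ENNReal.ofReal (p.1 * ‖f (circleMap z p.1 p.2)‖ ^ 2) := by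
    rintro ⟨r, θ⟩ ⟨⟨hr0, hrR⟩, -⟩
    have e1 : z + Complex.polarCoord.symm (r, θ) = circleMap z r θ := by
      rw [Complex.polarCoord_symm_apply, circleMap, Complex.exp_mul_I]
      simp
    have e2 : circleMap z r θ ∈ ball z R :=
      (closedBall_subset_ball hrR) (circleMap_mem_closedBall z hr0.le θ)
    rw [e1, hG]
    simp only [indicator_of_mem e2, smul_eq_mul]
    rw [← ENNReal.ofReal_mul hr0.le]
  calc ENNReal.ofReal (π * R ^ 2 * ‖f z‖ ^ 2)
      = ∫⁻ r in Ioo 0 R, ENNReal.ofReal (r * (2 * π * ‖f z‖ ^ 2)) := by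
        rw [← ofReal_integral_eq_lintegral_ofReal, ← integral_Ioc_eq_integral_Ioo,
          ← intervalIntegral.integral_of_le hR.le, intervalIntegral.integral_mul_const,
          integral_id]
        · congr 1; ring
        · exact ((by fun_prop : Continuous fun r : ℝ => r * (2 * π * ‖f z‖ ^ 2)).integrableOn_Icc
            (a := 0) (b := R)).mono_set Ioo_subset_Icc_self
        · filter_upwards [ae_restrict_mem measurableSet_Ioo] with r hr
          have := hr.1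
          (clear * - this; positivity)
    _ ≤ ∫⁻ r in Ioo 0 R, ∫⁻ θ in Ioo (-π) π, ENNReal.ofReal (r * ‖f (circleMap z r θ)‖ ^ 2) := by
        refine setLIntegral_mono' measurableSet_Ioo fun r hr => ?_
        have hcont : Continuous fun θ : ℝ => r * ‖f (circleMap z r θ)‖ ^ 2 := by
          have : Continuous fun θ : ℝ => f (circleMap z r θ) := by
            refine (hf.continuousOn).comp_continuous (continuous_circleMap z r) fun θ => ?_
            exact (closedBall_subset_ball hr.2) (circleMap_mem_closedBall z hr.1.le θ)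
          exact continuous_const.mul (this.norm.pow 2)
        rw [← ofReal_integral_eq_lintegral_ofReal, ← integral_Ioc_eq_integral_Ioo,
          ← intervalIntegral.integral_of_le (by linarith only [Real.pi_pos]),
          intervalIntegral.integral_const_mul]
        · exact ENNReal.ofReal_le_ofReal (mul_le_mul_of_nonneg_left
            (circle_mean_sq hr.1 hr.2 hf) hr.1.le)
        · exact (hcont.integrableOn_Icc (a := -π) (b := π)).mono_set Ioo_subset_Icc_self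
        · filter_upwards with θ
          have := hr.1
          (clear * - this; positivity)
    _ = ∫⁻ p in Ioo 0 R ×ˢ Ioo (-π) π, ENNReal.ofReal (p.1 * ‖f (circleMap z p.1 p.2)‖ ^ 2) := by
        rw [Measure.volume_eq_prod, setLIntegral_prod]
        refine AEMeasurable.ennreal_ofReal ?_
        refine ContinuousOn.aemeasurable ?_ (measurableSet_Ioo.prod measurableSet_Ioo)
        have : ContinuousOn (fun p : ℝ × ℝ => f (circleMap z p.1 p.2))
            (Ioo 0 R ×ˢ Ioo (-π) π) := by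
          refine hf.continuousOn.comp (by unfold circleMap; (clear * -; fun_prop)) fun p hp => ?_
          exact (closedBall_subset_ball hp.1.2) (circleMap_mem_closedBall z hp.1.1.le p.2)
        exact continuous_fst.continuousOn.mul (this.norm.pow 2)
    _ = ∫⁻ p in Ioo 0 R ×ˢ Ioo (-π) π, ENNReal.ofReal p.1 • G (z + Complex.polarCoord.symm p) := by
        refine setLIntegral_congr_fun (measurableSet_Ioo.prod measurableSet_Ioo) ?_
        intro p hp
        exact (hval p hp).symm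
    _ ≤ ∫⁻ p in polarCoord.target, ENNReal.ofReal p.1 • G (z + Complex.polarCoord.symm p) :=
        lintegral_mono_set hsub

end Vale.Agent.P278.Full
end
end

section

section

open Set Topology Filter Metric MeasureTheory
open scoped ContDiff Manifold ComplexConjugate ENNReal Real

set_option linter.all false

namespace Vale.Agent.P278.Full

variable {X : Type*} [TopologicalSpace X] {A B : Type*} [NormedAddCommGroup A] [NormedSpace ℂ A]
  [NormedAddCommGroup B] [NormedSpace ℂ B] {𝒬 : Set (OpenPartialHomeomorph X (A × B))}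
  {H : OpenPartialHomeomorph X (A × B) → A × B → (A × B) →ₗ⋆[ℂ] (A × B) →ₗ[ℂ] ℂ}
  [FiniteDimensional ℂ A] [FiniteDimensional ℂ B]

/-- The energy density is continuous. -/
theorem eden_continuousAt (hQ : KAtlas 𝒬 H) {u : ℂ → X} {z : ℂ} (hu : IsDisc 𝒬 u z) :
    ContinuousAt (fun y => eden 𝒬 H u y) z := by
  haveI := FiniteDimensional.complete ℂ A
  haveI := FiniteDimensional.complete ℂ B
  have hev := hu.eventually
  obtain ⟨φ, hφ, h1, h2⟩ := hu
  have h3 : (fun y => eden 𝒬 H u y) =ᶠ[𝓝 z] fun y => (H φ (φ (u y)) (deriv (fun y => φ (u y)) y)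
      (deriv (fun y => φ (u y)) y)).re := by
    filter_upwards [h1, hev] with y hy hy'
    exact eden_eq hQ hy' hφ hy
  refine ContinuousAt.congr ?_ h3.symm
  have h4 : ContinuousAt (fun y => (φ (u y), deriv (fun y => φ (u y)) y,
      deriv (fun y => φ (u y)) y)) z :=
    h2.continuousAt.prodMk (h2.deriv.continuousAt.prodMk h2.deriv.continuousAt)
  have h5 := (continuousOn_form (hQ.kahler φ hφ)).continuousAt
    (x := (φ (u z), deriv (fun y => φ (u y)) z, deriv (fun y => φ (u y)) z))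
    (prod_mem_nhds (φ.open_target.mem_nhds (φ.map_source h1.self_of_nhds)) univ_mem)
  exact Complex.continuous_re.continuousAt.comp
    (ContinuousAt.comp (g := fun q : (A × B) × (A × B) × (A × B) => H φ q.1 q.2.1 q.2.2)
      (f := fun y => (φ (u y), deriv (fun y => φ (u y)) y,
        deriv (fun y => φ (u y)) y)) (x := z) h5 h4)

/-- Mean value inequality for a disc in a chart. -/
theorem eden_mean (hQ : KAtlas 𝒬 H) {φ : OpenPartialHomeomorph X (A × B)} (hφ : φ ∈ 𝒬)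
    {c C : ℝ} (hc : 0 < c) (hC : 0 < C) {u : ℂ → X} {z : ℂ} {ρ : ℝ} (hρ : 0 < ρ)
    (hu : ∀ y ∈ ball z ρ, IsDisc 𝒬 u y) (hin : ∀ y ∈ ball z ρ, u y ∈ φ.source)
    (hlow : ∀ y ∈ ball z ρ, ∀ v, c * ‖v‖ ^ 2 ≤ (H φ (φ (u y)) v v).re)
    (hup : ∀ v, (H φ (φ (u z)) v v).re ≤ C * ‖v‖ ^ 2) :
    ENNReal.ofReal (π * ρ ^ 2 * c * eden 𝒬 H u z) ≤
      ENNReal.ofReal C * energy 𝒬 H u (ball z ρ) := by
  haveI := FiniteDimensional.complete ℂ A
  haveI := FiniteDimensional.complete ℂ B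
  set f : ℂ → A × B := deriv fun y => φ (u y) with hf
  have hfd : DifferentiableOn ℂ f (ball z ρ) := fun y hy =>
    ((hu y hy).chart hQ hφ (hin y hy)).2.deriv.differentiableAt.differentiableWithinAt
  have h1 := area_mean_sq hρ hfd
  have hz : z ∈ ball z ρ := mem_ball_self hρ
  have h2 : eden 𝒬 H u z ≤ C * ‖f z‖ ^ 2 := by
    rw [eden_eq hQ (hu z hz) hφ (hin z hz)]
    exact hup _
  have h3 : ∀ y ∈ ball z ρ, c * ‖f y‖ ^ 2 ≤ eden 𝒬 H u y := by
    intro y hy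
    rw [eden_eq hQ (hu y hy) hφ (hin y hy)]
    exact hlow y hy _
  calc ENNReal.ofReal (π * ρ ^ 2 * c * eden 𝒬 H u z)
      ≤ ENNReal.ofReal (C * (c * (π * ρ ^ 2 * ‖f z‖ ^ 2))) := by
        apply ENNReal.ofReal_le_ofReal
        have := mul_le_mul_of_nonneg_left h2 (by positivity : 0 ≤ π * ρ ^ 2 * c)
        linarith only [this]
    _ = ENNReal.ofReal C * (ENNReal.ofReal c * ENNReal.ofReal (π * ρ ^ 2 * ‖f z‖ ^ 2)) := by
        rw [ENNReal.ofReal_mul hC.le, ENNReal.ofReal_mul hc.le]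
    _ ≤ ENNReal.ofReal C * (ENNReal.ofReal c * ∫⁻ y in ball z ρ, ENNReal.ofReal (‖f y‖ ^ 2)) := by
        (clear * - h1; gcongr)
    _ = ENNReal.ofReal C * ∫⁻ y in ball z ρ, ENNReal.ofReal (c * ‖f y‖ ^ 2) := by
        rw [← lintegral_const_mul' _ _ ENNReal.ofReal_ne_top]
        simp only [ENNReal.ofReal_mul hc.le]
    _ ≤ ENNReal.ofReal C * energy 𝒬 H u (ball z ρ) := by
        refine mul_le_mul_right ?_ _
        exact setLIntegral_mono' measurableSet_ball fun y hy => ENNReal.ofReal_le_ofReal (h3 y hy)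

theorem energy_mono {u : ℂ → X} {S T : Set ℂ} (h : S ⊆ T) :
    energy 𝒬 H u S ≤ energy 𝒬 H u T := lintegral_mono_set h

/-- **Lemma E** (epsilon-regularity). -/
theorem eps_regularity [CompactSpace X] [T2Space X] (hQ : KAtlas 𝒬 H) :
    ∃ ε₀ : ℝ, 0 < ε₀ ∧ ∃ C : ℝ, 0 < C ∧ ∀ (u : ℂ → X) (z : ℂ) (R : ℝ), 0 < R →
      (∀ y ∈ ball z R, IsDisc 𝒬 u y) → energy 𝒬 H u (ball z R) < ENNReal.ofReal ε₀ →
      eden 𝒬 H u z ≤ C * (energy 𝒬 H u (ball z R)).toReal / R ^ 2 := by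
  obtain ⟨δ, hδ, c, hc, C, hC, hbox⟩ := exists_uniform_box hQ
  refine ⟨c ^ 2 * δ ^ 2 / (16 * C), by positivity, 16 * C / c, by positivity, ?_⟩
  intro u z R hR hu hE
  set E : ℝ := (energy 𝒬 H u (ball z R)).toReal with hEdef
  have hEtop : energy 𝒬 H u (ball z R) ≠ ⊤ := hE.ne_top
  have hE0 : 0 ≤ E := ENNReal.toReal_nonneg
  have hE' : E < c ^ 2 * δ ^ 2 / (16 * C) := by
    rw [hEdef]
    exact (ENNReal.lt_ofReal_iff_toReal_lt hEtop).1 hE
  set R' : ℝ := R / 2 with hR'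
  have hR'0 : 0 < R' := by positivity
  have hcb : closedBall z R' ⊆ ball z R := closedBall_subset_ball (by rw [hR']; (clear * - hR; linarith))
  set Lf : ℂ → ℝ := fun y => Real.sqrt (eden 𝒬 H u y / c) with hLf
  have hLf0 : ∀ y, 0 ≤ Lf y := fun y => Real.sqrt_nonneg _
  have hLsq : ∀ y, c * Lf y ^ 2 = eden 𝒬 H u y := by
    intro y
    rw [hLf]
    simp only
    rw [Real.sq_sqrt (div_nonneg (eden_nonneg hQ) hc.le)]
    (clear * - hc; field_simp)
  set F : ℂ → ℝ := fun y => Lf y * (R' - ‖y - z‖) with hF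
  have hFc : ContinuousOn F (closedBall z R') := by
    intro y hy
    have h1 := (eden_continuousAt hQ (hu y (hcb hy))).continuousWithinAt (s := closedBall z R')
    have h2 : ContinuousWithinAt Lf (closedBall z R') y := (h1.div_const c).sqrt
    exact h2.mul (by (clear * -; fun_prop))
  obtain ⟨y₀, hy₀, hmax⟩ := (isCompact_closedBall z R').exists_isMaxOn
    ⟨z, mem_closedBall_self hR'0.le⟩ hFc
  have hzm : Lf z * R' ≤ F y₀ := by
    have := hmax (mem_closedBall_self hR'0.le)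
    simpa only [hF, ge_iff_le, mem_ofPred_eq, sub_self, norm_zero, sub_zero] using this
  set L₀ : ℝ := Lf y₀ with hL₀
  set s : ℝ := R' - ‖y₀ - z‖ with hs
  have hs0 : 0 ≤ s := by
    rw [mem_closedBall, dist_eq_norm] at hy₀
    linarith only [hy₀]
  have hm : F y₀ = L₀ * s := rfl
  have hgoal : ∀ m : ℝ, Lf z * R' ≤ m → 0 ≤ m → c ^ 2 * m ^ 2 ≤ 4 * C * E →
      eden 𝒬 H u z ≤ 16 * C / c * E / R ^ 2 := by
    intro m h1 h2 h3
    have h4 : (Lf z * R') ^ 2 ≤ m ^ 2 := pow_le_pow_left₀ (mul_nonneg (hLf0 z) hR'0.le) h1 2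
    have h5 : eden 𝒬 H u z * R ^ 2 = 4 * c * (Lf z * R') ^ 2 := by
      rw [← hLsq z, hR']; ring
    rw [le_div_iff₀ (by positivity), h5]
    have h6 : 16 * C / c * E = 4 * (4 * C * E) / c := by ring
    rw [h6, le_div_iff₀ hc]
    have h7 := mul_le_mul_of_nonneg_left h4 (by positivity : 0 ≤ c ^ 2)
    linarith only [h7, h3]
  rcases hs0.eq_or_lt with hs1 | hs1
  · apply hgoal 0 _ le_rfl
    · rw [zero_pow two_ne_zero, mul_zero]; (clear * - hC; positivity)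
    · rw [hm, ← hs1, mul_zero] at hzm; exact hzm
  rcases (hLf0 y₀).eq_or_lt with hL1 | hL1
  · apply hgoal 0 _ le_rfl
    · rw [zero_pow two_ne_zero, mul_zero]; (clear * - hC; positivity)
    · rw [hm, hL₀, ← hL1, zero_mul] at hzm; exact hzm
  change 0 < L₀ at hL1
  -- bound on the ball around `y₀`
  have hball : ∀ y ∈ ball y₀ (s / 2), y ∈ closedBall z R' ∧ Lf y ≤ 2 * L₀ := by
    intro y hy
    rw [mem_ball, dist_eq_norm] at hy
    have h1 : ‖y - z‖ ≤ ‖y - y₀‖ + ‖y₀ - z‖ := norm_sub_le_norm_sub_add_norm_sub _ _ _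
    have h2 : s / 2 ≤ R' - ‖y - z‖ := by
      have : ‖y₀ - z‖ = R' - s := by rw [hs]; ring
      linarith only [hy, h1]
    have h3 : y ∈ closedBall z R' := by
      rw [mem_closedBall, dist_eq_norm]; linarith only [hs1, hy, h1]
    refine ⟨h3, ?_⟩
    have h4 : Lf y * (R' - ‖y - z‖) ≤ L₀ * s := hmax h3
    have h5 := mul_le_mul_of_nonneg_left h2 (hLf0 y)
    have h6 : Lf y * (s / 2) ≤ L₀ * s := h5.trans h4
    have h7 : Lf y * (s / 2) ≤ (2 * L₀) * (s / 2) := by linarith only [h4, h5]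
    exact le_of_mul_le_mul_right h7 (by (clear * - hs1; positivity))
  -- the mean value inequality at `y₀`
  have key : ∀ ρ : ℝ, 0 < ρ → ρ ≤ s / 2 → 2 * L₀ * ρ < δ → c ^ 2 * (ρ * L₀) ^ 2 ≤ C * E := by
    intro ρ hρ hρs hρδ
    obtain ⟨φ, hφ, hx, hsub, hb⟩ := hbox (u y₀)
    have hyin : ∀ y ∈ ball y₀ ρ, y ∈ closedBall z R' ∧ Lf y ≤ 2 * L₀ := fun y hy =>
      hball y (ball_subset_ball hρs hy)
    have hdisc : ∀ y ∈ ball y₀ ρ, IsDisc 𝒬 u y := fun y hy => hu y (hcb (hyin y hy).1)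
    have hconf : ∀ y ∈ ball y₀ ρ, u y ∈ φ.source ∧ φ (u y) ∈ closedBall (φ (u y₀)) δ := by
      intro y hy
      have hseg : segment ℝ y₀ y ⊆ ball y₀ ρ :=
        (convex_ball y₀ ρ).segment_subset (mem_ball_self hρ) hy
      have hlt : 2 * L₀ * ‖y - y₀‖ < δ := by
        refine lt_of_le_of_lt ?_ hρδ
        rw [mem_ball, dist_eq_norm] at hy
        exact mul_le_mul_of_nonneg_left hy.le (by (clear * - hL1; positivity))
      have := seg_confined hQ hφ hc hsub (fun p hp v => (hb p hp v).1) (u := u) (z₁ := y₀)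
        (z₂ := y) (fun w hw => hdisc w (hseg hw)) (L := 2 * L₀) (by (clear * - hL1; positivity))
        (fun w hw => by
          rw [← hLsq w]
          exact mul_le_mul_of_nonneg_left
            (pow_le_pow_left₀ (hLf0 w) (hyin w (hseg hw)).2 2) hc.le) hx
        (by rw [dist_self, zero_add]; exact hlt)
      exact ⟨this.1, mem_closedBall.2 (this.2.trans hlt.le)⟩
    have hmean := eden_mean hQ hφ hc hC hρ hdisc (fun y hy => (hconf y hy).1)
      (fun y hy v => (hb _ (hconf y hy).2 v).1)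
      (fun v => (hb _ (mem_closedBall_self hδ.le) v).2)
    have hsubR : ball y₀ ρ ⊆ ball z R := fun y hy => hcb (hyin y hy).1
    have hmean2 := hmean.trans (mul_le_mul_right (energy_mono hsubR) (ENNReal.ofReal C))
    have h8 : energy 𝒬 H u (ball z R) = ENNReal.ofReal E := by
      rw [hEdef, ENNReal.ofReal_toReal hEtop]
    rw [h8, ← ENNReal.ofReal_mul hC.le] at hmean2
    have h9 := (ENNReal.ofReal_le_ofReal_iff (by (clear * - hC; positivity))).1 hmean2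
    rw [← hLsq y₀] at h9
    have h10 : (1 : ℝ) ≤ π := by linarith only [Real.pi_gt_three]
    have h11 : 0 ≤ ρ ^ 2 * c * (c * L₀ ^ 2) := by (clear * - hρ hc hL1; positivity)
    have h12 := mul_le_mul_of_nonneg_right h10 h11
    change π * ρ ^ 2 * c * (c * L₀ ^ 2) ≤ C * E at h9
    nlinarith only [h12, h9]
  by_cases hcase : 2 * L₀ * (s / 2) < δ
  · have := key (s / 2) (by (clear * - hs1; positivity)) le_rfl hcase
    apply hgoal (L₀ * s) hzm (by (clear * - hL1 hs1; positivity))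
    linarith only [this]
  · exfalso
    push Not at hcase
    have h1 : δ / (4 * L₀) ≤ s / 2 := by
      rw [div_le_iff₀ (by (clear * - hL1; positivity))]
      linarith only [hcase, hδ]
    have h2 : 2 * L₀ * (δ / (4 * L₀)) < δ := by
      have : 2 * L₀ * (δ / (4 * L₀)) = δ / 2 := by field_simp; norm_num
      rw [this]; linarith only [hδ]
    have h3 := key (δ / (4 * L₀)) (by (clear * - hδ hL1; positivity)) h1 h2
    have h4 : δ / (4 * L₀) * L₀ = δ / 4 := by (clear * - hL1 hδ; field_simp)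
    rw [h4] at h3
    rw [lt_div_iff₀ (by positivity)] at hE'
    nlinarith only [hE', h3]

end Vale.Agent.P278.Full
end
end

section

section

open Set Topology Filter Metric MeasureTheory
open scoped ContDiff Manifold ComplexConjugate ENNReal Real

set_option linter.all false

namespace Vale.Agent.P278.Full

theorem norm_circleAverage_sub_le {V : Type*} [NormedAddCommGroup V] [NormedSpace ℂ V]
    [CompleteSpace V] {f : ℂ → V} {c : ℂ} {R M : ℝ} {w : V} (hf : ContinuousOn f (sphere c |R|))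
    (h : ∀ x ∈ sphere c |R|, ‖f x - w‖ ≤ M) : ‖Real.circleAverage f c R - w‖ ≤ M := by
  have hcont : Continuous fun θ : ℝ => f (circleMap c R θ) :=
    hf.comp_continuous (continuous_circleMap c R) fun θ => circleMap_mem_sphere' c R θ
  have h1 : Real.circleAverage f c R - w =
      (2 * π)⁻¹ • ∫ θ in (0:ℝ)..(2 * π), (f (circleMap c R θ) - w) := by
    rw [Real.circleAverage_def, intervalIntegral.integral_sub (hcont.intervalIntegrable _ _)
      intervalIntegrable_const, intervalIntegral.integral_const, smul_sub, sub_zero,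
      smul_smul, inv_mul_cancel₀ (by positivity), one_smul]
  rw [h1, norm_smul, Real.norm_of_nonneg (by positivity)]
  have h2 : ‖∫ θ in (0:ℝ)..(2 * π), (f (circleMap c R θ) - w)‖ ≤ M * |2 * π - 0| :=
    intervalIntegral.norm_integral_le_of_norm_le_const fun θ _ =>
      h _ (circleMap_mem_sphere' c R θ)
  rw [sub_zero, abs_of_pos (by positivity)] at h2
  calc (2 * π)⁻¹ * ‖∫ θ in (0:ℝ)..(2 * π), (f (circleMap c R θ) - w)‖ ≤ (2 * π)⁻¹ * (M * (2 * π)) :=
        mul_le_mul_of_nonneg_left h2 (by positivity)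
    _ = M := by field_simp

/-- The average over circles is constant for holomorphic functions on an annulus. -/
theorem circleAverage_annulus {V : Type*} [NormedAddCommGroup V] [NormedSpace ℂ V]
    [CompleteSpace V] {f : ℂ → V} {c : ℂ} {r R : ℝ} (hr : 0 < r) (hrR : r ≤ R)
    (hf : ∀ z, r ≤ ‖z - c‖ → ‖z - c‖ ≤ R → DifferentiableAt ℂ f z) :
    Real.circleAverage f c R = Real.circleAverage f c r := by
  rw [Real.circleAverage_eq_circleIntegral (hr.trans_le hrR).ne',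
    Real.circleAverage_eq_circleIntegral hr.ne',
    Complex.circleIntegral_sub_center_inv_smul_eq_of_differentiable_on_annulus_off_countable hr hrR
      countable_empty]
  · intro z hz
    refine (hf z ?_ ?_).continuousAt.continuousWithinAt
    · have := hz.2
      rw [mem_ball, dist_eq_norm, not_lt] at this
      exact this
    · have := hz.1
      rwa [mem_closedBall, dist_eq_norm] at this
  · intro z hz
    refine hf z ?_ ?_
    · have := hz.1.2
      rw [mem_closedBall, dist_eq_norm, not_le] at this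
      exact this.le
    · have := hz.1.1
      rw [mem_ball, dist_eq_norm] at this
      exact this.le

variable {X : Type*} [TopologicalSpace X] {A B : Type*} [NormedAddCommGroup A] [NormedSpace ℂ A]
  [NormedAddCommGroup B] [NormedSpace ℂ B] {𝒬 : Set (OpenPartialHomeomorph X (A × B))}
  {H : OpenPartialHomeomorph X (A × B) → A × B → (A × B) →ₗ⋆[ℂ] (A × B) →ₗ[ℂ] ℂ}
  [FiniteDimensional ℂ A] [FiniteDimensional ℂ B]

/-- Decay of the energy density at a puncture. -/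
theorem eden_decay [CompactSpace X] [T2Space X] (hQ : KAtlas 𝒬 H) {u : ℂ → X} {p : ℂ} {r : ℝ}
    (hr : 0 < r) (hu : ∀ y ∈ ball p r, y ≠ p → IsDisc 𝒬 u y)
    (hE : energy 𝒬 H u (ball p r \ {p}) < ⊤) {η : ℝ} (hη : 0 < η) :
    ∃ s₀ > 0, s₀ ≤ r / 2 ∧ ∀ y, y ≠ p → ‖y - p‖ ≤ s₀ → eden 𝒬 H u y * ‖y - p‖ ^ 2 ≤ η := by
  obtain ⟨ε₀, hε₀, C, hC, hreg⟩ := eps_regularity hQ
  set ε : ℝ := min ε₀ (η / C) with hε
  have hε0 : 0 < ε := lt_min hε₀ (by positivity)
  obtain ⟨d, hd, hsmall⟩ := exists_pos_setLIntegral_lt_of_measure_lt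
    (μ := volume.restrict (ball p r \ {p})) (f := fun y => ENNReal.ofReal (eden 𝒬 H u y))
    hE.ne (ε := ENNReal.ofReal ε) (by rw [ne_eq, ENNReal.ofReal_eq_zero, not_le]; exact hε0)
  -- a small ball
  have hball : ∃ t > 0, volume (ball p t) < d := by
    have h1 : Tendsto (fun t : ℝ => volume (ball p t)) (𝓝 0) (𝓝 0) := by
      have h2 : (fun t : ℝ => volume (ball p t)) =
          fun t : ℝ => ENNReal.ofReal t ^ 2 * (NNReal.pi : ℝ≥0∞) := by
        funext t; exact Complex.volume_ball p t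
      rw [h2]
      have h3 : Continuous fun t : ℝ => ENNReal.ofReal t ^ 2 * (NNReal.pi : ℝ≥0∞) :=
        (ENNReal.continuous_mul_const ENNReal.coe_ne_top).comp
          ((ENNReal.continuous_pow 2).comp ENNReal.continuous_ofReal)
      have h4 := h3.tendsto 0
      simpa only [ENNReal.ofReal_zero, ne_eq, OfNat.ofNat_ne_zero, not_false_eq_true, zero_pow, zero_mul] using h4
    have h5 : ∀ᶠ t : ℝ in 𝓝 0, volume (ball p t) < d := h1.eventually (gt_mem_nhds hd)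
    obtain ⟨t, ht, ht'⟩ := ((h5.filter_mono nhdsWithin_le_nhds).and
      (self_mem_nhdsWithin : Ioi (0:ℝ) ∈ 𝓝[>] 0)).exists
    exact ⟨t, ht', ht⟩
  obtain ⟨t, ht, htd⟩ := hball
  refine ⟨min (t / 2) (r / 2), lt_min (by positivity) (by positivity), min_le_right _ _, ?_⟩
  intro y hyp hy
  set s : ℝ := ‖y - p‖ with hs
  have hs0 : 0 < s := norm_pos_iff.2 (sub_ne_zero.2 hyp)
  have hst : s ≤ t / 2 := hy.trans (min_le_left _ _)
  have hsr : s ≤ r / 2 := hy.trans (min_le_right _ _)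
  have hdist : ∀ w ∈ ball y s, w ≠ p ∧ ‖w - p‖ < 2 * s := by
    intro w hw
    rw [mem_ball, dist_eq_norm] at hw
    constructor
    · rintro rfl
      rw [norm_sub_rev] at hw
      exact lt_irrefl _ hw
    · have := norm_sub_le_norm_sub_add_norm_sub w y p
      linarith only [hw, this]
  have hin : ∀ w ∈ ball y s, IsDisc 𝒬 u w := by
    intro w hw
    obtain ⟨h1, h2⟩ := hdist w hw
    apply hu w _ h1
    rw [mem_ball, dist_eq_norm]
    linarith only [hsr, h2]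
  have hEn : energy 𝒬 H u (ball y s) < ENNReal.ofReal ε := by
    refine lt_of_le_of_lt ?_ (hsmall (ball p t) ?_)
    · rw [energy, Measure.restrict_restrict measurableSet_ball]
      refine lintegral_mono_set ?_
      intro w hw
      obtain ⟨h1, h2⟩ := hdist w hw
      refine ⟨?_, ?_, h1⟩
      · rw [mem_ball, dist_eq_norm]; linarith only [hst, h2]
      · rw [mem_ball, dist_eq_norm]; linarith only [hsr, h2]
    · exact lt_of_le_of_lt (Measure.restrict_apply_le _ _) htd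
  have hE0 : energy 𝒬 H u (ball y s) < ENNReal.ofReal ε₀ :=
    hEn.trans_le (ENNReal.ofReal_le_ofReal (min_le_left _ _))
  have h6 := hreg u y s hs0 hin hE0
  rw [le_div_iff₀ (by (clear * - hs0; positivity))] at h6
  have h7 : (energy 𝒬 H u (ball y s)).toReal ≤ η / C := by
    have := (ENNReal.lt_ofReal_iff_toReal_lt hEn.ne_top).1 hEn
    exact this.le.trans (min_le_right _ _)
  calc eden 𝒬 H u y * s ^ 2 ≤ C * (energy 𝒬 H u (ball y s)).toReal := h6
    _ ≤ C * (η / C) := mul_le_mul_of_nonneg_left h7 hC.le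
    _ = η := by field_simp

/-- **Lemma R** (removable singularities). -/
theorem removable [CompactSpace X] [T2Space X] (hQ : KAtlas 𝒬 H) {u : ℂ → X} {p : ℂ} {r : ℝ}
    (hr : 0 < r) (hu : ∀ y ∈ ball p r, y ≠ p → IsDisc 𝒬 u y)
    (hE : energy 𝒬 H u (ball p r \ {p}) < ⊤) :
    ∃ x₀ : X, ∀ y ∈ ball p r, IsDisc 𝒬 (Function.update u p x₀) y := by
  haveI := FiniteDimensional.complete ℂ A
  haveI := FiniteDimensional.complete ℂ B
  obtain ⟨δ, hδ, c, hc, C, hC, hbox⟩ := exists_uniform_box hQ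
  set L : ℝ := δ / 64 with hL
  have hL0 : 0 < L := by positivity
  obtain ⟨s₀, hs₀, hs₀r, hdec⟩ := eden_decay hQ hr hu hE (η := c * L ^ 2) (by positivity)
  set x₀ : ℝ := Real.log s₀ with hx₀
  have hexp₀ : Real.exp x₀ = s₀ := Real.exp_log hs₀
  set v : ℂ → X := fun ζ => u (p + Complex.exp ζ) with hv
  have hnorm : ∀ ζ : ℂ, ‖p + Complex.exp ζ - p‖ = Real.exp ζ.re := by
    intro ζ
    rw [add_sub_cancel_left, Complex.norm_exp]
  have hne : ∀ ζ : ℂ, p + Complex.exp ζ ≠ p := by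
    intro ζ h
    have := Complex.exp_ne_zero ζ
    apply this
    simpa using h
  have hle : ∀ ζ : ℂ, ζ.re ≤ x₀ → ‖p + Complex.exp ζ - p‖ ≤ s₀ := by
    intro ζ h
    rw [hnorm, ← hexp₀]
    exact Real.exp_le_exp.2 h
  have hdu : ∀ y, y ≠ p → ‖y - p‖ ≤ s₀ → IsDisc 𝒬 u y := by
    intro y h1 h2
    apply hu y _ h1
    rw [mem_ball, dist_eq_norm]; linarith only [hs₀, hs₀r, h2]
  have hgan : ∀ ζ : ℂ, AnalyticAt ℂ (fun ζ => p + Complex.exp ζ) ζ := fun ζ =>
    analyticAt_const.add (analyticAt_cexp)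
  have hvd : ∀ ζ : ℂ, ζ.re ≤ x₀ → IsDisc 𝒬 v ζ := fun ζ h =>
    (hdu _ (hne ζ) (hle ζ h)).comp_map (g := fun ζ => p + Complex.exp ζ) (hgan ζ)
  have hve : ∀ ζ : ℂ, ζ.re ≤ x₀ → eden 𝒬 H v ζ ≤ c * L ^ 2 := by
    intro ζ h
    have h1 := eden_comp_map hQ (u := u) (g := fun ζ => p + Complex.exp ζ) (z := ζ)
      (hdu _ (hne ζ) (hle ζ h)) (hgan ζ)
    have h2 : deriv (fun ζ => p + Complex.exp ζ) ζ = Complex.exp ζ := by
      rw [deriv_const_add, Complex.deriv_exp]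
    rw [h2] at h1
    have h3 := hdec _ (hne ζ) (hle ζ h)
    rw [hnorm, ← Complex.norm_exp, mul_comm] at h3
    exact h1.le.trans h3
  obtain ⟨φ, hφ, hx, hsub, hb⟩ := hbox (v x₀)
  set b : A × B := φ (v x₀) with hbdef
  have hlow : ∀ q ∈ closedBall b δ, ∀ w, c * ‖w‖ ^ 2 ≤ (H φ q w w).re := fun q hq w =>
    (hb q hq w).1
  have seg : ∀ ζ₁ ζ₂ : ℂ, ζ₁.re ≤ x₀ → ζ₂.re ≤ x₀ → v ζ₁ ∈ φ.source →
      dist (φ (v ζ₁)) b + L * ‖ζ₂ - ζ₁‖ < δ →
      v ζ₂ ∈ φ.source ∧ dist (φ (v ζ₂)) (φ (v ζ₁)) ≤ L * ‖ζ₂ - ζ₁‖ := by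
    intro ζ₁ ζ₂ h1 h2 h3 h4
    have hconv : Convex ℝ {ζ : ℂ | ζ.re ≤ x₀} := convex_halfSpace_re_le x₀
    have hseg : segment ℝ ζ₁ ζ₂ ⊆ {ζ : ℂ | ζ.re ≤ x₀} := hconv.segment_subset h1 h2
    exact seg_confined hQ hφ hc hsub hlow (fun w hw => hvd w (hseg hw)) hL0.le
      (fun w hw => hve w (hseg hw)) h3 h4
  have hLδ : 64 * L = δ := by rw [hL]; ring
  have hpi := Real.pi_lt_d2
  -- points of the punctured disc
  have hpt : ∀ y, y ≠ p → p + Complex.exp (Complex.log (y - p)) = y := by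
    intro y hy
    rw [Complex.exp_log (sub_ne_zero.2 hy)]
    ring
  have hvy : ∀ y, y ≠ p → v (Complex.log (y - p)) = u y := by
    intro y hy
    show u (p + Complex.exp (Complex.log (y - p))) = u y
    rw [hpt y hy]
  have himle : ∀ w : ℂ, |(Complex.log w).im| ≤ π := by
    intro w
    rw [Complex.log_im]
    exact Complex.abs_arg_le_pi w
  have claim : ∀ n : ℕ, ∀ ζ : ℂ, x₀ - n ≤ ζ.re → ζ.re ≤ x₀ → |ζ.im| ≤ π →
      v ζ ∈ φ.source ∧ dist (φ (v ζ)) b ≤ δ / 2 := by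
    intro n
    induction n with
    | zero =>
      intro ζ h1 h2 h3
      have hre : ζ.re = x₀ := le_antisymm h2 (by simpa only [CharP.cast_eq_zero, sub_zero] using h1)
      have hn : ‖ζ - x₀‖ ≤ π := by
        have : ζ - x₀ = ζ.im * Complex.I := by
          apply Complex.ext <;> simp [hre]
        rw [this]
        simpa only [Complex.norm_mul, Complex.norm_real, Real.norm_eq_abs, Complex.norm_I, mul_one, ge_iff_le] using     h3
      have h4 : L * ‖ζ - x₀‖ ≤ L * π := mul_le_mul_of_nonneg_left hn hL0.le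
      have h5 := seg x₀ ζ (by simp) h2 hx (by
        rw [← hbdef, dist_self, zero_add]
        nlinarith only [hL, h4, hδ, hpi])
      rw [← hbdef] at h5
      exact ⟨h5.1, by nlinarith only [hL, h4, h5, hδ, hpi]⟩
    | succ n ih =>
      set x : ℝ := x₀ - n with hxdef
      have hxx : x ≤ x₀ := by rw [hxdef]; have : (0:ℝ) ≤ n := Nat.cast_nonneg n; linarith only []
      set t : ℝ := Real.exp x with ht
      have ht0 : 0 < t := Real.exp_pos x
      have hts : t ≤ s₀ := by rw [← hexp₀]; exact Real.exp_le_exp.2 hxx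
      have hlog : ∀ y, y ≠ p → (Complex.log (y - p)).re = Real.log ‖y - p‖ := fun y _ =>
        Complex.log_re _
      have hann : ∀ y, t ≤ ‖y - p‖ → ‖y - p‖ ≤ s₀ → y ≠ p ∧ x ≤ (Complex.log (y - p)).re ∧
          (Complex.log (y - p)).re ≤ x₀ := by
        intro y h1 h2
        have hyp : 0 < ‖y - p‖ := ht0.trans_le h1
        have hyp' : y ≠ p := by
          rintro rfl
          simp at hyp
        refine ⟨hyp', ?_, ?_⟩
        · rw [hlog y hyp', ← Real.log_exp x]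
          exact Real.log_le_log ht0 h1
        · rw [hlog y hyp', hx₀]
          exact Real.log_le_log hyp h2
      have hin : ∀ y, t ≤ ‖y - p‖ → ‖y - p‖ ≤ s₀ → u y ∈ φ.source ∧
          dist (φ (u y)) b ≤ δ / 2 := by
        intro y h1 h2
        obtain ⟨h3, h4, h5⟩ := hann y h1 h2
        have := ih (Complex.log (y - p)) h4 h5 (himle _)
        rwa [hvy y h3] at this
      have hdiff : ∀ y, t ≤ ‖y - p‖ → ‖y - p‖ ≤ s₀ → DifferentiableAt ℂ (fun y => φ (u y)) y := by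
        intro y h1 h2
        obtain ⟨h3, -, -⟩ := hann y h1 h2
        exact ((hdu y h3 h2).chart hQ hφ (hin y h1 h2).1).2.differentiableAt
      -- two points of a circle
      have hcirc : ∀ y y₁, t ≤ ‖y - p‖ → ‖y - p‖ ≤ s₀ → ‖y₁ - p‖ = ‖y - p‖ →
          ‖φ (u y) - φ (u y₁)‖ ≤ 7 * L := by
        intro y y₁ h1 h2 h3
        obtain ⟨k1, k2, k3⟩ := hann y h1 h2
        obtain ⟨l1, l2, l3⟩ := hann y₁ (h3 ▸ h1) (h3 ▸ h2)
        obtain ⟨i1, i2⟩ := hin y₁ (h3 ▸ h1) (h3 ▸ h2)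
        set ζ := Complex.log (y - p)
        set ζ₁ := Complex.log (y₁ - p)
        have hre : ζ.re = ζ₁.re := by
          rw [hlog y k1, hlog y₁ l1, h3]
        have hn : ‖ζ - ζ₁‖ ≤ 2 * π := by
          have : ζ - ζ₁ = ((ζ.im - ζ₁.im : ℝ) : ℂ) * Complex.I := by
            apply Complex.ext <;> simp [hre]
          rw [this, norm_mul, Complex.norm_I, mul_one, Complex.norm_real, Real.norm_eq_abs]
          have a1 := abs_le.1 (himle (y - p))
          have a2 := abs_le.1 (himle (y₁ - p))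
          rw [abs_le]
          constructor <;> linarith only [a1, a2]
        have h4 : L * ‖ζ - ζ₁‖ ≤ L * (2 * π) := mul_le_mul_of_nonneg_left hn hL0.le
        have h5 := seg ζ₁ ζ l3 k3 (by rw [hvy y₁ l1]; exact i1) (by
          rw [hvy y₁ l1]
          linarith only [mul_pos (sub_pos.2 hδ) (sub_pos.2 hpi), mul_eq_zero_of_left (sub_eq_zero.2 hL) (3.15 - (π)), hδ, h4, i2, hL])
        rw [hvy y k1, hvy y₁ l1, dist_eq_norm] at h5
        nlinarith only [h4, h5, hδ, hpi, hL]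
      have havg : Real.circleAverage (fun y => φ (u y)) p s₀ =
          Real.circleAverage (fun y => φ (u y)) p t := circleAverage_annulus ht0 hts hdiff
      have hsph : ∀ ρ, t ≤ ρ → ρ ≤ s₀ → ∀ y₁, ‖y₁ - p‖ = ρ →
          ‖Real.circleAverage (fun y => φ (u y)) p ρ - φ (u y₁)‖ ≤ 7 * L := by
        intro ρ h1 h2 y₁ h3
        have hρ : |ρ| = ρ := abs_of_pos (ht0.trans_le h1)
        apply norm_circleAverage_sub_le
        · intro y hy
          rw [hρ, mem_sphere, dist_eq_norm] at hy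
          exact (hdiff y (hy ▸ h1) (hy ▸ h2)).continuousAt.continuousWithinAt
        · intro y hy
          rw [hρ, mem_sphere, dist_eq_norm] at hy
          exact hcirc y y₁ (hy ▸ h1) (hy ▸ h2) (h3.trans hy.symm)
      have hbase : ‖Real.circleAverage (fun y => φ (u y)) p s₀ - b‖ ≤ 7 * L :=
        hsph s₀ hts le_rfl (p + Complex.exp x₀) (by rw [hnorm]; simpa using hexp₀)
      have himp : ∀ ζ : ℂ, ζ.re = x → v ζ ∈ φ.source ∧ dist (φ (v ζ)) b ≤ δ / 4 := by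
        intro ζ h1
        have hnt : ‖p + Complex.exp ζ - p‖ = t := by rw [hnorm, h1]
        refine ⟨(hin _ hnt.ge (hnt.le.trans hts)).1, ?_⟩
        have h2 := hsph t le_rfl hts (p + Complex.exp ζ) hnt
        rw [← havg] at h2
        have h3 := dist_triangle_left (φ (v ζ)) b
          (Real.circleAverage (fun y => φ (u y)) p s₀)
        rw [dist_eq_norm (Real.circleAverage (fun y => φ (u y)) p s₀) (φ (v ζ)),
          dist_eq_norm (Real.circleAverage (fun y => φ (u y)) p s₀) b] at h3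
        change ‖Real.circleAverage (fun y => φ (u y)) p s₀ - φ (v ζ)‖ ≤ 7 * L at h2
        linarith only [hL, hL0, hbase, h3, h2]
      intro ζ h1 h2 h3
      by_cases hcase : x ≤ ζ.re
      · exact ih ζ hcase h2 h3
      · push Not at hcase
        obtain ⟨k1, k2⟩ := himp (x + ζ.im * Complex.I) (by simp)
        have hn : ‖ζ - (x + ζ.im * Complex.I)‖ ≤ 1 := by
          have : ζ - (x + ζ.im * Complex.I) = ((ζ.re - x : ℝ) : ℂ) := by
            apply Complex.ext <;> simp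
          rw [this, Complex.norm_real, Real.norm_eq_abs, abs_of_neg (by linarith only [hcase])]
          push_cast at h1
          linarith only [h1]
        have h4 : L * ‖ζ - (x + ζ.im * Complex.I)‖ ≤ L * 1 := mul_le_mul_of_nonneg_left hn hL0.le
        have h5 := seg (x + ζ.im * Complex.I) ζ (by simpa only [Complex.add_re, Complex.ofReal_re, Complex.mul_re, Complex.I_re, mul_zero, Complex.ofReal_im,     Complex.I_im, mul_one, sub_self, add_zero] using hxx) h2 k1 (by linarith only [hL, hL0, k2, h4])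
        refine ⟨h5.1, ?_⟩
        have h6 := dist_triangle (φ (v ζ)) (φ (v (x + ζ.im * Complex.I))) b
        linarith only [hL, hL0, k2, h4, h5, h6]
  -- the whole punctured disc is mapped into the chart
  have hall : ∀ y, y ≠ p → ‖y - p‖ ≤ s₀ → u y ∈ φ.source ∧ φ (u y) ∈ closedBall b (δ / 2) := by
    intro y h1 h2
    have hyp : 0 < ‖y - p‖ := norm_pos_iff.2 (sub_ne_zero.2 h1)
    have h3 : (Complex.log (y - p)).re ≤ x₀ := by
      rw [Complex.log_re, hx₀]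
      exact Real.log_le_log hyp h2
    obtain ⟨n, hn⟩ := exists_nat_ge (x₀ - (Complex.log (y - p)).re)
    have := claim n (Complex.log (y - p)) (by linarith only [hn]) h3 (himle _)
    rwa [hvy y h1] at this
  set f : ℂ → A × B := fun y => φ (u y) with hf
  have hfd : DifferentiableOn ℂ f (ball p s₀ \ {p}) := by
    intro y hy
    have h1 : ‖y - p‖ ≤ s₀ := by
      have := hy.1
      rw [mem_ball, dist_eq_norm] at this
      exact this.le
    exact ((hdu y hy.2 h1).chart hQ hφ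
      (hall y hy.2 h1).1).2.differentiableAt.differentiableWithinAt
  have hbdd : BddAbove (norm ∘ f '' (ball p s₀ \ {p})) := by
    refine ⟨‖b‖ + δ / 2, ?_⟩
    rintro _ ⟨y, hy, rfl⟩
    have h1 : ‖y - p‖ ≤ s₀ := by
      have := hy.1
      rw [mem_ball, dist_eq_norm] at this
      exact this.le
    have h2 := (hall y hy.2 h1).2
    rw [mem_closedBall, dist_eq_norm] at h2
    have h3 : ‖f y‖ ≤ ‖b‖ + ‖f y - b‖ := by
      have := norm_add_le b (f y - b)
      rwa [add_sub_cancel] at this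
    show ‖f y‖ ≤ _
    linarith only [h2, h3]
  have hrem := Complex.differentiableOn_update_limUnder_of_bddAbove (ball_mem_nhds p hs₀) hfd hbdd
  set f₁ : ℂ → A × B := Function.update f p (limUnder (𝓝[≠] p) f) with hf₁
  have hf₁an : AnalyticAt ℂ f₁ p := hrem.analyticAt (ball_mem_nhds p hs₀)
  have hf₁ne : ∀ y, y ≠ p → f₁ y = f y := fun y hy => Function.update_of_ne hy _ _
  have hf₁p : f₁ p ∈ closedBall b (δ / 2) := by
    have h1 : Tendsto f₁ (𝓝[≠] p) (𝓝 (f₁ p)) :=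
      hf₁an.continuousAt.tendsto.mono_left nhdsWithin_le_nhds
    refine isClosed_closedBall.mem_of_tendsto h1 ?_
    filter_upwards [mem_nhdsWithin_of_mem_nhds (ball_mem_nhds p hs₀), self_mem_nhdsWithin]
      with y hy hy'
    rw [hf₁ne y hy']
    rw [mem_ball, dist_eq_norm] at hy
    exact (hall y hy' hy.le).2
  have hf₁in : ∀ y ∈ ball p s₀, f₁ y ∈ closedBall b δ := by
    intro y hy
    apply closedBall_subset_closedBall (by linarith only [hδ] : δ / 2 ≤ δ)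
    rcases eq_or_ne y p with rfl | h
    · exact hf₁p
    · rw [hf₁ne y h]
      rw [mem_ball, dist_eq_norm] at hy
      exact (hall y h hy.le).2
  refine ⟨φ.symm (f₁ p), ?_⟩
  have heq : ∀ y ∈ ball p s₀, Function.update u p (φ.symm (f₁ p)) y = φ.symm (f₁ y) := by
    intro y hy
    rcases eq_or_ne y p with rfl | h
    · rw [Function.update_self]
    · rw [Function.update_of_ne h, hf₁ne y h]
      rw [mem_ball, dist_eq_norm] at hy
      exact (φ.left_inv (hall y h hy.le).1).symm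
  intro y hy
  rcases eq_or_ne y p with rfl | h
  · refine ⟨φ, hφ, ?_, ?_⟩
    · filter_upwards [ball_mem_nhds y hs₀] with w hw
      rw [heq w hw]
      exact φ.map_target (hsub (hf₁in w hw))
    · refine hf₁an.congr ?_
      filter_upwards [ball_mem_nhds y hs₀] with w hw
      rw [heq w hw, φ.right_inv (hsub (hf₁in w hw))]
  · refine (hu y hy h).congr ?_
    filter_upwards [isOpen_compl_singleton.mem_nhds (show y ∈ ({p} : Set ℂ)ᶜ from h)] with w hw
    rw [Function.update_of_ne hw]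

end Vale.Agent.P278.Full
end
end

section

section

open Set Topology Filter Metric MeasureTheory
open scoped ContDiff Manifold ComplexConjugate ENNReal

set_option linter.all false

namespace Vale.Agent.P278.Full

section chart

variable {X : Type*} [TopologicalSpace X] {A B : Type*} [NormedAddCommGroup A] [NormedSpace ℂ A]
  [NormedAddCommGroup B] [NormedSpace ℂ B]
  {𝒬 : Set (OpenPartialHomeomorph X (A × B))} {Ψ Ψ' : ℂ × ℂ → X} {p : ℂ × ℂ}
  [CompleteSpace A] [CompleteSpace B]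
  {H : OpenPartialHomeomorph X (A × B) → A × B → (A × B) →ₗ⋆[ℂ] (A × B) →ₗ[ℂ] ℂ}

/-- A locally constant function on a preconnected set is constant. -/
theorem const_of_loc {Z Y : Type*} [TopologicalSpace Z] {f : Z → Y} {S : Set Z}
    (hS : IsPreconnected S) (h : ∀ z ∈ S, ∀ᶠ w in 𝓝 z, f w = f z) {a b : Z} (ha : a ∈ S)
    (hb : b ∈ S) : f a = f b := by
  by_contra hne
  obtain ⟨y, hyS, hy1, hy2⟩ := hS {z | ∀ᶠ w in 𝓝 z, f w = f b} {z | ∀ᶠ w in 𝓝 z, f w ≠ f b}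
    (isOpen_iff_mem_nhds.2 fun z hz => hz.eventually_nhds)
    (isOpen_iff_mem_nhds.2 fun z hz => hz.eventually_nhds)
    (fun z hz => by
      by_cases hzb : f z = f b
      · left
        exact (h z hz).mono fun w hw => hw.trans hzb
      · right
        exact (h z hz).mono fun w hw => by rw [hw]; exact hzb)
    ⟨b, hb, h b hb⟩ ⟨a, ha, (h a ha).mono fun w hw => by rw [hw]; exact hne⟩
  exact hy2.self_of_nhds hy1.self_of_nhds

/-- An F-map has product form in every chart. -/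
theorem IsF.chart (K : KAtlas 𝒬 H) (h : IsF 𝒬 Ψ p) {ψ : OpenPartialHomeomorph X (A × B)}
    (hψ : ψ ∈ 𝒬) (hp : Ψ p ∈ ψ.source) :
    ∃ (F : ℂ → A) (G : ℂ → B), AnalyticAt ℂ F p.1 ∧ AnalyticAt ℂ G p.2 ∧
      ∀ᶠ q in 𝓝 p, Ψ q ∈ ψ.source ∧ ψ (Ψ q) = (F q.1, G q.2) := by
  obtain ⟨hs, ha⟩ := h.analyticAt_of_mem K hψ hp
  have hΨ := h
  obtain ⟨φ, hφ, f, g, hf, hg, he⟩ := id h
  -- local product structure near every point close to `p`
  have hloc : ∀ q, IsF 𝒬 Ψ q → (Ψ q ∈ φ.source) → (Ψ q ∈ ψ.source) →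
      (∀ᶠ q' in 𝓝 q, φ (Ψ q') = (f q'.1, g q'.2)) →
      (∀ᶠ w in 𝓝 q.2, (ψ (Ψ (q.1, w))).1 = (ψ (Ψ q)).1) ∧
      (∀ᶠ z in 𝓝 q.1, (ψ (Ψ (z, q.2))).2 = (ψ (Ψ q)).2) := by
    intro q hq h1 h2 h3
    have hc := hq.continuousAt
    have t1 := K.trans' φ hφ ψ hψ _ h1 h2
    have t2 := K.trans φ hφ ψ hψ _ h1 h2
    have e0 : φ (Ψ q) = (f q.1, g q.2) := h3.self_of_nhds
    have c1 : Tendsto (fun w : ℂ => (q.1, w)) (𝓝 q.2) (𝓝 q) :=
      (Continuous.prodMk_right q.1).tendsto q.2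
    have c2 : Tendsto (fun z : ℂ => (z, q.2)) (𝓝 q.1) (𝓝 q) :=
      (Continuous.prodMk_left q.2).tendsto q.1
    constructor
    · filter_upwards [(hc.tendsto.comp c1).eventually t1, c1.eventually h3] with w hw hw'
      apply hw
      rw [Function.comp_apply, hw', e0]
    · filter_upwards [(hc.tendsto.comp c2).eventually t2, c2.eventually h3] with z hz hz'
      apply hz
      rw [Function.comp_apply, hz', e0]
  have hev : ∀ᶠ q in 𝓝 p, IsF 𝒬 Ψ q ∧ Ψ q ∈ φ.source ∧ Ψ q ∈ ψ.source ∧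
      (∀ᶠ q' in 𝓝 q, φ (Ψ q') = (f q'.1, g q'.2)) := by
    filter_upwards [h.eventually, he, hs, he.eventually_nhds] with q h1 h2 h3 h4
    exact ⟨h1, h2.1, h3, h4.mono fun q' hq' => hq'.2⟩
  obtain ⟨ε, hε, hball⟩ := Metric.eventually_nhds_iff_ball.1 hev
  have hmem : ∀ z ∈ ball p.1 ε, ∀ w ∈ ball p.2 ε, (z, w) ∈ ball p ε := by
    intro z hz w hw
    rw [mem_ball, Prod.dist_eq]
    exact max_lt hz hw
  have hconst1 : ∀ z ∈ ball p.1 ε, ∀ w ∈ ball p.2 ε,
      (ψ (Ψ (z, w))).1 = (ψ (Ψ (z, p.2))).1 := by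
    intro z hz w hw
    refine const_of_loc (f := fun w => (ψ (Ψ (z, w))).1) (convex_ball p.2 ε).isPreconnected
      ?_ hw (mem_ball_self hε)
    intro w' hw'
    obtain ⟨h1, h2, h3, h4⟩ := hball _ (hmem z hz w' hw')
    exact (hloc _ h1 h2 h3 h4).1
  have hconst2 : ∀ z ∈ ball p.1 ε, ∀ w ∈ ball p.2 ε,
      (ψ (Ψ (z, w))).2 = (ψ (Ψ (p.1, w))).2 := by
    intro z hz w hw
    refine const_of_loc (f := fun z => (ψ (Ψ (z, w))).2) (convex_ball p.1 ε).isPreconnected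
      ?_ hz (mem_ball_self hε)
    intro z' hz'
    obtain ⟨h1, h2, h3, h4⟩ := hball _ (hmem z' hz' w hw)
    exact (hloc _ h1 h2 h3 h4).2
  refine ⟨fun z => (ψ (Ψ (z, p.2))).1, fun w => (ψ (Ψ (p.1, w))).2, ?_, ?_, ?_⟩
  · have h1 : AnalyticAt ℂ (fun z : ℂ => (z, p.2)) p.1 := analyticAt_id.prod analyticAt_const
    have h2 : AnalyticAt ℂ (fun z : ℂ => ψ (Ψ (z, p.2))) p.1 :=
      AnalyticAt.comp' (g := fun q => ψ (Ψ q)) (f := fun z : ℂ => (z, p.2)) ha h1
    exact analyticAt_fst.comp' h2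
  · have h1 : AnalyticAt ℂ (fun w : ℂ => (p.1, w)) p.2 := analyticAt_const.prod analyticAt_id
    have h2 : AnalyticAt ℂ (fun w : ℂ => ψ (Ψ (p.1, w))) p.2 :=
      AnalyticAt.comp' (g := fun q => ψ (Ψ q)) (f := fun w : ℂ => (p.1, w)) ha h1
    exact analyticAt_snd.comp' h2
  · filter_upwards [ball_mem_nhds p hε] with q hq
    have hq' := hq
    rw [mem_ball, Prod.dist_eq, max_lt_iff] at hq'
    refine ⟨(hball q hq).2.2.1, ?_⟩
    exact Prod.ext (hconst1 q.1 hq'.1 q.2 hq'.2) (hconst2 q.1 hq'.1 q.2 hq'.2)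

/-- The diagonal discs of an F-map. -/
theorem IsF.diag {z : ℂ} {s : ℂ} (h : IsF 𝒬 Ψ (z, z - s)) :
    IsDisc 𝒬 (fun y => Ψ (y, y - s)) z := by
  obtain ⟨φ, hφ, hs, ha⟩ := h.analyticAt_chart
  have h1 : AnalyticAt ℂ (fun y : ℂ => (y, y - s)) z :=
    analyticAt_id.prod (analyticAt_id.sub analyticAt_const)
  refine ⟨φ, hφ, h1.continuousAt.eventually (f := fun y : ℂ => (y, y - s)) hs, ?_⟩
  exact AnalyticAt.comp' (g := fun q => φ (Ψ q)) (f := fun y : ℂ => (y, y - s)) ha h1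

end chart

/-- Among logarithmically many annuli, one has small energy. -/
theorem exists_small_annulus {A₀ : ℝ≥0∞} (hA : A₀ ≠ ⊤) {ε θ : ℝ} (hε : 0 < ε) (hθ : 0 < θ) :
    ∃ s₂ > 0, ∀ s : ℝ, 0 < s → s < s₂ → ∀ g : ℂ → ℝ≥0∞,
      ∫⁻ z in ball (0 : ℂ) (θ * √s), g z ≤ A₀ → ∃ r : ℝ, 0 < r ∧ 10 ^ 4 * s ≤ r ∧
        100 * r ≤ θ * √s ∧ ∫⁻ z in ann (r / 100) (100 * r), g z < ENNReal.ofReal ε := by
  have hε' : ENNReal.ofReal ε ≠ 0 := by simpa only [ne_eq, ENNReal.ofReal_eq_zero, not_le] using hε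
  obtain ⟨N, hN⟩ := ENNReal.exists_nat_mul_gt hε' hA
  set P : ℝ := 10 ^ (4 * N) with hP
  have hP0 : 0 < P := by positivity
  refine ⟨(θ / (100 * P)) ^ 2, by positivity, fun s hs hs2 g hg => ?_⟩
  have hsq : √s < θ / (100 * P) := by
    rw [Real.sqrt_lt' (by positivity)]
    exact hs2
  have hsq0 : 0 < √s := Real.sqrt_pos.2 hs
  have hss : √s * √s = s := Real.mul_self_sqrt hs.le
  have hPs : s * P ≤ θ * √s / 100 := by
    have h1 : √s * P ≤ θ / 100 := by
      rw [lt_div_iff₀ (by positivity)] at hsq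
      linarith
    have h2 : √s * (√s * P) ≤ √s * (θ / 100) := mul_le_mul_of_nonneg_left h1 hsq0.le
    have h3 : √s * (√s * P) = s * P := by rw [← mul_assoc, hss]
    rw [h3] at h2
    linarith only [h2]
  by_contra hcon
  push Not at hcon
  set t : ℕ → Set ℂ := fun k => ann (s * 10 ^ (4 * k + 2)) (s * 10 ^ (4 * k + 6)) with ht
  have hbig : ∀ k ∈ Finset.range N, ENNReal.ofReal ε ≤ ∫⁻ z in t k, g z := by
    intro k hk
    have hk' : k < N := Finset.mem_range.1 hk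
    have e1 : s * 10 ^ (4 * k + 4) / 100 = s * 10 ^ (4 * k + 2) := by ring
    have e2 : 100 * (s * 10 ^ (4 * k + 4)) = s * 10 ^ (4 * k + 6) := by ring
    have h1 := hcon (s * 10 ^ (4 * k + 4)) (by (clear * - hs; positivity)) ?_ ?_
    · rw [e1, e2] at h1
      exact h1
    · have h2 : (1 : ℝ) ≤ 10 ^ (4 * k) := one_le_pow₀ (by norm_num)
      have h3 : (10 : ℝ) ^ (4 * k + 4) = 10 ^ (4 * k) * 10 ^ 4 := by ring
      rw [h3]
      linarith only [mul_nonneg (le_of_lt (sub_pos.2 hs)) (sub_nonneg.2 h2)]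
    · have h2 : (10 : ℝ) ^ (4 * k + 4) ≤ P :=
        pow_le_pow_right₀ (by norm_num) (by (clear * - hk'; omega))
      have h3 : s * (10 : ℝ) ^ (4 * k + 4) ≤ s * P := mul_le_mul_of_nonneg_left h2 hs.le
      linarith only [hPs, h3]
  have hdisj : Set.PairwiseDisjoint (↑(Finset.range N)) t := by
    intro k hk l hl hkl
    rw [Function.onFun, Set.disjoint_left]
    rintro z ⟨h1, h2⟩ ⟨h3, h4⟩
    rcases lt_or_gt_of_ne hkl with h | h
    · have : s * (10 : ℝ) ^ (4 * k + 6) ≤ s * 10 ^ (4 * l + 2) :=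
        mul_le_mul_of_nonneg_left (pow_le_pow_right₀ (by norm_num) (by omega)) hs.le
      linarith only [h2, h3, this]
    · have : s * (10 : ℝ) ^ (4 * l + 6) ≤ s * 10 ^ (4 * k + 2) :=
        mul_le_mul_of_nonneg_left (pow_le_pow_right₀ (by norm_num) (by (clear * - h; omega))) hs.le
      linarith only [h1, h4, this]
  have hsub : (⋃ k ∈ Finset.range N, t k) ⊆ ball (0 : ℂ) (θ * √s) := by
    intro z hz
    simp only [mem_iUnion] at hz
    obtain ⟨k, hk, h1, h2⟩ := hz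
    have hk' : k < N := Finset.mem_range.1 hk
    have h3 : (10 : ℝ) ^ (4 * k + 4) ≤ P := pow_le_pow_right₀ (by norm_num) (by omega)
    have h4 : (10 : ℝ) ^ (4 * k + 6) = 10 ^ (4 * k + 4) * 100 := by ring
    rw [mem_ball_zero_iff]
    rw [h4] at h2
    have h5 : s * (10 : ℝ) ^ (4 * k + 4) ≤ s * P := mul_le_mul_of_nonneg_left h3 hs.le
    linarith only [hPs, h2, h5]
  have hsum : ∑ k ∈ Finset.range N, ∫⁻ z in t k, g z ≤ A₀ := by
    rw [← lintegral_biUnion_finset hdisj (fun k _ => (isOpen_ann _ _).measurableSet) g]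
    exact (lintegral_mono_set hsub).trans hg
  have h1 : (N : ℝ≥0∞) * ENNReal.ofReal ε ≤ A₀ := by
    refine le_trans ?_ hsum
    refine le_trans ?_ (Finset.sum_le_sum hbig)
    rw [Finset.sum_const, Finset.card_range, nsmul_eq_mul]
  exact absurd hN (not_lt.2 h1)

/-- The diagonal discs of the ball. -/
theorem diag_mem_ball {s : ℝ} {z : ℂ} (hs : 0 < s) (hs1 : s ≤ 1 / 16) (hz : ‖z‖ ≤ 3 / 4 * √s) :
    ((z, z - s) : ℂ × ℂ) ∈ touchBall := by
  have hsq0 : 0 < √s := Real.sqrt_pos.2 hs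
  have hss : √s * √s = s := Real.mul_self_sqrt hs.le
  have hsq : √s ≤ 1 / 4 := by
    rw [Real.sqrt_le_left (by norm_num)]
    norm_num
    linarith only [hs1]
  show ‖z‖ ^ 2 + ‖z - (s : ℂ)‖ ^ 2 < 2 * (z - (z - (s : ℂ))).re
  have h1 : ‖z - (s : ℂ)‖ ≤ ‖z‖ + s := by
    refine (norm_sub_le _ _).trans ?_
    rw [Complex.norm_real, Real.norm_of_nonneg hs.le]
  have h2 : (z - (z - (s : ℂ))).re = s := by simp
  rw [h2]
  have h0 : 0 ≤ ‖z‖ := norm_nonneg z
  have h3 : ‖z - (s : ℂ)‖ ^ 2 ≤ (‖z‖ + s) ^ 2 := pow_le_pow_left₀ (norm_nonneg _) h1 2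
  have h4 : ‖z‖ ^ 2 ≤ 9 / 16 * s := by nlinarith only [hss, hz, h0]
  have h5 : ‖z‖ * s ≤ 3 / 16 * s := by nlinarith only [hs, hz, hsq]
  have h6 : s ^ 2 ≤ 1 / 16 * s := by nlinarith only [hs, hs1]
  linarith only [h6, h5, h4, h3, hs]

section main

variable {X : Type*} [TopologicalSpace X] [T2Space X] [CompactSpace X] {A B : Type*}
  [NormedAddCommGroup A] [NormedSpace ℂ A] [NormedAddCommGroup B] [NormedSpace ℂ B]
  {𝒬 : Set (OpenPartialHomeomorph X (A × B))}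
  [FiniteDimensional ℂ A] [FiniteDimensional ℂ B]
  {H : OpenPartialHomeomorph X (A × B) → A × B → (A × B) →ₗ⋆[ℂ] (A × B) →ₗ[ℂ] ℂ}

/-- Existence of an annulus on which the diagonal disc lies in one box, from the energy bound
(P) and the regularity (E). -/
theorem tt2_gen (K : KAtlas 𝒬 H) {θ : ℝ} (hθ : 0 < θ) (hθ' : θ ≤ 1 / 2)
    {Ψ : ℂ × ℂ → X}
    (hΨ : FOn 𝒬 Ψ touchBall)
    (hP : ∃ s₁ > 0, ∃ A₀ : ℝ≥0∞, A₀ ≠ ⊤ ∧ ∀ s : ℝ, 0 < s → s < s₁ →
      energy 𝒬 H (fun z => Ψ (z, z - s)) (ball 0 (θ * √s)) ≤ A₀) :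
    ∃ s r : ℝ, 0 < s ∧ 0 < r ∧ 10 ^ 4 * s ≤ r ∧ 100 * r ≤ √s / 2 ∧ ∃ Ψ₁ : ℂ × ℂ → X,
      FOn 𝒬 Ψ₁ (ann (r / 25) (25 * r) ×ˢ ann (r / 25) (25 * r)) ∧
      ∀ z ∈ ann (r / 25) (25 * r), z - s ∈ ann (r / 25) (25 * r) →
        Ψ₁ =ᶠ[𝓝 (z, z - s)] Ψ := by
  haveI := FiniteDimensional.complete ℂ A
  haveI := FiniteDimensional.complete ℂ B
  obtain ⟨δ, hδ, c, hc, C₁, hC₁, hbox⟩ := exists_uniform_box K
  obtain ⟨ε₀, hε₀, CE, hCE, hE'⟩ := eps_regularity K
  have hE : ∀ (u : ℂ → X) (z : ℂ) (R : ℝ), 0 < R →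
      (∀ y ∈ ball z R, IsDisc 𝒬 u y) → energy 𝒬 H u (ball z R) < ENNReal.ofReal ε₀ →
      eden 𝒬 H u z * R ^ 2 ≤ CE * (energy 𝒬 H u (ball z R)).toReal := by
    intro u z R hR hu hen
    have h1 := hE' u z R hR hu hen
    rwa [le_div_iff₀ (by positivity)] at h1
  obtain ⟨s₁, hs₁, A₀, hA₀, hP⟩ := hP
  set Λ : ℝ := Real.log 2500 + 2 * Real.pi with hΛ
  have hΛ0 : 0 < Λ := by
    have := Real.log_nonneg (show (1 : ℝ) ≤ 2500 by norm_num)
    have := Real.pi_pos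
    positivity
  set ε₁ : ℝ := min ε₀ (c * (δ / 2) ^ 2 / (4 * CE * Λ ^ 2)) with hε₁
  have hε₁0 : 0 < ε₁ := lt_min hε₀ (by (clear * - hc hδ hCE; positivity))
  obtain ⟨s₂, hs₂, hann⟩ := exists_small_annulus hA₀ hε₁0 hθ
  set s : ℝ := min (min s₁ s₂) (1 / 16) / 2 with hs
  have hs0 : 0 < s := by
    have : 0 < min (min s₁ s₂) (1 / 16) := lt_min (lt_min hs₁ hs₂) (by norm_num)
    (clear * - hs₁ hs₂; positivity)
  have hsm : min (min s₁ s₂) (1 / 16) = 2 * s := by rw [hs]; ring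
  have h1 : 2 * s ≤ s₁ := hsm ▸ (min_le_left _ _).trans (min_le_left _ _)
  have h2 : 2 * s ≤ s₂ := hsm ▸ (min_le_left _ _).trans (min_le_right _ _)
  have h3 : 2 * s ≤ 1 / 16 := hsm ▸ min_le_right _ _
  set u : ℂ → X := fun z => Ψ (z, z - s) with hu
  obtain ⟨r, hr0, hr1, hr2', hr3⟩ := hann s hs0 (by linarith only [hs0, h2]) _ (hP s hs0 (by linarith only [hs0, h1]))
  have hsq0 : 0 < √s := Real.sqrt_pos.2 hs0
  have hr2 : 100 * r ≤ √s / 2 := by nlinarith only [hr2', hθ, hθ', hr0]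
  have hdisc : ∀ z : ℂ, ‖z‖ < 100 * r → IsDisc 𝒬 u z := by
    intro z hz
    apply IsF.diag
    apply hΨ
    exact diag_mem_ball hs0 (by linarith only [h3]) (by linarith only [hs0, hr1, hr2, hz])
  -- the energy density
  have heden : ∀ z : ℂ, r / 50 < ‖z‖ → ‖z‖ < 50 * r →
      eden 𝒬 H u z * ‖z‖ ^ 2 ≤ (√(4 * CE * ε₁)) ^ 2 := by
    intro z hz1 hz2
    have hz0 : 0 < ‖z‖ := lt_trans (by (clear * - hr0; positivity)) hz1
    have hsub : ball z (‖z‖ / 2) ⊆ ann (r / 100) (100 * r) := by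
      intro y hy
      rw [mem_ball, dist_eq_norm] at hy
      have h4 := norm_sub_norm_le z y
      have h5 := norm_sub_norm_le y z
      rw [norm_sub_rev] at h4
      constructor <;> linarith only [hs0, hr1, hz2, hy, h5, hz1, h4]
    have h6 : energy 𝒬 H u (ball z (‖z‖ / 2)) < ENNReal.ofReal ε₁ :=
      lt_of_le_of_lt (lintegral_mono_set hsub) hr3
    have h7 := hE u z (‖z‖ / 2) (by (clear * - hz0; positivity))
      (fun y hy => hdisc y (hsub hy).2)
      (lt_of_lt_of_le h6 (ENNReal.ofReal_le_ofReal (min_le_left _ _)))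
    have h8 : (energy 𝒬 H u (ball z (‖z‖ / 2))).toReal ≤ ε₁ := by
      rw [← ENNReal.toReal_ofReal hε₁0.le]
      exact ENNReal.toReal_mono ENNReal.ofReal_ne_top h6.le
    rw [Real.sq_sqrt (by positivity)]
    have h9 : CE * (energy 𝒬 H u (ball z (‖z‖ / 2))).toReal ≤ CE * ε₁ :=
      mul_le_mul_of_nonneg_left h8 hCE.le
    have h10 : eden 𝒬 H u z * (‖z‖ / 2) ^ 2 = eden 𝒬 H u z * ‖z‖ ^ 2 / 4 := by ring
    rw [h10] at h7
    linarith only [h7, h9]
  -- the box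
  have hr : ‖(r : ℂ)‖ = r := by rw [Complex.norm_real, Real.norm_of_nonneg hr0.le]
  obtain ⟨φ, hφ, hφs, hφt, hφc⟩ := hbox (u r)
  have hmem : ∀ z : ℂ, r / 50 < ‖z‖ ∧ ‖z‖ < 50 * r →
      u z ∈ φ.source ∧ ‖φ (u z) - φ (u r)‖ ≤ δ / 2 := by
    intro z hz
    refine annulus_box (δ := δ) (c := c) (κ := √(4 * CE * ε₁)) (κ' := δ / 2) K hφ hc
      (r₁ := r / 50) (r₂ := 50 * r) (by (clear * - hr0; positivity)) (z₀ := (r : ℂ)) ?_ hφs hφt
      (fun p hp v => (hφc p hp v).1) (fun y _ hy => hdisc y (by linarith only [hs0, hr1, hy])) (Real.sqrt_nonneg _)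
      (by positivity) heden ?_ (by linarith only [hδ]) hz
    · rw [hr]
      constructor <;> linarith only [hs0, hr1]
    · have e1 : 50 * r / (r / 50) = 2500 := by
        field_simp
        norm_num
      rw [e1, Real.sq_sqrt (by (clear * - hCE hε₀ hc hδ; positivity)), ← hΛ]
      have h11 : ε₁ ≤ c * (δ / 2) ^ 2 / (4 * CE * Λ ^ 2) := min_le_right _ _
      rw [le_div_iff₀ (by positivity)] at h11
      linarith only [h11]
  have hann1 : ∀ z ∈ ann (r / 25) (25 * r), r / 50 < ‖z‖ ∧ ‖z‖ < 50 * r := by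
    rintro z ⟨h4, h5⟩
    constructor <;> linarith only [hs0, hr1, h4, h5]
  have hann2 : ∀ w ∈ ann (r / 25) (25 * r), r / 50 < ‖w + s‖ ∧ ‖w + s‖ < 50 * r := by
    rintro w ⟨h4, h5⟩
    have h6 : ‖(s : ℂ)‖ = s := by rw [Complex.norm_real, Real.norm_of_nonneg hs0.le]
    have h7 := norm_add_le w (s : ℂ)
    have h8 : ‖w‖ ≤ ‖w + s‖ + s := by
      have := norm_sub_le (w + (s : ℂ)) s
      rwa [add_sub_cancel_right, h6] at this
    rw [h6] at h7
    constructor <;> linarith only [hs0, hr1, h4, h8, h5, h7]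
  set f : ℂ → A := fun z => (φ (u z)).1 with hf
  set g : ℂ → B := fun w => (φ (u (w + s))).2 with hg
  have htar : ∀ q : ℂ × ℂ, q ∈ ann (r / 25) (25 * r) ×ˢ ann (r / 25) (25 * r) →
      ((f q.1, g q.2) : A × B) ∈ φ.target := by
    intro q hq
    apply hφt
    have h4 := (hmem _ (hann1 _ hq.1)).2
    have h5 := (hmem _ (hann2 _ hq.2)).2
    rw [mem_closedBall, dist_eq_norm, Prod.norm_def]
    refine max_le ?_ ?_
    · refine le_trans ?_ (h4.trans (by linarith only [hδ]))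
      exact norm_fst_le (φ (u q.1) - φ (u r))
    · refine le_trans ?_ (h5.trans (by linarith only [hδ]))
      exact norm_snd_le (φ (u (q.2 + s)) - φ (u r))
  refine ⟨s, r, hs0, hr0, hr1, hr2, fun q => φ.symm (f q.1, g q.2), ?_, ?_⟩
  · intro q hq
    refine ⟨φ, hφ, f, g, ?_, ?_, ?_⟩
    · have h4 := (hdisc q.1 (by linarith only [hs0, hr1, (hann1 _ hq.1).2])).chart K hφ
        (hmem _ (hann1 _ hq.1)).1
      exact analyticAt_fst.comp' h4.2
    · have h4 := (hdisc (q.2 + s) (by linarith only [hs0, hr1, (hann2 _ hq.2).2])).chart K hφ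
        (hmem _ (hann2 _ hq.2)).1
      have h5 : AnalyticAt ℂ (fun w : ℂ => w + (s : ℂ)) q.2 := analyticAt_id.add analyticAt_const
      have h6 : AnalyticAt ℂ (fun w : ℂ => φ (u (w + s))) q.2 :=
        AnalyticAt.comp' (g := fun y => φ (u y)) (f := fun w : ℂ => w + (s : ℂ)) h4.2 h5
      exact analyticAt_snd.comp' h6
    · filter_upwards [((isOpen_ann _ _).prod (isOpen_ann _ _)).mem_nhds hq] with q' hq'
      exact ⟨φ.map_target (htar q' hq'), φ.right_inv (htar q' hq')⟩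
  · intro z hz hzs
    have hsrc : Ψ (z, z - s) ∈ φ.source := (hmem _ (hann1 _ hz)).1
    have hF : IsF 𝒬 Ψ (z, z - s) := by
      apply hΨ
      exact diag_mem_ball hs0 (by linarith only [h3]) (by linarith only [hs0, hr1, hr2, hz.2])
    obtain ⟨F, G, hFa, hGa, hFG⟩ := hF.chart K hφ hsrc
    have c1 : Tendsto (fun y : ℂ => (y, y - (s : ℂ))) (𝓝 z) (𝓝 (z, z - (s : ℂ))) := by
      have : Continuous fun y : ℂ => (y, y - (s : ℂ)) := by fun_prop
      exact this.tendsto z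
    have c2 : Tendsto (fun y : ℂ => y + (s : ℂ)) (𝓝 (z - s)) (𝓝 z) := by
      have h4 : Continuous fun y : ℂ => y + (s : ℂ) := by fun_prop
      have h5 := h4.tendsto (z - s)
      rwa [sub_add_cancel] at h5
    have e1 : ∀ᶠ y in 𝓝 z, f y = F y ∧ (φ (u y)).2 = G (y - s) := by
      filter_upwards [c1.eventually hFG] with y hy
      have h4 : φ (u y) = (F y, G (y - s)) := hy.2
      exact ⟨congrArg Prod.fst h4, congrArg Prod.snd h4⟩
    have e2 : ∀ᶠ w in 𝓝 (z - s), g w = G w := by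
      filter_upwards [c2.eventually e1] with w hw
      have h4 := hw.2
      rwa [add_sub_cancel_right] at h4
    have e1' : ∀ᶠ q : ℂ × ℂ in 𝓝 (z, z - (s : ℂ)), f q.1 = F q.1 :=
      (continuous_fst.tendsto (z, z - (s : ℂ))).eventually (e1.mono fun y hy => hy.1)
    have e2' : ∀ᶠ q : ℂ × ℂ in 𝓝 (z, z - (s : ℂ)), g q.2 = G q.2 :=
      (continuous_snd.tendsto (z, z - (s : ℂ))).eventually e2
    filter_upwards [hFG, e1', e2'] with q h4 h5 h6
    show φ.symm (f q.1, g q.2) = Ψ q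
    rw [h5, h6, ← h4.2, φ.left_inv h4.1]

/-- The case `θ = 1/2`. -/
theorem tt2_of (K : KAtlas 𝒬 H) {Ψ : ℂ × ℂ → X} (hΨ : FOn 𝒬 Ψ touchBall)
    (hP : ∃ s₁ > 0, ∃ A₀ : ℝ≥0∞, A₀ ≠ ⊤ ∧ ∀ s : ℝ, 0 < s → s < s₁ →
      energy 𝒬 H (fun z => Ψ (z, z - s)) (ball 0 (√s / 2)) ≤ A₀) :
    ∃ s r : ℝ, 0 < s ∧ 0 < r ∧ 10 ^ 4 * s ≤ r ∧ 100 * r ≤ √s / 2 ∧ ∃ Ψ₁ : ℂ × ℂ → X,
      FOn 𝒬 Ψ₁ (ann (r / 25) (25 * r) ×ˢ ann (r / 25) (25 * r)) ∧
      ∀ z ∈ ann (r / 25) (25 * r), z - s ∈ ann (r / 25) (25 * r) →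
        Ψ₁ =ᶠ[𝓝 (z, z - s)] Ψ := by
  refine tt2_gen K (θ := 1 / 2) (by norm_num) le_rfl hΨ ?_
  obtain ⟨s₁, hs₁, A₀, hA₀, h⟩ := hP
  refine ⟨s₁, hs₁, A₀, hA₀, fun s h1 h2 => ?_⟩
  have e : 1 / 2 * √s = √s / 2 := by ring
  rw [e]
  exact h s h1 h2

end main

end Vale.Agent.P278.Full
end
end

section

section

open MeasureTheory Set Filter Topology Complex Metric
open scoped ContDiff ComplexConjugate

namespace Vale.Agent.P278.Full

/-- Coefficients `a = H(∂z, ∂z)`, `b = H(∂z, ∂w)`, `d = H(∂w, ∂w)` of a closed semi-positive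
Hermitian form on an open subset of `ℂ × ℂ` (conjugate linear in the first argument), whose
coordinate projections are bounded by `K` on the vectors `(1, 1)`. -/
structure FlatK (Ω : Set (ℂ × ℂ)) (K : ℝ) (a d : ℂ × ℂ → ℝ) (b : ℂ × ℂ → ℂ) : Prop where
  isOpen : IsOpen Ω
  a_diff : ContDiffOn ℝ 1 a Ω
  d_diff : ContDiffOn ℝ 1 d Ω
  b_diff : ContDiffOn ℝ 1 b Ω
  closed_a : ∀ p ∈ Ω, wd (fun q => (a q : ℂ)) (0, 1) p = wd b (1, 0) p
  closed_d : ∀ p ∈ Ω, wd (fun q => (d q : ℂ)) (1, 0) p = wd (fun q => conj (b q)) (0, 1) p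
  a_nonneg : ∀ p ∈ Ω, 0 ≤ a p
  d_nonneg : ∀ p ∈ Ω, 0 ≤ d p
  cs : ∀ p ∈ Ω, normSq (b p) ≤ a p * d p
  proj_a : ∀ p ∈ Ω, a p ≤ K ^ 2 * (a p + 2 * (b p).re + d p)
  proj_d : ∀ p ∈ Ω, d p ≤ K ^ 2 * (a p + 2 * (b p).re + d p)

variable {Ω : Set (ℂ × ℂ)} {K : ℝ} {a d : ℂ × ℂ → ℝ} {b : ℂ × ℂ → ℂ}

lemma fderiv_ofReal {f : ℂ × ℂ → ℝ} {p v : ℂ × ℂ} (hf : DifferentiableAt ℝ f p) :
    fderiv ℝ (fun q => (f q : ℂ)) p v = (fderiv ℝ f p v : ℂ) := by
  have := (Complex.ofRealCLM.hasFDerivAt.comp p hf.hasFDerivAt).fderiv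
  rw [show (fun q => (f q : ℂ)) = Complex.ofRealCLM ∘ f from rfl, this]; rfl

lemma fderiv_conj' {f : ℂ × ℂ → ℂ} {p v : ℂ × ℂ} (hf : DifferentiableAt ℝ f p) :
    fderiv ℝ (fun q => conj (f q)) p v = conj (fderiv ℝ f p v) := by
  have := (Complex.conjCLE.toContinuousLinearMap.hasFDerivAt.comp p hf.hasFDerivAt).fderiv
  rw [show (fun q => conj (f q)) = Complex.conjCLE.toContinuousLinearMap ∘ f from rfl, this]; rfl

lemma FlatK.da (h : FlatK Ω K a d b) {p : ℂ × ℂ} (hp : p ∈ Ω) :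
    fderiv ℝ a p (0, 1) = (fderiv ℝ b p (1, 0)).re + (fderiv ℝ b p (I, 0)).im ∧
    fderiv ℝ a p (0, I) = (fderiv ℝ b p (I, 0)).re - (fderiv ℝ b p (1, 0)).im := by
  have h1 := h.closed_a p hp
  have ha : DifferentiableAt ℝ a p :=
    (h.a_diff.contDiffAt (h.isOpen.mem_nhds hp)).differentiableAt (by norm_num)
  simp only [wd, fderiv_ofReal ha, Prod.smul_mk, smul_eq_mul, mul_one] at h1
  have h2 := congrArg Complex.re h1
  have h3 := congrArg Complex.im h1
  simp only [mul_zero, div_ofNat_re, sub_re, ofReal_re, mul_re, I_re, zero_mul, I_im, ofReal_im, sub_self, sub_zero, one_mul, zero_sub, sub_neg_eq_add, ne_eq, OfNat.ofNat_ne_zero, not_false_eq_true, div_left_inj', div_ofNat_im, sub_im, mul_im, zero_add] at h2 h3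
  constructor <;> linarith

lemma FlatK.dd (h : FlatK Ω K a d b) {p : ℂ × ℂ} (hp : p ∈ Ω) :
    fderiv ℝ d p (1, 0) = (fderiv ℝ b p (0, 1)).re - (fderiv ℝ b p (0, I)).im ∧
    fderiv ℝ d p (I, 0) = (fderiv ℝ b p (0, 1)).im + (fderiv ℝ b p (0, I)).re := by
  have h1 := h.closed_d p hp
  have hd : DifferentiableAt ℝ d p :=
    (h.d_diff.contDiffAt (h.isOpen.mem_nhds hp)).differentiableAt (by norm_num)
  have hb : DifferentiableAt ℝ b p :=
    (h.b_diff.contDiffAt (h.isOpen.mem_nhds hp)).differentiableAt (by norm_num)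
  simp only [wd, fderiv_ofReal hd, fderiv_conj' hb, Prod.smul_mk, smul_eq_mul, mul_one] at h1
  have h2 := congrArg Complex.re h1
  have h3 := congrArg Complex.im h1
  simp only [mul_zero, div_ofNat_re, sub_re, ofReal_re, mul_re, I_re, zero_mul, I_im, ofReal_im, sub_self, sub_zero, conj_re, conj_im, mul_neg, one_mul, sub_neg_eq_add, zero_add, ne_eq, OfNat.ofNat_ne_zero, not_false_eq_true, div_left_inj', div_ofNat_im, sub_im, mul_im, zero_sub, neg_zero] at h2 h3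
  constructor <;> linarith only [h2, h3]

/-- The energy density of the diagonal discs. -/
noncomputable def eDiag (a d : ℂ × ℂ → ℝ) (b : ℂ × ℂ → ℂ) (p : ℂ × ℂ) : ℝ :=
  a p + 2 * (b p).re + d p

lemma FlatK.eDiag_nonneg (h : FlatK Ω K a d b) {p : ℂ × ℂ} (hp : p ∈ Ω) :
    0 ≤ eDiag a d b p := by
  have h1 := h.cs p hp
  have h2 := h.a_nonneg p hp
  have h3 := h.d_nonneg p hp
  have h4 : (b p).re ^ 2 ≤ a p * d p := by
    rw [normSq_apply] at h1
    nlinarith only [h1]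
  unfold eDiag
  nlinarith only [abs_le_of_sq_le_sq' (show (2 * (b p).re) ^ 2 ≤ (a p + d p) ^ 2 by linarith only [sq_nonneg (a p - d p), h4])       (by positivity)]

/-- The map `(s, z) ↦ (z, z - s)`. -/
noncomputable def diagL : ℝ × ℂ →L[ℝ] ℂ × ℂ :=
  (ContinuousLinearMap.snd ℝ ℝ ℂ).prod
    (ContinuousLinearMap.snd ℝ ℝ ℂ - Complex.ofRealCLM ∘L ContinuousLinearMap.fst ℝ ℝ ℂ)

@[simp] lemma diagL_apply (y : ℝ × ℂ) : diagL y = (y.2, y.2 - (y.1 : ℂ)) := rfl

/-- **Finite propagation of the energy of the diagonal discs.** -/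
theorem FlatK.energy_mono (h : FlatK Ω K a d b) (hK : 0 ≤ K) {r δ s₀ s₁ : ℝ} (hδ : 0 < δ)
    (h01 : s₀ ≤ s₁)
    (hcone : ∀ s ∈ Icc s₀ s₁, ∀ z : ℂ, ‖z‖ ≤ r + 2 * δ + K * (s - s₀) → (z, z - (s : ℂ)) ∈ Ω) :
    ∫ z in closedBall (0 : ℂ) r, eDiag a d b (z, z - (s₀ : ℂ)) ≤
      ∫ z in closedBall (0 : ℂ) (r + 2 * δ + K * (s₁ - s₀)), eDiag a d b (z, z - (s₁ : ℂ)) := by
  set Ω' : Set (ℝ × ℂ) := diagL ⁻¹' Ω with hΩ'
  have hΩo : IsOpen Ω' := h.isOpen.preimage diagL.continuous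
  set C : Set (ℝ × ℂ) := {y | y.1 ∈ Icc s₀ s₁ ∧ ‖y.2‖ ≤ r + 2 * δ + K * (y.1 - s₀)} with hC
  have hCc : IsCompact C := by
    have h1 : IsCompact (Icc s₀ s₁ ×ˢ closedBall (0 : ℂ) (r + 2 * δ + K * (s₁ - s₀))) :=
      isCompact_Icc.prod (isCompact_closedBall _ _)
    refine h1.of_isClosed_subset ?_ ?_
    · exact (isClosed_Icc.preimage continuous_fst).inter
        (isClosed_le (f := fun y : ℝ × ℂ => ‖y.2‖)
          (g := fun y : ℝ × ℂ => r + 2 * δ + K * (y.1 - s₀)) (by fun_prop) (by fun_prop))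
    · rintro y ⟨h2, h3⟩
      refine ⟨h2, ?_⟩
      rw [mem_closedBall_zero_iff]
      have : K * (y.1 - s₀) ≤ K * (s₁ - s₀) := mul_le_mul_of_nonneg_left (by linarith only [h2.2]) hK
      linarith only [h3, this]
  have hCΩ : C ⊆ Ω' := fun y hy => hcone y.1 hy.1 y.2 hy.2
  set e : ℝ × ℂ → ℝ := fun y => eDiag a d b (diagL y) with he
  set p : ℝ × ℂ → ℝ := fun y => -((b (diagL y)).re + d (diagL y)) with hp
  set q : ℝ × ℂ → ℝ := fun y => -(b (diagL y)).im with hq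
  have hmaps : MapsTo diagL Ω' Ω := fun y hy => hy
  have ca : ContDiffOn ℝ 1 (fun y => a (diagL y)) Ω' :=
    h.a_diff.comp diagL.contDiff.contDiffOn hmaps
  have cd : ContDiffOn ℝ 1 (fun y => d (diagL y)) Ω' :=
    h.d_diff.comp diagL.contDiff.contDiffOn hmaps
  have cb : ContDiffOn ℝ 1 (fun y => b (diagL y)) Ω' :=
    h.b_diff.comp diagL.contDiff.contDiffOn hmaps
  have cbr : ContDiffOn ℝ 1 (fun y => (b (diagL y)).re) Ω' :=
    Complex.reCLM.contDiff.comp_contDiffOn cb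
  have cbi : ContDiffOn ℝ 1 (fun y => (b (diagL y)).im) Ω' :=
    Complex.imCLM.contDiff.comp_contDiffOn cb
  have he1 : ContDiffOn ℝ 1 e Ω' := (ca.add (contDiffOn_const.mul cbr)).add cd
  have hp1 : ContDiffOn ℝ 1 p Ω' := (cbr.add cd).neg
  have hq1 : ContDiffOn ℝ 1 q Ω' := cbi.neg
  obtain ⟨e', he', -, hee⟩ := exists_global hΩo hCc hCΩ he1
  obtain ⟨p', hp', -, hpp⟩ := exists_global hΩo hCc hCΩ hp1
  obtain ⟨q', hq', -, hqq⟩ := exists_global hΩo hCc hCΩ hq1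
  have key := cone_mono (m := r + δ - K * s₀) he' hp' hq' hK hδ h01 ?_
  · -- comparison of the integrals
    have hcont : ∀ s, Continuous fun z : ℂ => cone K δ (r + δ - K * s₀) (s, z) * e' (s, z) :=
      fun s => (((contDiff_cone hδ).continuous).comp (by fun_prop)).mul
        (he'.continuous.comp (by fun_prop))
    have hz : ∀ s z, r + 2 * δ + K * (s - s₀) < ‖z‖ →
        cone K δ (r + δ - K * s₀) (s, z) * e' (s, z) = 0 := by
      intro s z hz
      rw [cone_eq_zero hδ, zero_mul]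
      show r + δ - K * s₀ + δ + K * s ≤ ‖z‖
      linarith
    have hnn : ∀ s ∈ Icc s₀ s₁, ∀ z, 0 ≤ cone K δ (r + δ - K * s₀) (s, z) * e' (s, z) := by
      intro s hs z
      by_cases hzz : ‖z‖ ≤ r + 2 * δ + K * (s - s₀)
      · have hy : ((s, z) : ℝ × ℂ) ∈ C := ⟨hs, hzz⟩
        rw [(hee _ hy).self_of_nhds]
        exact mul_nonneg (cone_nonneg _) (h.eDiag_nonneg (hCΩ hy))
      · rw [hz s z (not_le.1 hzz)]
    have hsupp : ∀ s, HasCompactSupport fun z : ℂ =>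
        cone K δ (r + δ - K * s₀) (s, z) * e' (s, z) := fun s =>
      HasCompactSupport.intro (isCompact_closedBall (0 : ℂ) (r + 2 * δ + K * (s - s₀)))
        fun z hz' => hz s z (by rwa [mem_closedBall_zero_iff, not_le] at hz')
    have hint : ∀ s, Integrable fun z : ℂ =>
        cone K δ (r + δ - K * s₀) (s, z) * e' (s, z) := fun s =>
      (hcont s).integrable_of_hasCompactSupport (hsupp s)
    have hs0 : s₀ ∈ Icc s₀ s₁ := ⟨le_rfl, h01⟩
    have hs1 : s₁ ∈ Icc s₀ s₁ := ⟨h01, le_rfl⟩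
    have l1 : ∫ z in closedBall (0 : ℂ) r, eDiag a d b (z, z - (s₀ : ℂ)) ≤
        ∫ z, cone K δ (r + δ - K * s₀) (s₀, z) * e' (s₀, z) := by
      calc ∫ z in closedBall (0 : ℂ) r, eDiag a d b (z, z - (s₀ : ℂ))
          = ∫ z in closedBall (0 : ℂ) r, cone K δ (r + δ - K * s₀) (s₀, z) * e' (s₀, z) := by
            apply setIntegral_congr_fun isClosed_closedBall.measurableSet
            intro z hz'
            rw [mem_closedBall_zero_iff] at hz'
            have hy : ((s₀, z) : ℝ × ℂ) ∈ C := ⟨hs0, by simp only [sub_self, mul_zero]; linarith only [hδ, hz']⟩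
            show _ = cone K δ (r + δ - K * s₀) (s₀, z) * e' (s₀, z)
            rw [(hee _ hy).self_of_nhds, cone_eq_one hδ, one_mul]
            · rfl
            · show ‖z‖ + δ ≤ r + δ - K * s₀ + K * s₀
              linarith only [hz']
        _ ≤ _ := setIntegral_le_integral (hint s₀) (ae_of_all _ (hnn s₀ hs0))
    have l2 : ∫ z, cone K δ (r + δ - K * s₀) (s₁, z) * e' (s₁, z) ≤
        ∫ z in closedBall (0 : ℂ) (r + 2 * δ + K * (s₁ - s₀)),
          eDiag a d b (z, z - (s₁ : ℂ)) := by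
      have h1 : ∫ z, cone K δ (r + δ - K * s₀) (s₁, z) * e' (s₁, z) =
          ∫ z in closedBall (0 : ℂ) (r + 2 * δ + K * (s₁ - s₀)),
            cone K δ (r + δ - K * s₀) (s₁, z) * e' (s₁, z) := by
        symm
        apply setIntegral_eq_integral_of_forall_compl_eq_zero
        intro z hz'
        exact hz s₁ z (by rwa [mem_closedBall_zero_iff, not_le] at hz')
      rw [h1]
      apply setIntegral_mono_on (hint s₁).integrableOn _ isClosed_closedBall.measurableSet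
      · intro z hz'
        rw [mem_closedBall_zero_iff] at hz'
        have hy : ((s₁, z) : ℝ × ℂ) ∈ C := ⟨hs1, hz'⟩
        rw [(hee _ hy).self_of_nhds]
        have := h.eDiag_nonneg (hCΩ hy)
        calc cone K δ (r + δ - K * s₀) (s₁, z) * e (s₁, z) ≤ 1 * e (s₁, z) :=
              mul_le_mul_of_nonneg_right (cone_le_one _) this
          _ = _ := one_mul _
      · refine ContinuousOn.integrableOn_compact (isCompact_closedBall _ _) ?_
        have : ContinuousOn (fun z : ℂ => e (s₁, z))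
            (closedBall (0 : ℂ) (r + 2 * δ + K * (s₁ - s₀))) := by
          refine he1.continuousOn.comp (by fun_prop) ?_
          intro z hz'
          rw [mem_closedBall_zero_iff] at hz'
          exact hCΩ ⟨hs1, hz'⟩
        exact this
    linarith only [key, l1, l2]
  · -- the conservation law
    intro y hy1 hy2
    have hy : y ∈ C := ⟨hy1, by linarith only [hy2]⟩
    have hyΩ : diagL y ∈ Ω := hCΩ hy
    have dda : DifferentiableAt ℝ a (diagL y) :=
      (h.a_diff.contDiffAt (h.isOpen.mem_nhds hyΩ)).differentiableAt (by norm_num)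
    have ddd : DifferentiableAt ℝ d (diagL y) :=
      (h.d_diff.contDiffAt (h.isOpen.mem_nhds hyΩ)).differentiableAt (by norm_num)
    have ddb : DifferentiableAt ℝ b (diagL y) :=
      (h.b_diff.contDiffAt (h.isOpen.mem_nhds hyΩ)).differentiableAt (by norm_num)
    have hba : HasFDerivAt (fun y => a (diagL y)) (fderiv ℝ a (diagL y) ∘L diagL) y :=
      dda.hasFDerivAt.comp y diagL.hasFDerivAt
    have hbd : HasFDerivAt (fun y => d (diagL y)) (fderiv ℝ d (diagL y) ∘L diagL) y :=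
      ddd.hasFDerivAt.comp y diagL.hasFDerivAt
    have hbb : HasFDerivAt (fun y => b (diagL y)) (fderiv ℝ b (diagL y) ∘L diagL) y :=
      ddb.hasFDerivAt.comp y diagL.hasFDerivAt
    have hbre : HasFDerivAt (fun y => (b (diagL y)).re)
        (Complex.reCLM ∘L (fderiv ℝ b (diagL y) ∘L diagL)) y :=
      Complex.reCLM.hasFDerivAt.comp y hbb
    have hbim : HasFDerivAt (fun y => (b (diagL y)).im)
        (Complex.imCLM ∘L (fderiv ℝ b (diagL y) ∘L diagL)) y :=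
      Complex.imCLM.hasFDerivAt.comp y hbb
    have fe : fderiv ℝ e y = _ := ((hba.add (hbre.const_mul 2)).add hbd).fderiv
    have fp : fderiv ℝ p y = _ := ((hbre.add hbd).neg).fderiv
    have fq : fderiv ℝ q y = _ := (hbim.neg).fderiv
    rw [(hee y hy).self_of_nhds, (hpp y hy).self_of_nhds, (hqq y hy).self_of_nhds,
      (hee y hy).fderiv_eq, (hpp y hy).fderiv_eq, (hqq y hy).fderiv_eq]
    refine ⟨h.eDiag_nonneg hyΩ, ?_, ?_⟩
    · rw [fe, fp, fq]
      obtain ⟨a1, a2⟩ := h.da hyΩ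
      obtain ⟨d1, d2⟩ := h.dd hyΩ
      have s1 : (diagL (1, 0) : ℂ × ℂ) = -(0, 1) := by simp only [diagL_apply, ofReal_one, zero_sub, Prod.neg_mk, neg_zero]
      have s2 : (diagL (0, 1) : ℂ × ℂ) = (1, 0) + (0, 1) := by simp
      have s3 : (diagL (0, I) : ℂ × ℂ) = (I, 0) + (0, I) := by simp
      simp only [add_apply, ContinuousLinearMap.comp_apply, s1, map_neg, smul_apply, reCLM_apply, smul_eq_mul, neg_apply, s2, map_add, s3, imCLM_apply]
      rw [a1, d1]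
      ring
    · have k1 := h.cs _ hyΩ
      have k2 := h.proj_d _ hyΩ
      have k3 := h.d_nonneg _ hyΩ
      have k4 := h.eDiag_nonneg hyΩ
      show (-((b (diagL y)).re + d (diagL y))) ^ 2 + (-(b (diagL y)).im) ^ 2 ≤
        K ^ 2 * (eDiag a d b (diagL y)) ^ 2
      rw [normSq_apply] at k1
      have k5 : (-((b (diagL y)).re + d (diagL y))) ^ 2 + (-(b (diagL y)).im) ^ 2 ≤
          d (diagL y) * eDiag a d b (diagL y) := by
        unfold eDiag; linarith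
      refine k5.trans ?_
      have k6 : d (diagL y) * eDiag a d b (diagL y) ≤
          (K ^ 2 * eDiag a d b (diagL y)) * eDiag a d b (diagL y) :=
        mul_le_mul_of_nonneg_right k2 k4
      linarith only [k6]

end Vale.Agent.P278.Full
end
end

section

section

open MeasureTheory Set Filter Topology Complex Metric
open scoped ContDiff ComplexConjugate

namespace Vale.Agent.P278.Full

/-- Bound for the flux through a cut-off. -/
theorem flux_bound {χ : ℂ → ℝ} (hχ : ContDiff ℝ 1 χ) {S : Set ℂ} (hS : IsCompact S)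
    (hχS : ∀ z ∉ S, χ z = 0) {e p q : ℝ × ℂ → ℝ}
    (he : ContDiff ℝ 1 e) (hp : ContDiff ℝ 1 p) (hq : ContDiff ℝ 1 q) {s₀ s₁ B : ℝ}
    (h01 : s₀ ≤ s₁)
    (H : ∀ y : ℝ × ℂ, y.1 ∈ Icc s₀ s₁ → y.2 ∈ S →
      fderiv ℝ e y (1, 0) = fderiv ℝ p y (0, 1) + fderiv ℝ q y (0, I))
    (hB : ∀ y : ℝ × ℂ, y.1 ∈ Icc s₀ s₁ → y.2 ∈ S →
      -(fderiv ℝ χ y.2 1 * p y) - fderiv ℝ χ y.2 I * q y ≤ B) :
    ∫ z, χ z * e (s₁, z) ≤ (∫ z, χ z * e (s₀, z)) + (s₁ - s₀) * (B * volume.real S) := by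
  have hχd : Differentiable ℝ χ := hχ.differentiable (by norm_num)
  have hSo : IsOpen Sᶜ := hS.isClosed.isOpen_compl
  have hdχ : ∀ z ∉ S, fderiv ℝ χ z = 0 := by
    intro z hz
    have : χ =ᶠ[𝓝 z] fun _ => 0 := by
      filter_upwards [hSo.mem_nhds hz] with y hy using hχS y hy
    rw [this.fderiv_eq]; simp only [fderiv_fun_const, Pi.zero_apply]
  have hslice : ∀ (s : ℝ) (g : ℝ × ℂ → ℝ), ContDiff ℝ 1 g →
      ContDiff ℝ 1 (fun z : ℂ => χ z * g (s, z)) := fun s g hg =>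
    hχ.mul (hg.comp (by fun_prop))
  have hsupp : ∀ (s : ℝ) (g : ℝ × ℂ → ℝ), HasCompactSupport (fun z : ℂ => χ z * g (s, z)) :=
    fun s g => HasCompactSupport.intro hS fun z hz => by rw [hχS z hz, zero_mul]
  have hsliced : ∀ (s : ℝ) (g : ℝ × ℂ → ℝ), ContDiff ℝ 1 g → ∀ z v : ℂ,
      fderiv ℝ (fun z : ℂ => χ z * g (s, z)) z v =
        χ z * fderiv ℝ g (s, z) (0, v) + fderiv ℝ χ z v * g (s, z) := by
    intro s g hg z v
    have hι : HasFDerivAt (fun z : ℂ => ((s, z) : ℝ × ℂ)) (ContinuousLinearMap.inr ℝ ℝ ℂ) z :=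
      hasFDerivAt_prodMk_right s z
    have h2 := ((hg.differentiable (by norm_num)) (s, z)).hasFDerivAt.comp z hι
    have h3 : fderiv ℝ (fun z : ℂ => χ z * g (s, z)) z = _ := ((hχd z).hasFDerivAt.mul h2).fderiv
    rw [h3]
    simp only [Function.comp, add_apply, smul_apply, ContinuousLinearMap.comp_apply, ContinuousLinearMap.inr_apply, smul_eq_mul]
    ring
  set D : ℝ × ℂ → ℝ := fun y => χ y.2 * fderiv ℝ e y (1, 0) with hD
  have hDc : Continuous D := by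
    have h1 : Continuous (fun y => fderiv ℝ e y (1, 0)) :=
      (he.continuous_fderiv (by norm_num)).clm_apply continuous_const
    exact (hχ.continuous.comp continuous_snd).mul h1
  have hder : ∀ (z : ℂ) (s : ℝ), HasDerivAt (fun s => χ z * e (s, z)) (D (s, z)) s := by
    intro z s
    have hι : HasFDerivAt (fun s : ℝ => ((s, z) : ℝ × ℂ)) (ContinuousLinearMap.inl ℝ ℝ ℂ) s :=
      hasFDerivAt_prodMk_left s z
    have h2 := (((he.differentiable (by norm_num)) (s, z)).hasFDerivAt.comp s hι).hasDerivAt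
    exact h2.const_mul (χ z)
  have hzero : ∀ s z, z ∉ S → D (s, z) = 0 := by
    intro s z hz
    show χ z * _ = 0
    rw [hχS z hz, zero_mul]
  have hint : Integrable (Function.uncurry fun (s : ℝ) (z : ℂ) => D (s, z))
      ((volume.restrict (uIoc s₀ s₁)).prod volume) := by
    have h1 : IntegrableOn D (Icc s₀ s₁ ×ˢ S) (volume.prod volume) :=
      hDc.continuousOn.integrableOn_compact (isCompact_Icc.prod hS)
    have h2 : IntegrableOn D (Icc s₀ s₁ ×ˢ (univ : Set ℂ)) (volume.prod volume) := by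
      refine h1.of_forall_sdiff_eq_zero (measurableSet_Icc.prod MeasurableSet.univ) ?_
      rintro ⟨s, z⟩ ⟨⟨hs, -⟩, hn⟩
      exact hzero s z fun h => hn ⟨hs, h⟩
    have h3 : IntegrableOn D (uIoc s₀ s₁ ×ˢ (univ : Set ℂ)) (volume.prod volume) := by
      refine h2.mono_set (prod_mono ?_ Subset.rfl)
      rw [uIoc_of_le h01]; exact Ioc_subset_Icc_self
    rw [IntegrableOn, ← Measure.prod_restrict, Measure.restrict_univ] at h3
    exact h3
  have hswap := intervalIntegral_integral_swap hint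
  have hftc : ∀ z, ∫ s in s₀..s₁, D (s, z) = χ z * e (s₁, z) - χ z * e (s₀, z) := by
    intro z
    apply intervalIntegral.integral_eq_sub_of_hasDerivAt (fun s _ => hder z s)
    exact (hDc.comp (by fun_prop)).intervalIntegrable _ _
  have hint2 : ∀ s, Integrable (fun z : ℂ => χ z * e (s, z)) := fun s =>
    (hslice s e he).continuous.integrable_of_hasCompactSupport (hsupp s e)
  have hle : ∀ s ∈ Icc s₀ s₁, ∫ z, D (s, z) ≤ B * volume.real S := by
    intro s hs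
    have i1 := integral_fderiv_eq_zero (hslice s p hp) (hsupp s p) 1
    have i2 := integral_fderiv_eq_zero (hslice s q hq) (hsupp s q) I
    have c1 : ∀ (g : ℝ × ℂ → ℝ), ContDiff ℝ 1 g → ∀ v : ℂ, Integrable (fun z =>
        fderiv ℝ (fun z : ℂ => χ z * g (s, z)) z v) := by
      intro g hg v
      have h1 : Continuous (fun z => fderiv ℝ (fun z : ℂ => χ z * g (s, z)) z v) :=
        ((hslice s g hg).continuous_fderiv (by norm_num)).clm_apply continuous_const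
      refine h1.integrable_of_hasCompactSupport ?_
      exact HasCompactSupport.intro
        (K := tsupport (fderiv ℝ (fun z : ℂ => χ z * g (s, z))))
        ((hsupp s g).fderiv (𝕜 := ℝ)).isCompact
        fun x hx => by rw [image_eq_zero_of_notMem_tsupport hx]; rfl
    have hDi : Integrable (fun z => D (s, z)) :=
      (hDc.comp (by fun_prop : Continuous fun z : ℂ => ((s, z) : ℝ × ℂ))
        ).integrable_of_hasCompactSupport (HasCompactSupport.intro hS fun z hz => hzero s z hz)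
    have hsum : ∫ z, D (s, z) = ∫ z, (D (s, z) -
        fderiv ℝ (fun z : ℂ => χ z * p (s, z)) z 1 -
        fderiv ℝ (fun z : ℂ => χ z * q (s, z)) z I) := by
      have a1 := integral_sub (hDi.sub (c1 p hp 1)) (c1 q hq I)
      have a2 := integral_sub hDi (c1 p hp 1)
      simp only [Pi.sub_apply] at a1
      rw [a1, a2, i1, i2]
      ring
    rw [hsum]
    have hoff : ∀ z ∉ S, D (s, z) - fderiv ℝ (fun z : ℂ => χ z * p (s, z)) z 1 -
        fderiv ℝ (fun z : ℂ => χ z * q (s, z)) z I = 0 := by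
      intro z hz
      rw [hsliced s p hp, hsliced s q hq, hzero s z hz, hχS z hz, hdχ z hz]
      simp only [zero_mul, zero_apply, add_zero, sub_self]
    rw [← setIntegral_eq_integral_of_forall_compl_eq_zero hoff]
    have hon : ∀ z ∈ S, D (s, z) - fderiv ℝ (fun z : ℂ => χ z * p (s, z)) z 1 -
        fderiv ℝ (fun z : ℂ => χ z * q (s, z)) z I ≤ B := by
      intro z hz
      have k1 := H (s, z) hs hz
      have k2 := hB (s, z) hs hz
      rw [hsliced s p hp, hsliced s q hq]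
      show χ z * fderiv ℝ e (s, z) (1, 0) - _ - _ ≤ B
      rw [k1]
      simp only at k2
      linarith only [k2]
    calc ∫ z in S, (D (s, z) - fderiv ℝ (fun z : ℂ => χ z * p (s, z)) z 1 -
        fderiv ℝ (fun z : ℂ => χ z * q (s, z)) z I) ≤ ∫ z in S, B := by
          apply setIntegral_mono_on ((hDi.sub (c1 p hp 1)).sub (c1 q hq I)).integrableOn _
            hS.measurableSet hon
          exact integrableOn_const hS.measure_lt_top.ne
      _ = B * volume.real S := by simp [mul_comm]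
  have hcint : IntervalIntegrable (fun s => ∫ z, D (s, z)) volume s₀ s₁ := by
    have := hint.integral_prod_left
    rw [intervalIntegrable_iff]
    exact this
  have hfin : ∫ s in s₀..s₁, ∫ z, D (s, z) ≤ ∫ s in s₀..s₁, B * volume.real S :=
    intervalIntegral.integral_mono_on h01 hcint (by simp) hle
  rw [hswap] at hfin
  simp_rw [hftc] at hfin
  rw [integral_sub (hint2 s₁) (hint2 s₀), intervalIntegral.integral_const, smul_eq_mul] at hfin
  linarith only [hfin]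

lemma wd_comp_swap (f : ℂ × ℂ → ℂ) (v p : ℂ × ℂ) (hf : DifferentiableAt ℝ f p.swap) :
    wd (fun q => f q.swap) v p = wd f v.swap p.swap := by
  have h1 : HasFDerivAt (fun q : ℂ × ℂ => q.swap)
      ((ContinuousLinearMap.snd ℝ ℂ ℂ).prod (ContinuousLinearMap.fst ℝ ℂ ℂ)) p :=
    hasFDerivAt_snd.prodMk hasFDerivAt_fst
  have h2 : fderiv ℝ (fun q : ℂ × ℂ => f q.swap) p = _ := (hf.hasFDerivAt.comp p h1).fderiv
  rw [wd, wd, h2]
  rfl

lemma contDiff_swap' : ContDiff ℝ 1 (fun p : ℂ × ℂ => p.swap) := contDiff_snd.prodMk contDiff_fst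

variable {Ω : Set (ℂ × ℂ)} {K : ℝ} {a d : ℂ × ℂ → ℝ} {b : ℂ × ℂ → ℂ}

/-- Exchange of the two variables. -/
theorem FlatK.swap (h : FlatK Ω K a d b) :
    FlatK (Prod.swap ⁻¹' Ω) K (fun p => d p.swap) (fun p => a p.swap)
      (fun p => conj (b p.swap)) where
  isOpen := h.isOpen.preimage continuous_swap
  a_diff := h.d_diff.comp contDiff_swap'.contDiffOn (fun p hp => hp)
  d_diff := h.a_diff.comp contDiff_swap'.contDiffOn (fun p hp => hp)
  b_diff := Complex.conjCLE.contDiff.comp_contDiffOn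
    (h.b_diff.comp contDiff_swap'.contDiffOn (fun p hp => hp))
  closed_a := fun p hp => by
    have hd : DifferentiableAt ℝ d p.swap :=
      (h.d_diff.contDiffAt (h.isOpen.mem_nhds hp)).differentiableAt (by norm_num)
    have hb : DifferentiableAt ℝ b p.swap :=
      (h.b_diff.contDiffAt (h.isOpen.mem_nhds hp)).differentiableAt (by norm_num)
    have h1 := wd_comp_swap (fun q => (d q : ℂ)) (0, 1) p
      (Complex.ofRealCLM.differentiableAt.comp _ hd)
    have h2 := wd_comp_swap (fun q => conj (b q)) (1, 0) p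
      (Complex.conjCLE.toContinuousLinearMap.differentiableAt.comp _ hb)
    rw [h1, h2]
    exact h.closed_d p.swap hp
  closed_d := fun p hp => by
    have ha : DifferentiableAt ℝ a p.swap :=
      (h.a_diff.contDiffAt (h.isOpen.mem_nhds hp)).differentiableAt (by norm_num)
    have hb : DifferentiableAt ℝ b p.swap :=
      (h.b_diff.contDiffAt (h.isOpen.mem_nhds hp)).differentiableAt (by norm_num)
    have h1 := wd_comp_swap (fun q => (a q : ℂ)) (1, 0) p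
      (Complex.ofRealCLM.differentiableAt.comp _ ha)
    have h2 := wd_comp_swap b (0, 1) p hb
    simp only [Complex.conj_conj]
    rw [h1, h2]
    exact h.closed_a p.swap hp
  a_nonneg := fun p hp => h.d_nonneg _ hp
  d_nonneg := fun p hp => h.a_nonneg _ hp
  cs := fun p hp => by
    have := h.cs _ hp
    rw [Complex.normSq_conj]; linarith only [this]
  proj_a := fun p hp => by
    have := h.proj_d _ hp
    rw [Complex.conj_re]
    linarith only [this]
  proj_d := fun p hp => by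
    have := h.proj_a _ hp
    rw [Complex.conj_re]
    linarith only [this]

/-- The map `(t, z) ↦ (z, t τ)`. -/
noncomputable def lineL (τ : ℂ) : ℝ × ℂ →L[ℝ] ℂ × ℂ :=
  (ContinuousLinearMap.snd ℝ ℝ ℂ).prod
    ((ContinuousLinearMap.fst ℝ ℝ ℂ).smulRight τ)

lemma lineL_apply (τ : ℂ) (y : ℝ × ℂ) : lineL τ y = (y.2, y.1 • τ) := rfl

/-- **Energy bound** for the discs `z ↦ (z, w₀ + t τ)`, `t < T`, if the situation is under control
near the boundary circle up to the time `T`. -/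
theorem FlatK.exists_energy_bound (h : FlatK Ω K a d b) {z₀ w₀ τ : ℂ} {R T : ℝ}
    (h1 : ∀ z ∈ closedBall z₀ R, ∀ t ∈ Ico 0 T, (z, w₀ + t • τ) ∈ Ω)
    (h2 : ∀ z ∈ sphere z₀ R, (z, w₀ + T • τ) ∈ Ω) :
    ∃ A : ℝ, ∀ t ∈ Ico 0 T, ∫ z in closedBall z₀ R, a (z, w₀ + t • τ) ≤ A := by
  by_cases hT : 0 < T
  swap
  · exact ⟨0, fun t ht => absurd (ht.1.trans_lt ht.2) hT⟩
  set L : ℝ × ℂ → ℂ × ℂ := fun y => (0, w₀) + lineL τ y with hL
  have hLd : ContDiff ℝ 1 L := contDiff_const.add (lineL τ).contDiff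
  have hLa : ∀ y, L y = (y.2, w₀ + y.1 • τ) := fun y => by simp [hL, lineL_apply]
  set Ω' : Set (ℝ × ℂ) := L ⁻¹' Ω with hΩ'
  have hΩo : IsOpen Ω' := h.isOpen.preimage hLd.continuous
  -- a neighbourhood of the circle
  set N : Set ℂ := {z | ∀ t ∈ Icc 0 T, (t, z) ∈ Ω'} with hN
  have hNsph : sphere z₀ R ⊆ N := by
    intro z hz t ht
    show L (t, z) ∈ Ω
    rw [hLa]
    rcases ht.2.lt_or_eq with h3 | h3
    · exact h1 z (sphere_subset_closedBall hz) t ⟨ht.1, h3⟩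
    · simp only [h3]; exact h2 z hz
  have hNo : IsOpen N := by
    rw [isOpen_iff_mem_nhds]
    intro z hz
    have : ∀ᶠ z' in 𝓝 z, ∀ t ∈ Icc 0 T, ((t, z') : ℝ × ℂ) ∈ Ω' := by
      apply isCompact_Icc.eventually_forall_of_forall_eventually
      intro t ht
      have := hΩo.mem_nhds (hz t ht)
      have hc : ContinuousAt (fun y : ℂ × ℝ => ((y.2, y.1) : ℝ × ℂ)) (z, t) := by fun_prop
      exact hc.eventually_mem this
    exact this
  obtain ⟨χ, hχ1, hχ0, hχI⟩ := exists_contMDiffMap_one_nhds_of_subset_interior (n := 1)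
    (modelWithCornersSelf ℝ ℂ) (s := closedBall z₀ R \ N) (t := closedBall z₀ R)
    (isClosed_closedBall.sdiff hNo) (by
      intro z hz
      have hz1 : dist z z₀ ≤ R := hz.1
      have hz2 : dist z z₀ ≠ R := fun h => hz.2 (hNsph h)
      exact ball_subset_interior_closedBall (lt_of_le_of_ne hz1 hz2))
  have hχ : ContDiff ℝ 1 χ := χ.contMDiff.contDiff
  set S : Set ℂ := closedBall z₀ R \ interior {z | χ z = 1} with hS
  have hSc : IsCompact S := (isCompact_closedBall _ _).diff isOpen_interior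
  have hSN : S ⊆ N := by
    intro z hz
    by_contra hzN
    apply hz.2
    have := (eventually_nhdsSet_iff_forall.mp hχ1) z ⟨hz.1, hzN⟩
    rw [mem_interior_iff_mem_nhds]
    exact this
  set C : Set (ℝ × ℂ) := Icc 0 T ×ˢ S with hC
  have hCc : IsCompact C := isCompact_Icc.prod hSc
  have hCΩ : C ⊆ Ω' := fun y hy => hSN hy.2 y.1 hy.1
  have hmaps : MapsTo L Ω' Ω := fun y hy => hy
  have ca : ContDiffOn ℝ 1 (fun y => a (L y)) Ω' := h.a_diff.comp hLd.contDiffOn hmaps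
  have cb : ContDiffOn ℝ 1 (fun y => τ * b (L y)) Ω' :=
    contDiffOn_const.mul (h.b_diff.comp hLd.contDiffOn hmaps)
  have cp : ContDiffOn ℝ 1 (fun y => (τ * b (L y)).re) Ω' :=
    Complex.reCLM.contDiff.comp_contDiffOn cb
  have cq : ContDiffOn ℝ 1 (fun y => (τ * b (L y)).im) Ω' :=
    Complex.imCLM.contDiff.comp_contDiffOn cb
  set e : ℝ × ℂ → ℝ := fun y => a (L y) with he
  set p : ℝ × ℂ → ℝ := fun y => (τ * b (L y)).re with hp
  set q : ℝ × ℂ → ℝ := fun y => (τ * b (L y)).im with hq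
  have hfl : ContinuousOn (fun y : ℝ × ℂ => -(fderiv ℝ χ y.2 1 * p y) - fderiv ℝ χ y.2 I * q y)
      C := by
    have k1 : ∀ v : ℂ, Continuous (fun y : ℝ × ℂ => fderiv ℝ χ y.2 v) := fun v =>
      ((hχ.continuous_fderiv (by norm_num)).clm_apply continuous_const).comp continuous_snd
    exact ((k1 1).continuousOn.mul (cp.continuousOn.mono hCΩ)).neg.sub
      ((k1 I).continuousOn.mul (cq.continuousOn.mono hCΩ))
  obtain ⟨B₀, hB₀⟩ := hCc.bddAbove_image hfl
  obtain ⟨A₀, hA₀⟩ := hCc.bddAbove_image (ca.continuousOn.mono hCΩ)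
  have hB₀' : ∀ y ∈ C, -(fderiv ℝ χ y.2 1 * p y) - fderiv ℝ χ y.2 I * q y ≤ B₀ := fun y hy =>
    hB₀ ⟨y, hy, rfl⟩
  have hA₀' : ∀ y ∈ C, a (L y) ≤ A₀ := fun y hy => hA₀ ⟨y, hy, rfl⟩
  set B : ℝ := max B₀ 0 with hB
  set A : ℝ := max A₀ 0 with hA
  have hvol : 0 ≤ volume.real (closedBall z₀ R) := measureReal_nonneg
  refine ⟨(∫ z, χ z * e (0, z)) + T * (B * volume.real (closedBall z₀ R)) +
    A * volume.real (closedBall z₀ R), ?_⟩
  intro t ht
  -- globalisation up to time `t`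
  set C' : Set (ℝ × ℂ) := Icc 0 t ×ˢ closedBall z₀ R with hC'
  have hC'c : IsCompact C' := isCompact_Icc.prod (isCompact_closedBall _ _)
  have hC'Ω : C' ⊆ Ω' := by
    intro y hy
    show L y ∈ Ω
    rw [hLa]
    exact h1 y.2 hy.2 y.1 ⟨hy.1.1, hy.1.2.trans_lt ht.2⟩
  obtain ⟨e', he', -, hee⟩ := exists_global hΩo hC'c hC'Ω ca
  obtain ⟨p', hp', -, hpp⟩ := exists_global hΩo hC'c hC'Ω cp
  obtain ⟨q', hq', -, hqq⟩ := exists_global hΩo hC'c hC'Ω cq
  have hdχ : ∀ z, z ∈ closedBall z₀ R → z ∉ S → fderiv ℝ χ z = 0 := by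
    intro z hz hzS
    have hz2 : z ∈ interior {z | χ z = 1} := by
      by_contra hcon
      exact hzS ⟨hz, hcon⟩
    have : χ =ᶠ[𝓝 z] fun _ => 1 := mem_interior_iff_mem_nhds.1 hz2
    rw [this.fderiv_eq]; simp only [fderiv_fun_const, Pi.zero_apply]
  have key := flux_bound hχ (isCompact_closedBall z₀ R) (fun z hz => hχ0 z hz) he' hp' hq' ht.1
    (B := B) ?_ ?_
  · have e0 : ∀ s ∈ Icc 0 t, ∫ z, χ z * e' (s, z) = ∫ z, χ z * e (s, z) := by
      intro s hs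
      apply integral_congr_ae
      apply ae_of_all
      intro z
      by_cases hz : z ∈ closedBall z₀ R
      · show χ z * e' (s, z) = χ z * e (s, z)
        rw [(hee (s, z) ⟨hs, hz⟩).self_of_nhds]
      · show χ z * e' (s, z) = χ z * e (s, z)
        rw [hχ0 z hz, zero_mul, zero_mul]
    rw [e0 t ⟨ht.1, le_rfl⟩, e0 0 ⟨le_rfl, ht.1⟩] at key
    have hicc : ContinuousOn (fun z : ℂ => e (t, z)) (closedBall z₀ R) :=
      ca.continuousOn.comp (by fun_prop) (fun z hz => hC'Ω ⟨⟨ht.1, le_rfl⟩, hz⟩)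
    have hint : IntegrableOn (fun z : ℂ => e (t, z)) (closedBall z₀ R) :=
      hicc.integrableOn_compact (isCompact_closedBall _ _)
    have hint2 : IntegrableOn (fun z : ℂ => χ z * e (t, z)) (closedBall z₀ R) :=
      (hχ.continuous.continuousOn.mul hicc).integrableOn_compact (isCompact_closedBall _ _)
    have hint3 : IntegrableOn (fun z : ℂ => (1 - χ z) * e (t, z)) (closedBall z₀ R) :=
      ((continuous_const.sub hχ.continuous).continuousOn.mul hicc).integrableOn_compact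
        (isCompact_closedBall _ _)
    have s1 : ∫ z in closedBall z₀ R, a (z, w₀ + t • τ) =
        (∫ z in closedBall z₀ R, χ z * e (t, z)) +
          ∫ z in closedBall z₀ R, (1 - χ z) * e (t, z) := by
      rw [← integral_add hint2 hint3]
      apply setIntegral_congr_fun isClosed_closedBall.measurableSet
      intro z hz
      show a (z, w₀ + t • τ) = χ z * e (t, z) + (1 - χ z) * e (t, z)
      rw [he]; simp only [hLa]; ring
    have s2 : ∫ z in closedBall z₀ R, χ z * e (t, z) = ∫ z, χ z * e (t, z) := by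
      apply setIntegral_eq_integral_of_forall_compl_eq_zero
      intro z hz
      rw [hχ0 z hz, zero_mul]
    have s3 : ∫ z in closedBall z₀ R, (1 - χ z) * e (t, z) ≤ A * volume.real (closedBall z₀ R) := by
      calc ∫ z in closedBall z₀ R, (1 - χ z) * e (t, z) ≤ ∫ z in closedBall z₀ R, A := by
            apply setIntegral_mono_on hint3 _ isClosed_closedBall.measurableSet
            · intro z hz
              by_cases hzS : z ∈ S
              · have m1 : e (t, z) ≤ A := (hA₀' (t, z) ⟨⟨ht.1, ht.2.le⟩, hzS⟩).trans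
                  (le_max_left _ _)
                have m2 : 0 ≤ e (t, z) := h.a_nonneg _ (hC'Ω ⟨⟨ht.1, le_rfl⟩, hz⟩)
                have m3 := hχI z
                nlinarith only [m1, m2, m3.1]
              · have : χ z = 1 := by
                  by_contra hcon
                  refine hzS ⟨hz, fun hi => hcon ?_⟩
                  have := interior_subset hi
                  exact this
                rw [this, sub_self, zero_mul]
                exact le_max_right _ _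
            · exact integrableOn_const (isCompact_closedBall _ _).measure_lt_top.ne
        _ = _ := by simp only [integral_const, MeasurableSet.univ, measureReal_restrict_apply, univ_inter, smul_eq_mul, mul_comm]
    rw [s1, s2]
    have s4 : (t - 0) * (B * volume.real (closedBall z₀ R)) ≤
        T * (B * volume.real (closedBall z₀ R)) := by
      apply mul_le_mul_of_nonneg_right (by linarith only [ht.2])
      exact mul_nonneg (le_max_right _ _) hvol
    linarith only [key, s3, s4]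
  · -- conservation law
    rintro y hy1 hy2
    have hy : y ∈ C' := ⟨hy1, hy2⟩
    have hyΩ : L y ∈ Ω := hC'Ω hy
    have dda : DifferentiableAt ℝ a (L y) :=
      (h.a_diff.contDiffAt (h.isOpen.mem_nhds hyΩ)).differentiableAt (by norm_num)
    have ddb : DifferentiableAt ℝ b (L y) :=
      (h.b_diff.contDiffAt (h.isOpen.mem_nhds hyΩ)).differentiableAt (by norm_num)
    have hLf : HasFDerivAt L (lineL τ) y := (lineL τ).hasFDerivAt.const_add _
    have hba : HasFDerivAt (fun y => a (L y)) (fderiv ℝ a (L y) ∘L lineL τ) y :=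
      dda.hasFDerivAt.comp y hLf
    have hbb : HasFDerivAt (fun y => τ * b (L y)) (τ • (fderiv ℝ b (L y) ∘L lineL τ)) y :=
      (ddb.hasFDerivAt.comp y hLf).const_mul τ
    have hbre : HasFDerivAt (fun y => (τ * b (L y)).re) _ y :=
      Complex.reCLM.hasFDerivAt.comp y hbb
    have hbim : HasFDerivAt (fun y => (τ * b (L y)).im) _ y :=
      Complex.imCLM.hasFDerivAt.comp y hbb
    rw [(hee y hy).fderiv_eq, (hpp y hy).fderiv_eq, (hqq y hy).fderiv_eq, hba.fderiv,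
      hbre.fderiv, hbim.fderiv]
    obtain ⟨a1, a2⟩ := h.da hyΩ
    have s1 : lineL τ (1, 0) = τ.re • ((0, 1) : ℂ × ℂ) + τ.im • ((0, I) : ℂ × ℂ) := by
      rw [lineL_apply]; ext <;> simp
    have s2 : lineL τ (0, 1) = (1, 0) := by rw [lineL_apply]; simp
    have s3 : lineL τ (0, I) = (I, 0) := by rw [lineL_apply]; simp
    simp only [ContinuousLinearMap.comp_apply, _root_.smul_apply, s1, s2, s3, map_add, map_smul,
      reCLM_apply, imCLM_apply, smul_eq_mul, mul_re, mul_im]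
    rw [a1, a2]
    ring
  · rintro y hy1 hy2
    have hy : y ∈ C' := ⟨hy1, hy2⟩
    rw [(hpp y hy).self_of_nhds, (hqq y hy).self_of_nhds]
    by_cases hyS : y.2 ∈ S
    · exact (hB₀' y ⟨⟨hy1.1, hy1.2.trans ht.2.le⟩, hyS⟩).trans (le_max_left _ _)
    · rw [hdχ y.2 hy2 hyS]
      simp only [zero_apply, zero_mul, neg_zero, sub_self, hB, le_sup_right]

end Vale.Agent.P278.Full
end
end

section

section

/-! The pulled back metric of an F-map is a `FlatK`. -/

open Set Topology Filter Metric MeasureTheory Complex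
open scoped ContDiff ComplexConjugate ENNReal

set_option linter.all false

namespace Vale.Agent.P278.Full

section form

variable {E : Type*} [NormedAddCommGroup E] [NormedSpace ℂ E]
  {F : Type*} [NormedAddCommGroup F] [NormedSpace ℂ F] [FiniteDimensional ℂ F]

/-- Product rule for forms evaluated on holomorphic vector valued functions. -/
lemma form_deriv {B : E → F →ₗ⋆[ℂ] F →ₗ[ℂ] ℂ} {q : E}
    (hB : ∀ u v, DifferentiableAt ℝ (fun r => B r u v) q) {a c : E → F}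
    (ha : DifferentiableAt ℂ a q) (hc : DifferentiableAt ℂ c q) :
    DifferentiableAt ℝ (fun r => B r (a r) (c r)) q ∧
    ∀ x, fderiv ℝ (fun r => B r (a r) (c r)) q x =
      fderiv ℝ (fun r => B r (a q) (c q)) q x + B q (fderiv ℂ a q x) (c q) +
        B q (a q) (fderiv ℂ c q x) := by
  let f := Module.finBasis ℂ F
  let ℓ : Fin (Module.finrank ℂ F) → F →L[ℂ] ℂ := fun i =>
    LinearMap.toContinuousLinearMap (f.coord i)
  have hℓ : ∀ i x, ℓ i x = f.repr x i := fun i x => rfl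
  have ha' : ∀ m, HasFDerivAt (fun r => ℓ m (a r))
      (((ℓ m).comp (fderiv ℂ a q)).restrictScalars ℝ) q := fun m =>
    ((ℓ m).hasFDerivAt.comp q ha.hasFDerivAt).restrictScalars ℝ
  have hc' : ∀ m, HasFDerivAt (fun r => ℓ m (c r))
      (((ℓ m).comp (fderiv ℂ c q)).restrictScalars ℝ) q := fun m =>
    ((ℓ m).hasFDerivAt.comp q hc.hasFDerivAt).restrictScalars ℝ
  have hac : ∀ m, HasFDerivAt (fun r => conj (ℓ m (a r)))
      ((Complex.conjCLE : ℂ →L[ℝ] ℂ).comp (((ℓ m).comp (fderiv ℂ a q)).restrictScalars ℝ)) q :=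
    fun m => (Complex.conjCLE.hasFDerivAt).comp q (ha' m)
  have hexp : (fun r => B r (a r) (c r)) =
      fun r => ∑ m, ∑ n, conj (ℓ m (a r)) * ℓ n (c r) * B r (f m) (f n) := by
    funext r
    exact form_basis f (B r) (a r) (c r)
  have hexp2 : (fun r => B r (a q) (c q)) =
      fun r => ∑ m, ∑ n, conj (ℓ m (a q)) * ℓ n (c q) * B r (f m) (f n) := by
    funext r
    exact form_basis f (B r) (a q) (c q)
  have hd : HasFDerivAt (fun r => ∑ m, ∑ n, conj (ℓ m (a r)) * ℓ n (c r) * B r (f m) (f n))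
      (∑ m, ∑ n, ((conj (ℓ m (a q)) * ℓ n (c q)) • fderiv ℝ (fun r => B r (f m) (f n)) q +
        B q (f m) (f n) • (conj (ℓ m (a q)) • (((ℓ n).comp (fderiv ℂ c q)).restrictScalars ℝ) +
          ℓ n (c q) • ((Complex.conjCLE : ℂ →L[ℝ] ℂ).comp
            (((ℓ m).comp (fderiv ℂ a q)).restrictScalars ℝ))))) q := by
    apply HasFDerivAt.fun_sum
    intro m _
    apply HasFDerivAt.fun_sum
    intro n _
    exact ((hac m).mul (hc' n)).mul (hB (f m) (f n)).hasFDerivAt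
  have hd2 : HasFDerivAt (fun r => ∑ m, ∑ n, conj (ℓ m (a q)) * ℓ n (c q) * B r (f m) (f n))
      (∑ m, ∑ n, (conj (ℓ m (a q)) * ℓ n (c q)) • fderiv ℝ (fun r => B r (f m) (f n)) q) q := by
    apply HasFDerivAt.fun_sum
    intro m _
    apply HasFDerivAt.fun_sum
    intro n _
    exact (hB (f m) (f n)).hasFDerivAt.const_mul _
  rw [hexp]
  refine ⟨hd.differentiableAt, fun x => ?_⟩
  rw [hd.fderiv, hexp2, hd2.fderiv, form_basis f (B q) (fderiv ℂ a q x) (c q),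
    form_basis f (B q) (a q) (fderiv ℂ c q x)]
  simp only [sum_apply]
  rw [← Finset.sum_add_distrib, ← Finset.sum_add_distrib]
  apply Finset.sum_congr rfl; intro m _
  rw [← Finset.sum_add_distrib, ← Finset.sum_add_distrib]
  apply Finset.sum_congr rfl; intro n _
  simp only [add_apply, smul_apply, smul_eq_mul, ContinuousLinearMap.comp_apply,
    ContinuousLinearMap.coe_restrictScalars', ContinuousLinearEquiv.coe_coe, Complex.conjCLE_apply,
    hℓ]
  ring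

lemma wd_form {B : E → F →ₗ⋆[ℂ] F →ₗ[ℂ] ℂ} {q : E}
    (hB : ∀ u v, DifferentiableAt ℝ (fun r => B r u v) q) {a c : E → F}
    (ha : DifferentiableAt ℂ a q) (hc : DifferentiableAt ℂ c q) (x : E) :
    wd (fun r => B r (a r) (c r)) x q =
      wd (fun r => B r (a q) (c q)) x q + B q (a q) (fderiv ℂ c q x) := by
  have h := (form_deriv hB ha hc).2
  unfold wd
  rw [h, h]
  simp only [map_smul, LinearMap.map_smulₛₗ, LinearMap.smul_apply, smul_eq_mul, Complex.conj_I]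
  linear_combination ((B q ((fderiv ℂ a q) x) (c q)) / 2 -
    (B q (a q) ((fderiv ℂ c q) x)) / 2) * I_mul_I

lemma contDiffAt_form {S : F → F →ₗ⋆[ℂ] F →ₗ[ℂ] ℂ} {Ω : Set F} (hS : FlatKahler S Ω)
    {τ u v : E → F} {p : E} (hp : τ p ∈ Ω) (hτ : ContDiffAt ℝ 1 τ p) (hu : ContDiffAt ℝ 1 u p)
    (hv : ContDiffAt ℝ 1 v p) : ContDiffAt ℝ 1 (fun q => S (τ q) (u q) (v q)) p := by
  let f := Module.finBasis ℂ F
  let ℓ : Fin (Module.finrank ℂ F) → F →L[ℂ] ℂ := fun i =>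
    LinearMap.toContinuousLinearMap (f.coord i)
  have hexp : (fun r => S (τ r) (u r) (v r)) =
      fun r => ∑ m, ∑ n, conj (ℓ m (u r)) * ℓ n (v r) * S (τ r) (f m) (f n) := by
    funext r
    exact form_basis f (S (τ r)) (u r) (v r)
  rw [hexp]
  refine ContDiffAt.sum fun m _ => ContDiffAt.sum fun n _ => ?_
  have h1 : ContDiffAt ℝ 1 (fun r => S (τ r) (f m) (f n)) p :=
    ((hS.contDiffAt hp (f m) (f n)).of_le (by norm_cast)).comp p hτ
  have h2 : ContDiffAt ℝ 1 (fun r => ℓ n (v r)) p :=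
    ((ℓ n).restrictScalars ℝ).contDiff.contDiffAt.comp p hv
  have h3 : ContDiffAt ℝ 1 (fun r => conj (ℓ m (u r))) p :=
    Complex.conjCLE.contDiff.contDiffAt.comp p
      (((ℓ m).restrictScalars ℝ).contDiff.contDiffAt.comp p hu)
  exact (h3.mul h2).mul h1

end form

variable {X : Type*} [TopologicalSpace X] {A B : Type*} [NormedAddCommGroup A] [NormedSpace ℂ A]
  [NormedAddCommGroup B] [NormedSpace ℂ B] {𝒬 : Set (OpenPartialHomeomorph X (A × B))}
  {H : OpenPartialHomeomorph X (A × B) → A × B → (A × B) →ₗ⋆[ℂ] (A × B) →ₗ[ℂ] ℂ}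
  [FiniteDimensional ℂ A] [FiniteDimensional ℂ B]

/-- `H(∂z, ∂z)`. -/
noncomputable def fA (𝒬 : Set (OpenPartialHomeomorph X (A × B)))
    (H : OpenPartialHomeomorph X (A × B) → A × B → (A × B) →ₗ⋆[ℂ] (A × B) →ₗ[ℂ] ℂ)
    (Ψ : ℂ × ℂ → X) (q : ℂ × ℂ) : ℝ := eden 𝒬 H (fun z => Ψ (z, q.2)) q.1

/-- `H(∂w, ∂w)`. -/
noncomputable def fD (𝒬 : Set (OpenPartialHomeomorph X (A × B)))
    (H : OpenPartialHomeomorph X (A × B) → A × B → (A × B) →ₗ⋆[ℂ] (A × B) →ₗ[ℂ] ℂ)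
    (Ψ : ℂ × ℂ → X) (q : ℂ × ℂ) : ℝ := eden 𝒬 H (fun w => Ψ (q.1, w)) q.2

open Classical in
/-- `H(∂z, ∂w)`. -/
noncomputable def fB (𝒬 : Set (OpenPartialHomeomorph X (A × B)))
    (H : OpenPartialHomeomorph X (A × B) → A × B → (A × B) →ₗ⋆[ℂ] (A × B) →ₗ[ℂ] ℂ)
    (Ψ : ℂ × ℂ → X) (q : ℂ × ℂ) : ℂ :=
  if h : ∃ φ ∈ 𝒬, Ψ q ∈ φ.source then
    H h.choose (h.choose (Ψ q)) (deriv (fun z => h.choose (Ψ (z, q.2))) q.1)
      (deriv (fun w => h.choose (Ψ (q.1, w))) q.2)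
  else 0

omit [FiniteDimensional ℂ A] [FiniteDimensional ℂ B] in
/-- The restriction of an F-map to a disc `t ↦ (a t, b t)`. -/
lemma IsF.isDisc {Ψ : ℂ × ℂ → X} {a b : ℂ → ℂ} {t : ℂ} (h : IsF 𝒬 Ψ (a t, b t))
    (ha : AnalyticAt ℂ a t) (hb : AnalyticAt ℂ b t) : IsDisc 𝒬 (fun s => Ψ (a s, b s)) t := by
  obtain ⟨φ, hφ, f, g, hf, hg, he⟩ := h
  have hc : Tendsto (fun s => (a s, b s)) (𝓝 t) (𝓝 (a t, b t)) :=
    ha.continuousAt.prodMk hb.continuousAt
  refine ⟨φ, hφ, (hc.eventually he).mono fun s hs => hs.1, ?_⟩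
  have h1 : AnalyticAt ℂ (fun s => (f (a s), g (b s))) t :=
    (AnalyticAt.comp' (g := f) (f := a) hf ha).prod (AnalyticAt.comp' (g := g) (f := b) hg hb)
  exact h1.congr ((hc.eventually he).mono fun s hs => hs.2.symm)

/-- An F-chart at every point near `p`. -/
lemma IsF.chart_nhds {Ψ : ℂ × ℂ → X} {p : ℂ × ℂ} {φ : OpenPartialHomeomorph X (A × B)}
    {f : ℂ → A} {g : ℂ → B} (hf : AnalyticAt ℂ f p.1) (hg : AnalyticAt ℂ g p.2)
    (he : ∀ᶠ q in 𝓝 p, Ψ q ∈ φ.source ∧ φ (Ψ q) = (f q.1, g q.2)) :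
    ∀ᶠ q in 𝓝 p, AnalyticAt ℂ f q.1 ∧ AnalyticAt ℂ g q.2 ∧
      ∀ᶠ y in 𝓝 q, Ψ y ∈ φ.source ∧ φ (Ψ y) = (f y.1, g y.2) := by
  haveI := FiniteDimensional.complete ℂ A
  haveI := FiniteDimensional.complete ℂ B
  have h1 : ∀ᶠ q : ℂ × ℂ in 𝓝 p, AnalyticAt ℂ f q.1 :=
    continuousAt_fst.eventually hf.eventually_analyticAt
  have h2 : ∀ᶠ q : ℂ × ℂ in 𝓝 p, AnalyticAt ℂ g q.2 :=
    continuousAt_snd.eventually hg.eventually_analyticAt
  filter_upwards [h1, h2, he.eventually_nhds] with q k1 k2 k3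
  exact ⟨k1, k2, k3⟩

section pt

variable {Ψ : ℂ × ℂ → X} {q : ℂ × ℂ} {φ : OpenPartialHomeomorph X (A × B)}
    {f : ℂ → A} {g : ℂ → B}

omit [FiniteDimensional ℂ A] [FiniteDimensional ℂ B] in
lemma isDisc_fst (hφ : φ ∈ 𝒬) (hf : AnalyticAt ℂ f q.1) (hg : AnalyticAt ℂ g q.2)
    (he : ∀ᶠ y in 𝓝 q, Ψ y ∈ φ.source ∧ φ (Ψ y) = (f y.1, g y.2)) :
    IsDisc 𝒬 (fun z => Ψ (z, q.2)) q.1 :=
  IsF.isDisc (a := fun z => z) (b := fun _ => q.2) ⟨φ, hφ, f, g, hf, hg, he⟩ analyticAt_id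
    analyticAt_const

omit [FiniteDimensional ℂ A] [FiniteDimensional ℂ B] in
lemma isDisc_snd (hφ : φ ∈ 𝒬) (hf : AnalyticAt ℂ f q.1) (hg : AnalyticAt ℂ g q.2)
    (he : ∀ᶠ y in 𝓝 q, Ψ y ∈ φ.source ∧ φ (Ψ y) = (f y.1, g y.2)) :
    IsDisc 𝒬 (fun w => Ψ (q.1, w)) q.2 :=
  IsF.isDisc (a := fun _ => q.1) (b := fun w => w) ⟨φ, hφ, f, g, hf, hg, he⟩ analyticAt_const
    analyticAt_id

omit [FiniteDimensional ℂ A] [FiniteDimensional ℂ B] in
lemma deriv_comp_ab (he : ∀ᶠ y in 𝓝 q, Ψ y ∈ φ.source ∧ φ (Ψ y) = (f y.1, g y.2))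
    {a b : ℂ → ℂ} {t a' b' : ℂ} (ha : HasDerivAt a a' t) (hb : HasDerivAt b b' t)
    (hq : (a t, b t) = q) (hf : AnalyticAt ℂ f q.1) (hg : AnalyticAt ℂ g q.2) :
    deriv (fun s => φ (Ψ (a s, b s))) t = (a' • deriv f q.1, b' • deriv g q.2) := by
  subst hq
  have hc : Tendsto (fun s => (a s, b s)) (𝓝 t) (𝓝 (a t, b t)) :=
    ha.continuousAt.prodMk hb.continuousAt
  have h1 : (fun s => φ (Ψ (a s, b s))) =ᶠ[𝓝 t] fun s => (f (a s), g (b s)) :=
    (hc.eventually he).mono fun s hs => hs.2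
  rw [h1.deriv_eq]
  have h2 : HasDerivAt (fun s => f (a s)) (a' • deriv f (a t)) t :=
    HasDerivAt.scomp t hf.differentiableAt.hasDerivAt ha
  have h3 : HasDerivAt (fun s => g (b s)) (b' • deriv g (b t)) t :=
    HasDerivAt.scomp t hg.differentiableAt.hasDerivAt hb
  exact (h2.prodMk h3).deriv

lemma fA_eq (hQ : KAtlas 𝒬 H) (hφ : φ ∈ 𝒬) (hf : AnalyticAt ℂ f q.1) (hg : AnalyticAt ℂ g q.2)
    (he : ∀ᶠ y in 𝓝 q, Ψ y ∈ φ.source ∧ φ (Ψ y) = (f y.1, g y.2)) :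
    fA 𝒬 H Ψ q = (H φ (f q.1, g q.2) (deriv f q.1, 0) (deriv f q.1, 0)).re := by
  have h1 := he.self_of_nhds
  have h2 := eden_eq hQ (isDisc_fst hφ hf hg he) hφ h1.1
  have h3 := deriv_comp_ab he (hasDerivAt_id q.1) (hasDerivAt_const q.1 q.2) rfl hf hg
  simp only [one_smul, zero_smul, id] at h3
  rw [fA, h2, h3]
  rw [show φ (Ψ (q.1, q.2)) = (f q.1, g q.2) from h1.2]

lemma fD_eq (hQ : KAtlas 𝒬 H) (hφ : φ ∈ 𝒬) (hf : AnalyticAt ℂ f q.1) (hg : AnalyticAt ℂ g q.2)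
    (he : ∀ᶠ y in 𝓝 q, Ψ y ∈ φ.source ∧ φ (Ψ y) = (f y.1, g y.2)) :
    fD 𝒬 H Ψ q = (H φ (f q.1, g q.2) (0, deriv g q.2) (0, deriv g q.2)).re := by
  have h1 := he.self_of_nhds
  have h2 := eden_eq hQ (isDisc_snd hφ hf hg he) hφ h1.1
  have h3 := deriv_comp_ab he (hasDerivAt_const q.2 q.1) (hasDerivAt_id q.2) rfl hf hg
  simp only [one_smul, zero_smul, id] at h3
  rw [fD, h2, h3]
  rw [show φ (Ψ (q.1, q.2)) = (f q.1, g q.2) from h1.2]

lemma fB_eq (hQ : KAtlas 𝒬 H) (hφ : φ ∈ 𝒬) (hf : AnalyticAt ℂ f q.1) (hg : AnalyticAt ℂ g q.2)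
    (he : ∀ᶠ y in 𝓝 q, Ψ y ∈ φ.source ∧ φ (Ψ y) = (f y.1, g y.2)) :
    fB 𝒬 H Ψ q = H φ (f q.1, g q.2) (deriv f q.1, 0) (0, deriv g q.2) := by
  have h1 := he.self_of_nhds
  have hex : ∃ φ ∈ 𝒬, Ψ q ∈ φ.source := ⟨φ, hφ, h1.1⟩
  rw [fB, dif_pos hex]
  obtain ⟨k1, k2⟩ := hex.choose_spec
  have d1 := deriv_chart hQ (isDisc_fst hφ hf hg he) hφ k1 h1.1 k2
  have d2 := deriv_chart hQ (isDisc_snd hφ hf hg he) hφ k1 h1.1 k2
  have h3 := deriv_comp_ab he (hasDerivAt_id q.1) (hasDerivAt_const q.1 q.2) rfl hf hg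
  have h4 := deriv_comp_ab he (hasDerivAt_const q.2 q.1) (hasDerivAt_id q.2) rfl hf hg
  simp only [one_smul, zero_smul, id] at h3 h4
  simp only [Prod.mk.eta] at d1 d2
  rw [d1, d2, h3, h4, ← h1.2]
  exact (hQ.compat φ hφ _ k1 _ h1.1 k2 _ _).symm

/-- The energy density of `t ↦ Ψ(a t, b t)` where `a' = b' = 1`. -/
lemma eden_diag (hQ : KAtlas 𝒬 H) {Ψ : ℂ × ℂ → X} {z s : ℂ} (h : IsF 𝒬 Ψ (z, z - s)) :
    eden 𝒬 H (fun y => Ψ (y, y - s)) z =
      eDiag (fA 𝒬 H Ψ) (fD 𝒬 H Ψ) (fB 𝒬 H Ψ) (z, z - s) := by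
  have hd : IsDisc 𝒬 (fun y => Ψ (y, y - s)) z :=
    IsF.isDisc (a := fun y => y) (b := fun y => y - s) h analyticAt_id
      (analyticAt_id.sub analyticAt_const)
  obtain ⟨φ, hφ, f, g, hf, hg, he⟩ := h
  have h1 := he.self_of_nhds
  have h3 := deriv_comp_ab he (hasDerivAt_id z) ((hasDerivAt_id z).sub_const s) rfl hf hg
  simp only [id, one_smul] at h3
  rw [eden_eq hQ hd hφ h1.1, h3, eDiag, fA_eq hQ hφ hf hg he, fB_eq hQ hφ hf hg he,
    fD_eq hQ hφ hf hg he, h1.2]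
  have e1 : ((deriv f z, deriv g (z - s)) : A × B) = (deriv f z, 0) + (0, deriv g (z - s)) := by
    simp
  have hK := hQ.kahler φ hφ
  have hmem : ((f z, g (z - s)) : A × B) ∈ φ.target := by
    rw [← h1.2]; exact φ.map_source h1.1
  have hsym := hK.symm _ hmem (deriv f z, 0) (0, deriv g (z - s))
  simp only at hsym ⊢
  rw [e1]
  simp only [map_add, LinearMap.add_apply, add_re]
  rw [← hsym, Complex.conj_re]
  ring

end pt

section flatK

variable {Ψ : ℂ × ℂ → X} {p : ℂ × ℂ} {φ : OpenPartialHomeomorph X (A × B)}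
    {f : ℂ → A} {g : ℂ → B}

/-- The local expressions of `fA`, `fB`, `fD`. -/
lemma local_eq (hQ : KAtlas 𝒬 H) (hφ : φ ∈ 𝒬) (hf : AnalyticAt ℂ f p.1) (hg : AnalyticAt ℂ g p.2)
    (he : ∀ᶠ y in 𝓝 p, Ψ y ∈ φ.source ∧ φ (Ψ y) = (f y.1, g y.2)) :
    (fA 𝒬 H Ψ =ᶠ[𝓝 p] fun q => (H φ (f q.1, g q.2) (deriv f q.1, 0) (deriv f q.1, 0)).re) ∧
    (fD 𝒬 H Ψ =ᶠ[𝓝 p] fun q => (H φ (f q.1, g q.2) (0, deriv g q.2) (0, deriv g q.2)).re) ∧
    (fB 𝒬 H Ψ =ᶠ[𝓝 p] fun q => H φ (f q.1, g q.2) (deriv f q.1, 0) (0, deriv g q.2)) := by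
  have h := IsF.chart_nhds hf hg he
  refine ⟨?_, ?_, ?_⟩
  · filter_upwards [h] with q hq
    exact fA_eq hQ hφ hq.1 hq.2.1 hq.2.2
  · filter_upwards [h] with q hq
    exact fD_eq hQ hφ hq.1 hq.2.1 hq.2.2
  · filter_upwards [h] with q hq
    exact fB_eq hQ hφ hq.1 hq.2.1 hq.2.2

/-- The values of a Hermitian form on the diagonal are real. -/
lemma ofReal_form_self (hQ : KAtlas 𝒬 H) (hφ : φ ∈ 𝒬) {x : A × B} (hx : x ∈ φ.target)
    (v : A × B) : (((H φ x v v).re : ℝ) : ℂ) = H φ x v v :=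
  Complex.conj_eq_iff_re.1 ((hQ.kahler φ hφ).symm x hx v v)

/-- Cauchy-Schwarz. -/
lemma form_cs (hQ : KAtlas 𝒬 H) (hφ : φ ∈ 𝒬) {x : A × B} (hx : x ∈ φ.target)
    (u v : A × B) : normSq (H φ x u v) ≤ (H φ x u u).re * (H φ x v v).re := by
  have hK := hQ.kahler φ hφ
  have hnn : ∀ w, 0 ≤ (H φ x w w).re := by
    intro w
    rcases eq_or_ne w 0 with rfl | hw
    · simp
    · exact (hK.pos x hx w hw).le
  rcases eq_or_ne v 0 with rfl | hv
  · simp
  have hvv := hK.pos x hx v hv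
  set β := H φ x u v with hβ
  have hβ' : H φ x v u = conj β := (hK.symm x hx u v).symm
  have e1 := ofReal_form_self hQ hφ hx u
  have e2 := ofReal_form_self hQ hφ hx v
  -- evaluate on w = (H v v) u - (H v u) v
  have h1 := hnn (((H φ x v v).re : ℂ) • u - (conj β) • v)
  have h2 : H φ x (((H φ x v v).re : ℂ) • u - (conj β) • v)
      (((H φ x v v).re : ℂ) • u - (conj β) • v) =
      (((H φ x v v).re * ((H φ x u u).re * (H φ x v v).re - normSq β) : ℝ) : ℂ) := by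
    simp only [map_sub, LinearMap.sub_apply, LinearMap.map_smulₛₗ, LinearMap.smul_apply,
      smul_eq_mul, RingHom.id_apply, Complex.conj_ofReal, Complex.conj_conj]
    rw [hβ', ← hβ]
    have h3 : (normSq β : ℂ) = β * conj β := (Complex.mul_conj β).symm
    push_cast
    rw [h3, e2, e1]
    ring
  rw [h2, Complex.ofReal_re] at h1
  nlinarith only [h1, hvv]

/-- **The pulled back metric of an F-map.** -/
theorem FOn.flatK_aux (hQ : KAtlas 𝒬 H) {Ω : Set (ℂ × ℂ)} (hΩ : IsOpen Ω) (hΨ : FOn 𝒬 Ψ Ω)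
    {K : ℝ} (hKa : ∀ p ∈ Ω, fA 𝒬 H Ψ p ≤ K ^ 2 * eDiag (fA 𝒬 H Ψ) (fD 𝒬 H Ψ) (fB 𝒬 H Ψ) p)
    (hKd : ∀ p ∈ Ω, fD 𝒬 H Ψ p ≤ K ^ 2 * eDiag (fA 𝒬 H Ψ) (fD 𝒬 H Ψ) (fB 𝒬 H Ψ) p) :
    FlatK Ω K (fA 𝒬 H Ψ) (fD 𝒬 H Ψ) (fB 𝒬 H Ψ) := by
  haveI := FiniteDimensional.complete ℂ A
  haveI := FiniteDimensional.complete ℂ B
  have key : ∀ p ∈ Ω, ContDiffAt ℝ 1 (fA 𝒬 H Ψ) p ∧ ContDiffAt ℝ 1 (fD 𝒬 H Ψ) p ∧
      ContDiffAt ℝ 1 (fB 𝒬 H Ψ) p ∧
      wd (fun q => (fA 𝒬 H Ψ q : ℂ)) (0, 1) p = wd (fB 𝒬 H Ψ) (1, 0) p ∧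
      wd (fun q => (fD 𝒬 H Ψ q : ℂ)) (1, 0) p = wd (fun q => conj (fB 𝒬 H Ψ q)) (0, 1) p ∧
      normSq (fB 𝒬 H Ψ p) ≤ fA 𝒬 H Ψ p * fD 𝒬 H Ψ p := by
    intro p hp
    obtain ⟨φ, hφ, f, g, hf, hg, he⟩ := hΨ p hp
    obtain ⟨ea, ed, eb⟩ := local_eq hQ hφ hf hg he
    have hS := hQ.kahler φ hφ
    have hmem' : ∀ᶠ q in 𝓝 p, ((f q.1, g q.2) : A × B) ∈ φ.target := by
      filter_upwards [he] with q hq
      rw [← hq.2]; exact φ.map_source hq.1
    have hmem : ((f p.1, g p.2) : A × B) ∈ φ.target := hmem'.self_of_nhds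
    set τ : ℂ × ℂ → A × B := fun q => (f q.1, g q.2) with hτdef
    set U : ℂ × ℂ → A × B := fun q => (deriv f q.1, 0) with hUdef
    set V : ℂ × ℂ → A × B := fun q => (0, deriv g q.2) with hVdef
    have hT : AnalyticAt ℂ τ p := (hf.comp' analyticAt_fst).prod (hg.comp' analyticAt_snd)
    have hU : AnalyticAt ℂ U p :=
      (AnalyticAt.comp' (g := deriv f) hf.deriv analyticAt_fst).prod analyticAt_const
    have hV : AnalyticAt ℂ V p :=
      analyticAt_const.prod (AnalyticAt.comp' (g := deriv g) hg.deriv analyticAt_snd)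
    have cT : ContDiffAt ℝ 1 τ p := hT.contDiffAt.restrict_scalars ℝ
    have cU : ContDiffAt ℝ 1 U p := hU.contDiffAt.restrict_scalars ℝ
    have cV : ContDiffAt ℝ 1 V p := hV.contDiffAt.restrict_scalars ℝ
    have cUU := contDiffAt_form (u := U) (v := U) hS hmem cT cU cU
    have cVV := contDiffAt_form (u := V) (v := V) hS hmem cT cV cV
    have cUV := contDiffAt_form (u := U) (v := V) hS hmem cT cU cV
    have ca : ContDiffAt ℝ 1 (fA 𝒬 H Ψ) p :=
      (Complex.reCLM.contDiff.contDiffAt.comp p cUU).congr_of_eventuallyEq ea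
    have cd : ContDiffAt ℝ 1 (fD 𝒬 H Ψ) p :=
      (Complex.reCLM.contDiff.contDiffAt.comp p cVV).congr_of_eventuallyEq ed
    have cb : ContDiffAt ℝ 1 (fB 𝒬 H Ψ) p := cUV.congr_of_eventuallyEq eb
    have hB : ∀ u v, DifferentiableAt ℝ (fun r => H φ (τ r) u v) p := fun u v =>
      DifferentiableAt.comp (g := fun x => H φ x u v) p
        ((hS.contDiffAt hmem u v).differentiableAt (by simp))
        (cT.differentiableAt (by norm_num))
    have dS : ∀ u v, DifferentiableAt ℝ (fun x => H φ x u v) (τ p) := fun u v =>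
      (hS.contDiffAt hmem u v).differentiableAt (by simp)
    -- the derivatives of `τ`, `U`, `V`
    have fdf : HasFDerivAt (fun q : ℂ × ℂ => f q.1)
        ((ContinuousLinearMap.toSpanSingleton ℂ (deriv f p.1)).comp
          (ContinuousLinearMap.fst ℂ ℂ ℂ)) p :=
      HasFDerivAt.comp p (hf.differentiableAt.hasDerivAt.hasFDerivAt) hasFDerivAt_fst
    have fdg : HasFDerivAt (fun q : ℂ × ℂ => g q.2)
        ((ContinuousLinearMap.toSpanSingleton ℂ (deriv g p.2)).comp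
          (ContinuousLinearMap.snd ℂ ℂ ℂ)) p :=
      HasFDerivAt.comp p (hg.differentiableAt.hasDerivAt.hasFDerivAt) hasFDerivAt_snd
    have fdf' : HasFDerivAt (fun q : ℂ × ℂ => deriv f q.1)
        ((ContinuousLinearMap.toSpanSingleton ℂ (deriv (deriv f) p.1)).comp
          (ContinuousLinearMap.fst ℂ ℂ ℂ)) p :=
      HasFDerivAt.comp p (hf.deriv.differentiableAt.hasDerivAt.hasFDerivAt) hasFDerivAt_fst
    have fdg' : HasFDerivAt (fun q : ℂ × ℂ => deriv g q.2)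
        ((ContinuousLinearMap.toSpanSingleton ℂ (deriv (deriv g) p.2)).comp
          (ContinuousLinearMap.snd ℂ ℂ ℂ)) p :=
      HasFDerivAt.comp p (hg.deriv.differentiableAt.hasDerivAt.hasFDerivAt) hasFDerivAt_snd
    have dT := (fdf.prodMk fdg).fderiv
    have dU := (fdf'.prodMk (hasFDerivAt_const (0 : B) p)).fderiv
    have dV := ((hasFDerivAt_const (0 : A) p).prodMk fdg').fderiv
    have dT1 : fderiv ℂ τ p (1, 0) = U p := by
      rw [hτdef, dT]; simp only [ContinuousLinearMap.prod_apply, ContinuousLinearMap.comp_apply, ContinuousLinearMap.coe_fst', ContinuousLinearMap.toSpanSingleton_apply, one_smul, ContinuousLinearMap.coe_snd', zero_smul, hUdef]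
    have dT2 : fderiv ℂ τ p (0, 1) = V p := by
      rw [hτdef, dT]; simp only [ContinuousLinearMap.prod_apply, ContinuousLinearMap.comp_apply, ContinuousLinearMap.coe_fst', ContinuousLinearMap.toSpanSingleton_apply, zero_smul, ContinuousLinearMap.coe_snd', one_smul, hVdef]
    have dU2 : fderiv ℂ U p (0, 1) = 0 := by
      rw [hUdef, dU]; simp
    have dV1 : fderiv ℂ V p (1, 0) = 0 := by
      rw [hVdef, dV]; simp only [ContinuousLinearMap.prod_apply, zero_apply, ContinuousLinearMap.comp_apply, ContinuousLinearMap.coe_snd', ContinuousLinearMap.toSpanSingleton_apply, zero_smul, Prod.mk_eq_zero, and_self]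
    have main : ∀ (a c : ℂ × ℂ → A × B) (x : ℂ × ℂ), DifferentiableAt ℂ a p →
        DifferentiableAt ℂ c p → fderiv ℂ c p x = 0 →
        wd (fun r => H φ (τ r) (a r) (c r)) x p =
          wd (fun y => H φ y (a p) (c p)) (fderiv ℂ τ p x) (τ p) := by
      intro a c x ha hc h0
      rw [wd_form (B := fun r => H φ (τ r)) hB ha hc x, h0, map_zero, add_zero]
      exact wd_comp_holo (f := fun y => H φ y (a p) (c p)) hT.differentiableAt (dS _ _) x
    refine ⟨ca, cd, cb, ?_, ?_, ?_⟩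
    · have e1 : (fun q => (fA 𝒬 H Ψ q : ℂ)) =ᶠ[𝓝 p] fun r => H φ (τ r) (U r) (U r) := by
        filter_upwards [ea, hmem'] with q hq hq'
        rw [hq]; exact ofReal_form_self hQ hφ hq' _
      rw [wd_congr e1, wd_congr eb, main U U _ hU.differentiableAt hU.differentiableAt dU2,
        main U V _ hU.differentiableAt hV.differentiableAt dV1, dT1, dT2]
      exact hS.kahler _ hmem _ _ _
    · have e1 : (fun q => (fD 𝒬 H Ψ q : ℂ)) =ᶠ[𝓝 p] fun r => H φ (τ r) (V r) (V r) := by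
        filter_upwards [ed, hmem'] with q hq hq'
        rw [hq]; exact ofReal_form_self hQ hφ hq' _
      have e2 : (fun q => conj (fB 𝒬 H Ψ q)) =ᶠ[𝓝 p] fun r => H φ (τ r) (V r) (U r) := by
        filter_upwards [eb, hmem'] with q hq hq'
        rw [hq]; exact hS.symm _ hq' _ _
      rw [wd_congr e1, wd_congr e2, main V V _ hV.differentiableAt hV.differentiableAt dV1,
        main V U _ hV.differentiableAt hU.differentiableAt dU2, dT1, dT2]
      exact hS.kahler _ hmem _ _ _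
    · rw [ea.self_of_nhds, ed.self_of_nhds, eb.self_of_nhds]
      exact form_cs hQ hφ hmem _ _
  exact
  { isOpen := hΩ
    a_diff := fun p hp => (key p hp).1.contDiffWithinAt
    d_diff := fun p hp => (key p hp).2.1.contDiffWithinAt
    b_diff := fun p hp => (key p hp).2.2.1.contDiffWithinAt
    closed_a := fun p hp => (key p hp).2.2.2.1
    closed_d := fun p hp => (key p hp).2.2.2.2.1
    a_nonneg := fun p hp => eden_nonneg hQ
    d_nonneg := fun p hp => eden_nonneg hQ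
    cs := fun p hp => (key p hp).2.2.2.2.2
    proj_a := hKa
    proj_d := hKd }

/-- `eDiag` in an F-chart. -/
lemma eDiag_eq (hQ : KAtlas 𝒬 H) (hφ : φ ∈ 𝒬) (hf : AnalyticAt ℂ f p.1) (hg : AnalyticAt ℂ g p.2)
    (he : ∀ᶠ y in 𝓝 p, Ψ y ∈ φ.source ∧ φ (Ψ y) = (f y.1, g y.2)) :
    eDiag (fA 𝒬 H Ψ) (fD 𝒬 H Ψ) (fB 𝒬 H Ψ) p =
      (H φ (f p.1, g p.2) (deriv f p.1, deriv g p.2) (deriv f p.1, deriv g p.2)).re := by
  have h1 := he.self_of_nhds
  rw [eDiag, fA_eq hQ hφ hf hg he, fB_eq hQ hφ hf hg he, fD_eq hQ hφ hf hg he]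
  have e1 : ((deriv f p.1, deriv g p.2) : A × B) = (deriv f p.1, 0) + (0, deriv g p.2) := by
    simp
  have hK := hQ.kahler φ hφ
  have hmem : ((f p.1, g p.2) : A × B) ∈ φ.target := by
    rw [← h1.2]; exact φ.map_source h1.1
  have hsym := hK.symm _ hmem (deriv f p.1, 0) (0, deriv g p.2)
  rw [e1]
  simp only [map_add, LinearMap.add_apply, Complex.add_re]
  rw [← hsym, Complex.conj_re]
  ring

/-- The constant `K`. -/
theorem exists_proj_bound [CompactSpace X] (hQ : KAtlas 𝒬 H) : ∃ K : ℝ, 1 ≤ K ∧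
    ∀ (Ψ : ℂ × ℂ → X) (q : ℂ × ℂ), IsF 𝒬 Ψ q →
      fA 𝒬 H Ψ q ≤ K ^ 2 * eDiag (fA 𝒬 H Ψ) (fD 𝒬 H Ψ) (fB 𝒬 H Ψ) q ∧
      fD 𝒬 H Ψ q ≤ K ^ 2 * eDiag (fA 𝒬 H Ψ) (fD 𝒬 H Ψ) (fB 𝒬 H Ψ) q := by
  haveI := FiniteDimensional.complete ℂ A
  haveI := FiniteDimensional.complete ℂ B
  obtain ⟨δ, hδ, c, hc, C, hC, hbox⟩ := exists_uniform_box hQ
  have hCc : 0 < C / c := div_pos hC hc
  refine ⟨1 + C / c, by linarith, fun Ψ q hq => ?_⟩
  obtain ⟨φ, hφ, hs, -, hb⟩ := hbox (Ψ q)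
  obtain ⟨f, g, hf, hg, he⟩ := hq.chart hQ hφ hs
  rw [eDiag_eq hQ hφ hf hg he, fA_eq hQ hφ hf hg he, fD_eq hQ hφ hf hg he]
  have hx : ((f q.1, g q.2) : A × B) ∈ closedBall (φ (Ψ q)) δ := by
    rw [he.self_of_nhds.2]; exact mem_closedBall_self hδ.le
  have h0 := (hb _ hx (deriv f q.1, deriv g q.2)).1
  have h1 := (hb _ hx (deriv f q.1, 0)).2
  have h2 := (hb _ hx (0, deriv g q.2)).2
  have n0 : 0 ≤ ‖((deriv f q.1, deriv g q.2) : A × B)‖ := norm_nonneg _
  have n1 : ‖((deriv f q.1, 0) : A × B)‖ ≤ ‖((deriv f q.1, deriv g q.2) : A × B)‖ := by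
    simp only [Prod.norm_def, norm_zero, norm_nonneg, sup_of_le_left, le_sup_left]
  have n2 : ‖((0, deriv g q.2) : A × B)‖ ≤ ‖((deriv f q.1, deriv g q.2) : A × B)‖ := by
    simp only [Prod.norm_def, norm_zero, norm_nonneg, sup_of_le_right, le_sup_right]
  set N := ‖((deriv f q.1, deriv g q.2) : A × B)‖ with hN
  set e := (H φ (f q.1, g q.2) (deriv f q.1, deriv g q.2) (deriv f q.1, deriv g q.2)).re with he'
  have h3 : C * N ^ 2 ≤ (C / c) * e := by
    rw [div_mul_eq_mul_div, le_div_iff₀ hc]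
    linarith only [mul_nonneg (le_of_lt (sub_pos.2 hC)) (sub_nonneg.2 h0)]
  have he0 : 0 ≤ e := le_trans (by (clear * - hc; positivity)) h0
  have h4 : (C / c) * e ≤ (1 + C / c) ^ 2 * e := by
    apply mul_le_mul_of_nonneg_right _ he0
    nlinarith only []
  have h5 : C * ‖((deriv f q.1, 0) : A × B)‖ ^ 2 ≤ C * N ^ 2 :=
    mul_le_mul_of_nonneg_left (pow_le_pow_left₀ (norm_nonneg _) n1 2) hC.le
  have h6 : C * ‖((0, deriv g q.2) : A × B)‖ ^ 2 ≤ C * N ^ 2 :=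
    mul_le_mul_of_nonneg_left (pow_le_pow_left₀ (norm_nonneg _) n2 2) hC.le
  exact ⟨by linarith only [h5, h4, h3, h1], by linarith only [h2, h3, h4, h6]⟩

/-- **The pulled back metric of an F-map** to a compact manifold. -/
theorem exists_flatK [CompactSpace X] (hQ : KAtlas 𝒬 H) : ∃ K : ℝ, 1 ≤ K ∧
    ∀ (Ψ : ℂ × ℂ → X) (Ω : Set (ℂ × ℂ)), IsOpen Ω → FOn 𝒬 Ψ Ω →
      FlatK Ω K (fA 𝒬 H Ψ) (fD 𝒬 H Ψ) (fB 𝒬 H Ψ) := by
  obtain ⟨K, hK, h⟩ := exists_proj_bound hQ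
  exact ⟨K, hK, fun Ψ Ω hΩ hΨ => FOn.flatK_aux hQ hΩ hΨ (fun p hp => (h Ψ p (hΨ p hp)).1)
    (fun p hp => (h Ψ p (hΨ p hp)).2)⟩

end flatK

end Vale.Agent.P278.Full
end
end

section

section

/-! Lemma P (finite propagation) and the energy bound of Lemma T, for F-maps. -/

open Set Topology Filter Metric MeasureTheory Complex
open scoped ContDiff ComplexConjugate ENNReal

set_option linter.all false

namespace Vale.Agent.P278.Full

variable {X : Type*} [TopologicalSpace X] {A B : Type*} [NormedAddCommGroup A] [NormedSpace ℂ A]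
  [NormedAddCommGroup B] [NormedSpace ℂ B] {𝒬 : Set (OpenPartialHomeomorph X (A × B))}
  {H : OpenPartialHomeomorph X (A × B) → A × B → (A × B) →ₗ⋆[ℂ] (A × B) →ₗ[ℂ] ℂ}
  [FiniteDimensional ℂ A] [FiniteDimensional ℂ B]

/-- The energy as a real integral. -/
lemma energy_eq_ofReal (hQ : KAtlas 𝒬 H) {u : ℂ → X} {S : Set ℂ} {e : ℂ → ℝ} (hS : IsCompact S)
    (he : ContinuousOn e S) (h : ∀ z ∈ S, eden 𝒬 H u z = e z) :
    energy 𝒬 H u S = ENNReal.ofReal (∫ z in S, e z) := by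
  have h1 : IntegrableOn e S := he.integrableOn_compact hS
  have h2 : 0 ≤ᵐ[volume.restrict S] e := by
    filter_upwards [ae_restrict_mem hS.measurableSet] with z hz
    rw [← h z hz]; exact eden_nonneg hQ
  rw [ofReal_integral_eq_lintegral_ofReal h1 h2, energy]
  apply lintegral_congr_ae
  filter_upwards [ae_restrict_mem hS.measurableSet] with z hz
  rw [h z hz]

/-- **Lemma P** for F-maps on the touching ball: a uniform energy bound. -/
theorem exists_diag_energy_bound [CompactSpace X] (hQ : KAtlas 𝒬 H) {Ψ : ℂ × ℂ → X}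
    (hΨ : FOn 𝒬 Ψ touchBall) :
    ∃ s₁ > 0, ∃ A₀ : ℝ≥0∞, A₀ ≠ ⊤ ∧ ∀ s : ℝ, 0 < s → s < s₁ →
      energy 𝒬 H (fun z => Ψ (z, z - s)) (ball 0 (√s / 2)) ≤ A₀ := by
  obtain ⟨K, hK, hfl⟩ := exists_flatK (X := X) hQ
  have hto : IsOpen touchBall := isOpen_lt (by (clear * -; fun_prop)) (by fun_prop)
  have h := hfl Ψ touchBall hto hΨ
  have hK0 : 0 < K := by linarith
  set s₁ : ℝ := 1 / (64 * K ^ 2) with hs₁
  have hs₁0 : 0 < s₁ := by positivity
  have hsq₁ : √s₁ = 1 / (8 * K) := by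
    rw [hs₁, show (1 : ℝ) / (64 * K ^ 2) = (1 / (8 * K)) ^ 2 by field_simp; norm_num]
    exact Real.sqrt_sq (by positivity)
  have hs₁16 : s₁ ≤ 1 / 16 := by
    rw [hs₁]
    apply one_div_le_one_div_of_le (by norm_num)
    nlinarith only [hK]
  set e : ℂ × ℂ → ℝ := eDiag (fA 𝒬 H Ψ) (fD 𝒬 H Ψ) (fB 𝒬 H Ψ) with he
  have hec : ContinuousOn e touchBall := by
    exact (h.a_diff.continuousOn.add (ContinuousOn.mul (f := fun _ => (2 : ℝ)) continuousOn_const
      (Complex.continuous_re.comp_continuousOn h.b_diff.continuousOn))).add h.d_diff.continuousOn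
  have hen : ∀ (s ρ : ℝ), (∀ z ∈ closedBall (0 : ℂ) ρ, ((z, z - s) : ℂ × ℂ) ∈ touchBall) →
      energy 𝒬 H (fun z => Ψ (z, z - s)) (closedBall 0 ρ) =
        ENNReal.ofReal (∫ z in closedBall (0 : ℂ) ρ, e (z, z - s)) := by
    intro s ρ hz
    apply energy_eq_ofReal hQ (isCompact_closedBall _ _)
    · exact hec.comp (by fun_prop) hz
    · intro z hz'
      exact eden_diag hQ (hΨ _ (hz z hz'))
  refine ⟨s₁, hs₁0, energy 𝒬 H (fun z => Ψ (z, z - s₁)) (closedBall 0 (3 / 4 * √s₁)), ?_, ?_⟩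
  · rw [hen]
    · exact ENNReal.ofReal_ne_top
    · intro z hz
      rw [mem_closedBall_zero_iff] at hz
      exact diag_mem_ball hs₁0 hs₁16 hz
  · intro s hs hss
    have hsq : 0 < √s := Real.sqrt_pos.2 hs
    -- the cone
    have hcone : ∀ σ ∈ Icc s s₁, √s / 2 + 2 * (√s / 16) + K * (σ - s) ≤ 3 / 4 * √σ := by
      intro σ hσ
      have hσ0 : 0 < σ := lt_of_lt_of_le hs hσ.1
      have h1 : √s ≤ √σ := Real.sqrt_le_sqrt hσ.1
      have h2 : √σ ≤ 1 / (8 * K) := hsq₁ ▸ Real.sqrt_le_sqrt hσ.2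
      have h3 : √σ * √σ = σ := Real.mul_self_sqrt hσ0.le
      have h4 : K * √σ ≤ 1 / 8 := by
        calc K * √σ ≤ K * (1 / (8 * K)) := mul_le_mul_of_nonneg_left h2 hK0.le
          _ = 1 / 8 := by field_simp
      have h5 : K * σ ≤ √σ / 8 := by
        calc K * σ = (K * √σ) * √σ := by rw [mul_assoc, h3]
          _ ≤ 1 / 8 * √σ := mul_le_mul_of_nonneg_right h4 (Real.sqrt_nonneg _)
          _ = √σ / 8 := by ring
      have h6 : 0 ≤ K * s := by (clear * - hK hs; positivity)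
      linarith only [h6, h5, h1]
    have h1 := h.energy_mono hK0.le (r := √s / 2) (δ := √s / 16) (by (clear * - hs; positivity)) hss.le (by
      intro σ hσ z hz
      have hσ0 : 0 < σ := lt_of_lt_of_le hs hσ.1
      exact diag_mem_ball hσ0 (hσ.2.trans hs₁16) (hz.trans (hcone σ hσ)))
    calc energy 𝒬 H (fun z => Ψ (z, z - s)) (ball 0 (√s / 2))
        ≤ energy 𝒬 H (fun z => Ψ (z, z - s)) (closedBall 0 (√s / 2)) :=
          lintegral_mono_set ball_subset_closedBall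
      _ = ENNReal.ofReal (∫ z in closedBall (0 : ℂ) (√s / 2), e (z, z - s)) := by
          apply hen
          intro z hz
          rw [mem_closedBall_zero_iff] at hz
          exact diag_mem_ball hs (hss.le.trans hs₁16) (hz.trans (by linarith only [hsq]))
      _ ≤ ENNReal.ofReal (∫ z in closedBall (0 : ℂ)
            (√s / 2 + 2 * (√s / 16) + K * (s₁ - s)), e (z, z - s₁)) :=
          ENNReal.ofReal_le_ofReal h1
      _ = energy 𝒬 H (fun z => Ψ (z, z - s₁)) (closedBall 0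
            (√s / 2 + 2 * (√s / 16) + K * (s₁ - s))) := by
          symm
          apply hen
          intro z hz
          rw [mem_closedBall_zero_iff] at hz
          exact diag_mem_ball hs₁0 hs₁16 (hz.trans (hcone s₁ ⟨hss.le, le_rfl⟩))
      _ ≤ _ := lintegral_mono_set (closedBall_subset_closedBall (hcone s₁ ⟨hss.le, le_rfl⟩))

/-- **The energy bound of Lemma T** for F-maps. -/
theorem exists_energy_bound [CompactSpace X] (hQ : KAtlas 𝒬 H) {Ψ : ℂ × ℂ → X} {z₀ w₀ τ : ℂ}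
    {R T : ℝ} (h1 : ∀ z ∈ closedBall z₀ R, ∀ t ∈ Ico 0 T, IsF 𝒬 Ψ (z, w₀ + t • τ))
    (h2 : ∀ z ∈ sphere z₀ R, IsF 𝒬 Ψ (z, w₀ + T • τ)) :
    ∃ A₀ : ℝ≥0∞, A₀ ≠ ⊤ ∧ ∀ t ∈ Ico 0 T,
      energy 𝒬 H (fun z => Ψ (z, w₀ + t • τ)) (closedBall z₀ R) ≤ A₀ := by
  haveI := FiniteDimensional.complete ℂ A
  haveI := FiniteDimensional.complete ℂ B
  obtain ⟨K, hK, hfl⟩ := exists_flatK (X := X) hQ
  set Ω : Set (ℂ × ℂ) := {p | IsF 𝒬 Ψ p} with hΩ
  have hΩo : IsOpen Ω := by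
    rw [isOpen_iff_mem_nhds]
    intro p hp
    exact IsF.eventually hp
  have h := hfl Ψ Ω hΩo fun p hp => hp
  obtain ⟨A₁, hA₁⟩ := h.exists_energy_bound h1 h2
  refine ⟨ENNReal.ofReal A₁, ENNReal.ofReal_ne_top, fun t ht => ?_⟩
  have h3 : energy 𝒬 H (fun z => Ψ (z, w₀ + t • τ)) (closedBall z₀ R) =
      ENNReal.ofReal (∫ z in closedBall z₀ R, fA 𝒬 H Ψ (z, w₀ + t • τ)) := by
    apply energy_eq_ofReal hQ (isCompact_closedBall _ _)
    · exact h.a_diff.continuousOn.comp (by fun_prop) fun z hz => h1 z hz t ht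
    · intro z hz
      rfl
  rw [h3]
  exact ENNReal.ofReal_le_ofReal (hA₁ t ht)

/-- The energy bound of Lemma T in the form used in `T_step`. -/
theorem exists_energy_bound_T [CompactSpace X] (hQ : KAtlas 𝒬 H) {Ψ : ℂ × ℂ → X} {z₀ : ℂ}
    {ρ T : ℝ} (h1 : ∀ z ∈ closedBall z₀ ρ, ∀ t ∈ Ico 0 T, IsF 𝒬 Ψ (z, (t : ℂ)))
    (h2 : ∀ z ∈ sphere z₀ ρ, IsF 𝒬 Ψ (z, (T : ℂ))) :
    ∃ A₀ : ℝ, ∀ t ∈ Ico 0 T,
      energy 𝒬 H (fun z => Ψ (z, (t : ℂ))) (closedBall z₀ ρ) ≤ ENNReal.ofReal A₀ := by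
  have e : ∀ t : ℝ, (0 : ℂ) + t • (1 : ℂ) = (t : ℂ) := fun t => by simp
  obtain ⟨A₀, hA, hb⟩ := exists_energy_bound (Ψ := Ψ) (z₀ := z₀) (w₀ := 0) (τ := 1) (R := ρ)
    (T := T) hQ (fun z hz t ht => by rw [e]; exact h1 z hz t ht)
    (fun z hz => by rw [e]; exact h2 z hz)
  refine ⟨A₀.toReal, fun t ht => ?_⟩
  have := hb t ht
  simp only [e] at this
  rwa [ENNReal.ofReal_toReal hA]

end Vale.Agent.P278.Full
end
end

section

section

open Topology Set Filter Complex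
open scoped ContDiff Manifold ComplexConjugate

set_option linter.unusedSectionVars false

namespace Vale.Agent.P278

universe u

section
variable {E : Type*} [NormedAddCommGroup E] [NormedSpace ℂ E]
  {X : Type*} [TopologicalSpace X] [ChartedSpace E X]
  {M : Type u} [TopologicalSpace M] [ChartedSpace E M]

/-- The comap of a supremum of subspaces under a bijective linear map. -/
lemma comap_iSup_of_bijective {V W : Type*} [AddCommGroup V] [Module ℂ V] [AddCommGroup W]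
    [Module ℂ W] (L : V →ₗ[ℂ] W) (hL : Function.Bijective L) {ι : Sort*} (S : ι → Submodule ℂ W) :
    (⨆ i, S i).comap L = ⨆ i, (S i).comap L := by
  apply Submodule.map_injective_of_injective hL.1
  rw [Submodule.map_comap_eq_of_surjective hL.2, Submodule.map_iSup]
  congr 1
  funext i
  rw [Submodule.map_comap_eq_of_surjective hL.2]

lemma bijective_mfderiv_of_isLocalDiffeomorph {π : M → X}
    (hπl : IsLocalDiffeomorph 𝓘(ℂ, E) 𝓘(ℂ, E) ω π) (x : M) :
    Function.Bijective (mfderiv 𝓘(ℂ, E) 𝓘(ℂ, E) π x) :=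
  ((hπl x).mfderivToContinuousLinearEquiv (by simp)).bijective

lemma pullDist_iSup {π : M → X} (hπl : IsLocalDiffeomorph 𝓘(ℂ, E) 𝓘(ℂ, E) ω π) {ι : Sort*}
    (F : ι → TangentDist E X) (x : M) :
    pullDist π (fun x => ⨆ i, F i x) x = ⨆ i, pullDist π (F i) x :=
  comap_iSup_of_bijective _ (bijective_mfderiv_of_isLocalDiffeomorph hπl x) _

end

section
variable {E : Type*} [NormedAddCommGroup E] [NormedSpace ℂ E] [FiniteDimensional ℂ E]
  {X : Type*} [TopologicalSpace X] [ChartedSpace E X] [IsManifold 𝓘(ℂ, E) ω X]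
  {M : Type u} [TopologicalSpace M] [ChartedSpace E M] [IsManifold 𝓘(ℂ, E) ω M]

lemma isCompl_of_isInternal {k : ℕ} {F : Fin k → TangentDist E X}
    (hc : ∀ x, DirectSum.IsInternal fun i => F i x) (i : Fin k) (x : X) :
    IsCompl (F i x) (⨆ j ≠ i, F j x) := by
  have h1 := (DirectSum.isInternal_submodule_iff_iSupIndep_and_iSup_eq_top _).mp (hc x)
  refine ⟨h1.1 i, ?_⟩
  rw [codisjoint_iff, ← h1.2]
  apply le_antisymm
  · exact sup_le (le_iSup (fun i => F i x) i) (iSup₂_le fun j _ => le_iSup (fun i => F i x) j)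
  · refine iSup_le fun j => ?_
    by_cases hj : j = i
    · subst hj; exact le_sup_left
    · exact le_sup_of_le_right (le_iSup₂_of_le j hj le_rfl)

lemma foliation_single {k : ℕ} {F : Fin k → TangentDist E X}
    (hi : ∀ I : Set (Fin k), Stmt.IsFoliation fun x => ⨆ i ∈ I, F i x) (i : Fin k) :
    Stmt.IsFoliation (F i) := by
  have h := hi {i}
  have e : (fun x => ⨆ j ∈ ({i} : Set (Fin k)), F j x) = F i := by
    funext x; simp only [mem_singleton_iff, iSup_iSup_eq_left]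
  rwa [e] at h

lemma foliation_compl {k : ℕ} {F : Fin k → TangentDist E X}
    (hi : ∀ I : Set (Fin k), Stmt.IsFoliation fun x => ⨆ i ∈ I, F i x) (i : Fin k) :
    Stmt.IsFoliation (fun x => ⨆ j ≠ i, F j x) := by
  have h := hi {i}ᶜ
  have e : (fun x => ⨆ j ∈ ({i}ᶜ : Set (Fin k)), F j x) = fun x => ⨆ j ≠ i, F j x := by
    funext x; simp only [mem_compl_iff, mem_singleton_iff, ne_eq]
  rwa [e] at h

end

end Vale.Agent.P278
end
end
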