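import Vale.Agent.P278.MathlibUsed

set_option linter.all false

namespace AFast0586ddx4a
@[reducible] def a0.{u1, u2} {x1 : Type u1} {x2 : Type u2} [x3 : NormedAddCommGroup x2] [x4 : NormedAddCommGroup x1] : TopologicalSpace (x1 × x2) := inferInstance
@[reducible] def a1.{u1} {x1 : Type u1} [x2 : NormedAddCommGroup x1] [x3 : NormedSpace ℂ x1] : Module ℂ C(↑unitInterval, x1) := inferInstance
@[reducible] def a2.{u1, u2} {x1 : Type u1} {x2 : Type u2} [x3 : NormedAddCommGroup x1] [x4 : NormedAddCommGroup x2] [x5 : NormedSpace ℂ x1] [x6 : NormedSpace ℂ x2] : Module ℂ (x1 × x2) := inferInstance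
@[reducible] def a3.{u1, u2} {x1 : Type u1} {x2 : Type u2} [x3 : TopologicalSpace x1] [x4 : NormedAddCommGroup x2] : AddCommMonoid C(x1, x2) := inferInstance
@[reducible] def a4.{u1, u2} {x1 : Type u1} {x2 : Type u2} [x3 : NormedAddCommGroup x1] [x4 : NormedAddCommGroup x2] [x5 : NormedSpace ℂ x1] [x6 : NormedSpace ℂ x2] : DistribMulAction ℂ (x1 × x2) := inferInstance
@[reducible] def a5.{u1} {x1 : Type u1} [x2 : NormedAddCommGroup x1] : AddCommMonoid C(↑unitInterval, x1) := inferInstance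
@[reducible] def a6.{u1} {x1 : Type u1} [x2 : NormedAddCommGroup x1] [x3 : NormedSpace ℂ x1] {x4 : Submodule ℂ x1} : DistribMulAction ℂ ↥x4 := inferInstance
@[reducible] def a7.{u1, u2} {x1 : Type u1} [x2 : NormedAddCommGroup x1] {x3 : Type u2} [x4 : NormedAddCommGroup x3] [x5 : NormedSpace ℂ x3] [x6 : NormedSpace ℂ x1] : Module ℂ (C(↑unitInterval, x1) × x3) := inferInstance
@[reducible] def a8.{u1, u2} {x1 : Type u1} {x2 : Type u2} [x3 : NormedAddCommGroup x2] [x4 : NormedAddCommGroup x1] : AddCommMonoid (x1 × x2) := inferInstance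
@[reducible] def a9.{u1, u2} {x1 : Type u1} {x2 : Type u2} [x3 : TopologicalSpace x1] [x4 : NormedAddCommGroup x2] [x5 : CompactSpace x1] [x6 : NormedSpace ℂ x2] : Module ℂ C(x1, x2) := inferInstance
@[reducible] def a10.{u1, u2} {x1 : Type u1} {x2 : Type u2} [x3 : NormedAddCommGroup x2] [x4 : NormedSpace ℂ x2] [x5 : NormedAddCommGroup x1] [x6 : NormedSpace ℂ x1] : SemigroupAction ℂ (x1 × x2) := inferInstance
@[reducible] noncomputable def a11.{u1, u2} {x1 : Type u1} [x2 : NormedAddCommGroup x1] {x3 : Type u2} [x4 : NormedAddCommGroup x3] [x5 : NormedSpace ℂ x1] [x6 : NormedSpace ℂ x3] : NormedSpace ℂ (x1 →L[ℂ] x3) := inferInstance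
@[reducible] def a12.{u1, u2} {x1 : Type u1} {x2 : Type u2} [x3 : NormedAddCommGroup x2] [x4 : NormedSpace ℂ x2] [x5 : NormedAddCommGroup x1] [x6 : NormedSpace ℂ x1] : MulAction ℂ (x1 × x2) := inferInstance
@[reducible] def a13.{u1, u2} {x1 : Type u1} {x2 : Type u2} [x3 : NormedAddCommGroup x2] [x4 : NormedAddCommGroup x1] : UniformSpace (x1 × x2) := inferInstance
@[reducible] def a14.{u1, u2} {x1 : Type u1} {x2 : Type u2} [x3 : TopologicalSpace x1] [x4 : NormedAddCommGroup x2] : Add C(x1, x2) := inferInstance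
@[reducible] def a15.{u1, u2} {x1 : Type u1} [x2 : NormedAddCommGroup x1] {x3 : Type u2} [x4 : NormedAddCommGroup x3] [x5 : NormedSpace ℂ x1] [x6 : NormedSpace ℂ x3] : AddCommGroup (x1 →L[ℂ] x3) := inferInstance
@[reducible] def a16.{u1, u2} {x1 : Type u1} [x2 : NormedAddCommGroup x1] {x3 : Type u2} [x4 : NormedAddCommGroup x3] : AddCommMonoid (C(↑unitInterval, x1) × x3) := inferInstance
@[reducible] def a17.{u1, u2} {x1 : Type u1} {x2 : x1 → Type u2} [x3 : (i : x1) → NormedAddCommGroup (x2 i)] : TopologicalSpace (ModelPi x2) := inferInstance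
@[reducible] def a18.{u1, u2} {x1 : Type u1} {x2 : Type u2} [x3 : TopologicalSpace x1] [x4 : NormedAddCommGroup x2] [x5 : NormedSpace ℂ x2] : Module ℂ C(x1, x2) := inferInstance
@[reducible] def a19.{u1, u2} {x1 : Type u1} {x2 : Type u2} [x3 : NormedAddCommGroup x2] [x4 : NormedAddCommGroup x1] : PseudoMetricSpace (x1 × x2) := inferInstance
@[reducible] def a20.{u1} {x1 : Type u1} [x2 : NormedAddCommGroup x1] : Add C(↑unitInterval, x1) := inferInstance
@[reducible] def a21.{u1, u2} {x1 : Type u1} {x2 : Type u2} [x3 : NormedAddCommGroup x2] [x4 : NormedAddCommGroup x1] : Add (x1 × x2) := inferInstance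
@[reducible] noncomputable def a22.{u1, u2} {x1 : Type u1} [x2 : NormedAddCommGroup x1] {x3 : Type u2} [x4 : NormedAddCommGroup x3] [x5 : NormedSpace ℂ x1] [x6 : NormedSpace ℂ x3] : TopologicalSpace (x1 →L[ℂ] x3) := inferInstance
theorem a23.{u1} {x1 : Type u1} [x2 : NormedAddCommGroup x1] [x3 : NormedSpace ℂ x1] {x4 : Submodule ℂ x1} : ContinuousSMul ℂ ↥x4 := inferInstance
@[reducible] def a24.{u1, u2} {x1 : Type u1} {x2 : Type u2} [x3 : NormedAddCommGroup x2] [x4 : NormedAddCommGroup x1] : SeminormedAddCommGroup (x1 × x2) := inferInstance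
@[reducible] def a25.{u1, u2} {x1 : Type u1} {x2 : Type u2} [x3 : NormedAddCommGroup x2] [x4 : NormedAddCommGroup x1] : Zero (x1 × x2) := inferInstance
@[reducible] noncomputable def a26.{u1, u2} {x1 : Type u1} {x2 : Type u2} [x3 : TopologicalSpace x1] [x4 : NormedAddCommGroup x2] [x5 : CompactSpace x1] [x6 : NormedSpace ℂ x2] : NormedSpace ℂ C(x1, x2) := inferInstance
@[reducible] noncomputable def a27.{u1, u2} {x1 : Type u1} [x2 : NormedAddCommGroup x1] [x3 : NormedSpace ℂ x1] {x4 : Type u2} [x5 : TopologicalSpace x4] [x6 : ChartedSpace x1 x4] {x7 : x4} : AddCommMonoid (TangentSpace (modelWithCornersSelf ℂ x1) x7) := inferInstance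
theorem a28.{u1} {x1 : Type u1} [x2 : NormedAddCommGroup x1] [x3 : NormedSpace ℂ x1] {x4 : Submodule ℂ x1} : SMulCommClass ℂ ℂ ↥x4 := inferInstance
@[reducible] def a29.{u1, u2, u3} {x1 : Type u1} {x2 : x1 → Type u2} {x3 : x1} {x4 : x1 → Type u3} [x5 : (i : x1) → NormedAddCommGroup (x4 i)] [x6 : (i : x1) → NormedAddCommGroup (x2 i)] : TopologicalSpace (ModelProd (x2 x3) (x4 x3)) := inferInstance
@[reducible] def a30.{u1, u2} {x1 : Type u1} [x2 : NormedAddCommGroup x1] {x3 : Type u2} [x4 : NormedAddCommGroup x3] [x5 : NormedSpace ℂ x1] [x6 : NormedSpace ℂ x3] : AddCommMonoid (x1 →L[ℂ] x3) := inferInstance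
@[reducible] noncomputable def a31.{u1, u2} {x1 : Type u1} {x2 : Type u2} [x3 : NormedAddCommGroup x1] [x4 : NormedAddCommGroup x2] [x5 : NormedSpace ℂ x1] [x6 : NormedSpace ℂ x2] : NormedSpace ℂ (x1 × x2) := inferInstance
@[reducible] def a32.{u1, u2} {x1 : Type u1} {x2 : Type u2} [x3 : NormedAddCommGroup x2] [x4 : NormedAddCommGroup x1] : AddCommGroup (x1 × x2) := inferInstance
@[reducible] noncomputable def a33.{u1, u2} {x1 : Type u1} {x2 : Type u2} [x3 : NormedAddCommGroup x1] [x4 : NormedAddCommGroup x2] [x5 : NormedSpace ℂ x1] [x6 : NormedSpace ℂ x2] : Module ℝ (x1 × x2) := inferInstance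
@[reducible] def a34 : Monoid ℂ := inferInstance
@[reducible] def a35.{u1} {x1 : Type u1} [x2 : NormedAddCommGroup x1] : AddCommMagma C(↑unitInterval, x1) := inferInstance
@[reducible] def a36.{u1} {x1 : Type u1} [x2 : NormedAddCommGroup x1] : AddCommSemigroup C(↑unitInterval, x1) := inferInstance
@[reducible] def a37.{u1, u2} {x1 : Type u1} {x2 : Type u2} [x3 : TopologicalSpace x1] [x4 : NormedAddCommGroup x2] : AddCommMagma C(x1, x2) := inferInstance
@[reducible] def a38.{u1, u2} {x1 : Type u1} {x2 : Type u2} [x3 : TopologicalSpace x1] [x4 : NormedAddCommGroup x2] : AddCommSemigroup C(x1, x2) := inferInstance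
@[reducible] noncomputable def a39.{u1, u2} {x1 : Type u1} {x2 : Type u2} [x3 : NormedAddCommGroup x1] [x4 : NormedAddCommGroup x2] [x5 : NormedSpace ℂ x1] [x6 : NormedSpace ℂ x2] : TopologicalSpace (x1 × x2 →L[ℂ] x2) := inferInstance
@[reducible] noncomputable def a40.{u1, u2} {x1 : Type u1} [x2 : NormedAddCommGroup x1] {x3 : Type u2} [x4 : NormedAddCommGroup x3] [x5 : NormedSpace ℂ x1] [x6 : NormedSpace ℂ x3] : UniformSpace (x1 →L[ℂ] x3) := inferInstance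
@[reducible] noncomputable def a41.{u1, u2, u3, u4, u5, u6, u7} {x1 : Type u1} {x2 : x1 → Type u2} {x3 : x1} [x4 : (i : x1) → NormedAddCommGroup (x2 i)] [x5 : (i : x1) → NormedSpace ℂ (x2 i)] {x6 : x1 → Type u3} [x7 : (i : x1) → TopologicalSpace (x6 i)] [x8 : (i : x1) → ChartedSpace (x2 i) (x6 i)] {x9 : x1 → Type u4} {x10 : Type u5} [x11 : NormedAddCommGroup x10] [x12 : NormedSpace ℂ x10] {x13 : x1 → Type u6} [x14 : (i : x1) → NormedAddCommGroup (x13 i)] [x15 : (i : x1) → NormedSpace ℂ (x13 i)] {x16 : Type u7} [x17 : TopologicalSpace x16] [x18 : ChartedSpace x10 x16] [x19 : (i : x1) → TopologicalSpace (x9 i)] [x20 : (i : x1) → ChartedSpace (x13 i) (x9 i)] {x21 : (i : x1) → Diffeomorph (modelWithCornersSelf ℂ x10) ((modelWithCornersSelf ℂ (x2 i)).prod (modelWithCornersSelf ℂ (x13 i))) x16 (x6 i × x9 i) ⊤} {x22 : x16} : Zero (TangentSpace (modelWithCornersSelf ℂ (x2 x3)) ((x21 x3) x22).1) := inferInstance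
@[reducible] noncomputable def a42.{u1, u2, u3, u4, u5, u6, u7} {x1 : Type u1} {x2 : x1 → Type u2} {x3 : x1} [x4 : (i : x1) → NormedAddCommGroup (x2 i)] [x5 : (i : x1) → NormedSpace ℂ (x2 i)] {x6 : x1 → Type u3} [x7 : (i : x1) → TopologicalSpace (x6 i)] [x8 : (i : x1) → ChartedSpace (x2 i) (x6 i)] {x9 : x1 → Type u4} {x10 : Type u5} [x11 : NormedAddCommGroup x10] [x12 : NormedSpace ℂ x10] {x13 : x1 → Type u6} [x14 : (i : x1) → NormedAddCommGroup (x13 i)] [x15 : (i : x1) → NormedSpace ℂ (x13 i)] {x16 : Type u7} [x17 : TopologicalSpace x16] [x18 : ChartedSpace x10 x16] [x19 : (i : x1) → TopologicalSpace (x9 i)] [x20 : (i : x1) → ChartedSpace (x13 i) (x9 i)] {x21 : (i : x1) → Diffeomorph (modelWithCornersSelf ℂ x10) ((modelWithCornersSelf ℂ (x13 i)).prod (modelWithCornersSelf ℂ (x2 i))) x16 (x9 i × x6 i) ⊤} {x22 : x16} : Zero (TangentSpace (modelWithCornersSelf ℂ (x2 x3)) ((x21 x3) x22).2) := inferInstance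
end AFast0586ddx4a
attribute [local instance] AFast0586ddx4a.a0 AFast0586ddx4a.a1 AFast0586ddx4a.a2 AFast0586ddx4a.a3
  AFast0586ddx4a.a4 AFast0586ddx4a.a5 AFast0586ddx4a.a6 AFast0586ddx4a.a7 AFast0586ddx4a.a8
  AFast0586ddx4a.a9 AFast0586ddx4a.a10 AFast0586ddx4a.a11 AFast0586ddx4a.a12 AFast0586ddx4a.a13
  AFast0586ddx4a.a14 AFast0586ddx4a.a15 AFast0586ddx4a.a16 AFast0586ddx4a.a17 AFast0586ddx4a.a18
  AFast0586ddx4a.a19 AFast0586ddx4a.a20 AFast0586ddx4a.a21 AFast0586ddx4a.a22 AFast0586ddx4a.a23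
  AFast0586ddx4a.a24 AFast0586ddx4a.a25 AFast0586ddx4a.a26 AFast0586ddx4a.a27 AFast0586ddx4a.a28
  AFast0586ddx4a.a29 AFast0586ddx4a.a30 AFast0586ddx4a.a31 AFast0586ddx4a.a32 AFast0586ddx4a.a33
  AFast0586ddx4a.a34 AFast0586ddx4a.a35 AFast0586ddx4a.a36 AFast0586ddx4a.a37 AFast0586ddx4a.a38
  AFast0586ddx4a.a39 AFast0586ddx4a.a40 AFast0586ddx4a.a41 AFast0586ddx4a.a42
namespace AFast0586ddx4b
theorem a0.{u1} {x1 : Type u1} [x2 : NormedAddCommGroup x1] [x3 : NormedSpace ℂ x1] {x4 : Submodule ℂ x1} : ContinuousAdd ↥x4 := inferInstance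
theorem a1.{u1, u2} {x1 : Type u1} [x2 : NormedAddCommGroup x1] {x3 : Type u2} [x4 : NormedAddCommGroup x3] [x5 : NormedSpace ℂ x1] [x6 : NormedSpace ℂ x3] : ContinuousSMul ℝ (x1 →L[ℂ] x3) := inferInstance
@[reducible] def a2.{u1, u2} {x1 : Type u1} {x2 : Type u2} [x3 : NormedAddCommGroup x2] [x4 : NormedSpace ℂ x2] [x5 : NormedAddCommGroup x1] [x6 : NormedSpace ℂ x1] : SMul ℂ (x1 × x2) := inferInstance
theorem a3.{u1, u2} {x1 : Type u1} [x2 : NormedAddCommGroup x1] {x3 : Type u2} [x4 : NormedAddCommGroup x3] [x5 : NormedSpace ℂ x1] [x6 : NormedSpace ℂ x3] : IsBoundedSMul ℝ (x1 →L[ℂ] x3) := inferInstance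
@[reducible] def a4.{u1, u2} {x1 : Type u1} [x2 : NormedAddCommGroup x1] {x3 : Type u2} [x4 : NormedAddCommGroup x3] [x5 : NormedSpace ℂ x1] [x6 : NormedSpace ℂ x3] : Module ℂ (x1 →L[ℂ] x3) := inferInstance
@[reducible] noncomputable def a5.{u1, u2} {x1 : Type u1} [x2 : NormedAddCommGroup x1] {x3 : Type u2} [x4 : NormedAddCommGroup x3] [x5 : NormedSpace ℂ x1] [x6 : NormedSpace ℂ x3] : SMulZeroClass ℝ (x1 →L[ℂ] x3) := inferInstance
@[reducible] noncomputable def a6.{u1, u2} {x1 : Type u1} [x2 : NormedAddCommGroup x1] {x3 : Type u2} [x4 : NormedAddCommGroup x3] [x5 : NormedSpace ℂ x1] [x6 : NormedSpace ℂ x3] : DistribSMul ℝ (x1 →L[ℂ] x3) := inferInstance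
@[reducible] noncomputable def a7.{u1, u2} {x1 : Type u1} {x2 : Type u2} [x3 : NormedAddCommGroup x1] [x4 : NormedAddCommGroup x2] [x5 : NormedSpace ℂ x1] [x6 : NormedSpace ℂ x2] : Module ℂ C(↑unitInterval, (x1 × x2) × x1) := inferInstance
@[reducible] def a8.{u1} {x1 : Type u1} [x2 : NormedAddCommGroup x1] [x3 : NormedSpace ℂ x1] {x4 : Submodule ℂ x1} : SMulZeroClass ℂ ↥x4 := inferInstance
@[reducible] def a9.{u1, u2} {x1 : Type u1} {x2 : Type u2} [x3 : NormedAddCommGroup x1] [x4 : NormedAddCommGroup x2] : AddCommMonoid C(↑unitInterval, (x1 × x2) × x1) := inferInstance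
theorem a10.{u1, u2} {x1 : Type u1} {x2 : Type u2} [x3 : NormedAddCommGroup x1] [x4 : NormedSpace ℂ x1] [x5 : NormedAddCommGroup x2] [x6 : NormedSpace ℂ x2] : ContinuousSMul ℂ (x1 × x2) := inferInstance
theorem a11.{u1, u2} {x1 : Type u1} {x2 : Type u2} [x3 : NormedAddCommGroup x1] [x4 : NormedAddCommGroup x2] : ContinuousAdd (x1 × x2) := inferInstance
theorem a12.{u1} {x1 : Type u1} [x2 : NormedAddCommGroup x1] [x3 : NormedSpace ℂ x1] {x4 : Submodule ℂ x1} : ContinuousConstSMul ℂ ↥x4 := inferInstance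
@[reducible] def a13.{u1} {x1 : Type u1} [x2 : NormedAddCommGroup x1] [x3 : NormedSpace ℂ x1] {x4 : Submodule ℂ x1} : DistribSMul ℂ ↥x4 := inferInstance
@[reducible] noncomputable def a14.{u1, u2} {x1 : Type u1} {x2 : Type u2} [x3 : NormedAddCommGroup x1] [x4 : NormedAddCommGroup x2] [x5 : NormedSpace ℂ x1] [x6 : NormedSpace ℂ x2] : SMulZeroClass ℂ C(↑unitInterval, (x1 × x2) × x1) := inferInstance
theorem a15.{u1} {x1 : Type u1} [x2 : NormedAddCommGroup x1] [x3 : NormedSpace ℂ x1] {x4 : Submodule ℂ x1} : UniformContinuousConstSMul ℂ ↥x4 := inferInstance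
@[reducible] noncomputable def a16.{u1, u2} {x1 : Type u1} {x2 : Type u2} [x3 : NormedAddCommGroup x1] [x4 : NormedAddCommGroup x2] [x5 : NormedSpace ℂ x1] [x6 : NormedSpace ℂ x2] : DistribSMul ℂ C(↑unitInterval, (x1 × x2) × x1) := inferInstance
theorem a17.{u1} {x1 : Type u1} [x2 : NormedAddCommGroup x1] [x3 : NormedSpace ℂ x1] {x4 : Submodule ℂ x1} : IsBoundedSMul ℂ ↥x4 := inferInstance
@[reducible] def a18.{u1, u2} {x1 : Type u1} [x2 : NormedAddCommGroup x1] {x3 : Type u2} [x4 : NormedAddCommGroup x3] [x5 : NormedSpace ℂ x1] [x6 : NormedSpace ℂ x3] : DistribMulAction ℂ (x1 →L[ℂ] x3) := inferInstance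
theorem a19.{u1, u2} {x1 : Type u1} {x2 : Type u2} [x3 : NormedAddCommGroup x1] [x4 : NormedAddCommGroup x2] [x5 : NormedSpace ℂ x1] [x6 : NormedSpace ℂ x2] : ContinuousConstSMul ℂ (x1 × x2) := inferInstance
@[reducible] noncomputable def a20.{u1, u2} {x1 : Type u1} [x2 : NormedAddCommGroup x1] {x3 : Type u2} [x4 : NormedAddCommGroup x3] [x5 : NormedSpace ℂ x1] [x6 : NormedSpace ℂ x3] : DistribMulAction ℝ (x1 →L[ℂ] x3) := inferInstance
@[reducible] def a21.{u1, u2} {x1 : Type u1} [x2 : NormedAddCommGroup x1] {x3 : Type u2} [x4 : NormedAddCommGroup x3] [x5 : NormedSpace ℂ x1] [x6 : NormedSpace ℂ x3] : MulAction ℂ (x1 →L[ℂ] x3) := inferInstance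
@[reducible] def a22.{u1, u2} {x1 : Type u1} {x2 : Type u2} [x3 : NormedAddCommGroup x1] [x4 : NormedAddCommGroup x2] [x5 : NormedSpace ℂ x1] [x6 : NormedSpace ℂ x2] : Module ℂ (x1 × x2 →L[ℂ] x2) := inferInstance
@[reducible] noncomputable def a23.{u1, u2} {x1 : Type u1} [x2 : NormedAddCommGroup x1] {x3 : Type u2} [x4 : NormedAddCommGroup x3] [x5 : NormedSpace ℂ x3] [x6 : NormedSpace ℂ x1] : SMulZeroClass ℂ (C(↑unitInterval, x1) × x3) := inferInstance
@[reducible] def a24.{u1, u2} {x1 : Type u1} [x2 : NormedAddCommGroup x1] {x3 : Type u2} [x4 : NormedAddCommGroup x3] [x5 : NormedSpace ℂ x3] [x6 : NormedSpace ℂ x1] : DistribSMul ℂ (C(↑unitInterval, x1) × x3) := inferInstance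
theorem a25.{u1, u2} {x1 : Type u1} [x2 : NormedAddCommGroup x1] {x3 : Type u2} [x4 : NormedAddCommGroup x3] [x5 : NormedSpace ℂ x1] [x6 : NormedSpace ℂ x3] [x7 : CompleteSpace x3] : CompleteSpace (x1 →L[ℂ] x3) := inferInstance
@[reducible] noncomputable def a26.{u1, u2} {x1 : Type u1} [x2 : NormedAddCommGroup x1] {x3 : Type u2} [x4 : NormedAddCommGroup x3] [x5 : NormedSpace ℂ x1] [x6 : NormedSpace ℂ x3] : NormedSpace ℝ (x1 →L[ℂ] x3) := inferInstance
@[reducible] def a27.{u1, u2} {x1 : Type u1} [x2 : NormedAddCommGroup x1] {x3 : Type u2} [x4 : NormedAddCommGroup x3] [x5 : NormedSpace ℂ x1] [x6 : NormedSpace ℂ x3] : SMulZeroClass ℂ (x1 →L[ℂ] x3) := inferInstance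
@[reducible] def a28.{u1, u2} {x1 : Type u1} [x2 : NormedAddCommGroup x1] {x3 : Type u2} [x4 : NormedAddCommGroup x3] [x5 : NormedSpace ℂ x1] [x6 : NormedSpace ℂ x3] : DistribSMul ℂ (x1 →L[ℂ] x3) := inferInstance
theorem a29.{u1, u2} {x1 : Type u1} {x2 : Type u2} [x3 : NormedAddCommGroup x1] [x4 : NormedAddCommGroup x2] [x5 : NormedSpace ℂ x1] [x6 : NormedSpace ℂ x2] : ContinuousConstSMul ℂ ((x1 × x2) × x1) := inferInstance
@[reducible] noncomputable def a30.{u1, u2} {x1 : Type u1} {x2 : Type u2} [x3 : NormedAddCommGroup x1] [x4 : NormedAddCommGroup x2] [x5 : NormedSpace ℂ x1] [x6 : NormedSpace ℂ x2] : DistribMulAction ℂ C(↑unitInterval, (x1 × x2) × x1) := inferInstance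
@[reducible] def a31.{u1, u2} {x1 : Type u1} [x2 : NormedAddCommGroup x1] {x3 : Type u2} [x4 : NormedAddCommGroup x3] [x5 : NormedSpace ℂ x3] [x6 : NormedSpace ℂ x1] : SMul ℂ (C(↑unitInterval, x1) × x3) := inferInstance
theorem a32.{u1, u2, u3, u4, u5, u6, u7} {x1 : Type u1} [x2 : NormedAddCommGroup x1] [x3 : NormedSpace ℂ x1] {x4 : Type u2} [x5 : TopologicalSpace x4] [x6 : ChartedSpace x1 x4] {x7 : x4} {x8 : Type u3} {x9 : x8 → Type u4} {x10 : x8} [x11 : (i : x8) → NormedAddCommGroup (x9 i)] [x12 : (i : x8) → NormedSpace ℂ (x9 i)] {x13 : x8 → Type u5} [x14 : (i : x8) → TopologicalSpace (x13 i)] [x15 : (i : x8) → ChartedSpace (x9 i) (x13 i)] {x16 : x8 → Type u6} {x17 : x8 → Type u7} [x18 : (i : x8) → NormedAddCommGroup (x17 i)] [x19 : (i : x8) → NormedSpace ℂ (x17 i)] [x20 : (i : x8) → TopologicalSpace (x16 i)] [x21 : (i : x8) → ChartedSpace (x17 i) (x16 i)] {x22 : (i : x8) → Diffeomorph (modelWithCornersSelf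 ℂ x1) ((modelWithCornersSelf ℂ (x9 i)).prod (modelWithCornersSelf ℂ (x17 i))) x4 (x13 i × x16 i) ⊤} : AddMonoidHomClass (TangentSpace (modelWithCornersSelf ℂ x1) x7 →L[ℂ] TangentSpace (modelWithCornersSelf ℂ (x9 x10)) ((x22 x10) x7).1) (TangentSpace (modelWithCornersSelf ℂ x1) x7) (TangentSpace (modelWithCornersSelf ℂ (x9 x10)) ((x22 x10) x7).1) := inferInstance
@[reducible] def a33.{u1} {x1 : Type u1} [x2 : NormedAddCommGroup x1] [x3 : NormedSpace ℂ x1] {x4 : Submodule ℂ x1} : Module ℂ (x1 →L[ℂ] ↥x4) := inferInstance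
@[reducible] noncomputable def a34.{u1} {x1 : Type u1} [x2 : NormedAddCommGroup x1] [x3 : NormedSpace ℂ x1] {x4 : Submodule ℂ x1} : AddCommMonoid (x1 →L[ℂ] ↥x4) := inferInstance
@[reducible] noncomputable def a35.{u1} {x1 : Type u1} [x2 : NormedAddCommGroup x1] [x3 : NormedSpace ℂ x1] {x4 : Submodule ℂ x1} : NormedSpace ℂ ↥x4 := inferInstance
theorem a36.{u1, u2, u3, u4, u5, u6, u7} {x1 : Type u1} [x2 : NormedAddCommGroup x1] [x3 : NormedSpace ℂ x1] {x4 : Type u2} [x5 : TopologicalSpace x4] [x6 : ChartedSpace x1 x4] {x7 : x4} {x8 : Type u3} {x9 : x8 → Type u4} {x10 : x8} [x11 : (i : x8) → NormedAddCommGroup (x9 i)] [x12 : (i : x8) → NormedSpace ℂ (x9 i)] {x13 : x8 → Type u5} [x14 : (i : x8) → TopologicalSpace (x13 i)] [x15 : (i : x8) → ChartedSpace (x9 i) (x13 i)] {x16 : x8 → Type u6} {x17 : x8 → Type u7} [x18 : (i : x8) → NormedAddCommGroup (x17 i)] [x19 : (i : x8) → NormedSpace ℂ (x17 i)] [x20 : (i : x8)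 → TopologicalSpace (x16 i)] [x21 : (i : x8) → ChartedSpace (x17 i) (x16 i)] {x22 : (i : x8) → Diffeomorph (modelWithCornersSelf ℂ x1) ((modelWithCornersSelf ℂ (x9 i)).prod (modelWithCornersSelf ℂ (x17 i))) x4 (x13 i × x16 i) ⊤} : DistribMulActionSemiHomClass (TangentSpace (modelWithCornersSelf ℂ x1) x7 →L[ℂ] TangentSpace (modelWithCornersSelf ℂ (x9 x10)) ((x22 x10) x7).1) (⇑(RingHom.id ℂ)) (TangentSpace (modelWithCornersSelf ℂ x1) x7) (TangentSpace (modelWithCornersSelf ℂ (x9 x10)) ((x22 x10) x7).1) := inferInstance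
theorem a37.{u1, u2} {x1 : Type u1} {x2 : Type u2} [x3 : NormedAddCommGroup x1] [x4 : NormedAddCommGroup x2] : ContinuousAdd ((x1 × x2) × x1) := inferInstance
@[reducible] def a38.{u1} {x1 : Type u1} [x2 : NormedAddCommGroup x1] [x3 : NormedSpace ℂ x1] : SMulZeroClass ℂ C(↑unitInterval, x1) := inferInstance
theorem a39.{u1, u2} {x1 : Type u1} {x2 : Type u2} [x3 : NormedAddCommGroup x1] [x4 : NormedSpace ℂ x1] [x5 : NormedAddCommGroup x2] [x6 : NormedSpace ℂ x2] : ContinuousSMul ℝ (x1 × x2) := inferInstance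
theorem a40.{u1, u2} {x1 : Type u1} {x2 : Type u2} [x3 : NormedAddCommGroup x1] [x4 : NormedAddCommGroup x2] [x5 : NormedSpace ℂ x1] [x6 : NormedSpace ℂ x2] : IsScalarTower ℝ ℂ (x1 × x2) := inferInstance
@[reducible] noncomputable def a41.{u1, u2} {x1 : Type u1} {x2 : Type u2} [x3 : NormedAddCommGroup x2] [x4 : NormedSpace ℂ x2] [x5 : NormedAddCommGroup x1] [x6 : NormedSpace ℂ x1] : SMul ℝ (x1 × x2) := inferInstance
@[reducible] def a42.{u1, u2} {x1 : Type u1} [x2 : NormedAddCommGroup x1] {x3 : Type u2} [x4 : NormedAddCommGroup x3] [x5 : NormedSpace ℂ x1] [x6 : NormedSpace ℂ x3] : SMul ℂ (x1 →L[ℂ] x3) := inferInstance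
theorem a43.{u1, u2} {x1 : Type u1} {x2 : Type u2} [x3 : NormedAddCommGroup x1] [x4 : NormedSpace ℂ x1] [x5 : NormedAddCommGroup x2] [x6 : NormedSpace ℂ x2] : IsScalarTower ℂ ℂ (x1 × x2) := inferInstance
@[reducible] noncomputable def a44.{u1, u2} {x1 : Type u1} {x2 : Type u2} [x3 : NormedAddCommGroup x1] [x4 : NormedAddCommGroup x2] [x5 : NormedSpace ℂ x1] [x6 : NormedSpace ℂ x2] : SMulZeroClass ℝ (x1 × x2) := inferInstance
@[reducible] def a45.{u1} {x1 : Type u1} [x2 : NormedAddCommGroup x1] [x3 : NormedSpace ℂ x1] : DistribSMul ℂ C(↑unitInterval, x1) := inferInstance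
@[reducible] noncomputable def a46.{u1, u2} {x1 : Type u1} {x2 : Type u2} [x3 : NormedAddCommGroup x1] [x4 : NormedAddCommGroup x2] [x5 : NormedSpace ℂ x1] [x6 : NormedSpace ℂ x2] : DistribSMul ℝ (x1 × x2) := inferInstance
@[reducible] def a47.{u1, u2} {x1 : Type u1} {x2 : Type u2} [x3 : NormedAddCommGroup x1] [x4 : NormedAddCommGroup x2] [x5 : NormedSpace ℂ x1] [x6 : NormedSpace ℂ x2] : SMulZeroClass ℂ (x1 × x2) := inferInstance
@[reducible] def a48.{u1, u2} {x1 : Type u1} {x2 : Type u2} [x3 : NormedAddCommGroup x1] [x4 : NormedAddCommGroup x2] [x5 : NormedSpace ℂ x1] [x6 : NormedSpace ℂ x2] : DistribSMul ℂ (x1 × x2) := inferInstance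
theorem a49.{u1, u2} {x1 : Type u1} [x2 : NormedAddCommGroup x1] {x3 : Type u2} [x4 : NormedAddCommGroup x3] [x5 : NormedSpace ℂ x1] [x6 : NormedSpace ℂ x3] : IsScalarTower ℝ ℂ (x1 →L[ℂ] x3) := inferInstance
theorem a50.{u1, u2} {x1 : Type u1} {x2 : Type u2} [x3 : NormedAddCommGroup x1] [x4 : NormedAddCommGroup x2] [x5 : NormedSpace ℂ x1] [x6 : NormedSpace ℂ x2] : SemilinearMapClass (x1 × x2 →L[ℂ] x2) (RingHom.id ℂ) (x1 × x2) x2 := inferInstance
@[reducible] noncomputable def a51.{u1} {x1 : ℕ} {x2 : Type u1} [x3 : NormedAddCommGroup x2] [x4 : NormedSpace ℂ x2] : Module ℂ ((Fin x1 → ℂ) →L[ℂ] x2) := inferInstance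
@[reducible] noncomputable def a52.{u1, u2} {x1 : Type u1} [x2 : NormedAddCommGroup x1] {x3 : Type u2} [x4 : NormedAddCommGroup x3] [x5 : NormedSpace ℂ x3] [x6 : NormedSpace ℂ x1] : DistribMulAction ℂ (C(↑unitInterval, x1) × x3) := inferInstance
@[reducible] noncomputable def a53.{u1, u2} {x1 : Type u1} {x2 : Type u2} [x3 : NormedAddCommGroup x1] [x4 : NormedAddCommGroup x2] [x5 : NormedSpace ℂ x1] [x6 : NormedSpace ℂ x2] : NormedSpace ℂ C(↑unitInterval, (x1 × x2) × x1) := inferInstance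
@[reducible] def a54.{u1, u2} {x1 : Type u1} {x2 : Type u2} [x3 : NormedAddCommGroup x1] [x4 : NormedAddCommGroup x2] : AddZeroClass C(↑unitInterval, (x1 × x2) × x1) := inferInstance
@[reducible] noncomputable def a55.{u1, u2} {x1 : Type u1} {x2 : Type u2} [x3 : NormedAddCommGroup x1] [x4 : NormedAddCommGroup x2] [x5 : NormedSpace ℂ x1] [x6 : NormedSpace ℂ x2] : SeminormedAddCommGroup (x1 × x2 →L[ℂ] x1 →L[ℂ] x2) := inferInstance
@[reducible] def a56.{u1, u2} {x1 : Type u1} {x2 : Type u2} [x3 : NormedAddCommGroup x1] [x4 : NormedAddCommGroup x2] : AddMonoid C(↑unitInterval, (x1 × x2) × x1) := inferInstance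
end AFast0586ddx4b
attribute [local instance] AFast0586ddx4b.a0 AFast0586ddx4b.a1 AFast0586ddx4b.a2 AFast0586ddx4b.a3
  AFast0586ddx4b.a4 AFast0586ddx4b.a5 AFast0586ddx4b.a6 AFast0586ddx4b.a7 AFast0586ddx4b.a8
  AFast0586ddx4b.a9 AFast0586ddx4b.a10 AFast0586ddx4b.a11 AFast0586ddx4b.a12 AFast0586ddx4b.a13
  AFast0586ddx4b.a14 AFast0586ddx4b.a15 AFast0586ddx4b.a16 AFast0586ddx4b.a17 AFast0586ddx4b.a18
  AFast0586ddx4b.a19 AFast0586ddx4b.a20 AFast0586ddx4b.a21 AFast0586ddx4b.a22 AFast0586ddx4b.a23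
  AFast0586ddx4b.a24 AFast0586ddx4b.a25 AFast0586ddx4b.a26 AFast0586ddx4b.a27 AFast0586ddx4b.a28
  AFast0586ddx4b.a29 AFast0586ddx4b.a30 AFast0586ddx4b.a31 AFast0586ddx4b.a32 AFast0586ddx4b.a33
  AFast0586ddx4b.a34 AFast0586ddx4b.a35 AFast0586ddx4b.a36 AFast0586ddx4b.a37 AFast0586ddx4b.a38
  AFast0586ddx4b.a39 AFast0586ddx4b.a40 AFast0586ddx4b.a41 AFast0586ddx4b.a42 AFast0586ddx4b.a43
  AFast0586ddx4b.a44 AFast0586ddx4b.a45 AFast0586ddx4b.a46 AFast0586ddx4b.a47 AFast0586ddx4b.a48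
  AFast0586ddx4b.a49 AFast0586ddx4b.a50 AFast0586ddx4b.a51 AFast0586ddx4b.a52 AFast0586ddx4b.a53
  AFast0586ddx4b.a54 AFast0586ddx4b.a55 AFast0586ddx4b.a56
section

section

open Topology Set Filter Complex
open scoped ContDiff Matrix ComplexConjugate

namespace Vale.Agent.P278

variable {V : Type*} [NormedAddCommGroup V] [NormedSpace ℂ V]
variable {ι : Type*} [Fintype ι] [DecidableEq ι]

end Vale.Agent.P278
end
end

section

section

open Topology Set Filter MeasureTheory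
open scoped ContDiff

namespace Vale.Agent.P278

end Vale.Agent.P278
end
end

section

section

open Topology Set Filter MeasureTheory
open scoped ContDiff Manifold

namespace Vale.Agent.P278

end Vale.Agent.P278
end
end

section

section

open Topology Set Filter MeasureTheory
open scoped ContDiff

namespace Vale.Agent.P278

section flat
variable {V : Type*} [NormedAddCommGroup V] [NormedSpace ℝ V]

end flat

end Vale.Agent.P278
end
end

section

section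

open Set Topology Filter Metric
open scoped ContDiff unitInterval ENNReal

set_option linter.unusedSectionVars false

namespace Vale.Agent.P278

section nemytskii
variable {K E G : Type*} [TopologicalSpace K] [CompactSpace K] [NormedAddCommGroup E]
  [NormedSpace ℂ E] [NormedAddCommGroup G] [NormedSpace ℂ G]

/-- Pointwise application of a continuous multilinear map to continuous functions. -/
noncomputable def pointwiseMulti {n : ℕ} (q : E [×n]→L[ℂ] G) : C(K, E) [×n]→L[ℂ] C(K, G) :=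
  MultilinearMap.mkContinuous
    { toFun := fun u => ⟨fun t => q fun i => u i t, by fun_prop⟩
      map_update_add' := by
        intro _ m i x y
        ext t
        have h : ∀ z : C(K, E), (fun j => Function.update m i z j t) =
            Function.update (fun j => m j t) i (z t) := by
          intro z
          ext j
          by_cases hj : j = i
          · subst hj; simp
          · simp [Function.update_of_ne hj]
        simp only [ContinuousMap.coe_mk, ContinuousMap.add_apply, h]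
        exact q.map_update_add _ _ _ _
      map_update_smul' := by
        intro _ m i c x
        ext t
        have h : ∀ z : C(K, E), (fun j => Function.update m i z j t) =
            Function.update (fun j => m j t) i (z t) := by
          intro z
          ext j
          by_cases hj : j = i
          · subst hj; simp
          · simp [Function.update_of_ne hj]
        simp only [ContinuousMap.coe_mk, ContinuousMap.smul_apply, h]
        exact q.map_update_smul _ _ _ _ } ‖q‖ (by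
      intro u
      rw [ContinuousMap.norm_le _ (by positivity)]
      intro t
      refine (q.le_opNorm _).trans ?_
      gcongr with i
      exact (u i).norm_coe_le_norm t)

theorem norm_pointwiseMulti_apply_le {n : ℕ} (q : E [×n]→L[ℂ] G) (u : Fin n → C(K, E)) :
    ‖pointwiseMulti q u‖ ≤ ‖q‖ * ∏ i, ‖u i‖ := by
  rw [ContinuousMap.norm_le _ (by positivity)]
  intro t
  refine (q.le_opNorm _).trans ?_
  gcongr with i
  exact (u i).norm_coe_le_norm t

theorem norm_pointwiseMulti_le {n : ℕ} (q : E [×n]→L[ℂ] G) :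
    ‖(pointwiseMulti q : C(K, E) [×n]→L[ℂ] C(K, G))‖ ≤ ‖q‖ :=
  MultilinearMap.mkContinuous_norm_le _ (norm_nonneg _) _

open Classical in
/-- The superposition operator. -/
noncomputable def nemytskii (F : E → G) (u : C(K, E)) : C(K, G) :=
  if h : Continuous (fun t => F (u t)) then ⟨fun t => F (u t), h⟩ else 0

theorem nemytskii_apply {F : E → G} {u : C(K, E)} (h : ∀ t, ContinuousAt F (u t)) (t : K) :
    nemytskii F u t = F (u t) := by
  have hc : Continuous (fun t => F (u t)) :=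
    continuous_iff_continuousAt.2 fun t => (h t).comp u.continuous.continuousAt
  unfold nemytskii
  rw [dif_pos hc]
  rfl

theorem hasFPowerSeriesOnBall_nemytskii [CompleteSpace G] {F : E → G}
    {p : FormalMultilinearSeries ℂ E G} {r : ℝ≥0∞} (hF : HasFPowerSeriesOnBall F p 0 r) :
    HasFPowerSeriesOnBall (nemytskii F : C(K, E) → C(K, G)) (fun n => pointwiseMulti (p n)) 0 r
    where
  r_le := hF.r_le.trans (FormalMultilinearSeries.radius_le_of_le fun n =>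
    norm_pointwiseMulti_le (p n))
  r_pos := hF.r_pos
  hasSum := by
    intro u hu
    have hut : ∀ t, u t ∈ Metric.eball (0 : E) r := by
      intro t
      rw [mem_eball_zero_iff] at hu ⊢
      refine lt_of_le_of_lt ?_ hu
      exact ENNReal.coe_le_coe.2 (u.norm_coe_le_norm t)
    have hu' : u ∈ Metric.eball (0 : C(K, E)) p.radius := Metric.eball_subset_eball hF.r_le hu
    have hsum : Summable fun n : ℕ => pointwiseMulti (K := K) (p n) fun _ : Fin n => u := by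
      rw [mem_eball_zero_iff] at hu'
      refine Summable.of_norm_bounded (p.summable_norm_mul_pow hu') fun n => ?_
      refine (norm_pointwiseMulti_apply_le (p n) _).trans ?_
      simp only [Finset.prod_const, Finset.card_univ, Fintype.card_fin]
      gcongr
      exact le_of_eq (coe_nnnorm u).symm
    have h1 := hsum.hasSum
    have hval : nemytskii F (0 + u) = ∑' n : ℕ, pointwiseMulti (K := K) (p n) fun _ : Fin n => u := ?_
    · rw [hval]
      exact h1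
    rw [zero_add]
    ext t
    have h2 : HasSum (fun n : ℕ => p n fun _ : Fin n => u t)
        ((∑' n : ℕ, pointwiseMulti (K := K) (p n) fun _ : Fin n => u) t) := by
      have := (ContinuousMap.evalCLM ℂ t : C(K, G) →L[ℂ] G).hasSum h1
      exact this
    have h3 := hF.hasSum (hut t)
    rw [zero_add] at h3
    have hcont : ∀ s, ContinuousAt F (u s) := by
      intro s
      have := hF.analyticAt_of_mem (y := u s) (by
        have := hut s
        simpa only [mem_eball, edist_zero_right, gt_iff_lt] using this)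
      exact this.continuousAt
    rw [nemytskii_apply hcont]
    exact h3.unique h2

theorem analyticAt_nemytskii [CompleteSpace G] {F : E → G} (hF : AnalyticAt ℂ F 0) :
    AnalyticAt ℂ (nemytskii F : C(K, E) → C(K, G)) 0 := by
  obtain ⟨p, r, h⟩ := hF
  exact ⟨_, r, hasFPowerSeriesOnBall_nemytskii h⟩

end nemytskii

end Vale.Agent.P278
end
end

section

section

open Set Topology Filter Metric MeasureTheory
open scoped ContDiff unitInterval

set_option linter.unusedSectionVars false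

namespace Vale.Agent.P278

section fixed
variable {Y P : Type*} [NormedAddCommGroup Y] [NormedSpace ℂ Y] [CompleteSpace Y]
  [NormedAddCommGroup P] [NormedSpace ℂ P] [CompleteSpace P]

/-- Analytic solution of a fixed point equation `y = R (y, p)`. -/
theorem exists_fixed_point_solution {R : Y × P → Y} (hR : ContDiffAt ℂ ω R 0)
    (hR0 : ∀ y, R (y, 0) = 0) :
    ∃ g : P → Y, ContDiffAt ℂ ω g 0 ∧ g 0 = 0 ∧ (∀ᶠ p in 𝓝 (0 : P), g p = R (g p, p)) ∧
      ∀ᶠ q in 𝓝 (0 : Y × P), q.1 = R q → q.1 = g q.2 := by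
  set T := fderiv ℂ R 0 with hT
  have hTd : HasFDerivAt R T 0 := (hR.differentiableAt (by simp)).hasFDerivAt
  have hT0 : ∀ y, T (y, 0) = 0 := by
    intro y
    have h1 : HasFDerivAt (fun y : Y => R (y, 0)) (T.comp (ContinuousLinearMap.inl ℂ Y P)) 0 :=
      HasFDerivAt.comp (g := R) (f := fun y : Y => (y, (0 : P))) (0 : Y) hTd
        (hasFDerivAt_prodMk_left 0 0)
    have h2 : HasFDerivAt (fun y : Y => R (y, 0)) (0 : Y →L[ℂ] Y) 0 := by
      have : (fun y : Y => R (y, 0)) = fun _ => 0 := funext hR0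
      rw [this]
      exact hasFDerivAt_const _ _
    have h3 := h1.unique h2
    have := congrArg (fun l : Y →L[ℂ] Y => l y) h3
    simpa only [ContinuousLinearMap.comp_apply, ContinuousLinearMap.inl_apply, zero_apply] using this
  have hTsplit : ∀ q : Y × P, T q = T (0, q.2) := by
    intro q
    have : q = (q.1, 0) + (0, q.2) := by simp
    conv_lhs => rw [this, map_add, hT0, zero_add]
  let Θ : Y × P → Y × P := fun q => (q.1 - R q, q.2)
  let f₁ : (Y × P) →L[ℂ] (Y × P) :=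
    ((ContinuousLinearMap.fst ℂ Y P) - T).prod (ContinuousLinearMap.snd ℂ Y P)
  let f₂ : (Y × P) →L[ℂ] (Y × P) :=
    ((ContinuousLinearMap.fst ℂ Y P) + T.comp ((0 : (Y × P) →L[ℂ] Y).prod
      (ContinuousLinearMap.snd ℂ Y P))).prod (ContinuousLinearMap.snd ℂ Y P)
  have h12 : ∀ q, f₂ (f₁ q) = q := by
    intro q
    show (q.1 - T q + T (0, q.2), q.2) = q
    rw [← hTsplit q, sub_add_cancel]
  have h21 : ∀ q, f₁ (f₂ q) = q := by
    intro q
    show (q.1 + T (0, q.2) - T (q.1 + T (0, q.2), q.2), q.2) = q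
    rw [hTsplit (q.1 + T (0, q.2), q.2), add_sub_cancel_right]
  let Θ' : (Y × P) ≃L[ℂ] (Y × P) := ContinuousLinearEquiv.equivOfInverse f₁ f₂ h12 h21
  have hΘ : ContDiffAt ℂ ω Θ 0 := (contDiffAt_fst.sub hR).prodMk contDiffAt_snd
  have hΘ' : HasFDerivAt Θ (Θ' : (Y × P) →L[ℂ] (Y × P)) 0 :=
    (hasFDerivAt_fst.sub hTd).prodMk hasFDerivAt_snd
  have hΘ0 : Θ 0 = 0 := by
    show ((0 : Y) - R (0, 0), (0 : P)) = 0
    rw [hR0, sub_zero]; rfl
  set f := hΘ.toOpenPartialHomeomorph Θ hΘ' (by simp) with hf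
  have hf0 : (0 : Y × P) ∈ f.source := hΘ.mem_toOpenPartialHomeomorph_source hΘ' (by simp)
  have hft : (0 : Y × P) ∈ f.target := by
    have := f.map_source hf0
    rwa [show f 0 = Θ 0 from rfl, hΘ0] at this
  have hfs : ContDiffAt ℂ ω f.symm 0 := by
    have := hΘ.to_localInverse hΘ' (by simp)
    rw [hΘ0] at this
    exact this
  have hfs0 : f.symm 0 = 0 := by
    have := f.left_inv hf0
    rwa [show f 0 = Θ 0 from rfl, hΘ0] at this
  have hin : Continuous fun p : P => ((0 : Y), p) := by fun_prop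
  refine ⟨fun p => (f.symm (0, p)).1, ?_, ?_, ?_, ?_⟩
  · have h1 : ContDiffAt ℂ ω (fun p : P => ((0 : Y), p)) 0 := contDiffAt_const.prodMk contDiffAt_id
    exact (ContDiffAt.comp (g := f.symm) (f := fun p : P => ((0 : Y), p)) (0 : P) hfs h1).fst
  · show (f.symm 0).1 = 0
    rw [hfs0]; rfl
  · have h1 : ∀ᶠ p in 𝓝 (0 : P), ((0 : Y), p) ∈ f.target :=
      hin.continuousAt.eventually_mem (f.open_target.mem_nhds hft)
    filter_upwards [h1] with p hp
    have h2 : Θ (f.symm (0, p)) = (0, p) := f.right_inv hp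
    have h3 : (f.symm (0, p)).2 = p := congrArg Prod.snd h2
    have h4 : (f.symm (0, p)).1 - R (f.symm (0, p)) = 0 := congrArg Prod.fst h2
    have h5 : f.symm (0, p) = ((f.symm (0, p)).1, p) := Prod.ext rfl h3
    rw [sub_eq_zero] at h4
    rw [← h5]; exact h4
  · filter_upwards [f.open_source.mem_nhds hf0] with q hq hq2
    have h1 : f q = (0, q.2) := by
      show (q.1 - R q, q.2) = (0, q.2)
      rw [← hq2, sub_self]
    have h2 := f.left_inv hq
    rw [h1] at h2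
    rw [h2]

end fixed

section ode
variable {A B : Type*} [NormedAddCommGroup A] [NormedSpace ℂ A] [CompleteSpace A]
  [NormedAddCommGroup B] [NormedSpace ℂ B] [CompleteSpace B]

/-- The Volterra operator. -/
noncomputable def volterra : C(I, B) →L[ℂ] C(I, B) :=
  LinearMap.mkContinuous
    { toFun := fun u => ⟨fun t => ∫ s in (0 : ℝ)..t, u (projIcc 0 1 zero_le_one s), by
        have h1 : Continuous fun s : ℝ => u (projIcc 0 1 zero_le_one s) :=
          u.continuous.comp continuous_projIcc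
        exact (intervalIntegral.continuous_primitive (fun a b => h1.intervalIntegrable a b) 0).comp
          continuous_subtype_val⟩
      map_add' := by
        intro u v
        ext t
        have h1 : ∀ u : C(I, B), Continuous fun s : ℝ => u (projIcc 0 1 zero_le_one s) :=
          fun u => u.continuous.comp continuous_projIcc
        exact intervalIntegral.integral_add ((h1 u).intervalIntegrable _ _)
          ((h1 v).intervalIntegrable _ _)
      map_smul' := by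
        intro c u
        ext t
        exact intervalIntegral.integral_smul c _ } 1 (by
      intro u
      rw [one_mul, ContinuousMap.norm_le _ (norm_nonneg _)]
      intro t
      have h1 := intervalIntegral.norm_integral_le_of_norm_le_const (a := 0) (b := (t : ℝ))
        (f := fun s : ℝ => u (projIcc 0 1 zero_le_one s)) (C := ‖u‖)
        (fun s _ => u.norm_coe_le_norm _)
      refine h1.trans ?_
      have h2 : |(t : ℝ) - 0| ≤ 1 := by
        rw [sub_zero, abs_of_nonneg t.2.1]; exact t.2.2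
      calc ‖u‖ * |(t : ℝ) - 0| ≤ ‖u‖ * 1 := by gcongr
        _ = ‖u‖ := mul_one _)

/-- Auxiliary linear map. -/
noncomputable def rayMap : (C(I, B) × A) →L[ℂ] C(I, (A × B) × A) :=
  LinearMap.mkContinuous
    { toFun := fun q => ⟨fun s => ((((s : ℝ) : ℂ) • q.2, q.1 s), q.2), by fun_prop⟩
      map_add' := by
        intro q q'
        ext s <;> simp [smul_add]
      map_smul' := by
        intro c q
        ext s <;> simp [smul_comm c] } 1 (by
      intro q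
      rw [one_mul, ContinuousMap.norm_le _ (norm_nonneg _)]
      intro s
      show max (max ‖((s : ℝ) : ℂ) • q.2‖ ‖q.1 s‖) ‖q.2‖ ≤ ‖q‖
      have h2 : ‖q.2‖ ≤ ‖q‖ := norm_snd_le q
      have h1 : ‖q.1 s‖ ≤ ‖q‖ := (q.1.norm_coe_le_norm s).trans (norm_fst_le q)
      refine max_le (max_le ?_ h1) h2
      rw [norm_smul, Complex.norm_real, Real.norm_eq_abs, abs_of_nonneg s.2.1]
      calc (s : ℝ) * ‖q.2‖ ≤ 1 * ‖q.2‖ := by
            gcongr
            exact s.2.2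
        _ = ‖q.2‖ := one_mul _
        _ ≤ ‖q‖ := h2)

theorem rayMap_apply (q : C(I, B) × A) (s : I) :
    rayMap q s = ((((s : ℝ) : ℂ) • q.2, q.1 s), q.2) := rfl

/-- Constant functions. -/
noncomputable def cstMap : B →L[ℂ] C(I, B) :=
  LinearMap.mkContinuous
    { toFun := fun b => ContinuousMap.const I b
      map_add' := fun _ _ => rfl
      map_smul' := fun _ _ => rfl } 1 (by
      intro b
      rw [one_mul, ContinuousMap.norm_le _ (norm_nonneg _)]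
      intro s
      exact le_rfl)

/-- Radial integration of `F`: an analytic solution of the differential equation along rays. -/
theorem exists_ray_solution {F : A × B → A →L[ℂ] B} (hF : AnalyticAt ℂ F 0) :
    ∃ Y : A × B → B, ContDiffAt ℂ ω Y 0 ∧ Y 0 = 0 ∧ (∀ᶠ b in 𝓝 (0 : B), Y (0, b) = b) ∧
      ∀ᶠ p in 𝓝 (0 : A × B), fderiv ℂ Y p (p.1, 0) = F (p.1, Y p) p.1 := by
  let H : (A × B) × A → B := fun q => F q.1 q.2
  have hH : AnalyticAt ℂ H 0 := by
    have h1 : ContDiffAt ℂ ω (fun q : (A × B) × A => F q.1) 0 :=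
      ContDiffAt.comp (g := F) (f := fun q : (A × B) × A => q.1) (0 : (A × B) × A)
        hF.contDiffAt contDiffAt_fst
    exact (h1.clm_apply contDiffAt_snd).analyticAt
  have hN : ContDiffAt ℂ ω (nemytskii H : C(I, (A × B) × A) → C(I, B)) 0 :=
    (analyticAt_nemytskii hH).contDiffAt
  -- the fixed point equation
  let L : (C(I, B) × (A × B)) →L[ℂ] C(I, (A × B) × A) :=
    rayMap.comp ((ContinuousLinearMap.fst ℂ _ _).prod
      ((ContinuousLinearMap.fst ℂ A B).comp (ContinuousLinearMap.snd ℂ _ _)))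
  have hL : ∀ q, L q = rayMap (q.1, q.2.1) := fun q => rfl
  let R : C(I, B) × (A × B) → C(I, B) := fun q =>
    cstMap q.2.2 + volterra (nemytskii H (L q))
  have hR : ContDiffAt ℂ ω R 0 := by
    have h1 : ContDiffAt ℂ ω (fun q : C(I, B) × (A × B) => nemytskii H (L q)) 0 := by
      have h2 : ContDiffAt ℂ ω (nemytskii H : C(I, (A × B) × A) → C(I, B)) (L 0) := by
        rw [map_zero]; exact hN
      exact ContDiffAt.comp (g := nemytskii H) (f := fun q => L q) 0 h2 L.contDiff.contDiffAt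
    have h3 : ContDiffAt ℂ ω (fun q : C(I, B) × (A × B) => (cstMap q.2.2 : C(I, B))) 0 :=
      ContDiff.contDiffAt (((cstMap : B →L[ℂ] C(I, B)).contDiff).comp
        (contDiff_snd.comp contDiff_snd))
    exact h3.add (((volterra : C(I, B) →L[ℂ] C(I, B)).contDiff).contDiffAt.comp 0 h1)
  have hker : ∀ (y : C(I, B)) (b : B), nemytskii H (L (y, (0, b))) = 0 := by
    intro y b
    have h1 : (fun t : I => H (L (y, (0, b)) t)) = fun _ => 0 := by
      funext t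
      rw [hL]
      show F _ 0 = 0
      exact map_zero _
    unfold nemytskii
    have h2 : Continuous (fun t : I => H (L (y, (0, b)) t)) := by
      rw [h1]; exact continuous_const
    rw [dif_pos h2]
    ext t
    exact congrFun h1 t
  have hR0 : ∀ y, R (y, 0) = 0 := by
    intro y
    show cstMap (0 : B) + volterra (nemytskii H (L (y, (0, 0)))) = 0
    rw [hker, map_zero, map_zero, add_zero]
  obtain ⟨g, hg, hg0, hgR, hguniq⟩ := exists_fixed_point_solution hR hR0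
  have hgc : ContinuousAt g 0 := hg.continuousAt
  let Y : A × B → B := fun p => g p 1
  -- small values
  have hHev : ∀ᶠ q in 𝓝 (0 : (A × B) × A), ContinuousAt H q :=
    (hH.contDiffAt (n := ω)).eventually (by simp) |>.mono fun q hq => hq.continuousAt
  obtain ⟨ρ₁, hρ₁, hHb⟩ := Metric.eventually_nhds_iff_ball.1 hHev
  have hnem : ∀ (y : C(I, B)) (x : A), ‖y‖ < ρ₁ → ‖x‖ < ρ₁ → ∀ b s,
      nemytskii H (L (y, (x, b))) s = F ((((s : ℝ) : ℂ) • x, y s)) x := by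
    intro y x hy hx b s
    have h1 : ∀ t : I, ContinuousAt H (L (y, (x, b)) t) := by
      intro t
      apply hHb
      rw [hL, rayMap_apply, mem_ball_zero_iff]
      show max (max ‖((t : ℝ) : ℂ) • x‖ ‖y t‖) ‖x‖ < ρ₁
      refine max_lt (max_lt ?_ ((y.norm_coe_le_norm t).trans_lt hy)) hx
      rw [norm_smul, Complex.norm_real, Real.norm_eq_abs, abs_of_nonneg t.2.1]
      calc (t : ℝ) * ‖x‖ ≤ 1 * ‖x‖ := by
            gcongr
            exact t.2.2
        _ < ρ₁ := by rwa [one_mul]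
    rw [nemytskii_apply h1]
    rfl
  have hsmall : ∀ ρ > 0, ∀ᶠ p in 𝓝 (0 : A × B), ‖g p‖ < ρ ∧ ‖p‖ < ρ := by
    intro ρ hρ
    have h1 : ∀ᶠ p in 𝓝 (0 : A × B), g p ∈ ball (0 : C(I, B)) ρ :=
      hgc.eventually_mem (by rw [hg0]; exact ball_mem_nhds _ hρ)
    filter_upwards [h1, ball_mem_nhds (0 : A × B) hρ] with p h1 h2
    exact ⟨mem_ball_zero_iff.1 h1, mem_ball_zero_iff.1 h2⟩
  -- scaling
  obtain ⟨ρ₂, hρ₂, huniq⟩ := Metric.eventually_nhds_iff_ball.1 hguniq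
  have hscale : ∀ᶠ p in 𝓝 (0 : A × B), ∀ τ : I, g p τ = Y (((τ : ℝ) : ℂ) • p.1, p.2) := by
    filter_upwards [hsmall ρ₁ hρ₁, hsmall ρ₂ hρ₂, hgR] with p h1 h2 h3 τ
    let y' : C(I, B) := ⟨fun s => g p (τ * s), by fun_prop⟩
    have hy'n : ‖y'‖ ≤ ‖g p‖ := by
      rw [ContinuousMap.norm_le _ (norm_nonneg _)]
      intro s
      exact (g p).norm_coe_le_norm _
    have hp1 : ‖p.1‖ ≤ ‖p‖ := norm_fst_le p
    have hp2 : ‖p.2‖ ≤ ‖p‖ := norm_snd_le p
    have hτp : ‖((τ : ℝ) : ℂ) • p.1‖ ≤ ‖p‖ := by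
      rw [norm_smul, Complex.norm_real, Real.norm_eq_abs, abs_of_nonneg τ.2.1]
      calc (τ : ℝ) * ‖p.1‖ ≤ 1 * ‖p.1‖ := by
            gcongr
            exact τ.2.2
        _ ≤ ‖p‖ := by rwa [one_mul]
    have hy'R : y' = R (y', (((τ : ℝ) : ℂ) • p.1, p.2)) := by
      ext t
      show g p (τ * t) = p.2 + ∫ s in (0 : ℝ)..t,
        nemytskii H (L (y', (((τ : ℝ) : ℂ) • p.1, p.2))) (projIcc 0 1 zero_le_one s)
      have e1 : g p (τ * t) = p.2 + ∫ s in (0 : ℝ)..(τ * t : I),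
          nemytskii H (L (g p, p)) (projIcc 0 1 zero_le_one s) := by
        conv_lhs => rw [h3]
        rfl
      rw [e1]
      congr 1
      have e2 : ∀ s ∈ uIcc (0 : ℝ) t,
          nemytskii H (L (y', (((τ : ℝ) : ℂ) • p.1, p.2))) (projIcc 0 1 zero_le_one s) =
          (τ : ℝ) • nemytskii H (L (g p, p)) (projIcc 0 1 zero_le_one ((τ : ℝ) * s)) := by
        intro s hs
        rw [uIcc_of_le t.2.1] at hs
        have hs1 : s ∈ Icc (0 : ℝ) 1 := ⟨hs.1, hs.2.trans t.2.2⟩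
        have hs2 : (τ : ℝ) * s ∈ Icc (0 : ℝ) 1 :=
          ⟨mul_nonneg τ.2.1 hs1.1, mul_le_one₀ τ.2.2 hs1.1 hs1.2⟩
        rw [projIcc_of_mem _ hs1, projIcc_of_mem _ hs2]
        rw [hnem y' _ (hy'n.trans_lt h1.1) (hτp.trans_lt h1.2)]
        rw [show L (g p, p) = L (g p, (p.1, p.2)) from rfl,
          hnem (g p) p.1 h1.1 (hp1.trans_lt h1.2)]
        have e3 : y' ⟨s, hs1⟩ = g p ⟨(τ : ℝ) * s, hs2⟩ := rfl
        rw [e3]
        simp only [map_smul, smul_smul]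
        rw [show ((s : ℂ) * (τ : ℝ) : ℂ) = (((τ : ℝ) * s : ℝ) : ℂ) by push_cast; ring]
        rfl
      rw [intervalIntegral.integral_congr e2, intervalIntegral.integral_smul,
        intervalIntegral.smul_integral_comp_mul_left
          (f := fun s => nemytskii H (L (g p, p)) (projIcc 0 1 zero_le_one s))]
      simp only [Icc.coe_mul, mul_zero]
    have h4 := huniq (y', (((τ : ℝ) : ℂ) • p.1, p.2)) (by
      rw [mem_ball_zero_iff]
      exact max_lt (hy'n.trans_lt h2.1) (max_lt (hτp.trans_lt h2.2) (hp2.trans_lt h2.2))) hy'R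
    show g p τ = g (((τ : ℝ) : ℂ) • p.1, p.2) 1
    rw [← h4]
    show g p τ = g p (τ * 1)
    rw [mul_one]
  have hYana : ContDiffAt ℂ ω Y 0 :=
    (ContinuousMap.evalCLM ℂ (1 : I) : C(I, B) →L[ℂ] B).contDiff.contDiffAt.comp 0 hg
  have hY0 : Y 0 = 0 := by
    show g 0 1 = 0
    rw [hg0]; rfl
  refine ⟨Y, hYana, hY0, ?_, ?_⟩
  · have h1 : Tendsto (fun b : B => ((0 : A), b)) (𝓝 0) (𝓝 (0 : A × B)) := by
      have : ContinuousAt (fun b : B => ((0 : A), b)) 0 := by fun_prop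
      exact this.tendsto
    filter_upwards [h1.eventually hgR] with b hb
    show g (0, b) 1 = b
    rw [hb]
    show b + volterra (nemytskii H (L (g (0, b), (0, b)))) 1 = b
    rw [hker, map_zero]
    exact add_zero b
  · have hYd : ∀ᶠ p in 𝓝 (0 : A × B), DifferentiableAt ℂ Y p :=
      (hYana.eventually (by simp)).mono fun p hp => hp.differentiableAt (by simp)
    have h2 : Tendsto (fun p : A × B => ((2 : ℂ) • p.1, p.2)) (𝓝 0) (𝓝 (0 : A × B)) := by
      have : ContinuousAt (fun p : A × B => ((2 : ℂ) • p.1, p.2)) 0 := by fun_prop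
      have h := this.tendsto
      rwa [show ((2 : ℂ) • (0 : A × B).1, (0 : A × B).2) = (0 : A × B) by
        ext <;> simp only [Prod.fst_zero, smul_zero]] at h
    filter_upwards [hYd, h2.eventually hscale, h2.eventually hgR,
      h2.eventually (hsmall ρ₁ hρ₁)] with p h3 h4 h5 h6
    set q : A × B := ((2 : ℂ) • p.1, p.2) with hq
    have hq2 : (((1 / 2 : ℝ) : ℂ) • q.1, q.2) = p := by
      rw [hq]
      ext
      · show ((1 / 2 : ℝ) : ℂ) • ((2 : ℂ) • p.1) = p.1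
        rw [smul_smul]
        norm_num
      · rfl
    set u : C(I, B) := nemytskii H (L (g q, q)) with hu
    have huc : Continuous fun s : ℝ => u (projIcc 0 1 zero_le_one s) :=
      u.continuous.comp continuous_projIcc
    have e1 : HasDerivAt (fun τ : ℝ => q.2 + ∫ s in (0 : ℝ)..τ, u (projIcc 0 1 zero_le_one s))
        (u (projIcc 0 1 zero_le_one (1 / 2 : ℝ))) (1 / 2 : ℝ) :=
      ((huc.integral_hasStrictDerivAt 0 (1 / 2 : ℝ)).hasDerivAt).const_add _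
    have hhalf : (1 / 2 : ℝ) ∈ Icc (0 : ℝ) 1 := by constructor <;> norm_num
    have e2 : (fun τ : ℝ => Y (((τ : ℝ) : ℂ) • q.1, q.2)) =ᶠ[𝓝 (1 / 2 : ℝ)]
        fun τ : ℝ => q.2 + ∫ s in (0 : ℝ)..τ, u (projIcc 0 1 zero_le_one s) := by
      have : Icc (0 : ℝ) 1 ∈ 𝓝 (1 / 2 : ℝ) := Icc_mem_nhds (by norm_num) (by norm_num)
      filter_upwards [this] with τ hτ
      have k1 := h4 ⟨τ, hτ⟩
      rw [← k1, h5]
      rfl
    have e3 := e1.congr_of_eventuallyEq e2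
    have e4 : HasDerivAt (fun τ : ℝ => ((((τ : ℝ) : ℂ) • q.1, q.2) : A × B)) (q.1, 0)
        (1 / 2 : ℝ) := by
      have k1 : HasDerivAt (fun τ : ℝ => ((τ : ℝ) : ℂ)) 1 (1 / 2 : ℝ) :=
        (hasDerivAt_id (1 / 2 : ℝ)).ofReal_comp
      have k2 := k1.smul_const q.1
      rw [one_smul] at k2
      exact k2.prodMk (hasDerivAt_const _ _)
    have e5 : HasFDerivAt Y (fderiv ℂ Y p) (((1 / 2 : ℝ) : ℂ) • q.1, q.2) := by
      rw [hq2]; exact h3.hasFDerivAt
    have e6 := (e5.restrictScalars ℝ).comp_hasDerivAt (1 / 2 : ℝ) e4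
    have e7 := e6.unique e3
    have e8 : u (projIcc 0 1 zero_le_one (1 / 2 : ℝ)) = F (p.1, Y p) q.1 := by
      rw [projIcc_of_mem _ hhalf, hu, show L (g q, q) = L (g q, (q.1, q.2)) from rfl,
        hnem (g q) q.1 h6.1 ((norm_fst_le q).trans_lt h6.2)]
      have k1 := h4 ⟨1 / 2, hhalf⟩
      rw [hq2] at k1
      rw [k1]
      have k2 : (((1 / 2 : ℝ) : ℂ)) • q.1 = p.1 := congrArg Prod.fst hq2
      rw [k2]
    rw [e8] at e7
    have e9 : fderiv ℂ Y p (q.1, 0) = F (p.1, Y p) q.1 := e7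
    have e10 : (q.1, (0 : B)) = (2 : ℂ) • (p.1, (0 : B)) := by
      rw [Prod.smul_mk, smul_zero]
    rw [e10, map_smul, show q.1 = (2 : ℂ) • p.1 from rfl, map_smul] at e9
    exact smul_right_injective B (two_ne_zero (α := ℂ)) e9

end ode

end Vale.Agent.P278
end
end

section

section

open Topology Set Filter Complex
open scoped ContDiff Manifold Matrix ComplexConjugate

namespace Vale.Agent.P278

section semi
variable {F : Type*} [AddCommGroup F] [Module ℂ F]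

end semi

end Vale.Agent.P278
end
end

section

section

open Set Topology Filter
open scoped Manifold ContDiff

set_option linter.unusedSectionVars false

namespace Vale.Agent.P278

variable {M A B : Type*} [TopologicalSpace M] [NormedAddCommGroup A] [NormedSpace ℂ A]
  [NormedAddCommGroup B] [NormedSpace ℂ B]

/-- A foliated atlas: the plaques are the sets `{y | (φ y).2 = b}`. -/
class FolAtlas (𝒜 : Set (OpenPartialHomeomorph M (A × B))) : Prop where
  cover : ∀ x, ∃ φ ∈ 𝒜, x ∈ φ.source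
  trans : ∀ φ ∈ 𝒜, ∀ ψ ∈ 𝒜, ∀ x ∈ φ.source, x ∈ ψ.source →
    ∀ᶠ y in 𝓝 x, (φ y).2 = (φ x).2 → (ψ y).2 = (ψ x).2

/-- The space `M` with the leaf topology. -/
def Leaf (_ : Set (OpenPartialHomeomorph M (A × B))) : Type _ := M

namespace Leaf

variable (𝒜 : Set (OpenPartialHomeomorph M (A × B)))

/-- The identity map from the leaf space to the space. -/
def toM : Leaf 𝒜 ≃ M := Equiv.refl M

instance : TopologicalSpace (Leaf 𝒜) where
  IsOpen S := ∀ φ ∈ 𝒜, ∀ b, IsOpen {a : A | (a, b) ∈ φ.target ∧ (toM 𝒜).symm (φ.symm (a, b)) ∈ S}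
  isOpen_univ := by
    intro φ _ b
    have : {a : A | (a, b) ∈ φ.target ∧ (toM 𝒜).symm (φ.symm (a, b)) ∈ (univ : Set (Leaf 𝒜))}
        = (fun a => (a, b)) ⁻¹' φ.target := by
      ext a; simp
    rw [this]
    exact φ.open_target.preimage (by fun_prop)
  isOpen_inter := by
    intro S T hS hT φ hφ b
    have : {a : A | (a, b) ∈ φ.target ∧ (toM 𝒜).symm (φ.symm (a, b)) ∈ S ∩ T}
        = {a : A | (a, b) ∈ φ.target ∧ (toM 𝒜).symm (φ.symm (a, b)) ∈ S} ∩
          {a : A | (a, b) ∈ φ.target ∧ (toM 𝒜).symm (φ.symm (a, b)) ∈ T} := by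
      ext a; simp only [mem_inter_iff, mem_ofPred_eq]; tauto
    rw [this]
    exact (hS φ hφ b).inter (hT φ hφ b)
  isOpen_sUnion := by
    intro 𝒮 h φ hφ b
    have : {a : A | (a, b) ∈ φ.target ∧ (toM 𝒜).symm (φ.symm (a, b)) ∈ ⋃₀ 𝒮}
        = ⋃ S ∈ 𝒮, {a : A | (a, b) ∈ φ.target ∧ (toM 𝒜).symm (φ.symm (a, b)) ∈ S} := by
      ext a; simp only [mem_sUnion, mem_ofPred_eq, mem_iUnion, exists_prop]; tauto
    rw [this]
    exact isOpen_biUnion fun S hS => h S hS φ hφ b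

variable {𝒜}

theorem isOpen_iff {S : Set (Leaf 𝒜)} : IsOpen S ↔
    ∀ φ ∈ 𝒜, ∀ b, IsOpen {a : A | (a, b) ∈ φ.target ∧ (toM 𝒜).symm (φ.symm (a, b)) ∈ S} :=
  Iff.rfl

theorem continuous_toM : Continuous (toM 𝒜) := by
  rw [continuous_def]
  intro U hU φ _ b
  have : {a : A | (a, b) ∈ φ.target ∧ (toM 𝒜).symm (φ.symm (a, b)) ∈ (toM 𝒜) ⁻¹' U}
      = (fun a => (a, b)) ⁻¹' (φ.target ∩ φ.symm ⁻¹' U) := by
    ext a; simp only [mem_preimage, Equiv.apply_symm_apply, mem_ofPred_eq, preimage_inter, mem_inter_iff]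
  rw [this]
  exact (φ.symm.isOpen_inter_preimage hU).preimage (by fun_prop)

instance [T2Space M] : T2Space (Leaf 𝒜) :=
  T2Space.of_injective_continuous (toM 𝒜).injective continuous_toM

/-- The plaque parametrization is continuous. -/
theorem continuousOn_param {φ : OpenPartialHomeomorph M (A × B)} (hφ : φ ∈ 𝒜) (b : B) :
    ContinuousOn (fun a => (toM 𝒜).symm (φ.symm (a, b))) {a | (a, b) ∈ φ.target} := by
  have ho : IsOpen {a : A | (a, b) ∈ φ.target} := φ.open_target.preimage (by fun_prop)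
  rw [continuousOn_open_iff ho]
  intro S hS
  exact hS φ hφ b

/-- The image of an open set under a plaque parametrization is open in the leaf topology. -/
theorem isOpen_plaque [FolAtlas 𝒜] {φ : OpenPartialHomeomorph M (A × B)} (hφ : φ ∈ 𝒜) (b : B)
    {V : Set A} (hV : IsOpen V) :
    IsOpen {y : Leaf 𝒜 | toM 𝒜 y ∈ φ.source ∧ (φ (toM 𝒜 y)).2 = b ∧ (φ (toM 𝒜 y)).1 ∈ V} := by
  rw [isOpen_iff]
  intro ψ hψ b'
  rw [isOpen_iff_mem_nhds]
  rintro a' ⟨ha', h1, h2, h3⟩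
  simp only [Equiv.apply_symm_apply] at h1 h2 h3
  set x : M := ψ.symm (a', b') with hx
  have hxψ : x ∈ ψ.source := ψ.map_target ha'
  have hψx : ψ x = (a', b') := ψ.right_inv ha'
  -- the path `a ↦ ψ.symm (a, b')` is continuous at `a'`
  have hc : ContinuousAt (fun a => ψ.symm (a, b')) a' := by
    have := (ψ.continuousAt_symm ha')
    exact ContinuousAt.comp (f := fun a => (a, b')) (g := ψ.symm) this (by fun_prop)
  have e1 : ∀ᶠ a in 𝓝 a', (a, b') ∈ ψ.target :=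
    (ContinuousAt.eventually_mem (f := fun a => (a, b')) (by fun_prop)
      (ψ.open_target.mem_nhds ha'))
  have e2 : ∀ᶠ a in 𝓝 a', ψ.symm (a, b') ∈ φ.source :=
    hc.eventually_mem (φ.open_source.mem_nhds h1)
  have e3 : ∀ᶠ a in 𝓝 a', (ψ (ψ.symm (a, b'))).2 = (ψ x).2 →
      (φ (ψ.symm (a, b'))).2 = (φ x).2 :=
    hc.eventually (FolAtlas.trans ψ hψ φ hφ x hxψ h1)
  have e4 : ∀ᶠ a in 𝓝 a', (φ (ψ.symm (a, b'))).1 ∈ V := by
    have hc2 : ContinuousAt (fun a => (φ (ψ.symm (a, b'))).1) a' :=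
      continuousAt_fst.comp (ContinuousAt.comp (g := φ) (f := fun a => ψ.symm (a, b'))
        (φ.continuousAt h1) hc)
    exact hc2.eventually_mem (hV.mem_nhds h3)
  filter_upwards [e1, e2, e3, e4] with a q1 q2 q3 q4
  refine ⟨q1, q2, ?_, q4⟩
  simp only [Equiv.apply_symm_apply]
  rw [← h2]
  apply q3
  rw [ψ.right_inv q1, hψx]

/-- The plaque chart. -/
def plaque [FolAtlas 𝒜] (φ : OpenPartialHomeomorph M (A × B)) (hφ : φ ∈ 𝒜) (b : B) :
    OpenPartialHomeomorph (Leaf 𝒜) A where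
  toFun y := (φ (toM 𝒜 y)).1
  invFun a := (toM 𝒜).symm (φ.symm (a, b))
  source := {y | toM 𝒜 y ∈ φ.source ∧ (φ (toM 𝒜 y)).2 = b}
  target := {a | (a, b) ∈ φ.target}
  map_source' := by
    rintro y ⟨h1, h2⟩
    show ((φ (toM 𝒜 y)).1, b) ∈ φ.target
    rw [← h2]; exact φ.map_source h1
  map_target' := by
    intro a ha
    have ha' : (a, b) ∈ φ.target := ha
    refine ⟨φ.map_target ha', ?_⟩
    simp [φ.right_inv ha']
  left_inv' := by
    rintro y ⟨h1, h2⟩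
    show (toM 𝒜).symm (φ.symm ((φ (toM 𝒜 y)).1, b)) = y
    rw [← h2]
    simp [φ.left_inv h1]
  right_inv' := by
    intro a ha
    have ha' : (a, b) ∈ φ.target := ha
    simp [φ.right_inv ha']
  open_source := by
    have := isOpen_plaque (𝒜 := 𝒜) hφ b isOpen_univ
    simpa using this
  open_target := φ.open_target.preimage (by fun_prop)
  continuousOn_toFun := by
    intro y hy
    have : ContinuousAt (fun y : Leaf 𝒜 => (φ (toM 𝒜 y)).1) y :=
      continuousAt_fst.comp (ContinuousAt.comp (g := φ) (f := toM 𝒜)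
        (φ.continuousAt hy.1) continuous_toM.continuousAt)
    exact this.continuousWithinAt
  continuousOn_invFun := continuousOn_param hφ b

@[simp] theorem plaque_apply [FolAtlas 𝒜] (φ : OpenPartialHomeomorph M (A × B)) (hφ : φ ∈ 𝒜)
    (b : B) (y : Leaf 𝒜) : plaque φ hφ b y = (φ (toM 𝒜 y)).1 := rfl

@[simp] theorem plaque_symm_apply [FolAtlas 𝒜] (φ : OpenPartialHomeomorph M (A × B)) (hφ : φ ∈ 𝒜)
    (b : B) (a : A) : (plaque φ hφ b).symm a = (toM 𝒜).symm (φ.symm (a, b)) := rfl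

noncomputable instance [FolAtlas 𝒜] : ChartedSpace A (Leaf 𝒜) where
  atlas := {e | ∃ (φ : OpenPartialHomeomorph M (A × B)) (hφ : φ ∈ 𝒜) (b : B), e = plaque φ hφ b}
  chartAt y := plaque (FolAtlas.cover (𝒜 := 𝒜) (toM 𝒜 y)).choose
    (FolAtlas.cover (𝒜 := 𝒜) (toM 𝒜 y)).choose_spec.1
    ((FolAtlas.cover (𝒜 := 𝒜) (toM 𝒜 y)).choose (toM 𝒜 y)).2
  mem_chart_source y := ⟨(FolAtlas.cover (𝒜 := 𝒜) (toM 𝒜 y)).choose_spec.2, rfl⟩
  chart_mem_atlas y := ⟨_, _, _, rfl⟩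

instance [FolAtlas 𝒜] : LocallyPathConnectedSpace (Leaf 𝒜) :=
  ChartedSpace.locallyPathConnectedSpace A (Leaf 𝒜)

end Leaf

/-- A foliated atlas with analytic transition maps. -/
class AnaFolAtlas (𝒜 : Set (OpenPartialHomeomorph M (A × B))) : Prop where
  cover : ∀ x, ∃ φ ∈ 𝒜, x ∈ φ.source
  trans : ∀ φ ∈ 𝒜, ∀ ψ ∈ 𝒜, ∀ x ∈ φ.source, x ∈ ψ.source →
    ∀ᶠ y in 𝓝 x, (φ y).2 = (φ x).2 → (ψ y).2 = (ψ x).2
  ana : ∀ φ ∈ 𝒜, ∀ ψ ∈ 𝒜, ContDiffOn ℂ ω (φ.symm ≫ₕ ψ) (φ.symm ≫ₕ ψ).source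

instance AnaFolAtlas.instFolAtlas {𝒜 : Set (OpenPartialHomeomorph M (A × B))}
    [h : AnaFolAtlas 𝒜] : FolAtlas 𝒜 := ⟨h.cover, h.trans⟩

namespace Leaf

variable {𝒜 : Set (OpenPartialHomeomorph M (A × B))}

instance [AnaFolAtlas 𝒜] : IsManifold 𝓘(ℂ, A) ω (Leaf 𝒜) := by
  apply isManifold_of_contDiffOn
  rintro e e' ⟨φ, hφ, b, rfl⟩ ⟨ψ, hψ, b', rfl⟩
  simp only [modelWithCornersSelf_coe, modelWithCornersSelf_coe_symm, Function.comp_id,
    Function.id_comp, range_id, inter_univ, preimage_id]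
  have h := AnaFolAtlas.ana φ hφ ψ hψ
  have h1 : ContDiffOn ℂ ω (fun a : A => ((φ.symm ≫ₕ ψ) (a, b)).1)
      ((fun a : A => (a, b)) ⁻¹' (φ.symm ≫ₕ ψ).source) :=
    contDiff_fst.comp_contDiffOn (h.comp (contDiff_prodMk_left b).contDiffOn (fun a ha => ha))
  refine (h1.mono ?_).congr ?_
  · rintro a ⟨ha, ha'⟩
    simp only [OpenPartialHomeomorph.trans_source, mem_inter_iff, mem_preimage] at *
    exact ⟨ha, ha'.1⟩
  · rintro a -
    rfl

end Leaf

end Vale.Agent.P278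
end
end

section

section

open Set Topology

namespace Vale.Agent.P278

/-- A retract of a simply connected space is simply connected. -/
theorem simplyConnectedSpace_of_retract {A B : Type*} [TopologicalSpace A] [TopologicalSpace B]
    [SimplyConnectedSpace B] (i : A → B) (r : B → A) (hi : Continuous i) (hr : Continuous r)
    (h : ∀ a, r (i a) = a) : SimplyConnectedSpace A := by
  rw [simply_connected_iff_paths_homotopic']
  refine ⟨⟨?_, ?_⟩, ?_⟩
  · obtain ⟨b⟩ : Nonempty B := inferInstance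
    exact ⟨r b⟩
  · intro x y
    have := (PathConnectedSpace.somePath (i x) (i y)).map hr
    exact ⟨this.cast (h x).symm (h y).symm⟩
  · intro x y p q
    obtain ⟨F⟩ := SimplyConnectedSpace.paths_homotopic (p.map hi) (q.map hi)
    refine ⟨{ toFun := fun z => r (F z)
              continuous_toFun := hr.comp F.continuous
              map_zero_left := ?_
              map_one_left := ?_
              prop' := ?_ }⟩
    · intro t
      simp [h]
    · intro t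
      simp [h]
    · intro t s hs
      have := F.prop' t s hs
      simp only [ContinuousMap.coe_mk] at this ⊢
      rw [show F (t, s) = _ from this]
      simp [h]

/-- Purely topological core: if the leaf topology `M₁` is a covering of the space `N` of leaves
of the second foliation, and `M` is simply connected, then `M` is the product of the two leaves
through a base point, as far as sets are concerned, with a continuous first projection. -/
theorem exists_leaf_projections {M M₁ M₂ N : Type*} [TopologicalSpace M] [TopologicalSpace M₁]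
    [TopologicalSpace M₂] [TopologicalSpace N]
    [SimplyConnectedSpace M] [LocallyPathConnectedSpace M] [LocallyPathConnectedSpace M₁]
    (e₁ : M₁ ≃ M) (he₁ : Continuous e₁) (e₂ : M₂ ≃ M) (he₂ : Continuous e₂)
    (q : M → N) (hq : Continuous q) (hcov : IsCoveringMap (fun z : M₁ => q (e₁ z)))
    (hqN : ∀ x y : M, q x = q y ↔ e₂.symm x ∈ connectedComponent (e₂.symm y)) (x₀ : M) :
    ∃ (r₁ : M → M₁) (r₂ : M → M₂), Continuous r₁ ∧
      (∀ x, q (e₁ (r₁ x)) = q x) ∧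
      (∀ x, r₁ x ∈ connectedComponent (e₁.symm x₀)) ∧
      (∀ z ∈ connectedComponent (e₁.symm x₀), r₁ (e₁ z) = z) ∧
      (∀ x, r₂ x ∈ connectedComponent (e₂.symm x₀)) ∧
      (∀ z ∈ connectedComponent (e₂.symm x₀), r₂ (e₂ z) = z) ∧
      (∀ x y, e₁.symm x ∈ connectedComponent (e₁.symm y) → r₂ x = r₂ y) ∧
      (∀ x y, e₂.symm x ∈ connectedComponent (e₂.symm y) → r₁ x = r₁ y) ∧
      (∀ x, e₁.symm (e₂ (r₂ x)) ∈ connectedComponent (e₁.symm x)) ∧
      (∀ z₁ ∈ connectedComponent (e₁.symm x₀), ∀ z₂ ∈ connectedComponent (e₂.symm x₀),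
        ∃! x, r₁ x = z₁ ∧ r₂ x = z₂) ∧
      SimplyConnectedSpace (connectedComponent (e₁.symm x₀)) := by
  set p : M₁ → N := fun z => q (e₁ z) with hp
  set C₁ : Set M₁ := connectedComponent (e₁.symm x₀) with hC₁
  have hbase : e₁.symm x₀ ∈ C₁ := mem_connectedComponent
  obtain ⟨R, ⟨hR0, hR⟩, -⟩ := hcov.existsUnique_continuousMap_lifts (A := M) ⟨q, hq⟩ x₀
    (e₁.symm x₀) (by simp [hp])
  have hRq : ∀ x, q (e₁ (R x)) = q x := fun x => congrFun hR x
  -- the image of `R` lies in `C₁`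
  have hRC : ∀ x, R x ∈ C₁ := by
    intro x
    have h1 : IsPreconnected (range R) := isPreconnected_range R.continuous
    exact h1.subset_connectedComponent ⟨x₀, hR0⟩ ⟨x, rfl⟩
  -- `R` is the identity on `C₁`
  have hRid : ∀ z ∈ C₁, R (e₁ z) = z := by
    have h1 : EqOn (fun z : M₁ => R (e₁ z)) (fun z => z) C₁ :=
      hcov.eqOn_of_comp_eqOn (isPreconnected_connectedComponent)
        (R.continuous.comp he₁).continuousOn continuousOn_id
        (fun z _ => hRq (e₁ z)) hbase (by simp [hR0])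
    exact fun z hz => h1 hz
  -- `R` is constant on components of `M₂`
  have hRconst : ∀ x y, e₂.symm x ∈ connectedComponent (e₂.symm y) → R x = R y := by
    intro x y hxy
    have h1 := hcov.constOn_of_comp (g := fun z : M₂ => R (e₂ z))
      (isPreconnected_connectedComponent (x := e₂.symm y)) (R.continuous.comp he₂).continuousOn
      (by
        intro a ha a' ha'
        show q (e₁ (R (e₂ a))) = q (e₁ (R (e₂ a')))
        rw [hRq, hRq, hqN]
        rw [e₂.symm_apply_apply, e₂.symm_apply_apply]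
        rw [← connectedComponent_eq ha', ]
        exact ha) hxy mem_connectedComponent
    simpa using h1
  -- the leaf is simply connected
  have hsc : SimplyConnectedSpace C₁ :=
    simplyConnectedSpace_of_retract (A := C₁) (B := M) (fun a => e₁ a.1)
      (fun x => ⟨R x, hRC x⟩) (he₁.comp continuous_subtype_val)
      (R.continuous.subtype_mk _) (fun a => Subtype.ext (hRid a.1 a.2))
  have hC₁o : IsOpen C₁ := by
    have : IsOpen (pathComponent (e₁.symm x₀)) := IsOpen.pathComponent _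
    rwa [pathComponent_eq_connectedComponent] at this
  have hlpc : LocallyPathConnectedSpace C₁ := hC₁o.locallyPathConnectedSpace
  -- sections
  have hS : ∀ z : M₁, ∃ S : C(C₁, M₁), S ⟨R (e₁ z), hRC _⟩ = z ∧ ∀ a, p (S a) = p a.1 := by
    intro z
    have hpc : Continuous (fun a : C₁ => p a.1) :=
      (hq.comp he₁).comp continuous_subtype_val
    obtain ⟨S, ⟨h0, h1⟩, -⟩ := hcov.existsUnique_continuousMap_lifts (A := C₁)
      ⟨fun a => p a.1, hpc⟩ ⟨R (e₁ z), hRC _⟩ z (hRq (e₁ z)).symm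
    exact ⟨S, h0, fun a => congrFun h1 a⟩
  choose S hS0 hSp using hS
  -- Fact 1
  have fact1 : ∀ (z : M₁) (a : C₁), R (e₁ (S z a)) = a.1 := by
    intro z a
    have h1 : (fun a : C₁ => R (e₁ (S z a))) = fun a : C₁ => a.1 :=
      hcov.eq_of_comp_eq (R.continuous.comp (he₁.comp (S z).continuous)) continuous_subtype_val
        (by
          funext a
          show q (e₁ (R (e₁ (S z a)))) = q (e₁ a.1)
          rw [hRq]; exact hSp z a) ⟨R (e₁ z), hRC _⟩ (by simp [hS0])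
    exact congrFun h1 a
  -- Fact 2
  have fact2 : ∀ (z w : M₁), w ∈ connectedComponent z → S z ⟨R (e₁ w), hRC _⟩ = w := by
    intro z w hw
    have h1 : EqOn (fun w : M₁ => S z ⟨R (e₁ w), hRC _⟩) (fun w => w) (connectedComponent z) :=
      hcov.eqOn_of_comp_eqOn (isPreconnected_connectedComponent)
        ((S z).continuous.comp ((R.continuous.comp he₁).subtype_mk _)).continuousOn
        continuousOn_id
        (by
          intro w _
          show p (S z ⟨R (e₁ w), hRC _⟩) = p w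
          rw [hSp]; exact hRq (e₁ w)) mem_connectedComponent (hS0 z)
    exact h1 hw
  -- the section stays in the component
  have hScomp : ∀ (z : M₁) (a : C₁), S z a ∈ connectedComponent z := by
    intro z a
    have h1 : IsPreconnected (range (S z)) := isPreconnected_range (S z).continuous
    exact h1.subset_connectedComponent ⟨_, hS0 z⟩ ⟨a, rfl⟩
  -- Fact 3
  have fact3 : ∀ (z w : M₁), w ∈ connectedComponent z → ∀ a, S w a = S z a := by
    intro z w hw a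
    have h1 : (fun a : C₁ => S w a) = fun a : C₁ => S z a :=
      hcov.eq_of_comp_eq (S w).continuous (S z).continuous
        (by funext a; exact (hSp w a).trans (hSp z a).symm) ⟨R (e₁ w), hRC _⟩
        (by rw [hS0, fact2 z w hw])
    exact congrFun h1 a
  set a₀ : C₁ := ⟨e₁.symm x₀, hbase⟩ with ha₀
  have hr2 : ∀ z ∈ connectedComponent (e₂.symm x₀),
      e₂.symm (e₁ (S (e₁.symm (e₂ z)) a₀)) = z := by
    intro z hz
    have h1 : R (e₂ z) = R x₀ := hRconst _ _ (by simpa only [Equiv.symm_apply_apply] using hz)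
    have h2 : a₀ = ⟨R (e₁ (e₁.symm (e₂ z))), hRC _⟩ := by
      apply Subtype.ext
      simp [ha₀, h1, hR0]
    rw [h2, hS0]
    simp
  refine ⟨R, fun x => e₂.symm (e₁ (S (e₁.symm x) a₀)), R.continuous, hRq, hRC, hRid, ?_, hr2,
    ?_, hRconst, ?_, ?_, hsc⟩
  · intro x
    rw [← hqN]
    have := hSp (e₁.symm x) a₀
    simpa [hp, ha₀] using this
  · intro x y hxy
    show e₂.symm (e₁ (S (e₁.symm x) a₀)) = e₂.symm (e₁ (S (e₁.symm y) a₀))
    rw [fact3 _ _ hxy]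
  · intro x
    simpa only [Equiv.apply_symm_apply, Equiv.symm_apply_apply] using hScomp (e₁.symm x) a₀
  · intro z₁ hz₁ z₂ hz₂
    set y : M₁ := e₁.symm (e₂ z₂) with hy
    refine ⟨e₁ (S y ⟨z₁, hz₁⟩), ⟨fact1 y ⟨z₁, hz₁⟩, ?_⟩, ?_⟩
    · show e₂.symm (e₁ (S (e₁.symm (e₁ (S y ⟨z₁, hz₁⟩))) a₀)) = z₂
      rw [e₁.symm_apply_apply, fact3 _ _ (hScomp y _)]
      exact hr2 z₂ hz₂
    · rintro x' ⟨h1, h2⟩
      have h3 : e₁ (S (e₁.symm x') a₀) = e₂ z₂ := by
        rw [← h2]; simp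
      have h4 : y ∈ connectedComponent (e₁.symm x') := by
        have := hScomp (e₁.symm x') a₀
        rw [hy, ← h3]; simpa using this
      have h5 := hS0 (e₁.symm x')
      have h6 : (⟨R (e₁ (e₁.symm x')), hRC _⟩ : C₁) = ⟨z₁, hz₁⟩ := by
        apply Subtype.ext
        simp [h1]
      rw [h6] at h5
      rw [fact3 _ _ h4, h5]
      simp

end Vale.Agent.P278
end
end

section

section

open Set Topology Filter
open scoped Manifold ContDiff

set_option linter.unusedSectionVars false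

namespace Vale.Agent.P278

variable {M A B : Type*} [TopologicalSpace M] [NormedAddCommGroup A] [NormedSpace ℂ A]
  [NormedAddCommGroup B] [NormedSpace ℂ B]

/-- An atlas of product charts, for two transverse foliations. -/
class BoxAtlas (𝒜 : Set (OpenPartialHomeomorph M (A × B))) : Prop extends AnaFolAtlas 𝒜 where
  trans' : ∀ φ ∈ 𝒜, ∀ ψ ∈ 𝒜, ∀ x ∈ φ.source, x ∈ ψ.source →
    ∀ᶠ y in 𝓝 x, (φ y).1 = (φ x).1 → (ψ y).1 = (ψ x).1
  box : ∀ φ ∈ 𝒜, ∃ (U : Set A) (V : Set B), IsPreconnected U ∧ IsPreconnected V ∧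
    φ.target = U ×ˢ V

/-- The atlas with the two factors exchanged. -/
def swapAtlas (𝒜 : Set (OpenPartialHomeomorph M (A × B))) :
    Set (OpenPartialHomeomorph M (B × A)) :=
  {ψ | ∃ φ ∈ 𝒜, ψ = φ.transHomeomorph (Homeomorph.prodComm A B)}

section swap
variable {φ : OpenPartialHomeomorph M (A × B)}

theorem mem_swap_target (φ : OpenPartialHomeomorph M (A × B)) (p : B × A) :
    p ∈ (φ.transHomeomorph (Homeomorph.prodComm A B)).target ↔ (p.2, p.1) ∈ φ.target := Iff.rfl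

end swap

instance (𝒜 : Set (OpenPartialHomeomorph M (A × B))) [h𝒜 : BoxAtlas 𝒜] :
    BoxAtlas (swapAtlas 𝒜) where
  cover x := by
    obtain ⟨φ, hφ, hx⟩ := FolAtlas.cover (𝒜 := 𝒜) x
    exact ⟨_, ⟨φ, hφ, rfl⟩, hx⟩
  trans := by
    rintro _ ⟨φ, hφ, rfl⟩ _ ⟨ψ, hψ, rfl⟩ x hx hx'
    exact h𝒜.trans' φ hφ ψ hψ x hx hx'
  trans' := by
    rintro _ ⟨φ, hφ, rfl⟩ _ ⟨ψ, hψ, rfl⟩ x hx hx'
    exact FolAtlas.trans φ hφ ψ hψ x hx hx'
  ana := by
    rintro _ ⟨φ, hφ, rfl⟩ _ ⟨ψ, hψ, rfl⟩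
    have h := AnaFolAtlas.ana φ hφ ψ hψ
    have h2 : ContDiff ℂ ω (fun p : B × A => (p.2, p.1)) := contDiff_snd.prodMk contDiff_fst
    have h3 : ContDiff ℂ ω (fun p : A × B => (p.2, p.1)) := contDiff_snd.prodMk contDiff_fst
    have h4 := h3.comp_contDiffOn (h.comp (s := (fun p : B × A => (p.2, p.1)) ⁻¹'
      (φ.symm ≫ₕ ψ).source) h2.contDiffOn (fun a ha => ha))
    refine (h4.mono ?_).congr ?_
    · rintro p hp
      exact hp
    · rintro p -
      rfl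
  box := by
    rintro _ ⟨φ, hφ, rfl⟩
    obtain ⟨U, V, hU, hV, h⟩ := h𝒜.box φ hφ
    refine ⟨V, U, hV, hU, ?_⟩
    ext p
    rw [mem_swap_target, h]
    simp only [mem_prod]
    tauto

section
variable (𝒜 : Set (OpenPartialHomeomorph M (A × B)))

/-- Two points are related if they lie on the same leaf of the second foliation. -/
def leafRel : Setoid M :=
  (connectedComponentSetoid (Leaf (swapAtlas 𝒜))).comap (Leaf.toM (swapAtlas 𝒜)).symm

/-- The space of leaves of the second foliation. -/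
def LeafSpace : Type _ := Quotient (leafRel 𝒜)

instance : TopologicalSpace (LeafSpace 𝒜) :=
  inferInstanceAs (TopologicalSpace (Quotient (leafRel 𝒜)))

/-- The projection to the space of leaves. -/
def toLeafSpace : M → LeafSpace 𝒜 := Quotient.mk (leafRel 𝒜)

theorem toLeafSpace_eq_iff {x y : M} : toLeafSpace 𝒜 x = toLeafSpace 𝒜 y ↔
    (Leaf.toM (swapAtlas 𝒜)).symm x ∈ connectedComponent ((Leaf.toM (swapAtlas 𝒜)).symm y) := by
  have : toLeafSpace 𝒜 x = toLeafSpace 𝒜 y ↔ leafRel 𝒜 x y := Quotient.eq (r := leafRel 𝒜)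
  have h2 : leafRel 𝒜 x y ↔ connectedComponent ((Leaf.toM (swapAtlas 𝒜)).symm x) =
      connectedComponent ((Leaf.toM (swapAtlas 𝒜)).symm y) := Iff.rfl
  rw [this, h2]
  constructor
  · intro h
    rw [← h]; exact mem_connectedComponent
  · intro h
    exact (connectedComponent_eq h).symm

variable {𝒜} [h𝒜 : BoxAtlas 𝒜]

theorem box_mem {φ : OpenPartialHomeomorph M (A × B)} (hφ : φ ∈ 𝒜) {a a' : A} {b b' : B}
    (h : (a, b) ∈ φ.target) (h' : (a', b') ∈ φ.target) : (a, b') ∈ φ.target := by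
  obtain ⟨U, V, hU, hV, e⟩ := h𝒜.box φ hφ
  rw [e] at h h' ⊢
  exact ⟨h.1, h'.2⟩

theorem toLeafSpace_box {φ : OpenPartialHomeomorph M (A × B)} (hφ : φ ∈ 𝒜) {a : A} {b b' : B}
    (h : (a, b) ∈ φ.target) (h' : (a, b') ∈ φ.target) :
    toLeafSpace 𝒜 (φ.symm (a, b)) = toLeafSpace 𝒜 (φ.symm (a, b')) := by
  rw [toLeafSpace_eq_iff]
  obtain ⟨U, V, hU, hV, e⟩ := h𝒜.box φ hφ
  rw [e] at h h'
  have hc := Leaf.continuousOn_param (𝒜 := swapAtlas 𝒜)
    (φ := φ.transHomeomorph (Homeomorph.prodComm A B)) ⟨φ, hφ, rfl⟩ a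
  have hV' : V ⊆ {b | (b, a) ∈ (φ.transHomeomorph (Homeomorph.prodComm A B)).target} := by
    intro b hb
    show (a, b) ∈ φ.target
    rw [e]; exact ⟨h.1, hb⟩
  have hp := hV.image _ (hc.mono hV')
  exact hp.subset_connectedComponent ⟨b', h'.2, rfl⟩ ⟨b, h.2, rfl⟩

/-- A locally constant function in the leaf direction of the second foliation is constant on the
classes. -/
theorem eq_of_toLeafSpace_eq {α : Type*} (g : M → α)
    (hg : ∀ φ ∈ 𝒜, ∀ a b b', (a, b) ∈ φ.target → (a, b') ∈ φ.target →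
      g (φ.symm (a, b)) = g (φ.symm (a, b'))) {x y : M}
    (h : toLeafSpace 𝒜 x = toLeafSpace 𝒜 y) : g x = g y := by
  rw [toLeafSpace_eq_iff] at h
  set e := Leaf.toM (swapAtlas 𝒜) with he
  let S : Set (Leaf (swapAtlas 𝒜)) := {z | g (e z) = g y}
  have hloc : ∀ z : Leaf (swapAtlas 𝒜), ∃ W : Set (Leaf (swapAtlas 𝒜)), IsOpen W ∧ z ∈ W ∧
      ∀ w ∈ W, g (e w) = g (e z) := by
    intro z
    obtain ⟨φ, hφ, hz⟩ := FolAtlas.cover (𝒜 := 𝒜) (e z)
    have hφ' : φ.transHomeomorph (Homeomorph.prodComm A B) ∈ swapAtlas 𝒜 := ⟨φ, hφ, rfl⟩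
    refine ⟨(Leaf.plaque _ hφ' (φ (e z)).1).source, (Leaf.plaque _ hφ' _).open_source,
      ⟨hz, rfl⟩, ?_⟩
    rintro w ⟨h1, h2⟩
    have h2' : (φ (e w)).1 = (φ (e z)).1 := h2
    have h1' : e w ∈ φ.source := h1
    have k1 : φ.symm ((φ (e z)).1, (φ (e w)).2) = e w := by
      rw [← h2']; exact φ.left_inv h1'
    have k2 : φ.symm ((φ (e z)).1, (φ (e z)).2) = e z := φ.left_inv hz
    have m1 : ((φ (e z)).1, (φ (e w)).2) ∈ φ.target := by
      rw [← h2']; exact φ.map_source h1'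
    have m2 : ((φ (e z)).1, (φ (e z)).2) ∈ φ.target := φ.map_source hz
    calc g (e w) = g (φ.symm ((φ (e z)).1, (φ (e w)).2)) := by rw [k1]
      _ = g (φ.symm ((φ (e z)).1, (φ (e z)).2)) := hg φ hφ _ _ _ m1 m2
      _ = g (e z) := by rw [k2]
  have hclopen : IsClopen S := by
    constructor
    · rw [← isOpen_compl_iff, isOpen_iff_forall_mem_open]
      intro z hz
      obtain ⟨W, hW, hzW, h3⟩ := hloc z
      refine ⟨W, fun w hw hwS => hz ?_, hW, hzW⟩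
      show g (e z) = g y
      rw [← h3 w hw]; exact hwS
    · rw [isOpen_iff_forall_mem_open]
      intro z hz
      obtain ⟨W, hW, hzW, h3⟩ := hloc z
      refine ⟨W, fun w hw => ?_, hW, hzW⟩
      show g (e w) = g y
      rw [h3 w hw]; exact hz
  have := hclopen.connectedComponent_subset (x := e.symm y) (by simp [S]) h
  simpa [S] using this

/-- A relation compatible with small displacements along the leaves of the second foliation holds
on the classes. -/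
theorem rel_of_toLeafSpace_eq (T : M → M → Prop) (hrefl : ∀ x, T x x)
    (htrans : ∀ x y z, T x y → T y z → T x z)
    (hloc : ∀ x : M, ∃ φ ∈ 𝒜, x ∈ φ.source ∧ ∀ᶠ b in 𝓝 (φ x).2,
      T x (φ.symm ((φ x).1, b)) ∧ T (φ.symm ((φ x).1, b)) x) {x y : M}
    (h : toLeafSpace 𝒜 x = toLeafSpace 𝒜 y) : T x y := by
  rw [toLeafSpace_eq_iff] at h
  set e := Leaf.toM (swapAtlas 𝒜) with he
  let S : Set (Leaf (swapAtlas 𝒜)) := {z | T (e z) y}
  have hloc' : ∀ z : Leaf (swapAtlas 𝒜), ∃ W : Set (Leaf (swapAtlas 𝒜)), IsOpen W ∧ z ∈ W ∧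
      ∀ w ∈ W, T (e z) (e w) ∧ T (e w) (e z) := by
    intro z
    obtain ⟨φ, hφ, hz, hT⟩ := hloc (e z)
    have hφ' : φ.transHomeomorph (Homeomorph.prodComm A B) ∈ swapAtlas 𝒜 := ⟨φ, hφ, rfl⟩
    obtain ⟨V, hVT, hVo, hV⟩ := eventually_nhds_iff.1 hT
    refine ⟨{w | e w ∈ φ.source ∧ (φ (e w)).1 = (φ (e z)).1 ∧ (φ (e w)).2 ∈ V},
      Leaf.isOpen_plaque hφ' (φ (e z)).1 hVo, ⟨hz, rfl, hV⟩, ?_⟩
    rintro w ⟨h1, h2, h3⟩
    have k1 : φ.symm ((φ (e z)).1, (φ (e w)).2) = e w := by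
      rw [← h2]; exact φ.left_inv h1
    have := hVT _ h3
    rwa [k1] at this
  have hclopen : IsClopen S := by
    constructor
    · rw [← isOpen_compl_iff, isOpen_iff_forall_mem_open]
      intro z hz
      obtain ⟨W, hW, hzW, h3⟩ := hloc' z
      exact ⟨W, fun w hw hwS => hz (htrans _ _ _ (h3 w hw).1 hwS), hW, hzW⟩
    · rw [isOpen_iff_forall_mem_open]
      intro z hz
      obtain ⟨W, hW, hzW, h3⟩ := hloc' z
      exact ⟨W, fun w hw => htrans _ _ _ (h3 w hw).2 hz, hW, hzW⟩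
  have := hclopen.connectedComponent_subset (x := e.symm y)
    (show T (e (e.symm y)) y by rw [e.apply_symm_apply]; exact hrefl y) h
  simpa [S] using this

end

end Vale.Agent.P278
end
end

section

section

open Set Topology Filter
open scoped Manifold ContDiff

set_option linter.unusedSectionVars false

namespace Vale.Agent.P278

variable {M A B E : Type*} [TopologicalSpace M] [NormedAddCommGroup A] [NormedSpace ℂ A]
  [NormedAddCommGroup B] [NormedSpace ℂ B] [NormedAddCommGroup E] [NormedSpace ℂ E]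
  [ChartedSpace E M]

/-- All the charts of the atlas are analytic for the manifold structure of `M`. -/
class AnaCompat (𝒜 : Set (OpenPartialHomeomorph M (A × B))) : Prop where
  toFun : ∀ φ ∈ 𝒜, ContMDiffOn 𝓘(ℂ, E) 𝓘(ℂ, A × B) ω φ φ.source
  invFun : ∀ φ ∈ 𝒜, ContMDiffOn 𝓘(ℂ, A × B) 𝓘(ℂ, E) ω φ.symm φ.target

section
variable {𝒜 : Set (OpenPartialHomeomorph M (A × B))} [h𝒜 : BoxAtlas 𝒜]

/-- Plaque charts, as partial diffeomorphisms. -/
def plaqueDiffeo {φ : OpenPartialHomeomorph M (A × B)} (hφ : φ ∈ 𝒜) (b : B) :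
    PartialDiffeomorph 𝓘(ℂ, A) 𝓘(ℂ, A) (Leaf 𝒜) A ω where
  toPartialEquiv := (Leaf.plaque φ hφ b).toPartialEquiv
  open_source := (Leaf.plaque φ hφ b).open_source
  open_target := (Leaf.plaque φ hφ b).open_target
  contMDiffOn_toFun := contMDiffOn_of_mem_maximalAtlas
    (IsManifold.subset_maximalAtlas ⟨φ, hφ, b, rfl⟩)
  contMDiffOn_invFun := contMDiffOn_symm_of_mem_maximalAtlas
    (IsManifold.subset_maximalAtlas ⟨φ, hφ, b, rfl⟩)

theorem contMDiffOn_plaque {φ : OpenPartialHomeomorph M (A × B)} (hφ : φ ∈ 𝒜) (b : B) :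
    ContMDiffOn 𝓘(ℂ, A) 𝓘(ℂ, A) ω (fun z : Leaf 𝒜 => (φ (Leaf.toM 𝒜 z)).1)
      (Leaf.plaque φ hφ b).source :=
  (plaqueDiffeo hφ b).contMDiffOn_toFun

theorem contMDiffOn_plaque_symm {φ : OpenPartialHomeomorph M (A × B)} (hφ : φ ∈ 𝒜) (b : B) :
    ContMDiffOn 𝓘(ℂ, A) 𝓘(ℂ, A) ω
      (fun a : A => ((Leaf.toM 𝒜).symm (φ.symm (a, b)) : Leaf 𝒜)) {a | (a, b) ∈ φ.target} :=
  (plaqueDiffeo hφ b).contMDiffOn_invFun

/-- The identity map from the leaf space to `M` is analytic. -/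
theorem contMDiff_toM [hA : AnaCompat (E := E) 𝒜] :
    ContMDiff 𝓘(ℂ, A) 𝓘(ℂ, E) ω (Leaf.toM 𝒜) := by
  intro z
  obtain ⟨φ, hφ, hz⟩ := FolAtlas.cover (𝒜 := 𝒜) (Leaf.toM 𝒜 z)
  set b : B := (φ (Leaf.toM 𝒜 z)).2 with hb
  have hmem : z ∈ (Leaf.plaque φ hφ b).source := ⟨hz, rfl⟩
  have ho := (Leaf.plaque φ hφ b).open_source
  have h1 : (fun z' : Leaf 𝒜 => φ.symm ((φ (Leaf.toM 𝒜 z')).1, b)) =ᶠ[𝓝 z] Leaf.toM 𝒜 := by
    filter_upwards [ho.mem_nhds hmem] with z' hz'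
    have := (Leaf.plaque φ hφ b).left_inv hz'
    have h3 := congrArg (Leaf.toM 𝒜) this
    simpa using h3
  refine ContMDiffAt.congr_of_eventuallyEq ?_ h1.symm
  have h2 : ContMDiffAt 𝓘(ℂ, A) 𝓘(ℂ, A) ω (fun z : Leaf 𝒜 => (φ (Leaf.toM 𝒜 z)).1) z :=
    (contMDiffOn_plaque hφ b).contMDiffAt (ho.mem_nhds hmem)
  have h3 : ContMDiffAt 𝓘(ℂ, A) 𝓘(ℂ, A × B) ω (fun a : A => ((a, b) : A × B))
      (φ (Leaf.toM 𝒜 z)).1 := (contDiff_prodMk_left b).contMDiff.contMDiffAt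
  have h4 : ContMDiffAt 𝓘(ℂ, A × B) 𝓘(ℂ, E) ω φ.symm ((φ (Leaf.toM 𝒜 z)).1, b) :=
    (hA.invFun φ hφ).contMDiffAt (φ.open_target.mem_nhds (φ.map_source hz))
  exact ContMDiffAt.comp (x := z) (g := φ.symm)
    (f := fun z' : Leaf 𝒜 => ((φ (Leaf.toM 𝒜 z')).1, b)) h4 (ContMDiffAt.comp (x := z)
    (g := fun a : A => ((a, b) : A × B)) h3 h2)

/-- A property invariant along the plaques of the first foliation is invariant along the leaves. -/
theorem leaf_induction (P : M → Prop)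
    (h : ∀ φ ∈ 𝒜, ∀ a a' b, (a, b) ∈ φ.target → (a', b) ∈ φ.target →
      P (φ.symm (a, b)) → P (φ.symm (a', b))) {x y : Leaf 𝒜} (hxy : x ∈ connectedComponent y)
    (hy : P (Leaf.toM 𝒜 y)) : P (Leaf.toM 𝒜 x) := by
  have hloc : ∀ z : Leaf 𝒜, ∃ V : Set (Leaf 𝒜), IsOpen V ∧ z ∈ V ∧
      ∀ w ∈ V, (P (Leaf.toM 𝒜 w) ↔ P (Leaf.toM 𝒜 z)) := by
    intro z
    obtain ⟨φ, hφ, hz⟩ := FolAtlas.cover (𝒜 := 𝒜) (Leaf.toM 𝒜 z)
    refine ⟨(Leaf.plaque φ hφ (φ (Leaf.toM 𝒜 z)).2).source,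
      (Leaf.plaque φ hφ _).open_source, ⟨hz, rfl⟩, ?_⟩
    rintro w ⟨h1, h2⟩
    have k1 : φ.symm ((φ (Leaf.toM 𝒜 w)).1, (φ (Leaf.toM 𝒜 z)).2) = Leaf.toM 𝒜 w := by
      rw [← h2]; exact φ.left_inv h1
    have k2 : φ.symm ((φ (Leaf.toM 𝒜 z)).1, (φ (Leaf.toM 𝒜 z)).2) = Leaf.toM 𝒜 z :=
      φ.left_inv hz
    have m1 : ((φ (Leaf.toM 𝒜 w)).1, (φ (Leaf.toM 𝒜 z)).2) ∈ φ.target := by
      rw [← h2]; exact φ.map_source h1
    have m2 : ((φ (Leaf.toM 𝒜 z)).1, (φ (Leaf.toM 𝒜 z)).2) ∈ φ.target := φ.map_source hz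
    have a1 := h φ hφ _ _ _ m1 m2
    have a2 := h φ hφ _ _ _ m2 m1
    rw [k1, k2] at a1
    rw [k1, k2] at a2
    exact ⟨a1, a2⟩
  have hclopen : IsClopen {z : Leaf 𝒜 | P (Leaf.toM 𝒜 z)} := by
    constructor
    · rw [← isOpen_compl_iff, isOpen_iff_forall_mem_open]
      intro z hz
      obtain ⟨V, hV, hzV, h3⟩ := hloc z
      exact ⟨V, fun w hw hwS => hz ((h3 w hw).1 hwS), hV, hzV⟩
    · rw [isOpen_iff_forall_mem_open]
      intro z hz
      obtain ⟨V, hV, hzV, h3⟩ := hloc z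
      exact ⟨V, fun w hw => (h3 w hw).2 hz, hV, hzV⟩
  exact hclopen.connectedComponent_subset (x := y) hy hxy

end

/-- Being analytic for a map into an open submanifold. -/
theorem contMDiffAt_opens_iff {E' H' Z : Type*} [NormedAddCommGroup E'] [NormedSpace ℂ E']
    [TopologicalSpace H'] {I' : ModelWithCorners ℂ E' H'} [TopologicalSpace Z] [ChartedSpace H' Z]
    {E'' H'' Z' : Type*} [NormedAddCommGroup E''] [NormedSpace ℂ E'']
    [TopologicalSpace H''] {I'' : ModelWithCorners ℂ E'' H''} [TopologicalSpace Z']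
    [ChartedSpace H'' Z'] (U : TopologicalSpace.Opens Z') (f : Z → U) (x : Z) :
    ContMDiffAt I' I'' ω (fun z => (f z : Z')) x ↔ ContMDiffAt I' I'' ω f x := by
  rw [ContMDiffAt, ContMDiffAt]
  exact ChartedSpace.liftPropWithinAt_subtypeVal_comp_iff ..

end Vale.Agent.P278
end
end

section

section

open Set Topology Filter TopologicalSpace
open scoped Manifold ContDiff

set_option linter.unusedSectionVars false

namespace Vale.Agent.P278

section congr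
variable {E₁ E₂ H₁ H₂ M₁ M₂ : Type*} [NormedAddCommGroup E₁] [NormedSpace ℂ E₁]
  [NormedAddCommGroup E₂] [NormedSpace ℂ E₂] [TopologicalSpace H₁] [TopologicalSpace H₂]
  {I : ModelWithCorners ℂ E₁ H₁} {J : ModelWithCorners ℂ E₂ H₂}
  [TopologicalSpace M₁] [ChartedSpace H₁ M₁] [TopologicalSpace M₂] [ChartedSpace H₂ M₂]

theorem isLocalDiffeomorphAt_congr {f g : M₁ → M₂} {x : M₁}
    (hf : IsLocalDiffeomorphAt I J ω f x) (h : g =ᶠ[𝓝 x] f) : IsLocalDiffeomorphAt I J ω g x := by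
  obtain ⟨Φ, hx, heq⟩ := hf
  obtain ⟨U, hU, hUo, hxU⟩ := eventually_nhds_iff.1 h
  refine ⟨{ toPartialEquiv := (Φ.toOpenPartialHomeomorph.restrOpen U hUo).toPartialEquiv
            open_source := (Φ.toOpenPartialHomeomorph.restrOpen U hUo).open_source
            open_target := (Φ.toOpenPartialHomeomorph.restrOpen U hUo).open_target
            contMDiffOn_toFun := ?_
            contMDiffOn_invFun := ?_ }, ⟨hx, hxU⟩, ?_⟩
  · exact Φ.contMDiffOn_toFun.mono (fun y hy => hy.1)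
  · exact Φ.contMDiffOn_invFun.mono (fun y hy => hy.1)
  · intro y hy
    exact (hU y hy.2).trans (heq hy.1)

end congr

variable {M A B E W : Type*} [TopologicalSpace M] [NormedAddCommGroup A] [NormedSpace ℂ A]
  [NormedAddCommGroup B] [NormedSpace ℂ B] [NormedAddCommGroup E] [NormedSpace ℂ E]
  [ChartedSpace E M] [NormedAddCommGroup W] [NormedSpace ℂ W]

/-- Points of the same plaque are in the same leaf. -/
theorem mem_connectedComponent_of_plaque {𝒜 : Set (OpenPartialHomeomorph M (A × B))}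
    [h𝒜 : BoxAtlas 𝒜] {φ : OpenPartialHomeomorph M (A × B)} (hφ : φ ∈ 𝒜) {a a' : A} {b : B}
    (h : (a, b) ∈ φ.target) (h' : (a', b) ∈ φ.target) :
    (Leaf.toM 𝒜).symm (φ.symm (a, b)) ∈
      connectedComponent ((Leaf.toM 𝒜).symm (φ.symm (a', b))) := by
  obtain ⟨U, V, hU, hV, e⟩ := h𝒜.box φ hφ
  rw [e] at h h'
  have hc := Leaf.continuousOn_param (𝒜 := 𝒜) hφ b
  have hU' : U ⊆ {a | (a, b) ∈ φ.target} := by
    intro a ha
    show (a, b) ∈ φ.target
    rw [e]; exact ⟨ha, h.2⟩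
  have hp := hU.image _ (hc.mono hU')
  exact hp.subset_connectedComponent ⟨a', h'.1, rfl⟩ ⟨a, h.1, rfl⟩

set_option maxHeartbeats 1000000 in
/-- The product decomposition, given that the leaf topology covers a space of leaves. -/
theorem exists_product_of_cover_gen [T2Space M] [SimplyConnectedSpace M]
    [LocallyPathConnectedSpace M] [IsManifold 𝓘(ℂ, E) ω M]
    {𝒜 : Set (OpenPartialHomeomorph M (A × B))} [h𝒜 : BoxAtlas 𝒜] [hA : AnaCompat (E := E) 𝒜]
    {N : Type*} [TopologicalSpace N] (q : M → N) (hq : Continuous q)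
    (hcov : IsCoveringMap (fun z : Leaf 𝒜 => q (Leaf.toM 𝒜 z)))
    (hqN : ∀ x y : M, q x = q y ↔ (Leaf.toM (swapAtlas 𝒜)).symm x ∈
      connectedComponent ((Leaf.toM (swapAtlas 𝒜)).symm y))
    (hana : ∀ r₁ : M → Leaf 𝒜, Continuous r₁ → (∀ x, q (Leaf.toM 𝒜 (r₁ x)) = q x) →
      ContMDiff 𝓘(ℂ, E) 𝓘(ℂ, A) ω r₁ ∧ ∀ z : Leaf 𝒜, IsLocalDiffeomorphAt 𝓘(ℂ, A) 𝓘(ℂ, A) ω
        (fun z : Leaf 𝒜 => r₁ (Leaf.toM 𝒜 z)) z) :
    ∃ (C₁ : Opens (Leaf 𝒜)) (C₂ : Opens (Leaf (swapAtlas 𝒜)))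
      (Φ : Diffeomorph 𝓘(ℂ, E) (𝓘(ℂ, A).prod 𝓘(ℂ, B)) M (C₁ × C₂) ω),
      SimplyConnectedSpace C₁ ∧ SimplyConnectedSpace C₂ ∧
      (∀ φ ∈ 𝒜, ∀ x ∈ φ.source, ∀ v : TangentSpace 𝓘(ℂ, E) x,
        (mfderiv 𝓘(ℂ, E) 𝓘(ℂ, A) (fun y => (Φ y).1) x v = 0 ↔
          mfderiv 𝓘(ℂ, E) 𝓘(ℂ, A) (fun y => (φ y).1) x v = 0)) ∧
      (∀ φ ∈ 𝒜, ∀ x ∈ φ.source, ∀ v : TangentSpace 𝓘(ℂ, E) x,
        (mfderiv 𝓘(ℂ, E) 𝓘(ℂ, B) (fun y => (Φ y).2) x v = 0 ↔
          mfderiv 𝓘(ℂ, E) 𝓘(ℂ, B) (fun y => (φ y).2) x v = 0)) := by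
  classical
  obtain ⟨x₀⟩ : Nonempty M := inferInstance
  obtain ⟨r₁, r₂, hr₁c, hr₁q, hr₁C, hr₁id, hr₂C, hr₂id, hr₂const, hr₁const, hr₂comp, hbij, hsc⟩ :=
    exists_leaf_projections (Leaf.toM 𝒜) Leaf.continuous_toM (Leaf.toM (swapAtlas 𝒜))
      Leaf.continuous_toM q hq hcov hqN x₀
  set e₁ := Leaf.toM 𝒜 with he₁
  set e₂ := Leaf.toM (swapAtlas 𝒜) with he₂
  have hA2 : AnaCompat (E := E) (swapAtlas 𝒜) := by
    constructor
    · rintro _ ⟨φ, hφ, rfl⟩
      have h3 : ContDiff ℂ ω (fun p : A × B => (p.2, p.1)) := contDiff_snd.prodMk contDiff_fst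
      exact h3.contMDiff.comp_contMDiffOn (hA.toFun φ hφ)
    · rintro _ ⟨φ, hφ, rfl⟩
      have h3 : ContDiff ℂ ω (fun p : B × A => (p.2, p.1)) := contDiff_snd.prodMk contDiff_fst
      exact (hA.invFun φ hφ).comp h3.contMDiff.contMDiffOn (fun p hp => hp)
  have hr₁c' : ∀ x y, q x = q y → r₁ x = r₁ y := fun x y h =>
    hr₁const x y ((hqN x y).1 h)
  obtain ⟨hr₁ana, hLD₁⟩ := hana r₁ hr₁c hr₁q
  have hq_box : ∀ φ ∈ 𝒜, ∀ a b b', (a, b) ∈ φ.target → (a, b') ∈ φ.target →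
      q (φ.symm (a, b)) = q (φ.symm (a, b')) := by
    intro φ hφ a b b' h h'
    rw [hqN]
    exact mem_connectedComponent_of_plaque (𝒜 := swapAtlas 𝒜)
      (φ := φ.transHomeomorph (Homeomorph.prodComm A B)) ⟨φ, hφ, rfl⟩ (a := b) (a' := b') (b := a)
      h h'
  -- constancy of `r₂` on plaques
  have hr₂pl : ∀ φ ∈ 𝒜, ∀ a a' b, (a, b) ∈ φ.target → (a', b) ∈ φ.target →
      r₂ (φ.symm (a, b)) = r₂ (φ.symm (a', b)) := fun φ hφ a a' b h h' =>
    hr₂const _ _ (mem_connectedComponent_of_plaque hφ h h')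
  have hr₁pl : ∀ φ ∈ 𝒜, ∀ a b b', (a, b) ∈ φ.target → (a, b') ∈ φ.target →
      r₁ (φ.symm (a, b)) = r₁ (φ.symm (a, b')) := fun φ hφ a b b' h h' =>
    hr₁c' _ _ (hq_box φ hφ _ _ _ h h')
  have hopen1 : IsOpen (connectedComponent (e₁.symm x₀)) := by
    rw [← pathComponent_eq_connectedComponent]
    exact IsOpen.pathComponent _
  have hopen2 : IsOpen (connectedComponent (e₂.symm x₀)) := by
    rw [← pathComponent_eq_connectedComponent]
    exact IsOpen.pathComponent _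
  -- `f₂` is a local diffeomorphism
  have hLD₂ : ∀ x : M,
      IsLocalDiffeomorphAt 𝓘(ℂ, B) 𝓘(ℂ, B) ω (fun z : Leaf (swapAtlas 𝒜) => r₂ (e₂ z))
        (e₂.symm x) := by
    intro x
    have key : ∀ φ ∈ 𝒜, ∀ a a' b, (a, b) ∈ φ.target → (a', b) ∈ φ.target →
        IsLocalDiffeomorphAt 𝓘(ℂ, B) 𝓘(ℂ, B) ω (fun z : Leaf (swapAtlas 𝒜) => r₂ (e₂ z))
          (e₂.symm (φ.symm (a, b))) →
        IsLocalDiffeomorphAt 𝓘(ℂ, B) 𝓘(ℂ, B) ω (fun z : Leaf (swapAtlas 𝒜) => r₂ (e₂ z))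
          (e₂.symm (φ.symm (a', b))) := by
      intro φ hφ a a' b h h' hLD
      have hφ' : φ.transHomeomorph (Homeomorph.prodComm A B) ∈ swapAtlas 𝒜 := ⟨φ, hφ, rfl⟩
      set P := plaqueDiffeo (𝒜 := swapAtlas 𝒜) hφ' a with hP
      set P' := plaqueDiffeo (𝒜 := swapAtlas 𝒜) hφ' a' with hP'
      have hmem' : e₂.symm (φ.symm (a', b)) ∈ P'.source := by
        refine ⟨φ.map_target h', ?_⟩
        show (φ (φ.symm (a', b))).1 = a'
        rw [φ.right_inv h']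
      have hval' : P' (e₂.symm (φ.symm (a', b))) = b := by
        show (φ (φ.symm (a', b))).2 = b
        rw [φ.right_inv h']
      have h1 : IsLocalDiffeomorphAt 𝓘(ℂ, B) 𝓘(ℂ, B) ω P' (e₂.symm (φ.symm (a', b))) :=
        ⟨P', hmem', fun _ _ => rfl⟩
      have h2 : IsLocalDiffeomorphAt 𝓘(ℂ, B) 𝓘(ℂ, B) ω P.symm b :=
        ⟨P.symm, h, fun _ _ => rfl⟩
      have h3 : IsLocalDiffeomorphAt 𝓘(ℂ, B) 𝓘(ℂ, B) ω
          ((fun z : Leaf (swapAtlas 𝒜) => r₂ (e₂ z)) ∘ P.symm) b := h2.comp _ _ hLD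
      have h4 := h1.comp _ _ (by rw [hval']; exact h3)
      refine isLocalDiffeomorphAt_congr h4 ?_
      filter_upwards [P'.open_source.mem_nhds hmem'] with z hz
      have hz1 : e₂ z ∈ φ.source := hz.1
      have hz2 : (φ (e₂ z)).1 = a' := hz.2
      show r₂ (e₂ z) = r₂ (e₂ (P.symm (P' z)))
      have k1 : e₂ (P.symm (P' z)) = φ.symm (a, (φ (e₂ z)).2) := rfl
      have k2 : φ.symm (a', (φ (e₂ z)).2) = e₂ z := by
        rw [← hz2]; exact φ.left_inv hz1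
      have m2 : (a', (φ (e₂ z)).2) ∈ φ.target := by
        rw [← hz2]; exact φ.map_source hz1
      have m1 : (a, (φ (e₂ z)).2) ∈ φ.target := box_mem hφ h m2
      rw [k1, hr₂pl φ hφ a a' _ m1 m2, k2]
    have hbase : IsLocalDiffeomorphAt 𝓘(ℂ, B) 𝓘(ℂ, B) ω
        (fun z : Leaf (swapAtlas 𝒜) => r₂ (e₂ z)) (e₂.symm (e₂ (r₂ x))) := by
      rw [e₂.symm_apply_apply]
      have hid : IsLocalDiffeomorphAt 𝓘(ℂ, B) 𝓘(ℂ, B) ω (id : Leaf (swapAtlas 𝒜) → _) (r₂ x) :=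
        (Diffeomorph.refl 𝓘(ℂ, B) (Leaf (swapAtlas 𝒜)) ω).isLocalDiffeomorph (r₂ x)
      refine isLocalDiffeomorphAt_congr hid ?_
      filter_upwards [hopen2.mem_nhds (hr₂C x)] with z hz
      exact hr₂id z hz
    have hcomp := hr₂comp x
    have := leaf_induction (𝒜 := 𝒜) (fun x => IsLocalDiffeomorphAt 𝓘(ℂ, B) 𝓘(ℂ, B) ω
      (fun z : Leaf (swapAtlas 𝒜) => r₂ (e₂ z)) (e₂.symm x)) key
      (x := e₁.symm x) (y := e₁.symm (e₂ (r₂ x)))
      (by rw [← connectedComponent_eq hcomp]; exact mem_connectedComponent)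
      (by rw [e₁.apply_symm_apply]; exact hbase)
    rwa [e₁.apply_symm_apply] at this
  -- `r₂` is analytic
  have hr₂ana : ContMDiff 𝓘(ℂ, E) 𝓘(ℂ, B) ω r₂ := by
    intro x
    obtain ⟨φ, hφ, hx⟩ := FolAtlas.cover (𝒜 := 𝒜) x
    have hφ' : φ.transHomeomorph (Homeomorph.prodComm A B) ∈ swapAtlas 𝒜 := ⟨φ, hφ, rfl⟩
    have hxt : ((φ x).1, (φ x).2) ∈ φ.target := φ.map_source hx
    have h1 : ContMDiffAt 𝓘(ℂ, E) 𝓘(ℂ, B) ω (fun x' => (φ x').2) x :=
      (contDiff_snd (𝕜 := ℂ) (E := A) (F := B)).contMDiff.contMDiffAt.comp x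
        ((hA.toFun φ hφ).contMDiffAt (φ.open_source.mem_nhds hx))
    have h2 : ContMDiffAt 𝓘(ℂ, B) 𝓘(ℂ, B) ω
        (fun b : B => (e₂.symm (φ.symm ((φ x).1, b)) : Leaf (swapAtlas 𝒜))) (φ x).2 :=
      (contMDiffOn_plaque_symm (𝒜 := swapAtlas 𝒜) hφ' (φ x).1).contMDiffAt
        ((Leaf.plaque _ hφ' (φ x).1).open_target.mem_nhds hxt)
    have hxx : φ.symm ((φ x).1, (φ x).2) = x := φ.left_inv hx
    have h3 : ContMDiffAt 𝓘(ℂ, B) 𝓘(ℂ, B) ω (fun z : Leaf (swapAtlas 𝒜) => r₂ (e₂ z))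
        (e₂.symm (φ.symm ((φ x).1, (φ x).2))) := by
      rw [hxx]; exact (hLD₂ x).contMDiffAt
    have h4 := ContMDiffAt.comp (x := x)
      (g := fun b : B => r₂ (e₂ (e₂.symm (φ.symm ((φ x).1, b)) : Leaf (swapAtlas 𝒜))))
      (f := fun x' => (φ x').2) (ContMDiffAt.comp (x := (φ x).2)
      (g := fun z : Leaf (swapAtlas 𝒜) => r₂ (e₂ z))
      (f := fun b : B => (e₂.symm (φ.symm ((φ x).1, b)) : Leaf (swapAtlas 𝒜))) h3 h2) h1
    refine h4.congr_of_eventuallyEq ?_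
    filter_upwards [φ.open_source.mem_nhds hx] with x' hx'
    have m2 : ((φ x').1, (φ x').2) ∈ φ.target := φ.map_source hx'
    have m1 : ((φ x).1, (φ x').2) ∈ φ.target := box_mem hφ hxt m2
    have k : φ.symm ((φ x').1, (φ x').2) = x' := φ.left_inv hx'
    show r₂ x' = r₂ (e₂ (e₂.symm (φ.symm ((φ x).1, (φ x').2))))
    rw [e₂.apply_symm_apply, hr₂pl φ hφ _ _ _ m1 m2, k]
  -- the two factors
  let C₁ : Opens (Leaf 𝒜) := ⟨connectedComponent (e₁.symm x₀), hopen1⟩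
  let C₂ : Opens (Leaf (swapAtlas 𝒜)) := ⟨connectedComponent (e₂.symm x₀), hopen2⟩
  let F : M → C₁ × C₂ := fun x => (⟨r₁ x, hr₁C x⟩, ⟨r₂ x, hr₂C x⟩)
  have hFbij : Function.Bijective F := by
    constructor
    · intro x y hxy
      have h1 : r₁ x = r₁ y := congrArg (fun p => (p.1 : Leaf 𝒜)) hxy
      have h2 : r₂ x = r₂ y := congrArg (fun p => (p.2 : Leaf (swapAtlas 𝒜))) hxy
      obtain ⟨z, -, hz⟩ := hbij (r₁ x) (hr₁C x) (r₂ x) (hr₂C x)
      rw [hz x ⟨rfl, rfl⟩, hz y ⟨h1.symm, h2.symm⟩]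
    · rintro ⟨⟨z₁, hz₁⟩, ⟨z₂, hz₂⟩⟩
      obtain ⟨z, ⟨h1, h2⟩, -⟩ := hbij z₁ hz₁ z₂ hz₂
      exact ⟨z, Prod.ext (Subtype.ext h1) (Subtype.ext h2)⟩
  have hF1 : ContMDiff 𝓘(ℂ, E) 𝓘(ℂ, A) ω (fun x => (F x).1) := fun x =>
    (contMDiffAt_opens_iff C₁ (fun x => (F x).1) x).1 (hr₁ana x)
  have hF2 : ContMDiff 𝓘(ℂ, E) 𝓘(ℂ, B) ω (fun x => (F x).2) := fun x =>
    (contMDiffAt_opens_iff C₂ (fun x => (F x).2) x).1 (hr₂ana x)
  have hF : ContMDiff 𝓘(ℂ, E) (𝓘(ℂ, A).prod 𝓘(ℂ, B)) ω F := hF1.prodMk hF2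
  -- local inverses of the coordinates
  have hL₁ : ∀ φ ∈ 𝒜, ∀ x ∈ φ.source, ∃ L : C₁ → A, ContMDiffAt 𝓘(ℂ, A) 𝓘(ℂ, A) ω L (F x).1 ∧
      L (F x).1 = (φ x).1 ∧
      (∀ᶠ w in 𝓝 (F x).1, (L w, (φ x).2) ∈ φ.target ∧ r₁ (φ.symm (L w, (φ x).2)) = w.1) ∧
      ∀ᶠ y in 𝓝 x, (φ y).1 = L (F y).1 := by
    intro φ hφ x hx
    obtain ⟨F₁, hF₁x, hF₁e⟩ := hLD₁ (e₁.symm x)
    have hF₁x' : F₁ (e₁.symm x) = r₁ x := (hF₁e hF₁x).symm
    have htx : r₁ x ∈ F₁.target := by rw [← hF₁x']; exact F₁.map_source hF₁x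
    have hsx : F₁.symm (r₁ x) = e₁.symm x := by rw [← hF₁x']; exact F₁.left_inv hF₁x
    have hcont : ContMDiffAt 𝓘(ℂ, A) 𝓘(ℂ, A) ω F₁.symm (r₁ x) :=
      F₁.contMDiffOn_invFun.contMDiffAt (F₁.open_target.mem_nhds htx)
    have hpx : e₁.symm x ∈ (Leaf.plaque φ hφ (φ x).2).source := ⟨hx, rfl⟩
    have hval : ContMDiffAt 𝓘(ℂ, A) 𝓘(ℂ, A) ω (Subtype.val : C₁ → Leaf 𝒜) (F x).1 :=
      contMDiff_subtype_val.contMDiffAt
    have hc2 : ContMDiffAt 𝓘(ℂ, A) 𝓘(ℂ, A) ω (fun w : C₁ => F₁.symm w.1) (F x).1 :=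
      ContMDiffAt.comp (x := (F x).1) (g := F₁.symm) (f := (Subtype.val : C₁ → Leaf 𝒜)) hcont hval
    have hc3 : ContMDiffAt 𝓘(ℂ, A) 𝓘(ℂ, A) ω (fun z : Leaf 𝒜 => (φ (e₁ z)).1)
        (F₁.symm (F x).1.1) := by
      show ContMDiffAt 𝓘(ℂ, A) 𝓘(ℂ, A) ω (fun z : Leaf 𝒜 => (φ (e₁ z)).1) (F₁.symm (r₁ x))
      rw [hsx]
      exact (contMDiffOn_plaque hφ (φ x).2).contMDiffAt
        ((Leaf.plaque φ hφ (φ x).2).open_source.mem_nhds hpx)
    refine ⟨fun w => (φ (e₁ (F₁.symm w.1))).1, ContMDiffAt.comp (x := (F x).1)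
      (g := fun z : Leaf 𝒜 => (φ (e₁ z)).1) (f := fun w : C₁ => F₁.symm w.1) hc3 hc2, ?_, ?_, ?_⟩
    · show (φ (e₁ (F₁.symm (r₁ x)))).1 = (φ x).1
      rw [hsx, e₁.apply_symm_apply]
    · have e1 : ∀ᶠ w : C₁ in 𝓝 (F x).1, w.1 ∈ F₁.target :=
        continuous_subtype_val.continuousAt.eventually_mem (F₁.open_target.mem_nhds htx)
      have e2 : ∀ᶠ w : C₁ in 𝓝 (F x).1,
          F₁.symm w.1 ∈ (Leaf.plaque φ hφ (φ x).2).source := by
        apply hc2.continuousAt.eventually_mem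
        show _ ∈ 𝓝 (F₁.symm (r₁ x))
        rw [hsx]
        exact (Leaf.plaque φ hφ (φ x).2).open_source.mem_nhds hpx
      filter_upwards [e1, e2] with w hw1 hw2
      have hw2' : (φ (e₁ (F₁.symm w.1))).2 = (φ x).2 := hw2.2
      have hw3 : e₁ (F₁.symm w.1) ∈ φ.source := hw2.1
      constructor
      · rw [← hw2']; exact φ.map_source hw3
      · rw [← hw2']
        rw [show ((φ (e₁ (F₁.symm w.1))).1, (φ (e₁ (F₁.symm w.1))).2) = φ (e₁ (F₁.symm w.1))
          from rfl, φ.left_inv hw3]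
        have h5 : F₁.symm w.1 ∈ F₁.source := F₁.symm.map_source hw1
        have h6 := hF₁e h5
        simp only at h6
        rw [h6]
        exact F₁.right_inv hw1
    · have hxt : ((φ x).1, (φ x).2) ∈ φ.target := φ.map_source hx
      have hxx : φ.symm ((φ x).1, (φ x).2) = x := φ.left_inv hx
      have hcz : ContinuousAt (fun y => (e₁.symm (φ.symm ((φ y).1, (φ x).2)) : Leaf 𝒜)) x := by
        refine ContinuousAt.comp
          (g := fun a => (e₁.symm (φ.symm (a, (φ x).2)) : Leaf 𝒜)) (f := fun y => (φ y).1) ?_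
          (continuousAt_fst.comp (φ.continuousAt hx))
        exact (Leaf.continuousOn_param hφ (φ x).2).continuousAt
          ((Leaf.plaque φ hφ (φ x).2).open_target.mem_nhds hxt)
      have e1 : ∀ᶠ y in 𝓝 x, (e₁.symm (φ.symm ((φ y).1, (φ x).2)) : Leaf 𝒜) ∈ F₁.source := by
        apply hcz.eventually_mem
        rw [hxx]; exact F₁.open_source.mem_nhds hF₁x
      filter_upwards [e1, φ.open_source.mem_nhds hx] with y hy hys
      have m2 : ((φ y).1, (φ y).2) ∈ φ.target := φ.map_source hys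
      have m1 : ((φ y).1, (φ x).2) ∈ φ.target := box_mem hφ m2 hxt
      have k1 : r₁ y = r₁ (φ.symm ((φ y).1, (φ x).2)) := by
        rw [← hr₁pl φ hφ _ _ _ m2 m1]
        congr 1
        exact (φ.left_inv hys).symm
      have k2 : r₁ (e₁ (e₁.symm (φ.symm ((φ y).1, (φ x).2)))) =
          F₁ (e₁.symm (φ.symm ((φ y).1, (φ x).2))) := hF₁e hy
      rw [e₁.apply_symm_apply] at k2
      show (φ y).1 = (φ (e₁ (F₁.symm (r₁ y)))).1
      rw [k1, k2]
      have k3 : F₁.symm (F₁ (e₁.symm (φ.symm ((φ y).1, (φ x).2)))) =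
        e₁.symm (φ.symm ((φ y).1, (φ x).2)) := F₁.left_inv hy
      rw [k3, e₁.apply_symm_apply, φ.right_inv m1]
  have hL₂ : ∀ φ ∈ 𝒜, ∀ x ∈ φ.source, ∃ L : C₂ → B, ContMDiffAt 𝓘(ℂ, B) 𝓘(ℂ, B) ω L (F x).2 ∧
      L (F x).2 = (φ x).2 ∧
      (∀ᶠ w in 𝓝 (F x).2, ((φ x).1, L w) ∈ φ.target ∧ r₂ (φ.symm ((φ x).1, L w)) = w.1) ∧
      ∀ᶠ y in 𝓝 x, (φ y).2 = L (F y).2 := by
    intro φ hφ x hx
    have hφ' : φ.transHomeomorph (Homeomorph.prodComm A B) ∈ swapAtlas 𝒜 := ⟨φ, hφ, rfl⟩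
    obtain ⟨F₁, hF₁x, hF₁e⟩ := hLD₂ x
    have hF₁x' : F₁ (e₂.symm x) = r₂ x := (hF₁e hF₁x).symm
    have htx : r₂ x ∈ F₁.target := by rw [← hF₁x']; exact F₁.map_source hF₁x
    have hsx : F₁.symm (r₂ x) = e₂.symm x := by rw [← hF₁x']; exact F₁.left_inv hF₁x
    have hcont : ContMDiffAt 𝓘(ℂ, B) 𝓘(ℂ, B) ω F₁.symm (r₂ x) :=
      F₁.contMDiffOn_invFun.contMDiffAt (F₁.open_target.mem_nhds htx)
    have hpx : e₂.symm x ∈ (Leaf.plaque _ hφ' (φ x).1).source := ⟨hx, rfl⟩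
    have hval : ContMDiffAt 𝓘(ℂ, B) 𝓘(ℂ, B) ω (Subtype.val : C₂ → Leaf (swapAtlas 𝒜)) (F x).2 :=
      contMDiff_subtype_val.contMDiffAt
    have hc2 : ContMDiffAt 𝓘(ℂ, B) 𝓘(ℂ, B) ω (fun w : C₂ => F₁.symm w.1) (F x).2 :=
      ContMDiffAt.comp (x := (F x).2) (g := F₁.symm)
        (f := (Subtype.val : C₂ → Leaf (swapAtlas 𝒜))) hcont hval
    have hc3 : ContMDiffAt 𝓘(ℂ, B) 𝓘(ℂ, B) ω (fun z : Leaf (swapAtlas 𝒜) => (φ (e₂ z)).2)
        (F₁.symm (F x).2.1) := by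
      show ContMDiffAt 𝓘(ℂ, B) 𝓘(ℂ, B) ω (fun z : Leaf (swapAtlas 𝒜) => (φ (e₂ z)).2)
        (F₁.symm (r₂ x))
      rw [hsx]
      exact (contMDiffOn_plaque (𝒜 := swapAtlas 𝒜) hφ' (φ x).1).contMDiffAt
        ((Leaf.plaque _ hφ' (φ x).1).open_source.mem_nhds hpx)
    refine ⟨fun w => (φ (e₂ (F₁.symm w.1))).2, ContMDiffAt.comp (x := (F x).2)
      (g := fun z : Leaf (swapAtlas 𝒜) => (φ (e₂ z)).2) (f := fun w : C₂ => F₁.symm w.1)
      hc3 hc2, ?_, ?_, ?_⟩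
    · show (φ (e₂ (F₁.symm (r₂ x)))).2 = (φ x).2
      rw [hsx, e₂.apply_symm_apply]
    · have e1 : ∀ᶠ w : C₂ in 𝓝 (F x).2, w.1 ∈ F₁.target :=
        continuous_subtype_val.continuousAt.eventually_mem (F₁.open_target.mem_nhds htx)
      have e2 : ∀ᶠ w : C₂ in 𝓝 (F x).2,
          F₁.symm w.1 ∈ (Leaf.plaque _ hφ' (φ x).1).source := by
        apply hc2.continuousAt.eventually_mem
        show _ ∈ 𝓝 (F₁.symm (r₂ x))
        rw [hsx]
        exact (Leaf.plaque _ hφ' (φ x).1).open_source.mem_nhds hpx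
      filter_upwards [e1, e2] with w hw1 hw2
      have hw2' : (φ (e₂ (F₁.symm w.1))).1 = (φ x).1 := hw2.2
      have hw3 : e₂ (F₁.symm w.1) ∈ φ.source := hw2.1
      constructor
      · rw [← hw2']; exact φ.map_source hw3
      · rw [← hw2']
        rw [show ((φ (e₂ (F₁.symm w.1))).1, (φ (e₂ (F₁.symm w.1))).2) = φ (e₂ (F₁.symm w.1))
          from rfl, φ.left_inv hw3]
        have h5 : F₁.symm w.1 ∈ F₁.source := F₁.symm.map_source hw1
        have h6 := hF₁e h5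
        simp only at h6
        rw [h6]
        exact F₁.right_inv hw1
    · have hxt : ((φ x).1, (φ x).2) ∈ φ.target := φ.map_source hx
      have hxx : φ.symm ((φ x).1, (φ x).2) = x := φ.left_inv hx
      have hcz : ContinuousAt
          (fun y => (e₂.symm (φ.symm ((φ x).1, (φ y).2)) : Leaf (swapAtlas 𝒜))) x := by
        refine ContinuousAt.comp
          (g := fun b => (e₂.symm (φ.symm ((φ x).1, b)) : Leaf (swapAtlas 𝒜)))
          (f := fun y => (φ y).2) ?_ (continuousAt_snd.comp (φ.continuousAt hx))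
        exact (Leaf.continuousOn_param (𝒜 := swapAtlas 𝒜) hφ' (φ x).1).continuousAt
          ((Leaf.plaque _ hφ' (φ x).1).open_target.mem_nhds hxt)
      have e1 : ∀ᶠ y in 𝓝 x,
          (e₂.symm (φ.symm ((φ x).1, (φ y).2)) : Leaf (swapAtlas 𝒜)) ∈ F₁.source := by
        apply hcz.eventually_mem
        rw [hxx]; exact F₁.open_source.mem_nhds hF₁x
      filter_upwards [e1, φ.open_source.mem_nhds hx] with y hy hys
      have m2 : ((φ y).1, (φ y).2) ∈ φ.target := φ.map_source hys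
      have m1 : ((φ x).1, (φ y).2) ∈ φ.target := box_mem hφ hxt m2
      have k1 : r₂ y = r₂ (φ.symm ((φ x).1, (φ y).2)) := by
        rw [← hr₂pl φ hφ _ _ _ m2 m1]
        congr 1
        exact (φ.left_inv hys).symm
      have k2 : r₂ (e₂ (e₂.symm (φ.symm ((φ x).1, (φ y).2)))) =
          F₁ (e₂.symm (φ.symm ((φ x).1, (φ y).2))) := hF₁e hy
      rw [e₂.apply_symm_apply] at k2
      show (φ y).2 = (φ (e₂ (F₁.symm (r₂ y)))).2
      rw [k1, k2]
      have k3 : F₁.symm (F₁ (e₂.symm (φ.symm ((φ x).1, (φ y).2)))) =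
        e₂.symm (φ.symm ((φ x).1, (φ y).2)) := F₁.left_inv hy
      rw [k3, e₂.apply_symm_apply, φ.right_inv m1]
  -- the inverse is analytic
  have hFinv : ContMDiff (𝓘(ℂ, A).prod 𝓘(ℂ, B)) 𝓘(ℂ, E) ω (Equiv.ofBijective F hFbij).symm := by
    intro w
    obtain ⟨x, rfl⟩ := hFbij.2 w
    obtain ⟨φ, hφ, hx⟩ := FolAtlas.cover (𝒜 := 𝒜) x
    have hxt : ((φ x).1, (φ x).2) ∈ φ.target := φ.map_source hx
    obtain ⟨L₁, hL₁a, hL₁x, hL₁e, -⟩ := hL₁ φ hφ x hx
    obtain ⟨L₂, hL₂a, hL₂x, hL₂e, -⟩ := hL₂ φ hφ x hx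
    have g1 : ContMDiffAt (𝓘(ℂ, A).prod 𝓘(ℂ, B)) 𝓘(ℂ, A) ω (fun w : C₁ × C₂ => L₁ w.1) (F x) :=
      ContMDiffAt.comp (x := F x) (g := L₁) (f := fun w : C₁ × C₂ => w.1) hL₁a contMDiffAt_fst
    have g2 : ContMDiffAt (𝓘(ℂ, A).prod 𝓘(ℂ, B)) 𝓘(ℂ, B) ω (fun w : C₁ × C₂ => L₂ w.2) (F x) :=
      ContMDiffAt.comp (x := F x) (g := L₂) (f := fun w : C₁ × C₂ => w.2) hL₂a contMDiffAt_snd
    have g3 : ContMDiffAt (𝓘(ℂ, A).prod 𝓘(ℂ, B)) 𝓘(ℂ, A × B) ω
        (fun w : C₁ × C₂ => (L₁ w.1, L₂ w.2)) (F x) := g1.prodMk_space g2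
    have g4 : ContMDiffAt 𝓘(ℂ, A × B) 𝓘(ℂ, E) ω φ.symm (L₁ (F x).1, L₂ (F x).2) := by
      rw [hL₁x, hL₂x]
      exact (hA.invFun φ hφ).contMDiffAt (φ.open_target.mem_nhds hxt)
    have g5 := ContMDiffAt.comp (x := F x) (g := φ.symm)
      (f := fun w : C₁ × C₂ => (L₁ w.1, L₂ w.2)) g4 g3
    refine g5.congr_of_eventuallyEq ?_
    have e1 := (continuous_fst.tendsto (F x)).eventually hL₁e
    have e2 := (continuous_snd.tendsto (F x)).eventually hL₂e
    filter_upwards [e1, e2] with w hw1 hw2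
    rw [Equiv.symm_apply_eq]
    have mm : (L₁ w.1, L₂ w.2) ∈ φ.target := box_mem hφ hw1.1 hw2.1
    show w = F (φ.symm (L₁ w.1, L₂ w.2))
    refine Prod.ext (Subtype.ext ?_) (Subtype.ext ?_)
    · show w.1.1 = r₁ (φ.symm (L₁ w.1, L₂ w.2))
      rw [hr₁pl φ hφ _ _ _ mm hw1.1, hw1.2]
    · show w.2.1 = r₂ (φ.symm (L₁ w.1, L₂ w.2))
      rw [hr₂pl φ hφ _ _ _ mm hw2.1, hw2.2]
  let Φ : Diffeomorph 𝓘(ℂ, E) (𝓘(ℂ, A).prod 𝓘(ℂ, B)) M (C₁ × C₂) ω :=
    { toEquiv := Equiv.ofBijective F hFbij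
      contMDiff_toFun := hF
      contMDiff_invFun := hFinv }
  have hsc2 : SimplyConnectedSpace C₂ :=
    simplyConnectedSpace_of_retract (A := C₂) (B := M) (fun a => e₂ a.1)
      (fun x => ⟨r₂ x, hr₂C x⟩) (Leaf.continuous_toM.comp continuous_subtype_val)
      (hr₂ana.continuous.subtype_mk _) (fun a => Subtype.ext (hr₂id a.1 a.2))
  refine ⟨C₁, C₂, Φ, hsc, hsc2, ?_, ?_⟩
  · intro φ hφ x hx v
    obtain ⟨L₁, hL₁a, hL₁x, hL₁e, hL₁f⟩ := hL₁ φ hφ x hx
    have hxt : ((φ x).1, (φ x).2) ∈ φ.target := φ.map_source hx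
    have hφ1 : ContMDiffAt 𝓘(ℂ, E) 𝓘(ℂ, A) ω (fun y => (φ y).1) x :=
      (contDiff_fst (𝕜 := ℂ) (E := A) (F := B)).contMDiff.contMDiffAt.comp x
        ((hA.toFun φ hφ).contMDiffAt (φ.open_source.mem_nhds hx))
    have hF1d : MDifferentiableAt 𝓘(ℂ, E) 𝓘(ℂ, A) (fun y => (F y).1) x :=
      (hF1 x).mdifferentiableAt (by simp)
    have hL₁d : MDifferentiableAt 𝓘(ℂ, A) 𝓘(ℂ, A) L₁ ((fun y => (F y).1) x) :=
      hL₁a.mdifferentiableAt (by simp)
    constructor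
    · intro h
      have h' : mfderiv 𝓘(ℂ, E) 𝓘(ℂ, A) (fun y => (F y).1) x v = 0 := h
      have e1 : mfderiv 𝓘(ℂ, E) 𝓘(ℂ, A) (fun y => (φ y).1) x =
          mfderiv 𝓘(ℂ, E) 𝓘(ℂ, A) (L₁ ∘ fun y => (F y).1) x :=
        Filter.EventuallyEq.mfderiv_eq hL₁f
      rw [e1, mfderiv_comp x hL₁d hF1d]
      show mfderiv 𝓘(ℂ, A) 𝓘(ℂ, A) L₁ _ (mfderiv 𝓘(ℂ, E) 𝓘(ℂ, A) (fun y => (F y).1) x v) = 0
      rw [h']
      exact map_zero _
    · intro h
      let R : A → C₁ := fun a => (F (φ.symm (a, (φ x).2))).1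
      have hR : MDifferentiableAt 𝓘(ℂ, A) 𝓘(ℂ, A) R ((fun y => (φ y).1) x) := by
        have q1 : ContMDiffAt 𝓘(ℂ, A) 𝓘(ℂ, E) ω (fun a : A => φ.symm (a, (φ x).2)) (φ x).1 :=
          ContMDiffAt.comp (x := (φ x).1) (g := φ.symm) (f := fun a : A => (a, (φ x).2))
            ((hA.invFun φ hφ).contMDiffAt (φ.open_target.mem_nhds hxt))
            (contDiff_prodMk_left (φ x).2).contMDiff.contMDiffAt
        exact (ContMDiffAt.comp (x := (φ x).1) (g := fun y => (F y).1)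
          (f := fun a : A => φ.symm (a, (φ x).2)) (hF1 _) q1).mdifferentiableAt (by simp)
      have hRe : (fun y => (F y).1) =ᶠ[𝓝 x] R ∘ (fun y => (φ y).1) := by
        filter_upwards [φ.open_source.mem_nhds hx] with y hys
        have m2 : ((φ y).1, (φ y).2) ∈ φ.target := φ.map_source hys
        have m1 : ((φ y).1, (φ x).2) ∈ φ.target := box_mem hφ m2 hxt
        apply Subtype.ext
        show r₁ y = r₁ (φ.symm ((φ y).1, (φ x).2))
        rw [← hr₁pl φ hφ _ _ _ m2 m1]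
        congr 1
        exact (φ.left_inv hys).symm
      have e1 : mfderiv 𝓘(ℂ, E) 𝓘(ℂ, A) (fun y => (F y).1) x =
          mfderiv 𝓘(ℂ, E) 𝓘(ℂ, A) (R ∘ fun y => (φ y).1) x :=
        Filter.EventuallyEq.mfderiv_eq hRe
      show mfderiv 𝓘(ℂ, E) 𝓘(ℂ, A) (fun y => (F y).1) x v = 0
      rw [e1, mfderiv_comp x hR (hφ1.mdifferentiableAt (by simp))]
      show mfderiv 𝓘(ℂ, A) 𝓘(ℂ, A) R _ (mfderiv 𝓘(ℂ, E) 𝓘(ℂ, A) (fun y => (φ y).1) x v) = 0
      rw [h]
      exact map_zero _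
  · intro φ hφ x hx v
    obtain ⟨L₂, hL₂a, hL₂x, hL₂e, hL₂f⟩ := hL₂ φ hφ x hx
    have hxt : ((φ x).1, (φ x).2) ∈ φ.target := φ.map_source hx
    have hφ1 : ContMDiffAt 𝓘(ℂ, E) 𝓘(ℂ, B) ω (fun y => (φ y).2) x :=
      (contDiff_snd (𝕜 := ℂ) (E := A) (F := B)).contMDiff.contMDiffAt.comp x
        ((hA.toFun φ hφ).contMDiffAt (φ.open_source.mem_nhds hx))
    have hF1d : MDifferentiableAt 𝓘(ℂ, E) 𝓘(ℂ, B) (fun y => (F y).2) x :=
      (hF2 x).mdifferentiableAt (by simp)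
    have hL₁d : MDifferentiableAt 𝓘(ℂ, B) 𝓘(ℂ, B) L₂ ((fun y => (F y).2) x) :=
      hL₂a.mdifferentiableAt (by simp)
    constructor
    · intro h
      have h' : mfderiv 𝓘(ℂ, E) 𝓘(ℂ, B) (fun y => (F y).2) x v = 0 := h
      have e1 : mfderiv 𝓘(ℂ, E) 𝓘(ℂ, B) (fun y => (φ y).2) x =
          mfderiv 𝓘(ℂ, E) 𝓘(ℂ, B) (L₂ ∘ fun y => (F y).2) x :=
        Filter.EventuallyEq.mfderiv_eq hL₂f
      rw [e1, mfderiv_comp x hL₁d hF1d]
      show mfderiv 𝓘(ℂ, B) 𝓘(ℂ, B) L₂ _ (mfderiv 𝓘(ℂ, E) 𝓘(ℂ, B) (fun y => (F y).2) x v) = 0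
      rw [h']
      exact map_zero _
    · intro h
      let R : B → C₂ := fun b => (F (φ.symm ((φ x).1, b))).2
      have hR : MDifferentiableAt 𝓘(ℂ, B) 𝓘(ℂ, B) R ((fun y => (φ y).2) x) := by
        have q1 : ContMDiffAt 𝓘(ℂ, B) 𝓘(ℂ, E) ω (fun b : B => φ.symm ((φ x).1, b)) (φ x).2 :=
          ContMDiffAt.comp (x := (φ x).2) (g := φ.symm) (f := fun b : B => ((φ x).1, b))
            ((hA.invFun φ hφ).contMDiffAt (φ.open_target.mem_nhds hxt))
            (contDiff_prodMk_right (φ x).1).contMDiff.contMDiffAt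
        exact (ContMDiffAt.comp (x := (φ x).2) (g := fun y => (F y).2)
          (f := fun b : B => φ.symm ((φ x).1, b)) (hF2 _) q1).mdifferentiableAt (by simp)
      have hRe : (fun y => (F y).2) =ᶠ[𝓝 x] R ∘ (fun y => (φ y).2) := by
        filter_upwards [φ.open_source.mem_nhds hx] with y hys
        have m2 : ((φ y).1, (φ y).2) ∈ φ.target := φ.map_source hys
        have m1 : ((φ x).1, (φ y).2) ∈ φ.target := box_mem hφ hxt m2
        apply Subtype.ext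
        show r₂ y = r₂ (φ.symm ((φ x).1, (φ y).2))
        rw [← hr₂pl φ hφ _ _ _ m2 m1]
        congr 1
        exact (φ.left_inv hys).symm
      have e1 : mfderiv 𝓘(ℂ, E) 𝓘(ℂ, B) (fun y => (F y).2) x =
          mfderiv 𝓘(ℂ, E) 𝓘(ℂ, B) (R ∘ fun y => (φ y).2) x :=
        Filter.EventuallyEq.mfderiv_eq hRe
      show mfderiv 𝓘(ℂ, E) 𝓘(ℂ, B) (fun y => (F y).2) x v = 0
      rw [e1, mfderiv_comp x hR (hφ1.mdifferentiableAt (by simp))]
      show mfderiv 𝓘(ℂ, B) 𝓘(ℂ, B) R _ (mfderiv 𝓘(ℂ, E) 𝓘(ℂ, B) (fun y => (φ y).2) x v) = 0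
      rw [h]
      exact map_zero _

end Vale.Agent.P278
end
end

section

section

open Set Topology Filter

namespace Vale.Agent.P278

section
variable {M Z : Type*} [TopologicalSpace M] (V : ∀ x : M, Set (Germ (𝓝 x) Z))

/-- The space of germs. -/
def Etale : Type _ := Σ x : M, V x

namespace Etale

instance : TopologicalSpace (Etale V) where
  IsOpen O := ∀ (f : M → Z) (x : M) (hf : (f : Germ (𝓝 x) Z) ∈ V x),
    (⟨x, ⟨f, hf⟩⟩ : Etale V) ∈ O →
      ∀ᶠ y in 𝓝 x, ∀ hy : (f : Germ (𝓝 y) Z) ∈ V y, (⟨y, ⟨f, hy⟩⟩ : Etale V) ∈ O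
  isOpen_univ := fun f x hf _ => Eventually.of_forall fun y hy => mem_univ _
  isOpen_inter := by
    intro O O' h h' f x hf hx
    filter_upwards [h f x hf hx.1, h' f x hf hx.2] with y h1 h2 hy
    exact ⟨h1 hy, h2 hy⟩
  isOpen_sUnion := by
    intro 𝒪 h f x hf hx
    obtain ⟨O, hO, hxO⟩ := hx
    filter_upwards [h O hO f x hf hxO] with y h1 hy
    exact ⟨O, hO, h1 hy⟩

variable {V}

theorem isOpen_iff {O : Set (Etale V)} : IsOpen O ↔
    ∀ (f : M → Z) (x : M) (hf : (f : Germ (𝓝 x) Z) ∈ V x), (⟨x, ⟨f, hf⟩⟩ : Etale V) ∈ O →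
      ∀ᶠ y in 𝓝 x, ∀ hy : (f : Germ (𝓝 y) Z) ∈ V y, (⟨y, ⟨f, hy⟩⟩ : Etale V) ∈ O := Iff.rfl

/-- The projection. -/
def proj (s : Etale V) : M := s.1

theorem continuous_proj : Continuous (proj (V := V)) := by
  rw [continuous_def]
  intro U hU
  rw [isOpen_iff]
  intro f x hf hx
  filter_upwards [hU.mem_nhds hx] with y hy _
  exact hy

/-- Graph of a function over an open set. -/
theorem isOpen_graph {U : Set M} (hU : IsOpen U) (f : M → Z) :
    IsOpen {s : Etale V | s.1 ∈ U ∧ (s.2.1 : Germ (𝓝 s.1) Z) = (f : Germ (𝓝 s.1) Z)} := by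
  rw [isOpen_iff]
  rintro g x hg ⟨hx, hgf⟩
  have h1 : g =ᶠ[𝓝 x] f := Germ.coe_eq.1 hgf
  filter_upwards [hU.mem_nhds hx, h1.eventuallyEq_nhds] with y hy hy2 _
  exact ⟨hy, Germ.coe_eq.2 hy2⟩

end Etale

variable {V}

/-- The local triviality hypothesis implies that the space of germs is a covering. -/
theorem isCoveringMap_etale
    (h : ∀ x : M, ∃ (U : Set M) (S : Set (M → Z)), IsOpen U ∧ x ∈ U ∧
      (∀ f ∈ S, ∀ y ∈ U, ((f : M → Z) : Germ (𝓝 y) Z) ∈ V y) ∧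
      (∀ y ∈ U, ∀ γ ∈ V y, ∃ f ∈ S, ((f : M → Z) : Germ (𝓝 y) Z) = γ) ∧
      (∀ f ∈ S, ∀ f' ∈ S, ∀ y ∈ U, f =ᶠ[𝓝 y] f' → ∀ z ∈ U, f =ᶠ[𝓝 z] f')) :
    IsCoveringMap (Etale.proj (V := V)) := by
  intro x
  obtain ⟨U, S, hUo, hxU, ha, hb, hc⟩ := h x
  let I : Type _ := V x
  let _ : TopologicalSpace I := ⊥
  have _ : DiscreteTopology I := ⟨rfl⟩
  -- representative of a germ
  have rep : ∀ s : Etale V, s.1 ∈ U → ∃ f ∈ S, ((f : M → Z) : Germ (𝓝 s.1) Z) = s.2.1 :=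
    fun s hs => hb s.1 hs s.2.1 s.2.2
  have repI : ∀ δ : I, ∃ f ∈ S, ((f : M → Z) : Germ (𝓝 x) Z) = δ.1 := fun δ => hb x hxU δ.1 δ.2
  choose g hgS hg using repI
  choose k hkS hk using rep
  refine IsEvenlyCovered.to_isEvenlyCovered_preimage (I := I) ⟨inferInstance, U, hxU, hUo,
    hUo.preimage Etale.continuous_proj, ?_⟩
  let toI : (s : Etale V) → s.1 ∈ U → I := fun s hs =>
    ⟨((k s hs : M → Z) : Germ (𝓝 x) Z), ha _ (hkS s hs) x hxU⟩
  -- the germ of `g (toI s)` at `s.1` is `s.2`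
  have hback : ∀ (s : Etale V) (hs : s.1 ∈ U),
      ((g (toI s hs) : M → Z) : Germ (𝓝 s.1) Z) = s.2.1 := by
    intro s hs
    have h1 : ((g (toI s hs) : M → Z) : Germ (𝓝 x) Z) = ((k s hs : M → Z) : Germ (𝓝 x) Z) :=
      hg (toI s hs)
    have h2 := hc _ (hgS (toI s hs)) _ (hkS s hs) x hxU (Germ.coe_eq.1 h1) s.1 hs
    rw [Germ.coe_eq.2 h2]
    exact hk s hs
  have hforth : ∀ (s : Etale V) (hs : s.1 ∈ U) (δ : I),
      s.2.1 = ((g δ : M → Z) : Germ (𝓝 s.1) Z) → toI s hs = δ := by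
    intro s hs δ hδ
    apply Subtype.ext
    show ((k s hs : M → Z) : Germ (𝓝 x) Z) = δ.1
    rw [← hg δ]
    have h1 : ((k s hs : M → Z) : Germ (𝓝 s.1) Z) = ((g δ : M → Z) : Germ (𝓝 s.1) Z) := by
      rw [hk s hs]; exact hδ
    exact Germ.coe_eq.2 (hc _ (hkS s hs) _ (hgS δ) s.1 hs (Germ.coe_eq.1 h1) x hxU)
  let inv : U × I → Etale.proj (V := V) ⁻¹' U := fun w =>
    ⟨⟨w.1.1, ⟨((g w.2 : M → Z) : Germ (𝓝 w.1.1) Z), ha _ (hgS w.2) w.1.1 w.1.2⟩⟩, w.1.2⟩
  refine ⟨{ toFun := fun s => (⟨s.1.1, s.2⟩, toI s.1 s.2)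
            invFun := inv
            left_inv := ?_
            right_inv := ?_
            continuous_toFun := ?_
            continuous_invFun := ?_ }, ?_⟩
  · rintro ⟨⟨y, ⟨γ, hγ⟩⟩, hy⟩
    apply Subtype.ext
    have := hback ⟨y, ⟨γ, hγ⟩⟩ hy
    simp only [inv]
    congr 1
    exact Subtype.ext this
  · rintro ⟨⟨y, hy⟩, δ⟩
    exact Prod.ext rfl (hforth _ hy δ rfl)
  · refine Continuous.prodMk ((Etale.continuous_proj.comp continuous_subtype_val).subtype_mk _) ?_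
    rw [continuous_discrete_rng]
    intro δ
    have : (fun s : Etale.proj (V := V) ⁻¹' U => toI s.1 s.2) ⁻¹' {δ} =
        Subtype.val ⁻¹' {s : Etale V | s.1 ∈ U ∧
          (s.2.1 : Germ (𝓝 s.1) Z) = ((g δ : M → Z) : Germ (𝓝 s.1) Z)} := by
      ext ⟨s, hs⟩
      constructor
      · intro h1
        have h1' : toI s hs = δ := h1
        refine ⟨hs, ?_⟩
        rw [← h1']
        exact (hback s hs).symm
      · rintro ⟨_, h1⟩
        exact hforth s hs δ h1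
    rw [this]
    exact (Etale.isOpen_graph hUo (g δ)).preimage continuous_subtype_val
  · rw [continuous_induced_rng, continuous_iff_continuousAt]
    rintro ⟨⟨y, hy⟩, δ⟩
    have hδ : 𝓝 δ = pure δ := by rw [nhds_discrete]
    rw [ContinuousAt, nhds_prod_eq, hδ, Filter.prod_pure, Filter.tendsto_map'_iff]
    intro O hO
    rw [Filter.mem_map]
    obtain ⟨O', hO'O, hO'o, hyO'⟩ := mem_nhds_iff.1 hO
    have h1 := hO'o (g δ) y (ha _ (hgS δ) y hy) hyO'
    have h2 : ∀ᶠ y' : U in 𝓝 (⟨y, hy⟩ : U), ∀ hy' : ((g δ : M → Z) : Germ (𝓝 y'.1) Z) ∈ V y'.1,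
        (⟨y'.1, ⟨g δ, hy'⟩⟩ : Etale V) ∈ O' :=
      (continuous_subtype_val.tendsto (⟨y, hy⟩ : U)).eventually h1
    filter_upwards [h2] with y' hy'
    exact hO'O (hy' (ha _ (hgS δ) y'.1 y'.2))
  · rintro ⟨s, hs⟩
    rfl

/-- **Monodromy**: on a simply connected space, a locally trivial system of germs has a global
section through each germ. -/
theorem exists_global_of_germs [SimplyConnectedSpace M] [LocallyPathConnectedSpace M]
    (h : ∀ x : M, ∃ (U : Set M) (S : Set (M → Z)), IsOpen U ∧ x ∈ U ∧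
      (∀ f ∈ S, ∀ y ∈ U, ((f : M → Z) : Germ (𝓝 y) Z) ∈ V y) ∧
      (∀ y ∈ U, ∀ γ ∈ V y, ∃ f ∈ S, ((f : M → Z) : Germ (𝓝 y) Z) = γ) ∧
      (∀ f ∈ S, ∀ f' ∈ S, ∀ y ∈ U, f =ᶠ[𝓝 y] f' → ∀ z ∈ U, f =ᶠ[𝓝 z] f'))
    (x₀ : M) (f₀ : M → Z) (hf₀ : ((f₀ : M → Z) : Germ (𝓝 x₀) Z) ∈ V x₀) :
    ∃ F : M → Z, (∀ x, ((F : M → Z) : Germ (𝓝 x) Z) ∈ V x) ∧ F =ᶠ[𝓝 x₀] f₀ := by
  have hcov := isCoveringMap_etale h
  obtain ⟨σ, ⟨hσ0, hσ⟩, -⟩ := hcov.existsUnique_continuousMap_lifts (ContinuousMap.id M) x₀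
    ⟨x₀, ⟨f₀, hf₀⟩⟩ rfl
  have hσ' : ∀ x, (σ x).1 = x := fun x => congrFun hσ x
  let F : M → Z := fun x => Germ.value (σ x).2.1
  -- local description
  have key : ∀ (x : M) (f : M → Z) (U : Set M), IsOpen U → x ∈ U →
      (σ x).2.1 = ((f : M → Z) : Germ (𝓝 (σ x).1) Z) → F =ᶠ[𝓝 x] f := by
    intro x f U hU hx hf
    have hO := Etale.isOpen_graph (V := V) hU f
    have hmem : σ x ∈ {s : Etale V | s.1 ∈ U ∧
        (s.2.1 : Germ (𝓝 s.1) Z) = ((f : M → Z) : Germ (𝓝 s.1) Z)} :=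
      ⟨by rw [hσ']; exact hx, hf⟩
    filter_upwards [σ.continuous.continuousAt.eventually_mem (hO.mem_nhds hmem)] with y hy
    have h1 : F y = f (σ y).1 := by
      show Germ.value (σ y).2.1 = f (σ y).1
      rw [hy.2]; rfl
    rw [h1, hσ']
  refine ⟨F, ?_, ?_⟩
  · intro x
    obtain ⟨U, S, hUo, hxU, ha, hb, hc⟩ := h x
    obtain ⟨f, hfS, hf⟩ := hb (σ x).1 (by rw [hσ']; exact hxU) (σ x).2.1 (σ x).2.2
    have := key x f U hUo hxU hf.symm
    rw [Germ.coe_eq.2 this]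
    exact ha f hfS x hxU
  · apply key x₀ f₀ univ isOpen_univ (mem_univ _)
    rw [hσ0]

end

end Vale.Agent.P278
end
end

section

section

open Set Topology Filter Metric TopologicalSpace
open scoped Manifold ContDiff

set_option linter.unusedSectionVars false

namespace Vale.Agent.P278

variable {M A B E : Type*} [TopologicalSpace M] [NormedAddCommGroup A] [NormedSpace ℂ A]
  [NormedAddCommGroup B] [NormedSpace ℂ B] [NormedAddCommGroup E] [NormedSpace ℂ E]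
  [ChartedSpace E M] {𝒜 : Set (OpenPartialHomeomorph M (A × B))}

/-- In the intersection of two product charts, the transition map is locally a product. -/
theorem exists_prod_nhds [h𝒜 : BoxAtlas 𝒜] {φ ψ : OpenPartialHomeomorph M (A × B)}
    (hφ : φ ∈ 𝒜) (hψ : ψ ∈ 𝒜) {x : M} (hx : x ∈ φ.source) (hx' : x ∈ ψ.source) {O : Set M}
    (hO : O ∈ 𝓝 x) : ∃ (A₂ : Set A) (B₂ : Set B), IsOpen A₂ ∧ IsOpen B₂ ∧ IsPreconnected A₂ ∧
      IsPreconnected B₂ ∧ (ψ x).1 ∈ A₂ ∧ (ψ x).2 ∈ B₂ ∧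
      (∀ a ∈ A₂, ∀ b ∈ B₂, (a, b) ∈ ψ.target ∧ ψ.symm (a, b) ∈ φ.source ∧
        ψ.symm (a, b) ∈ O) ∧
      (∀ a ∈ A₂, ∀ b ∈ B₂, ∀ b' ∈ B₂, (φ (ψ.symm (a, b))).1 = (φ (ψ.symm (a, b'))).1) ∧
      (∀ a ∈ A₂, ∀ a' ∈ A₂, ∀ b ∈ B₂, (φ (ψ.symm (a, b))).2 = (φ (ψ.symm (a', b))).2) := by
  have hO' : IsOpen (ψ.target ∩ ψ.symm ⁻¹' (φ.source ∩ interior O)) :=
    ψ.symm.isOpen_inter_preimage (φ.open_source.inter isOpen_interior)
  have hmem : ψ x ∈ ψ.target ∩ ψ.symm ⁻¹' (φ.source ∩ interior O) := by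
    refine ⟨ψ.map_source hx', ?_⟩
    show ψ.symm (ψ x) ∈ φ.source ∩ interior O
    rw [ψ.left_inv hx']
    exact ⟨hx, mem_interior_iff_mem_nhds.2 hO⟩
  obtain ⟨ρ, hρ, hball⟩ := Metric.isOpen_iff.1 hO' _ hmem
  rw [← ball_prod_same] at hball
  have hin : ∀ a ∈ ball (ψ x).1 ρ, ∀ b ∈ ball (ψ x).2 ρ, (a, b) ∈ ψ.target ∧
      ψ.symm (a, b) ∈ φ.source ∧ ψ.symm (a, b) ∈ O := by
    intro a ha b hb
    have := hball (show (a, b) ∈ ball (ψ x).1 ρ ×ˢ ball (ψ x).2 ρ from ⟨ha, hb⟩)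
    exact ⟨this.1, this.2.1, interior_subset this.2.2⟩
  refine ⟨ball (ψ x).1 ρ, ball (ψ x).2 ρ, isOpen_ball, isOpen_ball,
    (convex_ball _ _).isPreconnected, (convex_ball _ _).isPreconnected, mem_ball_self hρ,
    mem_ball_self hρ, hin, ?_, ?_⟩
  · intro a ha b hb b' hb'
    refine (convex_ball (ψ x).2 ρ).isPreconnected.induction₂'
      (fun b b' => (φ (ψ.symm (a, b))).1 = (φ (ψ.symm (a, b'))).1) ?_ ?_ hb hb'
    · intro c hc
      obtain ⟨h1, h2, -⟩ := hin a ha c hc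
      have hcs : ψ.symm (a, c) ∈ ψ.source := ψ.map_target h1
      have ht := h𝒜.trans' ψ hψ φ hφ _ hcs h2
      have hcont : ContinuousAt (fun c' => ψ.symm (a, c')) c :=
        ContinuousAt.comp (g := ψ.symm) (f := fun c' => (a, c')) (ψ.continuousAt_symm h1)
          (by fun_prop)
      have e1 := hcont.eventually ht
      have e2 : ∀ᶠ c' in 𝓝 c, (a, c') ∈ ψ.target :=
        ContinuousAt.eventually_mem (f := fun c' => (a, c')) (by fun_prop)
          (ψ.open_target.mem_nhds h1)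
      apply mem_nhdsWithin_of_mem_nhds
      filter_upwards [e1, e2] with c' k1 k2
      have := k1 (by rw [ψ.right_inv k2, ψ.right_inv h1])
      exact ⟨this.symm, this⟩
    · intro _ _ _ _ _ _ h1 h2
      exact h1.trans h2
  · intro a ha a' ha' b hb
    refine (convex_ball (ψ x).1 ρ).isPreconnected.induction₂'
      (fun a a' => (φ (ψ.symm (a, b))).2 = (φ (ψ.symm (a', b))).2) ?_ ?_ ha ha'
    · intro c hc
      obtain ⟨h1, h2, -⟩ := hin c hc b hb
      have hcs : ψ.symm (c, b) ∈ ψ.source := ψ.map_target h1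
      have ht := FolAtlas.trans ψ hψ φ hφ _ hcs h2
      have hcont : ContinuousAt (fun c' => ψ.symm (c', b)) c :=
        ContinuousAt.comp (g := ψ.symm) (f := fun c' => (c', b)) (ψ.continuousAt_symm h1)
          (by fun_prop)
      have e1 := hcont.eventually ht
      have e2 : ∀ᶠ c' in 𝓝 c, (c', b) ∈ ψ.target :=
        ContinuousAt.eventually_mem (f := fun c' => (c', b)) (by fun_prop)
          (ψ.open_target.mem_nhds h1)
      apply mem_nhdsWithin_of_mem_nhds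
      filter_upwards [e1, e2] with c' k1 k2
      have := k1 (by rw [ψ.right_inv k2, ψ.right_inv h1])
      exact ⟨this.symm, this⟩
    · intro _ _ _ _ _ _ h1 h2
      exact h1.trans h2

/-- A system of plaques of uniform size, invariant along the second foliation. -/
structure UniformPlaques (𝒜 : Set (OpenPartialHomeomorph M (A × B)))
    (P : Leaf 𝒜 → Set (Leaf 𝒜)) : Prop where
  self : ∀ x, x ∈ P x
  isOpen : ∀ x, IsOpen (P x)
  preconn : ∀ x, IsPreconnected (P x)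
  symm : ∀ x y, y ∈ P x → x ∈ P y
  inv : ∀ x : M, ∃ ψ ∈ 𝒜, ∃ (V : Set A) (B' : Set B), IsOpen V ∧ IsOpen B' ∧ IsPreconnected B' ∧
    x ∈ ψ.source ∧ (ψ x).1 ∈ V ∧ (ψ x).2 ∈ B' ∧ (∀ a ∈ V, ∀ b ∈ B', (a, b) ∈ ψ.target) ∧
    ∀ b ∈ B', ∀ y : Leaf 𝒜, y ∈ P ((Leaf.toM 𝒜).symm (ψ.symm ((ψ x).1, b))) ↔
      (Leaf.toM 𝒜 y ∈ ψ.source ∧ (ψ (Leaf.toM 𝒜 y)).2 = b ∧ (ψ (Leaf.toM 𝒜 y)).1 ∈ V)
  small : ∀ x : M, ∃ ψ ∈ 𝒜, ∃ (V : Set A) (B' : Set B), IsOpen V ∧ IsOpen B' ∧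
    IsPreconnected V ∧ IsPreconnected B' ∧
    x ∈ ψ.source ∧ (ψ x).1 ∈ V ∧ (ψ x).2 ∈ B' ∧ (∀ a ∈ V, ∀ b ∈ B', (a, b) ∈ ψ.target) ∧
    ∀ a ∈ V, ∀ b ∈ B', ∀ y : Leaf 𝒜, Leaf.toM 𝒜 y ∈ ψ.source → (ψ (Leaf.toM 𝒜 y)).2 = b →
      (ψ (Leaf.toM 𝒜 y)).1 ∈ V → y ∈ P ((Leaf.toM 𝒜).symm (ψ.symm (a, b)))

/-- Admissible germs: the holonomy germs of the second foliation, seen as maps from `M` to the
leaf space of the first foliation, locally constant along the second foliation. -/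
inductive Adm (𝒜 : Set (OpenPartialHomeomorph M (A × B))) : M → (M → Leaf 𝒜) → Prop
  | base (φ : OpenPartialHomeomorph M (A × B)) (hφ : φ ∈ 𝒜) (a : M) (ha : a ∈ φ.source) :
      Adm 𝒜 a (fun y => (Leaf.toM 𝒜).symm (φ.symm ((φ y).1, (φ a).2)))
  | germ (x : M) (f g : M → Leaf 𝒜) : Adm 𝒜 x f → g =ᶠ[𝓝 x] f → Adm 𝒜 x g
  | cont (φ : OpenPartialHomeomorph M (A × B)) (hφ : φ ∈ 𝒜) (V : Set A) (B' : Set B)
      (hV : IsOpen V) (hB'o : IsOpen B') (hB' : IsPreconnected B')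
      (hVB : ∀ a ∈ V, ∀ b ∈ B', (a, b) ∈ φ.target) (f : M → Leaf 𝒜)
      (hf : ∀ a ∈ V, ∀ b ∈ B', ∀ b' ∈ B', f (φ.symm (a, b)) = f (φ.symm (a, b')))
      (a : A) (ha : a ∈ V) (b b' : B) (hb : b ∈ B') (hb' : b' ∈ B') :
      Adm 𝒜 (φ.symm (a, b)) f → Adm 𝒜 (φ.symm (a, b')) f

section
variable [h𝒜 : BoxAtlas 𝒜]

/-- Admissible germs are invariant along the second foliation. -/
theorem Adm.inv2 {x : M} {f : M → Leaf 𝒜} (h : Adm 𝒜 x f) {ψ : OpenPartialHomeomorph M (A × B)}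
    (hψ : ψ ∈ 𝒜) (hx : x ∈ ψ.source) :
    ∀ᶠ p in 𝓝 (ψ x), f (ψ.symm p) = f (ψ.symm (p.1, (ψ x).2)) := by
  induction h with
  | base φ hφ a ha =>
    obtain ⟨A₂, B₂, hA₂, hB₂, -, -, h1, h2, h3, h4, -⟩ :=
      exists_prod_nhds hφ hψ ha hx (O := univ) univ_mem
    have : ∀ᶠ p in 𝓝 (ψ a), p ∈ A₂ ×ˢ B₂ := (hA₂.prod hB₂).mem_nhds ⟨h1, h2⟩
    filter_upwards [this] with p hp
    have := h4 p.1 hp.1 p.2 hp.2 (ψ a).2 h2
    rw [show ((p.1, p.2) : A × B) = p from rfl] at this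
    rw [this]
  | germ x f g _ hgf ih =>
    have hxt : ψ x ∈ ψ.target := ψ.map_source hx
    have h1 : Tendsto ψ.symm (𝓝 (ψ x)) (𝓝 x) := by
      have := (ψ.continuousAt_symm hxt).tendsto
      rwa [ψ.left_inv hx] at this
    have h2 : Tendsto (fun p : A × B => ψ.symm (p.1, (ψ x).2)) (𝓝 (ψ x)) (𝓝 x) := by
      refine h1.comp ?_
      have : ContinuousAt (fun p : A × B => (p.1, (ψ x).2)) (ψ x) := by fun_prop
      exact this.tendsto
    filter_upwards [ih hx, h1.eventually hgf, h2.eventually hgf] with p k1 k2 k3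
    rw [k2, k3, k1]
  | cont φ hφ V B' hV hB'o hB' hVB f hf a ha b b' hb hb' _ _ =>
    have hat : (a, b') ∈ φ.target := hVB a ha b' hb'
    set x := φ.symm (a, b') with hxdef
    have hxs : x ∈ φ.source := φ.map_target hat
    have hφx : φ x = (a, b') := φ.right_inv hat
    have hO : {y | y ∈ φ.source ∧ φ y ∈ V ×ˢ B'} ∈ 𝓝 x := by
      refine Filter.inter_mem (φ.open_source.mem_nhds hxs) ?_
      exact (φ.continuousAt hxs).preimage_mem_nhds (by
        rw [hφx]; exact (hV.prod hB'o).mem_nhds ⟨ha, hb'⟩)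
    obtain ⟨A₂, B₂, hA₂, hB₂, -, -, h1, h2, h3, h4, -⟩ := exists_prod_nhds hφ hψ hxs hx hO
    have : ∀ᶠ p in 𝓝 (ψ x), p ∈ A₂ ×ˢ B₂ := (hA₂.prod hB₂).mem_nhds ⟨h1, h2⟩
    filter_upwards [this] with p hp
    obtain ⟨-, k2, k3⟩ := h3 p.1 hp.1 p.2 hp.2
    obtain ⟨-, l2, l3⟩ := h3 p.1 hp.1 (ψ x).2 h2
    rw [show ((p.1, p.2) : A × B) = p from rfl] at k2 k3
    have e := h4 p.1 hp.1 p.2 hp.2 (ψ x).2 h2
    rw [show ((p.1, p.2) : A × B) = p from rfl] at e
    calc f (ψ.symm p) = f (φ.symm ((φ (ψ.symm p)).1, (φ (ψ.symm p)).2)) := by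
          congr 1; exact (φ.left_inv k2).symm
      _ = f (φ.symm ((φ (ψ.symm p)).1, (φ (ψ.symm (p.1, (ψ x).2))).2)) :=
          hf _ k3.2.1 _ k3.2.2 _ l3.2.2
      _ = f (ψ.symm (p.1, (ψ x).2)) := by
          rw [e]; congr 1; exact φ.left_inv l2

/-- Admissible germs map a point to a point of the same leaf of the second foliation. -/
theorem Adm.same {x : M} {f : M → Leaf 𝒜} (h : Adm 𝒜 x f) :
    toLeafSpace 𝒜 (Leaf.toM 𝒜 (f x)) = toLeafSpace 𝒜 x := by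
  induction h with
  | base φ hφ a ha =>
    have : φ.symm ((φ a).1, (φ a).2) = a := φ.left_inv ha
    simp only [Equiv.apply_symm_apply, this]
  | germ x f g _ hgf ih => rw [hgf.self_of_nhds]; exact ih
  | cont φ hφ V B' hV hB'o hB' hVB f hf a ha b b' hb hb' _ ih =>
    rw [← hf a ha b hb b' hb', ih]
    exact toLeafSpace_box hφ (hVB a ha b hb) (hVB a ha b' hb')

/-- Admissible germs are analytic. -/
theorem Adm.contMDiffAt [hA : AnaCompat (E := E) 𝒜] {x : M} {f : M → Leaf 𝒜} (h : Adm 𝒜 x f) :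
    ContMDiffAt 𝓘(ℂ, E) 𝓘(ℂ, A) ω f x := by
  induction h with
  | base φ hφ a ha =>
    have h1 : ContMDiffAt 𝓘(ℂ, E) 𝓘(ℂ, A) ω (fun y => (φ y).1) a :=
      (contDiff_fst (𝕜 := ℂ) (E := A) (F := B)).contMDiff.contMDiffAt.comp a
        ((hA.toFun φ hφ).contMDiffAt (φ.open_source.mem_nhds ha))
    have h2 : ContMDiffAt 𝓘(ℂ, A) 𝓘(ℂ, A) ω
        (fun u : A => ((Leaf.toM 𝒜).symm (φ.symm (u, (φ a).2)) : Leaf 𝒜)) (φ a).1 :=
      (contMDiffOn_plaque_symm hφ (φ a).2).contMDiffAt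
        ((Leaf.plaque φ hφ (φ a).2).open_target.mem_nhds (φ.map_source ha))
    exact ContMDiffAt.comp (x := a)
      (g := fun u : A => ((Leaf.toM 𝒜).symm (φ.symm (u, (φ a).2)) : Leaf 𝒜))
      (f := fun y => (φ y).1) h2 h1
  | germ x f g _ hgf ih => exact ih.congr_of_eventuallyEq hgf
  | cont φ hφ V B' hV hB'o hB' hVB f hf a ha b b' hb hb' _ ih =>
    have hat : (a, b') ∈ φ.target := hVB a ha b' hb'
    have hat0 : (a, b) ∈ φ.target := hVB a ha b hb
    set x := φ.symm (a, b') with hxdef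
    have hxs : x ∈ φ.source := φ.map_target hat
    have hφx : φ x = (a, b') := φ.right_inv hat
    have h1 : ContMDiffAt 𝓘(ℂ, E) 𝓘(ℂ, A) ω (fun y => (φ y).1) x :=
      (contDiff_fst (𝕜 := ℂ) (E := A) (F := B)).contMDiff.contMDiffAt.comp x
        ((hA.toFun φ hφ).contMDiffAt (φ.open_source.mem_nhds hxs))
    have h2 : ContMDiffAt 𝓘(ℂ, A) 𝓘(ℂ, E) ω (fun u : A => φ.symm (u, b)) (φ x).1 := by
      rw [hφx]
      exact ContMDiffAt.comp (x := a) (g := φ.symm) (f := fun u : A => (u, b))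
        ((hA.invFun φ hφ).contMDiffAt (φ.open_target.mem_nhds hat0))
        (contDiff_prodMk_left b).contMDiff.contMDiffAt
    have h3 : ContMDiffAt 𝓘(ℂ, E) 𝓘(ℂ, E) ω (fun y => φ.symm ((φ y).1, b)) x :=
      ContMDiffAt.comp (x := x) (g := fun u : A => φ.symm (u, b)) (f := fun y => (φ y).1) h2 h1
    have h4 : ContMDiffAt 𝓘(ℂ, E) 𝓘(ℂ, A) ω f (φ.symm ((φ x).1, b)) := by
      rw [hφx]; exact ih
    have h5 := ContMDiffAt.comp (x := x) (g := f) (f := fun y => φ.symm ((φ y).1, b)) h4 h3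
    refine h5.congr_of_eventuallyEq ?_
    have e1 : ∀ᶠ y in 𝓝 x, φ y ∈ V ×ˢ B' :=
      (φ.continuousAt hxs).eventually_mem (by rw [hφx]; exact (hV.prod hB'o).mem_nhds ⟨ha, hb'⟩)
    filter_upwards [φ.open_source.mem_nhds hxs, e1] with y hy hy2
    show f y = f (φ.symm ((φ y).1, b))
    rw [← hf _ hy2.1 _ hy2.2 _ hb]
    congr 1
    exact (φ.left_inv hy).symm

/-- Admissible germs restrict to local diffeomorphisms between leaves of the first foliation. -/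
theorem Adm.isLocalDiffeomorphAt {x : M} {f : M → Leaf 𝒜} (h : Adm 𝒜 x f) :
    IsLocalDiffeomorphAt 𝓘(ℂ, A) 𝓘(ℂ, A) ω (fun z : Leaf 𝒜 => f (Leaf.toM 𝒜 z))
      ((Leaf.toM 𝒜).symm x) := by
  induction h with
  | base φ hφ a ha =>
    have hid : IsLocalDiffeomorphAt 𝓘(ℂ, A) 𝓘(ℂ, A) ω (id : Leaf 𝒜 → _) ((Leaf.toM 𝒜).symm a) :=
      (Diffeomorph.refl 𝓘(ℂ, A) (Leaf 𝒜) ω).isLocalDiffeomorph _
    refine isLocalDiffeomorphAt_congr hid ?_
    have hmem : (Leaf.toM 𝒜).symm a ∈ (Leaf.plaque φ hφ (φ a).2).source := ⟨ha, rfl⟩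
    filter_upwards [(Leaf.plaque φ hφ (φ a).2).open_source.mem_nhds hmem] with z hz
    exact (Leaf.plaque φ hφ (φ a).2).left_inv hz
  | germ x f g _ hgf ih =>
    refine isLocalDiffeomorphAt_congr ih ?_
    have : Tendsto (Leaf.toM 𝒜) (𝓝 ((Leaf.toM 𝒜).symm x)) (𝓝 x) := by
      have := (Leaf.continuous_toM (𝒜 := 𝒜)).tendsto ((Leaf.toM 𝒜).symm x)
      rwa [Equiv.apply_symm_apply] at this
    exact this.eventually hgf
  | cont φ hφ V B' hV hB'o hB' hVB f hf a ha b b' hb hb' _ ih =>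
    have hat : (a, b') ∈ φ.target := hVB a ha b' hb'
    have hat0 : (a, b) ∈ φ.target := hVB a ha b hb
    set Q := plaqueDiffeo hφ b with hQ
    set Q' := plaqueDiffeo hφ b' with hQ'
    have hmem' : (Leaf.toM 𝒜).symm (φ.symm (a, b')) ∈ Q'.source := by
      refine ⟨φ.map_target hat, ?_⟩
      show (φ (φ.symm (a, b'))).2 = b'
      rw [φ.right_inv hat]
    have hval' : Q' ((Leaf.toM 𝒜).symm (φ.symm (a, b'))) = a := by
      show (φ (φ.symm (a, b'))).1 = a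
      rw [φ.right_inv hat]
    have h1 : IsLocalDiffeomorphAt 𝓘(ℂ, A) 𝓘(ℂ, A) ω Q'
        ((Leaf.toM 𝒜).symm (φ.symm (a, b'))) := ⟨Q', hmem', fun _ _ => rfl⟩
    have h2 : IsLocalDiffeomorphAt 𝓘(ℂ, A) 𝓘(ℂ, A) ω Q.symm a := ⟨Q.symm, hat0, fun _ _ => rfl⟩
    have h3 : IsLocalDiffeomorphAt 𝓘(ℂ, A) 𝓘(ℂ, A) ω
        ((fun z : Leaf 𝒜 => f (Leaf.toM 𝒜 z)) ∘ Q.symm) a := h2.comp _ _ ih
    have h4 := h1.comp _ _ (by rw [hval']; exact h3)
    refine isLocalDiffeomorphAt_congr h4 ?_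
    have hopen := Leaf.isOpen_plaque (𝒜 := 𝒜) hφ b' hV
    filter_upwards [hopen.mem_nhds (show (Leaf.toM 𝒜).symm (φ.symm (a, b')) ∈ _ from
      ⟨hmem'.1, hmem'.2, by
        show (φ (φ.symm (a, b'))).1 ∈ V
        rw [φ.right_inv hat]; exact ha⟩)] with z hz
    obtain ⟨hz1, hz2, hz3⟩ := hz
    show f (Leaf.toM 𝒜 z) = f (φ.symm ((φ (Leaf.toM 𝒜 z)).1, b))
    rw [← hf _ hz3 _ hb' _ hb]
    congr 1
    rw [← hz2]
    exact (φ.left_inv hz1).symm

/-- Displacement of an admissible family of germs along the second foliation inside a chart. -/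
theorem Adm.displace {ψ : OpenPartialHomeomorph M (A × B)} (hψ : ψ ∈ 𝒜) {V : Set A} {B' : Set B}
    (hV : IsOpen V) (hB'o : IsOpen B') (hB' : IsPreconnected B')
    (hVB : ∀ a ∈ V, ∀ b ∈ B', (a, b) ∈ ψ.target) {b : B} (hb : b ∈ B') {g : M → Leaf 𝒜}
    (hg : ∀ a ∈ V, Adm 𝒜 (ψ.symm (a, b)) g) {a : A} (ha : a ∈ V) {b' : B} (hb' : b' ∈ B') :
    Adm 𝒜 (ψ.symm (a, b')) (fun y => g (ψ.symm ((ψ y).1, b))) := by
  have hat : (a, b) ∈ ψ.target := hVB a ha b hb
  have hxs : ψ.symm (a, b) ∈ ψ.source := ψ.map_target hat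
  have hψx : ψ (ψ.symm (a, b)) = (a, b) := ψ.right_inv hat
  refine Adm.cont ψ hψ V B' hV hB'o hB' hVB _ ?_ a ha b b' hb hb' ?_
  · intro u hu c hc c' hc'
    show g (ψ.symm ((ψ (ψ.symm (u, c))).1, b)) = g (ψ.symm ((ψ (ψ.symm (u, c'))).1, b))
    rw [ψ.right_inv (hVB u hu c hc), ψ.right_inv (hVB u hu c' hc')]
  · refine Adm.germ _ g _ (hg a ha) ?_
    have h1 := (hg a ha).inv2 hψ hxs
    rw [hψx] at h1
    have h2 : ∀ᶠ y in 𝓝 (ψ.symm (a, b)), g (ψ.symm (ψ y)) = g (ψ.symm ((ψ y).1, b)) := by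
      have : Tendsto ψ (𝓝 (ψ.symm (a, b))) (𝓝 (a, b)) := by
        have := (ψ.continuousAt hxs).tendsto
        rwa [hψx] at this
      exact this.eventually h1
    filter_upwards [h2, ψ.open_source.mem_nhds hxs] with y hy hys
    rw [← hy, ψ.left_inv hys]

end

end Vale.Agent.P278
end
end

section

section

open Set Topology Filter Metric TopologicalSpace
open scoped Manifold ContDiff

set_option linter.unusedSectionVars false

namespace Vale.Agent.P278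

variable {M A B E : Type*} [TopologicalSpace M] [NormedAddCommGroup A] [NormedSpace ℂ A]
  [NormedAddCommGroup B] [NormedSpace ℂ B] [NormedAddCommGroup E] [NormedSpace ℂ E]
  [ChartedSpace E M] {𝒜 : Set (OpenPartialHomeomorph M (A × B))} [h𝒜 : BoxAtlas 𝒜]
  {P : Leaf 𝒜 → Set (Leaf 𝒜)}

/-- `f` has an extension to the uniform plaque, mapping it bijectively to a uniform plaque. -/
def Ext (P : Leaf 𝒜 → Set (Leaf 𝒜)) (x : M) (f : M → Leaf 𝒜) : Prop :=
  ∃ g : M → Leaf 𝒜, g =ᶠ[𝓝 x] f ∧ (∀ u ∈ P ((Leaf.toM 𝒜).symm x), Adm 𝒜 (Leaf.toM 𝒜 u) g) ∧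
    BijOn (fun u : Leaf 𝒜 => g (Leaf.toM 𝒜 u)) (P ((Leaf.toM 𝒜).symm x)) (P (g x))

/-- Displacement of extensions along the second foliation, in the chart given by the invariance
property of plaques. -/
theorem ext_displace {ψ : OpenPartialHomeomorph M (A × B)} (hψ : ψ ∈ 𝒜) {V : Set A} {B' : Set B}
    (hV : IsOpen V) (hB'o : IsOpen B') (hB' : IsPreconnected B')
    (hVB : ∀ a ∈ V, ∀ b ∈ B', (a, b) ∈ ψ.target) {a : A} (ha : a ∈ V)
    (hP : ∀ b ∈ B', ∀ y : Leaf 𝒜, y ∈ P ((Leaf.toM 𝒜).symm (ψ.symm (a, b))) ↔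
      (Leaf.toM 𝒜 y ∈ ψ.source ∧ (ψ (Leaf.toM 𝒜 y)).2 = b ∧ (ψ (Leaf.toM 𝒜 y)).1 ∈ V))
    {b b' : B} (hb : b ∈ B') (hb' : b' ∈ B') {g : M → Leaf 𝒜}
    (hg : ∀ u ∈ P ((Leaf.toM 𝒜).symm (ψ.symm (a, b))), Adm 𝒜 (Leaf.toM 𝒜 u) g)
    (hbij : BijOn (fun u : Leaf 𝒜 => g (Leaf.toM 𝒜 u)) (P ((Leaf.toM 𝒜).symm (ψ.symm (a, b))))
      (P (g (ψ.symm (a, b))))) :
    (∀ u ∈ P ((Leaf.toM 𝒜).symm (ψ.symm (a, b'))),
      Adm 𝒜 (Leaf.toM 𝒜 u) (fun y => g (ψ.symm ((ψ y).1, b)))) ∧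
    BijOn (fun u : Leaf 𝒜 => g (ψ.symm ((ψ (Leaf.toM 𝒜 u)).1, b)))
      (P ((Leaf.toM 𝒜).symm (ψ.symm (a, b'))))
      (P (g (ψ.symm ((ψ (ψ.symm (a, b'))).1, b)))) := by
  set e := Leaf.toM 𝒜 with he
  have hg' : ∀ v ∈ V, Adm 𝒜 (ψ.symm (v, b)) g := by
    intro v hv
    have hvt : (v, b) ∈ ψ.target := hVB v hv b hb
    have := hg (e.symm (ψ.symm (v, b))) ((hP b hb _).2 ⟨by
      rw [e.apply_symm_apply]; exact ψ.map_target hvt, by
      rw [e.apply_symm_apply, ψ.right_inv hvt], by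
      rw [e.apply_symm_apply, ψ.right_inv hvt]; exact hv⟩)
    rwa [e.apply_symm_apply] at this
  have hval : (ψ (ψ.symm (a, b'))).1 = a := by rw [ψ.right_inv (hVB a ha b' hb')]
  constructor
  · intro u hu
    obtain ⟨h1, h2, h3⟩ := (hP b' hb' u).1 hu
    have := Adm.displace hψ hV hB'o hB' hVB hb hg' h3 hb'
    have k : ψ.symm ((ψ (e u)).1, b') = e u := by
      rw [← h2]; exact ψ.left_inv h1
    rwa [k] at this
  · rw [hval]
    -- translation of plaques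
    let τ : Leaf 𝒜 → Leaf 𝒜 := fun u => e.symm (ψ.symm ((ψ (e u)).1, b))
    have hτ : BijOn τ (P (e.symm (ψ.symm (a, b')))) (P (e.symm (ψ.symm (a, b)))) := by
      refine ⟨?_, ?_, ?_⟩
      · intro u hu
        obtain ⟨h1, h2, h3⟩ := (hP b' hb' u).1 hu
        have ht := hVB _ h3 b hb
        refine (hP b hb _).2 ⟨?_, ?_, ?_⟩
        · show e (e.symm (ψ.symm ((ψ (e u)).1, b))) ∈ ψ.source
          rw [e.apply_symm_apply]; exact ψ.map_target ht
        · show (ψ (e (e.symm (ψ.symm ((ψ (e u)).1, b))))).2 = b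
          rw [e.apply_symm_apply, ψ.right_inv ht]
        · show (ψ (e (e.symm (ψ.symm ((ψ (e u)).1, b))))).1 ∈ V
          rw [e.apply_symm_apply, ψ.right_inv ht]; exact h3
      · intro u hu w hw huw
        obtain ⟨h1, h2, h3⟩ := (hP b' hb' u).1 hu
        obtain ⟨l1, l2, l3⟩ := (hP b' hb' w).1 hw
        have e1 : ψ.symm ((ψ (e u)).1, b) = ψ.symm ((ψ (e w)).1, b) := e.symm.injective huw
        have e2 : (ψ (e u)).1 = (ψ (e w)).1 := by
          have := congrArg ψ e1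
          rw [ψ.right_inv (hVB _ h3 b hb), ψ.right_inv (hVB _ l3 b hb)] at this
          exact (Prod.mk.inj this).1
        apply e.injective
        apply ψ.injOn h1 l1
        exact Prod.ext e2 (h2.trans l2.symm)
      · intro w hw
        obtain ⟨l1, l2, l3⟩ := (hP b hb w).1 hw
        have ht := hVB _ l3 b' hb'
        refine ⟨e.symm (ψ.symm ((ψ (e w)).1, b')), (hP b' hb' _).2 ⟨?_, ?_, ?_⟩, ?_⟩
        · rw [e.apply_symm_apply]; exact ψ.map_target ht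
        · rw [e.apply_symm_apply, ψ.right_inv ht]
        · rw [e.apply_symm_apply, ψ.right_inv ht]; exact l3
        · show e.symm (ψ.symm ((ψ (e (e.symm (ψ.symm ((ψ (e w)).1, b'))))).1, b)) = w
          rw [e.apply_symm_apply, ψ.right_inv ht]
          show e.symm (ψ.symm ((ψ (e w)).1, b)) = w
          rw [← l2]
          rw [show ((ψ (e w)).1, (ψ (e w)).2) = ψ (e w) from rfl, ψ.left_inv l1,
            e.symm_apply_apply]
    have := hbij.comp hτ
    exact this.congr (fun u _ => by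
      show g (e (e.symm (ψ.symm ((ψ (e u)).1, b)))) = g (ψ.symm ((ψ (e u)).1, b))
      rw [e.apply_symm_apply])

/-- **Uniform extension** of admissible germs. -/
theorem Adm.ext (hP : UniformPlaques 𝒜 P) {x : M} {f : M → Leaf 𝒜} (h : Adm 𝒜 x f) :
    Ext P x f := by
  set e := Leaf.toM 𝒜 with he
  induction h with
  | base φ hφ a ha =>
    obtain ⟨ψ, hψ, V, B', hV, hB'o, hB', hx, hxV, hxB, hVB, hPx⟩ := hP.inv a
    have haa : ψ.symm ((ψ a).1, (ψ a).2) = a := ψ.left_inv hx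
    have hPa := hPx (ψ a).2 hxB
    rw [haa] at hPa
    refine ⟨fun y => e.symm (ψ.symm ((ψ y).1, (ψ a).2)), ?_, ?_, ?_⟩
    · -- comparison of the two germs
      obtain ⟨A₂, B₂, hA₂, hB₂, -, -, h1, h2, h3, h4, h5⟩ :=
        exists_prod_nhds hφ hψ ha hx (O := univ) univ_mem
      have e1 : ∀ᶠ y in 𝓝 a, ψ y ∈ A₂ ×ˢ B₂ :=
        (ψ.continuousAt hx).eventually_mem ((hA₂.prod hB₂).mem_nhds ⟨h1, h2⟩)
      filter_upwards [e1, ψ.open_source.mem_nhds hx] with y hy hys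
      obtain ⟨k1, k2, -⟩ := h3 _ hy.1 _ h2
      have k3 := h4 _ hy.1 _ hy.2 _ h2
      have k4 := h5 _ hy.1 _ h1 _ h2
      rw [show ((ψ y).1, (ψ y).2) = ψ y from rfl, ψ.left_inv hys] at k3
      rw [haa] at k4
      show e.symm (ψ.symm ((ψ y).1, (ψ a).2)) = e.symm (φ.symm ((φ y).1, (φ a).2))
      congr 1
      rw [k3, ← k4]
      exact (φ.left_inv k2).symm
    · intro u hu
      obtain ⟨h1, h2, h3⟩ := (hPa u).1 hu
      have := Adm.base ψ hψ (e u) h1
      rwa [h2] at this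
    · have hid : ∀ u ∈ P (e.symm a), e.symm (ψ.symm ((ψ (e u)).1, (ψ a).2)) = u := by
        intro u hu
        obtain ⟨h1, h2, h3⟩ := (hPa u).1 hu
        rw [← h2]
        rw [show ((ψ (e u)).1, (ψ (e u)).2) = ψ (e u) from rfl, ψ.left_inv h1,
            e.symm_apply_apply]
      have h0 : (fun y => e.symm (ψ.symm ((ψ y).1, (ψ a).2))) a = e.symm a := by
        show e.symm (ψ.symm ((ψ a).1, (ψ a).2)) = e.symm a
        rw [haa]
      rw [h0]
      exact (bijOn_id _).congr (fun u hu => (hid u hu).symm)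
  | germ x f g _ hgf ih =>
    obtain ⟨g', h1, h2, h3⟩ := ih
    exact ⟨g', h1.trans hgf.symm, h2, h3⟩
  | cont φ hφ V B' hV hB'o hB' hVB f hf a ha b b' hb hb' _ ih =>
    refine hB'.induction₂' (fun b₁ b₂ => Ext P (φ.symm (a, b₁)) f → Ext P (φ.symm (a, b₂)) f)
      ?_ (fun _ _ _ _ _ _ h1 h2 h => h2 (h1 h)) hb hb' ih
    intro b₁ hb₁
    set x₁ := φ.symm (a, b₁) with hx₁def
    have ht₁ : (a, b₁) ∈ φ.target := hVB a ha b₁ hb₁
    have hx₁s : x₁ ∈ φ.source := φ.map_target ht₁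
    have hφx₁ : φ x₁ = (a, b₁) := φ.right_inv ht₁
    obtain ⟨ψ, hψ, V₁, B₁, hV₁, hB₁o, hB₁, hx, hxV, hxB, hVB₁, hPx⟩ := hP.inv x₁
    have hO : {y | y ∈ φ.source ∧ φ y ∈ V ×ˢ B'} ∈ 𝓝 x₁ := by
      refine Filter.inter_mem (φ.open_source.mem_nhds hx₁s) ?_
      exact (φ.continuousAt hx₁s).preimage_mem_nhds (by
        rw [hφx₁]; exact (hV.prod hB'o).mem_nhds ⟨ha, hb₁⟩)
    obtain ⟨A₂, B₂, hA₂, hB₂, -, -, h1, h2, h3, h4, -⟩ := exists_prod_nhds hφ hψ hx₁s hx hO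
    -- invariance of `f` in the small box
    have hfinv : ∀ u ∈ A₂, ∀ c ∈ B₂, ∀ c' ∈ B₂, f (ψ.symm (u, c)) = f (ψ.symm (u, c')) := by
      intro u hu c hc c' hc'
      obtain ⟨-, k2, k3⟩ := h3 u hu c hc
      obtain ⟨-, l2, l3⟩ := h3 u hu c' hc'
      have e1 := h4 u hu c hc c' hc'
      calc f (ψ.symm (u, c)) = f (φ.symm ((φ (ψ.symm (u, c))).1, (φ (ψ.symm (u, c))).2)) := by
            congr 1; exact (φ.left_inv k2).symm
        _ = f (φ.symm ((φ (ψ.symm (u, c))).1, (φ (ψ.symm (u, c'))).2)) :=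
            hf _ k3.2.1 _ k3.2.2 _ l3.2.2
        _ = f (ψ.symm (u, c')) := by
            rw [e1]; congr 1; exact φ.left_inv l2
    have hxx : ψ.symm ((ψ x₁).1, (ψ x₁).2) = x₁ := ψ.left_inv hx
    -- points close to `x₁` in the second plaque
    have hcont : ContinuousAt (fun b₂ => φ.symm (a, b₂)) b₁ :=
      ContinuousAt.comp (g := φ.symm) (f := fun b₂ => (a, b₂)) (φ.continuousAt_symm ht₁)
        (by fun_prop)
    have q1 : ∀ᶠ b₂ in 𝓝 b₁, φ.symm (a, b₂) ∈ ψ.source :=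
      hcont.eventually_mem (ψ.open_source.mem_nhds hx)
    have q2 : ∀ᶠ b₂ in 𝓝 b₁, (ψ (φ.symm (a, b₂))).2 ∈ B₂ ∩ B₁ := by
      have : ContinuousAt (fun b₂ => (ψ (φ.symm (a, b₂))).2) b₁ :=
        continuousAt_snd.comp (ContinuousAt.comp (g := ψ) (f := fun b₂ => φ.symm (a, b₂))
          (ψ.continuousAt hx) hcont)
      exact this.eventually_mem ((hB₂.inter hB₁o).mem_nhds ⟨h2, hxB⟩)
    have q3 : ∀ᶠ b₂ in 𝓝 b₁, (φ (φ.symm (a, b₂))).1 = (φ x₁).1 →
        (ψ (φ.symm (a, b₂))).1 = (ψ x₁).1 :=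
      hcont.eventually (h𝒜.trans' φ hφ ψ hψ x₁ hx₁s hx)
    have q4 : ∀ᶠ b₂ in 𝓝 b₁, (a, b₂) ∈ φ.target :=
      ContinuousAt.eventually_mem (f := fun b₂ => (a, b₂)) (by fun_prop)
        (φ.open_target.mem_nhds ht₁)
    apply mem_nhdsWithin_of_mem_nhds
    filter_upwards [q1, q2, q3, q4] with b₂ r1 r2 r3 r4
    set x₂ := φ.symm (a, b₂) with hx₂def
    have r3' : (ψ x₂).1 = (ψ x₁).1 := r3 (by rw [φ.right_inv r4, hφx₁])
    have hx₂ : ψ.symm ((ψ x₁).1, (ψ x₂).2) = x₂ := by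
      rw [← r3']; exact ψ.left_inv r1
    -- comparison of germs
    have germs : ∀ c c' : B, c ∈ B₂ → c' ∈ B₂ → ((ψ x₁).1, c) ∈ ψ.target →
        ((ψ x₁).1, c') ∈ ψ.target → ∀ g : M → Leaf 𝒜, g =ᶠ[𝓝 (ψ.symm ((ψ x₁).1, c))] f →
        (fun y => g (ψ.symm ((ψ y).1, c))) =ᶠ[𝓝 (ψ.symm ((ψ x₁).1, c'))] f := by
      intro c c' hc hc' ht ht' g hg
      set z' := ψ.symm ((ψ x₁).1, c') with hz'
      have hz's : z' ∈ ψ.source := ψ.map_target ht'
      have hψz' : ψ z' = ((ψ x₁).1, c') := ψ.right_inv ht'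
      have t1 : Tendsto (fun y => ψ.symm ((ψ y).1, c)) (𝓝 z') (𝓝 (ψ.symm ((ψ x₁).1, c))) := by
        have s1 : ContinuousAt (fun y => ((ψ y).1, c)) z' :=
          (continuousAt_fst.comp (ψ.continuousAt hz's)).prodMk continuousAt_const
        have s2 : ContinuousAt ψ.symm ((fun y => ((ψ y).1, c)) z') := by
          apply ψ.continuousAt_symm
          show ((ψ z').1, c) ∈ ψ.target
          rw [hψz']; exact ht
        have s3 : Tendsto (fun y => ψ.symm ((ψ y).1, c)) (𝓝 z') (𝓝 (ψ.symm ((ψ z').1, c))) :=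
          (ContinuousAt.comp (g := ψ.symm) (f := fun y => ((ψ y).1, c)) (x := z') s2 s1).tendsto
        rw [hψz'] at s3
        exact s3
      have t2 : ∀ᶠ y in 𝓝 z', ψ y ∈ A₂ ×ˢ B₂ :=
        (ψ.continuousAt hz's).eventually_mem (by
          rw [hψz']; exact (hA₂.prod hB₂).mem_nhds ⟨h1, hc'⟩)
      filter_upwards [t1.eventually hg, t2, ψ.open_source.mem_nhds hz's] with y y1 y2 y3
      rw [y1, hfinv _ y2.1 _ hc _ y2.2]
      congr 1
      exact ψ.left_inv y3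
    have htx₁ : ((ψ x₁).1, (ψ x₁).2) ∈ ψ.target := ψ.map_source hx
    have htx₂ : ((ψ x₁).1, (ψ x₂).2) ∈ ψ.target := by rw [← r3']; exact ψ.map_source r1
    constructor
    · rintro ⟨g, g1, g2, g3⟩
      have := ext_displace hψ hV₁ hB₁o hB₁ hVB₁ hxV hPx hxB r2.2 (g := g)
        (by rw [hxx]; exact g2) (by rw [hxx]; exact g3)
      rw [hx₂] at this
      refine ⟨fun y => g (ψ.symm ((ψ y).1, (ψ x₁).2)), ?_, this.1, this.2⟩
      have := germs _ _ h2 r2.1 htx₁ htx₂ g (by rw [hxx]; exact g1)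
      rwa [hx₂] at this
    · rintro ⟨g, g1, g2, g3⟩
      have := ext_displace hψ hV₁ hB₁o hB₁ hVB₁ hxV hPx r2.2 hxB (g := g)
        (by rw [hx₂]; exact g2) (by rw [hx₂]; exact g3)
      rw [hxx] at this
      refine ⟨fun y => g (ψ.symm ((ψ y).1, (ψ x₂).2)), ?_, this.1, this.2⟩
      have := germs _ _ r2.1 h2 htx₂ htx₁ g (by rw [hx₂]; exact g1)
      rwa [hxx] at this

/-- The system of admissible germs. -/
def AdmGerm (𝒜 : Set (OpenPartialHomeomorph M (A × B))) (x : M) : Set (Germ (𝓝 x) (Leaf 𝒜)) :=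
  {γ | ∃ f : M → Leaf 𝒜, ((f : M → Leaf 𝒜) : Germ (𝓝 x) (Leaf 𝒜)) = γ ∧ Adm 𝒜 x f}

theorem coe_mem_admGerm {x : M} {f : M → Leaf 𝒜} :
    ((f : M → Leaf 𝒜) : Germ (𝓝 x) (Leaf 𝒜)) ∈ AdmGerm 𝒜 x ↔ Adm 𝒜 x f := by
  constructor
  · rintro ⟨g, hg, hadm⟩
    exact Adm.germ x g f hadm (Germ.coe_eq.1 hg).symm
  · intro h
    exact ⟨f, rfl, h⟩

end Vale.Agent.P278
end
end

section

section

open Topology Set Filter
open scoped ContDiff Manifold

set_option linter.unusedSectionVars false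

namespace Vale.Agent.P278

section pi
variable {𝕜 : Type*} [NontriviallyNormedField 𝕜] {ι : Type*} [Fintype ι]
  {A : ι → Type*} [∀ i, NormedAddCommGroup (A i)] [∀ i, NormedSpace 𝕜 (A i)]
  {Y : ι → Type*} [∀ i, TopologicalSpace (Y i)] [∀ i, ChartedSpace (A i) (Y i)]
  {E : Type*} [NormedAddCommGroup E] [NormedSpace 𝕜 E] {H : Type*} [TopologicalSpace H]
  {I : ModelWithCorners 𝕜 E H} {M : Type*} [TopologicalSpace M] [ChartedSpace H M]
  {n : WithTop ℕ∞}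

/-- The model space of a finite product of complex manifolds. -/
abbrev piModel (𝕜 : Type*) [NontriviallyNormedField 𝕜] {ι : Type*} [Fintype ι]
    (A : ι → Type*) [∀ i, NormedAddCommGroup (A i)] [∀ i, NormedSpace 𝕜 (A i)] :
    ModelWithCorners 𝕜 (∀ i, A i) (ModelPi A) :=
  ModelWithCorners.pi fun i => 𝓘(𝕜, A i)

theorem contMDiffAt_pi_iff {f : M → ∀ i, Y i} {x : M} :
    ContMDiffAt I (piModel 𝕜 A) n f x ↔ ∀ i, ContMDiffAt I 𝓘(𝕜, A i) n (fun y => f y i) x := by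
  simp only [contMDiffAt_iff]
  rw [continuousAt_pi]
  constructor
  · rintro ⟨h1, h2⟩ i
    refine ⟨h1 i, ?_⟩
    have := contDiffWithinAt_pi.mp h2 i
    exact this
  · intro h
    refine ⟨fun i => (h i).1, ?_⟩
    exact contDiffWithinAt_pi.mpr fun i => (h i).2

theorem contMDiff_pi_iff {f : M → ∀ i, Y i} :
    ContMDiff I (piModel 𝕜 A) n f ↔ ∀ i, ContMDiff I 𝓘(𝕜, A i) n (fun y => f y i) :=
  ⟨fun h i x => contMDiffAt_pi_iff.mp (h x) i, fun h x => contMDiffAt_pi_iff.mpr fun i => h i x⟩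

theorem contMDiff_eval (i : ι) :
    ContMDiff (piModel 𝕜 A) 𝓘(𝕜, A i) n (fun a : ∀ i, Y i => a i) := by
  have := contMDiff_pi_iff.mp (contMDiff_id (I := piModel 𝕜 A) (M := ∀ i, Y i) (n := n)) i
  exact this

set_option backward.isDefEq.respectTransparency false in
theorem hasMFDerivAt_pi_apply {f : M → ∀ i, Y i} {x : M} {f' : E →L[𝕜] (∀ i, A i)}
    (h : HasMFDerivAt I (piModel 𝕜 A) f x f') (i : ι) :
    HasMFDerivAt I 𝓘(𝕜, A i) (fun y => f y i) x
      ((ContinuousLinearMap.proj (R := 𝕜) (φ := A) i).comp f') := by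
  refine ⟨(continuousAt_pi.mp h.1) i, ?_⟩
  have h2 : HasFDerivWithinAt (writtenInExtChartAt I (piModel 𝕜 A) x f) f' (range I)
    (extChartAt I x x) := h.2
  exact (hasFDerivWithinAt_pi'.mp h2) i

set_option backward.isDefEq.respectTransparency false in
theorem mfderiv_pi_apply {f : M → ∀ i, Y i} {x : M}
    (h : MDifferentiableAt I (piModel 𝕜 A) f x) (v : TangentSpace I x) (i : ι) :
    (mfderiv I (piModel 𝕜 A) f x v : ∀ i, A i) i = mfderiv I 𝓘(𝕜, A i) (fun y => f y i) x v := by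
  rw [(hasMFDerivAt_pi_apply h.hasMFDerivAt i).mfderiv]
  rfl

end pi

end Vale.Agent.P278
end
end

section

section

open Set Topology Filter
open scoped unitInterval

namespace Vale.Agent.P278.Full

variable {M Z : Type*} [TopologicalSpace M] {V : ∀ x : M, Set (Germ (𝓝 x) Z)}

/-- A point of the space of germs. -/
def mkE (x : M) (f : M → Z) (h : (f : Germ (𝓝 x) Z) ∈ V x) : Etale V := ⟨x, ⟨f, h⟩⟩

theorem mkE_congr {x : M} {f g : M → Z} (h : (f : Germ (𝓝 x) Z) ∈ V x)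
    (h' : (g : Germ (𝓝 x) Z) ∈ V x) (hfg : f =ᶠ[𝓝 x] g) : mkE x f h = mkE x g h' := by
  have h6 : (f : Germ (𝓝 x) Z) = (g : Germ (𝓝 x) Z) := Germ.coe_eq.2 hfg
  have : ∀ (γ γ' : Germ (𝓝 x) Z) (h : γ ∈ V x) (h' : γ' ∈ V x), γ = γ' →
      (⟨x, ⟨γ, h⟩⟩ : Etale V) = ⟨x, ⟨γ', h'⟩⟩ := by
    rintro γ γ' h h' rfl; rfl
  exact this _ _ h h' h6

theorem exists_eq_mkE (s : Etale V) : ∃ (x : M) (f : M → Z) (h : (f : Germ (𝓝 x) Z) ∈ V x),
    s = mkE x f h := by
  obtain ⟨x, ⟨γ, hγ⟩⟩ := s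
  obtain ⟨f, rfl⟩ : ∃ f : M → Z, (f : Germ (𝓝 x) Z) = γ := Quotient.exists_rep γ
  exact ⟨x, f, hγ, rfl⟩

/-- A section given by one function is continuous. -/
theorem continuousAt_etale {N : Type*} [TopologicalSpace N] {Γ : N → Etale V} {γ : N → M} {n : N}
    (hγ : ContinuousAt γ n) (f : M → Z)
    (h : ∀ᶠ n' in 𝓝 n, ∃ hf : (f : Germ (𝓝 (γ n')) Z) ∈ V (γ n'), Γ n' = mkE (γ n') f hf) :
    ContinuousAt Γ n := by
  obtain ⟨hf, hn⟩ := h.self_of_nhds
  rw [ContinuousAt, hn]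
  intro O hO
  obtain ⟨O', hO'O, hO'o, hmem⟩ := mem_nhds_iff.1 hO
  have h1 := hγ.eventually (hO'o f (γ n) hf hmem)
  rw [Filter.mem_map]
  filter_upwards [h1, h] with n' h2 h3
  obtain ⟨hf', h4⟩ := h3
  show Γ n' ∈ O
  rw [h4]
  exact hO'O (h2 hf')

/-- A continuous section is locally given by one function. -/
theorem eventually_germ_eq {N : Type*} [TopologicalSpace N] {Γ : N → Etale V} {n : N}
    (hΓ : ContinuousAt Γ n) {f : M → Z} (hf : (Γ n).2.1 = (f : Germ (𝓝 (Γ n).1) Z)) :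
    ∀ᶠ n' in 𝓝 n, (Γ n').2.1 = (f : Germ (𝓝 (Γ n').1) Z) := by
  have hO := Etale.isOpen_graph (V := V) isOpen_univ f
  have hmem : Γ n ∈ {s : Etale V | s.1 ∈ univ ∧ (s.2.1 : Germ (𝓝 s.1) Z) = (f : Germ (𝓝 s.1) Z)} :=
    ⟨mem_univ _, hf⟩
  filter_upwards [hΓ.eventually_mem (hO.mem_nhds hmem)] with n' h
  exact h.2

open Classical in
/-- The space of germs is a local homeomorphism. -/
theorem isLocalHomeomorph_etale
    (hV : ∀ (x : M) (f : M → Z), (f : Germ (𝓝 x) Z) ∈ V x → ∀ᶠ y in 𝓝 x, (f : Germ (𝓝 y) Z) ∈ V y) :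
    IsLocalHomeomorph (Etale.proj (V := V)) := by
  rintro ⟨x, ⟨γ, hγ⟩⟩
  obtain ⟨f, rfl⟩ : ∃ f : M → Z, (f : Germ (𝓝 x) Z) = γ := Quotient.exists_rep γ
  obtain ⟨U, hUV, hUo, hxU⟩ := eventually_nhds_iff.1 (hV x f hγ)
  refine ⟨{ toFun := Etale.proj
            invFun := fun y => if h : y ∈ U then mkE y f (hUV y h) else mkE x f hγ
            source := {s | s.1 ∈ U ∧ (s.2.1 : Germ (𝓝 s.1) Z) = (f : Germ (𝓝 s.1) Z)}
            target := U
            map_source' := fun s hs => hs.1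
            map_target' := ?_
            left_inv' := ?_
            right_inv' := ?_
            open_source := Etale.isOpen_graph hUo f
            open_target := hUo
            continuousOn_toFun := Etale.continuous_proj.continuousOn
            continuousOn_invFun := ?_ }, ⟨hxU, rfl⟩, rfl⟩
  · intro y hy
    rw [dif_pos hy]
    exact ⟨hy, rfl⟩
  · rintro ⟨y, ⟨δ, hδ⟩⟩ ⟨h1, h2⟩
    have h1' : y ∈ U := h1
    have h2' : δ = (f : Germ (𝓝 y) Z) := h2
    subst h2'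
    exact dif_pos h1'
  · intro y hy
    rw [dif_pos hy]
    rfl
  · intro y hy
    apply ContinuousAt.continuousWithinAt
    refine continuousAt_etale (γ := id) continuousAt_id f ?_
    filter_upwards [hUo.mem_nhds hy] with y' hy'
    exact ⟨hUV y' hy', dif_pos hy'⟩

/-- The space of germs is separated. -/
theorem isSeparatedMap_etale
    (hV : ∀ (x : M) (f g : M → Z), (f : Germ (𝓝 x) Z) ∈ V x → (g : Germ (𝓝 x) Z) ∈ V x →
      ∃ U, IsOpen U ∧ x ∈ U ∧ ((∃ y ∈ U, f =ᶠ[𝓝 y] g) → f =ᶠ[𝓝 x] g)) :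
    IsSeparatedMap (Etale.proj (V := V)) := by
  intro s s' hxx' hne
  obtain ⟨x, f, hγ, rfl⟩ := exists_eq_mkE s
  obtain ⟨x', g, hγ', rfl⟩ := exists_eq_mkE s'
  have hxx'' : x = x' := hxx'
  subst hxx''
  obtain ⟨U, hUo, hxU, hU⟩ := hV x f g hγ hγ'
  refine ⟨_, _, Etale.isOpen_graph hUo f, Etale.isOpen_graph hUo g, ⟨hxU, rfl⟩, ⟨hxU, rfl⟩, ?_⟩
  rw [Set.disjoint_left]
  rintro ⟨y, ⟨δ, hδ⟩⟩ ⟨h1, h2⟩ ⟨h3, h4⟩
  have h5 : f =ᶠ[𝓝 x] g := hU ⟨y, h1, Germ.coe_eq.1 (h2.symm.trans h4)⟩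
  exact hne (mkE_congr _ _ h5)

/-- Lifting of homotopies with liftable paths. -/
theorem exists_lift_homotopy {N : Type*} [TopologicalSpace N]
    (hloc : IsLocalHomeomorph (Etale.proj (V := V))) (hsep : IsSeparatedMap (Etale.proj (V := V)))
    (H : C(I × N, M)) (g₀ : N → Etale V) (hg₀ : Continuous g₀)
    (hl : ∀ n, ∃ Γ : I → Etale V, Continuous Γ ∧ (∀ t, Etale.proj (Γ t) = H (t, n)) ∧
      Γ 0 = g₀ n) :
    ∃ g : I × N → Etale V, Continuous g ∧ (∀ p, Etale.proj (g p) = H p) ∧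
      ∀ n, g (0, n) = g₀ n := by
  choose Γ h1 h2 h3 using hl
  refine ⟨fun p => Γ p.2 p.1, ?_, fun p => h2 p.2 p.1, fun n => h3 n⟩
  refine hloc.continuous_lift hsep H (funext fun p => h2 p.2 p.1) ?_ fun n => h1 n
  have : (fun n => Γ n 0) = g₀ := funext h3
  show Continuous fun n => Γ n 0
  rw [this]; exact hg₀

end Vale.Agent.P278.Full
end
end

section

section

open Set Topology Filter Metric
open scoped ContDiff Manifold

set_option linter.all false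

namespace Vale.Agent.P278.Full

/-- Local triviality of the system of admissible germs (the conclusion of
`admGerm_locally_trivial`). -/
def LocTriv {M A B : Type*} [TopologicalSpace M] [NormedAddCommGroup A] [NormedSpace ℂ A]
    [NormedAddCommGroup B] [NormedSpace ℂ B] (𝒜 : Set (OpenPartialHomeomorph M (A × B))) : Prop :=
  ∀ x : M, ∃ (U : Set M) (S : Set (M → Leaf 𝒜)), IsOpen U ∧ x ∈ U ∧
      (∀ f ∈ S, ∀ y ∈ U, ((f : M → Leaf 𝒜) : Germ (𝓝 y) (Leaf 𝒜)) ∈ AdmGerm 𝒜 y) ∧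
      (∀ y ∈ U, ∀ γ ∈ AdmGerm 𝒜 y, ∃ f ∈ S, ((f : M → Leaf 𝒜) : Germ (𝓝 y) (Leaf 𝒜)) = γ) ∧
      (∀ f ∈ S, ∀ f' ∈ S, ∀ y ∈ U, f =ᶠ[𝓝 y] f' → ∀ z ∈ U, f =ᶠ[𝓝 z] f')

end Vale.Agent.P278.Full
end
end

section

section

open Topology Set Filter
open scoped ContDiff Manifold

set_option linter.unusedSectionVars false

namespace Vale.Agent.P278

section const
variable {V : Type*} [NormedAddCommGroup V] [NormedSpace ℂ V]
  {N : Type*} [TopologicalSpace N] [ChartedSpace V N] [IsManifold 𝓘(ℂ, V) ω N]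
  {V' : Type*} [NormedAddCommGroup V'] [NormedSpace ℂ V']
  {N' : Type*} [TopologicalSpace N'] [ChartedSpace V' N'] [IsManifold 𝓘(ℂ, V') ω N']

set_option backward.isDefEq.respectTransparency false in
/-- A map with vanishing derivative is locally constant. -/
theorem eventually_eq_of_mfderiv_eq_zero {f : N → N'} (hf : MDifferentiable 𝓘(ℂ, V) 𝓘(ℂ, V') f)
    (h0 : ∀ x, mfderiv 𝓘(ℂ, V) 𝓘(ℂ, V') f x = 0) (x : N) : ∀ᶠ y in 𝓝 x, f y = f x := by
  set φ := chartAt V x with hφ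
  set ψ := chartAt V' (f x) with hψ
  have hφm : φ ∈ IsManifold.maximalAtlas 𝓘(ℂ, V) 1 N := IsManifold.chart_mem_maximalAtlas x
  have hψm : ψ ∈ IsManifold.maximalAtlas 𝓘(ℂ, V') 1 N' := IsManifold.chart_mem_maximalAtlas (f x)
  have hx : x ∈ φ.source := mem_chart_source V x
  have hfx : f x ∈ ψ.source := mem_chart_source V' (f x)
  set O : Set N := φ.source ∩ f ⁻¹' ψ.source with hO
  have hOo : IsOpen O := φ.open_source.inter (ψ.open_source.preimage hf.continuous)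
  set W : Set V := φ.target ∩ φ.symm ⁻¹' O with hW
  have hWo : IsOpen W := φ.isOpen_inter_preimage_symm hOo
  have hxW : φ x ∈ W := ⟨φ.map_source hx, by
    rw [mem_preimage, φ.left_inv hx]; exact ⟨hx, hfx⟩⟩
  set g : V → V' := fun p => ψ (f (φ.symm p)) with hg
  have hgd : ∀ p ∈ W, HasFDerivAt g (0 : V →L[ℂ] V') p := by
    intro p hp
    have h1 : MDifferentiableAt 𝓘(ℂ, V) 𝓘(ℂ, V) φ.symm p :=
      mdifferentiableAt_atlas_symm (chart_mem_atlas V x) hp.1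
    have h2 : MDifferentiableAt 𝓘(ℂ, V) 𝓘(ℂ, V') f (φ.symm p) := hf _
    have h3 : MDifferentiableAt 𝓘(ℂ, V') 𝓘(ℂ, V') ψ (f (φ.symm p)) :=
      mdifferentiableAt_atlas (chart_mem_atlas V' (f x)) hp.2.2
    have h4 : MDifferentiableAt 𝓘(ℂ, V) 𝓘(ℂ, V') (f ∘ φ.symm) p := h2.comp p h1
    have h5 : mfderiv 𝓘(ℂ, V) 𝓘(ℂ, V') (f ∘ φ.symm) p = 0 := by
      rw [mfderiv_comp p h2 h1, h0]
      exact ContinuousLinearMap.zero_comp _
    have h6 : mfderiv 𝓘(ℂ, V) 𝓘(ℂ, V') (ψ ∘ (f ∘ φ.symm)) p = 0 := by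
      rw [mfderiv_comp p h3 h4, h5]
      exact ContinuousLinearMap.comp_zero _
    have h7 : MDifferentiableAt 𝓘(ℂ, V) 𝓘(ℂ, V') (ψ ∘ (f ∘ φ.symm)) p := h3.comp p h4
    rw [mfderiv_eq_fderiv] at h6
    have h8 := (mdifferentiableAt_iff_differentiableAt.mp h7).hasFDerivAt
    rw [h6] at h8
    exact h8
  obtain ⟨r, hr, hrW⟩ := Metric.isOpen_iff.mp hWo (φ x) hxW
  have hconst : ∀ p ∈ Metric.ball (φ x) r, g p = g (φ x) := fun p hp =>
    (convex_ball (φ x) r).is_const_of_fderivWithin_eq_zero (𝕜 := ℂ)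
      (fun b hb => (hgd b (hrW hb)).differentiableAt.differentiableWithinAt)
      (fun b hb => by
        rw [fderivWithin_of_isOpen Metric.isOpen_ball hb]
        exact (hgd b (hrW hb)).fderiv) hp (Metric.mem_ball_self hr)
  have hev : ∀ᶠ y in 𝓝 x, φ y ∈ Metric.ball (φ x) r :=
    (φ.continuousAt hx).eventually_mem (Metric.ball_mem_nhds _ hr)
  filter_upwards [hev, hOo.mem_nhds (show x ∈ O from ⟨hx, hfx⟩)] with y hy hyO
  have h1 := hconst (φ y) hy
  simp only [hg] at h1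
  rw [φ.left_inv hyO.1, φ.left_inv hx] at h1
  exact ψ.injOn hyO.2 hfx h1

/-- A map with vanishing derivative on a connected manifold is constant. -/
theorem eq_of_mfderiv_eq_zero [PreconnectedSpace N] {f : N → N'}
    (hf : MDifferentiable 𝓘(ℂ, V) 𝓘(ℂ, V') f)
    (h0 : ∀ x, mfderiv 𝓘(ℂ, V) 𝓘(ℂ, V') f x = 0) (x y : N) : f x = f y := by
  have h1 : IsLocallyConstant f := (IsLocallyConstant.iff_eventually_eq f).mpr
    (eventually_eq_of_mfderiv_eq_zero hf h0)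
  exact h1.apply_eq_of_isPreconnected isPreconnected_univ (mem_univ x) (mem_univ y)

end const

section multi
variable {E : Type*} [NormedAddCommGroup E] [NormedSpace ℂ E]
  {M : Type*} [TopologicalSpace M] [ChartedSpace E M] [IsManifold 𝓘(ℂ, E) ω M]
  {A : Type*} [NormedAddCommGroup A] [NormedSpace ℂ A]
  {B : Type*} [NormedAddCommGroup B] [NormedSpace ℂ B]
  {Y : Type*} [TopologicalSpace Y] [ChartedSpace A Y]
  {Z : Type*} [TopologicalSpace Z] [ChartedSpace B Z]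

set_option backward.isDefEq.respectTransparency false in
lemma mfderiv_fst_comp (Φ : Diffeomorph 𝓘(ℂ, E) (𝓘(ℂ, A).prod 𝓘(ℂ, B)) M (Y × Z) ω) (x : M)
    (v : TangentSpace 𝓘(ℂ, E) x) :
    mfderiv 𝓘(ℂ, E) 𝓘(ℂ, A) (fun y => (Φ y).1) x v =
      (mfderiv 𝓘(ℂ, E) (𝓘(ℂ, A).prod 𝓘(ℂ, B)) Φ x v : A × B).1 := by
  have h1 : MDifferentiableAt 𝓘(ℂ, E) (𝓘(ℂ, A).prod 𝓘(ℂ, B)) Φ x :=
    Φ.contMDiff.mdifferentiable (by simp) x
  have h2 : mfderiv 𝓘(ℂ, E) 𝓘(ℂ, A) (Prod.fst ∘ Φ) x =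
      (mfderiv (𝓘(ℂ, A).prod 𝓘(ℂ, B)) 𝓘(ℂ, A) Prod.fst (Φ x)).comp
        (mfderiv 𝓘(ℂ, E) (𝓘(ℂ, A).prod 𝓘(ℂ, B)) Φ x) :=
    mfderiv_comp x mdifferentiableAt_fst h1
  rw [show (fun y => (Φ y).1) = Prod.fst ∘ Φ from rfl, h2, mfderiv_fst]
  rfl

set_option backward.isDefEq.respectTransparency false in
lemma mfderiv_snd_comp (Φ : Diffeomorph 𝓘(ℂ, E) (𝓘(ℂ, A).prod 𝓘(ℂ, B)) M (Y × Z) ω) (x : M)
    (v : TangentSpace 𝓘(ℂ, E) x) :
    mfderiv 𝓘(ℂ, E) 𝓘(ℂ, B) (fun y => (Φ y).2) x v =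
      (mfderiv 𝓘(ℂ, E) (𝓘(ℂ, A).prod 𝓘(ℂ, B)) Φ x v : A × B).2 := by
  have h1 : MDifferentiableAt 𝓘(ℂ, E) (𝓘(ℂ, A).prod 𝓘(ℂ, B)) Φ x :=
    Φ.contMDiff.mdifferentiable (by simp) x
  have h2 : mfderiv 𝓘(ℂ, E) 𝓘(ℂ, B) (Prod.snd ∘ Φ) x =
      (mfderiv (𝓘(ℂ, A).prod 𝓘(ℂ, B)) 𝓘(ℂ, B) Prod.snd (Φ x)).comp
        (mfderiv 𝓘(ℂ, E) (𝓘(ℂ, A).prod 𝓘(ℂ, B)) Φ x) :=
    mfderiv_comp x mdifferentiableAt_snd h1
  rw [show (fun y => (Φ y).2) = Prod.snd ∘ Φ from rfl, h2, mfderiv_snd]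
  rfl

set_option backward.isDefEq.respectTransparency false in
/-- A tangent vector killed by both projections vanishes. -/
lemma eq_zero_of_fst_snd (Φ : Diffeomorph 𝓘(ℂ, E) (𝓘(ℂ, A).prod 𝓘(ℂ, B)) M (Y × Z) ω) (x : M)
    (v : TangentSpace 𝓘(ℂ, E) x)
    (h1 : mfderiv 𝓘(ℂ, E) 𝓘(ℂ, A) (fun y => (Φ y).1) x v = 0)
    (h2 : mfderiv 𝓘(ℂ, E) 𝓘(ℂ, B) (fun y => (Φ y).2) x v = 0) : v = 0 := by
  rw [mfderiv_fst_comp] at h1
  rw [mfderiv_snd_comp] at h2
  have h3 : mfderiv 𝓘(ℂ, E) (𝓘(ℂ, A).prod 𝓘(ℂ, B)) Φ x v = 0 := Prod.ext h1 h2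
  have h4 : MDifferentiableAt 𝓘(ℂ, E) (𝓘(ℂ, A).prod 𝓘(ℂ, B)) Φ x :=
    Φ.contMDiff.mdifferentiable (by simp only [ne_eq, WithTop.top_ne_zero, not_false_eq_true]) x
  have h5 : MDifferentiableAt (𝓘(ℂ, A).prod 𝓘(ℂ, B)) 𝓘(ℂ, E) Φ.symm (Φ x) :=
    Φ.symm.contMDiff.mdifferentiable (by simp only [ne_eq, WithTop.top_ne_zero, not_false_eq_true]) _
  have h6 := mfderiv_comp x h5 h4
  have h7 : Φ.symm ∘ Φ = id := by funext y; exact Φ.symm_apply_apply y
  rw [h7, mfderiv_id] at h6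
  have h8 := congrArg (fun L => L v) h6
  change v = mfderiv (𝓘(ℂ, A).prod 𝓘(ℂ, B)) 𝓘(ℂ, E) Φ.symm (Φ x)
    (mfderiv 𝓘(ℂ, E) (𝓘(ℂ, A).prod 𝓘(ℂ, B)) Φ x v) at h8
  rw [h8, h3, map_zero]

end multi

section family
variable {E : Type*} [NormedAddCommGroup E] [NormedSpace ℂ E]
  {M : Type*} [TopologicalSpace M] [ChartedSpace E M] [IsManifold 𝓘(ℂ, E) ω M]
  {ι : Type*} [Fintype ι] [DecidableEq ι]
  {A : ι → Type*} [∀ i, NormedAddCommGroup (A i)] [∀ i, NormedSpace ℂ (A i)]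
  {B : ι → Type*} [∀ i, NormedAddCommGroup (B i)] [∀ i, NormedSpace ℂ (B i)]
  {Y : ι → Type*} [∀ i, TopologicalSpace (Y i)] [∀ i, ChartedSpace (A i) (Y i)]
  [∀ i, IsManifold 𝓘(ℂ, A i) ω (Y i)]
  {Z : ι → Type*} [∀ i, TopologicalSpace (Z i)] [∀ i, ChartedSpace (B i) (Z i)]
  [∀ i, IsManifold 𝓘(ℂ, B i) ω (Z i)]
  (Φ : ∀ i, Diffeomorph 𝓘(ℂ, E) (𝓘(ℂ, A i).prod 𝓘(ℂ, B i)) M (Y i × Z i) ω)

/-- Moving along the leaves of the `i`-th foliation. -/
noncomputable def upd (i : ι) (x : M) (a : Y i) : M := (Φ i).symm (a, (Φ i x).2)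

lemma contMDiff_upd (i : ι) {N V : Type*} [NormedAddCommGroup V] [NormedSpace ℂ V]
    {H : Type*} [TopologicalSpace H] {I : ModelWithCorners ℂ V H}
    [TopologicalSpace N] [ChartedSpace H N] {f : N → M} {g : N → Y i}
    (hf : ContMDiff I 𝓘(ℂ, E) ω f) (hg : ContMDiff I 𝓘(ℂ, A i) ω g) :
    ContMDiff I 𝓘(ℂ, E) ω (fun z => upd Φ i (f z) (g z)) :=
  (Φ i).symm.contMDiff.comp (hg.prodMk ((contMDiff_snd.comp (Φ i).contMDiff).comp hf))

lemma upd_self (i : ι) (x : M) : upd Φ i x (Φ i x).1 = x := by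
  unfold upd
  rw [show ((Φ i x).1, (Φ i x).2) = Φ i x from rfl, (Φ i).symm_apply_apply]

lemma fst_upd (i : ι) (x : M) (a : Y i) : (Φ i (upd Φ i x a)).1 = a := by
  unfold upd
  rw [(Φ i).apply_symm_apply]

lemma snd_upd (i : ι) (x : M) (a : Y i) : (Φ i (upd Φ i x a)).2 = (Φ i x).2 := by
  unfold upd
  rw [(Φ i).apply_symm_apply]

variable (H1 : ∀ i j, i ≠ j → ∀ (x : M) (v : TangentSpace 𝓘(ℂ, E) x),
    mfderiv 𝓘(ℂ, E) 𝓘(ℂ, B i) (fun y => (Φ i y).2) x v = 0 →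
    mfderiv 𝓘(ℂ, E) 𝓘(ℂ, A j) (fun y => (Φ j y).1) x v = 0)

include H1 in
set_option backward.isDefEq.respectTransparency false in
lemma fst_upd_ne [∀ i, PreconnectedSpace (Y i)] {i j : ι} (hij : i ≠ j) (x : M) (a : Y i) :
    (Φ j (upd Φ i x a)).1 = (Φ j x).1 := by
  set u : Y i → M := fun a => upd Φ i x a with hu
  have hu1 : ContMDiff 𝓘(ℂ, A i) 𝓘(ℂ, E) ω u := contMDiff_upd Φ i contMDiff_const contMDiff_id
  have hfj : ContMDiff 𝓘(ℂ, E) 𝓘(ℂ, A j) ω (fun y => (Φ j y).1) :=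
    contMDiff_fst.comp (Φ j).contMDiff
  have hsi : ContMDiff 𝓘(ℂ, E) 𝓘(ℂ, B i) ω (fun y => (Φ i y).2) :=
    contMDiff_snd.comp (Φ i).contMDiff
  have h2 : ∀ b, mfderiv 𝓘(ℂ, A i) 𝓘(ℂ, A j) (fun a => (Φ j (u a)).1) b = 0 := by
    intro b
    have e1 := mfderiv_comp b (hfj.mdifferentiable (by simp only [ne_eq, WithTop.top_ne_zero, not_false_eq_true]) (u b))
      (hu1.mdifferentiable (by simp only [ne_eq, WithTop.top_ne_zero, not_false_eq_true]) b)
    have e2 := mfderiv_comp b (hsi.mdifferentiable (by simp only [ne_eq, WithTop.top_ne_zero, not_false_eq_true]) (u b))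
      (hu1.mdifferentiable (by simp only [ne_eq, WithTop.top_ne_zero, not_false_eq_true]) b)
    have e3 : (fun y => (Φ i y).2) ∘ u = fun _ => (Φ i x).2 := by
      funext a; exact snd_upd Φ i x a
    rw [e3, mfderiv_const] at e2
    change mfderiv 𝓘(ℂ, A i) 𝓘(ℂ, A j) ((fun y => (Φ j y).1) ∘ u) b = 0
    rw [e1]
    ext v
    have e4 := congrArg (fun L => L v) e2
    exact H1 i j hij (u b) _ e4.symm
  have h3 := eq_of_mfderiv_eq_zero ((hfj.comp hu1).mdifferentiable (by simp)) h2 a (Φ i x).1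
  have h4 : u (Φ i x).1 = x := upd_self Φ i x
  have h5 : (Φ j (u a)).1 = (Φ j (u (Φ i x).1)).1 := h3
  rw [h4] at h5
  exact h5

include H1 in
/-- Iterated moves. -/
lemma exists_moves [∀ i, PreconnectedSpace (Y i)] (s : Finset ι) :
    ∃ R : M × (∀ i, Y i) → M,
      ContMDiff (𝓘(ℂ, E).prod (piModel ℂ A)) 𝓘(ℂ, E) ω R ∧
      (∀ x a i, (Φ i (R (x, a))).1 = if i ∈ s then a i else (Φ i x).1) ∧
      ∀ x, R (x, fun i => (Φ i x).1) = x := by
  induction s using Finset.induction_on with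
  | empty =>
    refine ⟨Prod.fst, contMDiff_fst, fun x a i => by simp, fun x => rfl⟩
  | insert i s hi ih =>
    obtain ⟨R, hR, hR1, hR2⟩ := ih
    refine ⟨fun z => upd Φ i (R z) (z.2 i), ?_, ?_, ?_⟩
    · exact contMDiff_upd Φ i hR ((contMDiff_eval i).comp contMDiff_snd)
    · intro x a j
      by_cases hij : j = i
      · subst hij
        simp only [fst_upd, Finset.mem_insert, true_or, ↓reduceIte]
      · rw [fst_upd_ne Φ H1 (Ne.symm hij), hR1]
        simp [hij]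
    · intro x
      show upd Φ i (R (x, fun i => (Φ i x).1)) ((Φ i x).1) = x
      rw [hR2, upd_self]

variable (H2 : ∀ (x : M) (v : TangentSpace 𝓘(ℂ, E) x), ∃ w : ι → TangentSpace 𝓘(ℂ, E) x,
    v = ∑ i, w i ∧ ∀ i, mfderiv 𝓘(ℂ, E) 𝓘(ℂ, B i) (fun y => (Φ i y).2) x (w i) = 0)

include H1 H2 in
lemma kernel_iff (x : M) (v : TangentSpace 𝓘(ℂ, E) x) (i : ι) :
    mfderiv 𝓘(ℂ, E) 𝓘(ℂ, B i) (fun y => (Φ i y).2) x v = 0 ↔
      ∀ j, j ≠ i → mfderiv 𝓘(ℂ, E) 𝓘(ℂ, A j) (fun y => (Φ j y).1) x v = 0 := by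
  refine ⟨fun h j hj => H1 i j (Ne.symm hj) x v h, fun h => ?_⟩
  obtain ⟨w, hw, hw0⟩ := H2 x v
  have h1 : ∀ j, mfderiv 𝓘(ℂ, E) 𝓘(ℂ, A j) (fun y => (Φ j y).1) x v =
      mfderiv 𝓘(ℂ, E) 𝓘(ℂ, A j) (fun y => (Φ j y).1) x (w j) := by
    intro j
    conv_lhs => rw [hw]
    rw [map_sum]
    exact Finset.sum_eq_single j (fun l _ hl => H1 l j hl x (w l) (hw0 l))
      (fun h => absurd (Finset.mem_univ j) h)
  have h2 : ∀ j, j ≠ i → w j = 0 := by
    intro j hj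
    apply eq_zero_of_fst_snd (Φ j) x (w j) _ (hw0 j)
    rw [← h1]
    exact h j hj
  have h3 : v = w i := by
    rw [hw]
    exact Finset.sum_eq_single i (fun l _ hl => h2 l hl)
      (fun h => absurd (Finset.mem_univ i) h)
  rw [h3]
  exact hw0 i

include H1 H2 in
lemma eq_zero_of_fst (x : M) (v : TangentSpace 𝓘(ℂ, E) x)
    (h : ∀ j, mfderiv 𝓘(ℂ, E) 𝓘(ℂ, A j) (fun y => (Φ j y).1) x v = 0) : v = 0 := by
  obtain ⟨w, hw, hw0⟩ := H2 x v
  have h1 : ∀ j, mfderiv 𝓘(ℂ, E) 𝓘(ℂ, A j) (fun y => (Φ j y).1) x v =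
      mfderiv 𝓘(ℂ, E) 𝓘(ℂ, A j) (fun y => (Φ j y).1) x (w j) := by
    intro j
    conv_lhs => rw [hw]
    rw [map_sum]
    exact Finset.sum_eq_single j (fun l _ hl => H1 l j hl x (w l) (hw0 l))
      (fun h => absurd (Finset.mem_univ j) h)
  rw [hw]
  apply Finset.sum_eq_zero
  intro j _
  apply eq_zero_of_fst_snd (Φ j) x (w j) _ (hw0 j)
  rw [← h1]
  exact h j

include H1 H2 in
set_option backward.isDefEq.respectTransparency false in
/-- **Assembly of product decompositions.** -/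
theorem exists_diffeomorph_pi [PreconnectedSpace M] [Nonempty M] [∀ i, PreconnectedSpace (Y i)] :
    ∃ Ψ : Diffeomorph 𝓘(ℂ, E) (piModel ℂ A) M (∀ i, Y i) ω,
      (∀ x i, Ψ x i = (Φ i x).1) ∧
      ∀ (x : M) (v : TangentSpace 𝓘(ℂ, E) x) (i : ι),
        (mfderiv 𝓘(ℂ, E) 𝓘(ℂ, B i) (fun y => (Φ i y).2) x v = 0 ↔
          ∀ j, j ≠ i → (mfderiv 𝓘(ℂ, E) (piModel ℂ A) Ψ x v : ∀ j, A j) j = 0) := by
  obtain ⟨x₀⟩ : Nonempty M := inferInstance
  obtain ⟨R, hR, hR1, hR2⟩ := exists_moves Φ H1 Finset.univ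
  simp only [Finset.mem_univ, if_true] at hR1
  have hP : ContMDiff 𝓘(ℂ, E) (piModel ℂ A) ω (fun x i => (Φ i x).1 : M → ∀ i, Y i) :=
    contMDiff_pi_iff.mpr fun i => contMDiff_fst.comp (Φ i).contMDiff
  have hS : ContMDiff (piModel ℂ A) 𝓘(ℂ, E) ω (fun a : ∀ i, Y i => R (x₀, a)) :=
    hR.comp (contMDiff_const.prodMk contMDiff_id)
  have hconst : ∀ (a : ∀ i, Y i) (x : M), R (x, a) = R (x₀, a) := by
    intro a x
    have hRa : ContMDiff 𝓘(ℂ, E) 𝓘(ℂ, E) ω (fun x => R (x, a)) :=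
      hR.comp (contMDiff_id.prodMk contMDiff_const)
    refine eq_of_mfderiv_eq_zero (hRa.mdifferentiable (by simp)) ?_ x x₀
    intro y
    ext v
    apply eq_zero_of_fst Φ H1 H2
    intro j
    have hfj : ContMDiff 𝓘(ℂ, E) 𝓘(ℂ, A j) ω (fun y => (Φ j y).1) :=
      contMDiff_fst.comp (Φ j).contMDiff
    have e1 := mfderiv_comp y (hfj.mdifferentiable (by simp) (R (y, a)))
      (hRa.mdifferentiable (by simp) y)
    have e3 : (fun y => (Φ j y).1) ∘ (fun x => R (x, a)) = fun _ => a j := by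
      funext z; exact hR1 z a j
    rw [e3, mfderiv_const] at e1
    exact (congrArg (fun L => L v) e1).symm
  let Ψ : Diffeomorph 𝓘(ℂ, E) (piModel ℂ A) M (∀ i, Y i) ω :=
    { toFun := fun x i => (Φ i x).1
      invFun := fun a => R (x₀, a)
      left_inv := fun x => by
        show R (x₀, fun i => (Φ i x).1) = x
        rw [← hconst _ x, hR2]
      right_inv := fun a => by
        funext i
        exact hR1 x₀ a i
      contMDiff_toFun := hP
      contMDiff_invFun := hS }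
  refine ⟨Ψ, fun x i => rfl, fun x v i => ?_⟩
  rw [kernel_iff Φ H1 H2]
  refine forall_congr' fun j => forall_congr' fun _ => ?_
  have e := mfderiv_pi_apply (hP.mdifferentiable (by simp) x) v j
  change _ ↔ (mfderiv 𝓘(ℂ, E) (piModel ℂ A) (fun x i => (Φ i x).1 : M → ∀ i, Y i) x v :
    ∀ j, A j) j = 0
  rw [e]

end family

end Vale.Agent.P278
end
end

section

section

open Set Topology Filter Metric
open scoped ContDiff

set_option linter.unusedSectionVars false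

namespace Vale.Agent.P278

variable {A B : Type*} [NormedAddCommGroup A] [NormedSpace ℂ A] [CompleteSpace A]
  [NormedAddCommGroup B] [NormedSpace ℂ B] [CompleteSpace B]

/-- **Holomorphic Frobenius theorem**, for graphs. -/
theorem frobenius_graph {F : A × B → A →L[ℂ] B} (hF : AnalyticAt ℂ F 0)
    (hint : ∀ᶠ p in 𝓝 (0 : A × B), ∀ v w,
      fderiv ℂ F p (v, F p v) w = fderiv ℂ F p (w, F p w) v) :
    ∃ Y : A × B → B, ContDiffAt ℂ ω Y 0 ∧ Y 0 = 0 ∧ (∀ᶠ b in 𝓝 (0 : B), Y (0, b) = b) ∧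
      ∀ᶠ p in 𝓝 (0 : A × B), ∀ v, fderiv ℂ Y p (v, 0) = F (p.1, Y p) v := by
  obtain ⟨Y, hY, hY0, hYb, hray⟩ := exists_ray_solution hF
  refine ⟨Y, hY, hY0, hYb, ?_⟩
  have hFc : ContDiffAt ℂ ω F 0 := hF.contDiffAt
  have hc : Tendsto (fun p : A × B => (p.1, Y p)) (𝓝 0) (𝓝 (0 : A × B)) := by
    have : ContinuousAt (fun p : A × B => (p.1, Y p)) 0 :=
      continuousAt_fst.prodMk hY.continuousAt
    have h := this.tendsto
    rwa [show ((0 : A × B).1, Y 0) = (0 : A × B) by rw [hY0]; rfl] at h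
  have e1 : ∀ᶠ p in 𝓝 (0 : A × B), ContDiffAt ℂ ω Y p := hY.eventually (by simp)
  have e2 : ∀ᶠ p in 𝓝 (0 : A × B), ContDiffAt ℂ ω F (p.1, Y p) :=
    hc.eventually (hFc.eventually (by simp))
  have e3 := hc.eventually hint
  have e4 : ∀ᶠ p in 𝓝 (0 : A × B), ‖fderiv ℂ F (p.1, Y p)‖ < ‖fderiv ℂ F 0‖ + 1 := by
    have h1 : ContinuousAt (fun q => ‖fderiv ℂ F q‖) 0 :=
      ContinuousAt.comp (g := fun l : (A × B) →L[ℂ] A →L[ℂ] B => ‖l‖) (f := fderiv ℂ F)
        (continuous_norm (E := (A × B) →L[ℂ] A →L[ℂ] B)).continuousAt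
        (hFc.fderiv_right (m := 0) (by simp)).continuousAt
    have h2 : ∀ᶠ q in 𝓝 (0 : A × B), ‖fderiv ℂ F q‖ < ‖fderiv ℂ F 0‖ + 1 :=
      h1.eventually_lt continuousAt_const (lt_add_one _)
    exact hc.eventually h2
  obtain ⟨ρ, hρ, hall⟩ := Metric.eventually_nhds_iff_ball.1
    (e1.and (e2.and (e3.and (e4.and hray))))
  filter_upwards [ball_mem_nhds (0 : A × B) hρ] with p₀ hp₀
  set K := ‖fderiv ℂ F 0‖ + 1 with hK
  have hKpos : 0 < K := by positivity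
  let G : A × B → A →L[ℂ] B := fun p =>
    (fderiv ℂ Y p).comp (ContinuousLinearMap.inl ℂ A B) - F (p.1, Y p)
  -- the differential equation for `G`
  have hG : ∀ p ∈ ball (0 : A × B) ρ, ∃ G' : (A × B) →L[ℂ] A →L[ℂ] B, HasFDerivAt G G' p ∧
      ∀ v, G' (p.1, 0) v = fderiv ℂ F (p.1, Y p) (0, G p v) p.1 - G p v := by
    intro p hp
    obtain ⟨h1, h2, h3, -, h5⟩ := hall p hp
    set DY := fderiv ℂ Y p with hDY
    set D2Y := fderiv ℂ (fderiv ℂ Y) p with hD2Y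
    set DF := fderiv ℂ F (p.1, Y p) with hDF
    have k1 : HasFDerivAt Y DY p := (h1.differentiableAt (by simp)).hasFDerivAt
    have k2 : HasFDerivAt (fderiv ℂ Y) D2Y p :=
      ((h1.fderiv_right (m := ω) (by simp)).differentiableAt (by simp)).hasFDerivAt
    have k3 : HasFDerivAt F DF (p.1, Y p) := (h2.differentiableAt (by simp)).hasFDerivAt
    have k4 : HasFDerivAt (fun p : A × B => F (p.1, Y p))
        (DF.comp ((ContinuousLinearMap.fst ℂ A B).prod DY)) p :=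
      HasFDerivAt.comp (g := F) (f := fun p : A × B => (p.1, Y p)) p k3
        (hasFDerivAt_fst.prodMk k1)
    have k5 : HasFDerivAt (fun p : A × B => ((p.1, (0 : B)) : A × B))
        ((ContinuousLinearMap.inl ℂ A B).comp (ContinuousLinearMap.fst ℂ A B)) p :=
      (((ContinuousLinearMap.inl ℂ A B).comp (ContinuousLinearMap.fst ℂ A B)).hasFDerivAt)
    have k6 := k2.clm_apply k5
    have k7 := k4.clm_apply (hasFDerivAt_fst (𝕜 := ℂ) (p := p))
    have k8 : (fun p : A × B => fderiv ℂ Y p (p.1, 0)) =ᶠ[𝓝 p]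
        fun p => F (p.1, Y p) p.1 := by
      filter_upwards [isOpen_ball.mem_nhds hp] with q hq
      exact (hall q hq).2.2.2.2
    have k9 := k6.unique (k7.congr_of_eventuallyEq k8)
    have key1 : ∀ v, DY (v, 0) + D2Y (v, 0) (p.1, 0) =
        F (p.1, Y p) v + DF (v, DY (v, 0)) p.1 := by
      intro v
      have := congrArg (fun l : (A × B) →L[ℂ] B => l (v, 0)) k9
      simpa only [add_apply, ContinuousLinearMap.comp_apply, ContinuousLinearMap.coe_fst',     ContinuousLinearMap.inl_apply, ContinuousLinearMap.flip_apply, ContinuousLinearMap.prod_apply] using this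
    have hsymm : ∀ v w, D2Y v w = D2Y w v := by
      have := h1.isSymmSndFDerivAt (by simp)
      intro v w
      exact this v w
    have k10 : HasFDerivAt (fun p => (fderiv ℂ Y p).comp (ContinuousLinearMap.inl ℂ A B))
        (((ContinuousLinearMap.compL ℂ A (A × B) B).flip (ContinuousLinearMap.inl ℂ A B)).comp
          D2Y) p :=
      (ContinuousLinearMap.hasFDerivAt
        ((ContinuousLinearMap.compL ℂ A (A × B) B).flip (ContinuousLinearMap.inl ℂ A B))).comp p k2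
    refine ⟨_, k10.sub k4, ?_⟩
    intro v
    have key2 := key1 v
    have key3 := h3 p.1 v
    have key4 : DY (p.1, 0) = F (p.1, Y p) p.1 := h5
    have key5 : G p v = DY (v, 0) - F (p.1, Y p) v := rfl
    have key6 : DF (v, DY (v, 0)) p.1 = DF (v, F (p.1, Y p) v) p.1 + DF (0, G p v) p.1 := by
      rw [← _root_.add_apply, ← map_add]
      congr 2
      rw [key5]
      simp
    have key7 := hsymm (p.1, 0) (v, 0)
    have key8 : DF (p.1, DY (p.1, 0)) v = DF (v, F (p.1, Y p) v) p.1 := by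
      rw [key4]; exact key3
    show D2Y (p.1, 0) (v, 0) - DF (p.1, DY (p.1, 0)) v = DF (0, G p v) p.1 - G p v
    rw [key7, key8, key5]
    rw [key6] at key2
    have key9 : D2Y (v, 0) (p.1, 0) = F (p.1, Y p) v + (DF (v, F (p.1, Y p) v) p.1 +
      DF (0, G p v) p.1) - DY (v, 0) := by
      rw [← key2]; abel
    rw [key9, ← key5]
    rw [key5]
    abel
  -- restriction to the ray
  set x := p₀.1 with hx
  set b := p₀.2 with hb
  let c : ℝ → A × B := fun t => ((t : ℂ) • x, b)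
  have hcmem : ∀ t ∈ Icc (0 : ℝ) 1, c t ∈ ball (0 : A × B) ρ := by
    intro t ht
    rw [mem_ball_zero_iff] at hp₀ ⊢
    refine max_lt ?_ ((norm_snd_le p₀).trans_lt hp₀)
    rw [norm_smul, Complex.norm_real, Real.norm_eq_abs, abs_of_nonneg ht.1]
    calc t * ‖x‖ ≤ 1 * ‖x‖ := by
          gcongr
          exact ht.2
      _ ≤ ‖p₀‖ := by rw [one_mul]; exact norm_fst_le p₀
      _ < ρ := hp₀
  have hcd : ∀ t, HasDerivAt c (x, 0) t := by
    intro t
    have k1 : HasDerivAt (fun τ : ℝ => ((τ : ℝ) : ℂ)) 1 t := (hasDerivAt_id t).ofReal_comp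
    have k2 := k1.smul_const x
    rw [one_smul] at k2
    exact k2.prodMk (hasDerivAt_const _ _)
  let h : ℝ → A →L[ℂ] B := fun t => (t : ℂ) • G (c t)
  have hderiv : ∀ t ∈ Icc (0 : ℝ) 1, ∃ h' : A →L[ℂ] B, HasDerivAt h h' t ∧
      ‖h'‖ ≤ (K * ‖x‖) * ‖h t‖ := by
    intro t ht
    obtain ⟨G', hG', hG'2⟩ := hG (c t) (hcmem t ht)
    have k1 : HasDerivAt (fun τ : ℝ => ((τ : ℝ) : ℂ)) 1 t := (hasDerivAt_id t).ofReal_comp
    have k2 : HasDerivAt (fun τ => G (c τ)) (G' (x, 0)) t :=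
      (hG'.restrictScalars ℝ).comp_hasDerivAt t (hcd t)
    have k3 := k1.smul k2
    refine ⟨_, k3, ?_⟩
    apply ContinuousLinearMap.opNorm_le_bound _ (by (clear * -; positivity))
    intro v
    have k4 : ((t : ℂ) • G' (x, 0) + (1 : ℂ) • G (c t)) v =
        fderiv ℂ F ((c t).1, Y (c t)) (0, h t v) x := by
      have k5 := hG'2 v
      have k6 : ((c t).1, (0 : B)) = (t : ℂ) • ((x, 0) : A × B) := by
        rw [Prod.smul_mk, smul_zero]
      rw [k6, map_smul] at k5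
      show (t : ℂ) • G' (x, 0) v + (1 : ℂ) • G (c t) v = _
      have k7 : (t : ℂ) • G' (x, 0) v = fderiv ℂ F ((c t).1, Y (c t)) (0, G (c t) v) (c t).1 -
        G (c t) v := k5
      rw [k7, one_smul, sub_add_cancel]
      have k8 : ((0 : A), h t v) = (t : ℂ) • ((0 : A), G (c t) v) := by
        rw [Prod.smul_mk, smul_zero]; rfl
      rw [k8]
      have k10 : fderiv ℂ F ((c t).1, Y (c t)) ((t : ℂ) • ((0 : A), G (c t) v)) =
        (t : ℂ) • fderiv ℂ F ((c t).1, Y (c t)) ((0 : A), G (c t) v) := map_smul _ _ _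
      rw [k10]
      show fderiv ℂ F ((c t).1, Y (c t)) (0, G (c t) v) ((t : ℂ) • x) =
        (t : ℂ) • (fderiv ℂ F ((c t).1, Y (c t)) (0, G (c t) v) x)
      exact map_smul _ _ _
    rw [k4]
    have k9 := (hall (c t) (hcmem t ht)).2.2.2.1
    calc ‖fderiv ℂ F ((c t).1, Y (c t)) (0, h t v) x‖
        ≤ ‖fderiv ℂ F ((c t).1, Y (c t)) (0, h t v)‖ * ‖x‖ := ContinuousLinearMap.le_opNorm _ _
      _ ≤ (‖fderiv ℂ F ((c t).1, Y (c t))‖ * ‖((0 : A), h t v)‖) * ‖x‖ := by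
          gcongr
          exact ContinuousLinearMap.le_opNorm _ _
      _ ≤ (K * (‖h t‖ * ‖v‖)) * ‖x‖ := by
          gcongr
          rw [Prod.norm_mk, norm_zero]
          exact max_le (by (clear * -; positivity)) (ContinuousLinearMap.le_opNorm _ _)
      _ = K * ‖x‖ * ‖h t‖ * ‖v‖ := by ring
  choose! h' hh' hh'2 using hderiv
  have hzero := eq_zero_of_abs_deriv_le_mul_abs_self_of_eq_zero_right (f := h) (f' := h')
    (K := K * ‖x‖) (a := 0) (b := 1)
    (fun t ht => (hh' t ht).continuousAt.continuousWithinAt)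
    (fun t ht => (hh' t ⟨ht.1, ht.2.le⟩).hasDerivWithinAt) (by
      show ((0 : ℝ) : ℂ) • G (c 0) = 0
      rw [Complex.ofReal_zero, zero_smul])
    (fun t ht => hh'2 t ⟨ht.1, ht.2.le⟩) 1 ⟨zero_le_one, le_rfl⟩
  intro v
  have h1 : c 1 = p₀ := by
    show (((1 : ℝ) : ℂ) • x, b) = p₀
    rw [Complex.ofReal_one, one_smul]
  have h2 : G p₀ = 0 := by
    have h3 : ((1 : ℝ) : ℂ) • G (c 1) = 0 := hzero
    rwa [Complex.ofReal_one, one_smul, h1] at h3
  have h3 : G p₀ v = 0 := by rw [h2]; rfl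
  exact sub_eq_zero.1 h3

end Vale.Agent.P278
end
end

section

section

open Set Topology Filter Metric Module
open scoped ContDiff

set_option linter.unusedSectionVars false

namespace Vale.Agent.P278

section graph
variable {A B : Type*} [NormedAddCommGroup A] [NormedSpace ℂ A] [CompleteSpace A]
  [NormedAddCommGroup B] [NormedSpace ℂ B] [CompleteSpace B]

/-- First integrals, for graphs. -/
theorem exists_first_integral_graph {F : A × B → A →L[ℂ] B} (hF : AnalyticAt ℂ F 0)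
    (hint : ∀ᶠ p in 𝓝 (0 : A × B), ∀ v w,
      fderiv ℂ F p (v, F p v) w = fderiv ℂ F p (w, F p w) v) :
    ∃ f : A × B → B, ContDiffAt ℂ ω f 0 ∧
      ∀ᶠ p in 𝓝 (0 : A × B), ∀ v w, fderiv ℂ f p (v, w) = 0 ↔ w = F p v := by
  obtain ⟨Y, hY, hY0, hYb, hYF⟩ := frobenius_graph hF hint
  let Ψ : A × B → A × B := fun p => (p.1, Y p)
  have hΨ : ContDiffAt ℂ ω Ψ 0 := contDiffAt_fst.prodMk hY
  have hYd : HasFDerivAt Y (fderiv ℂ Y 0) 0 := (hY.differentiableAt (by simp)).hasFDerivAt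
  have hY2 : ∀ w, fderiv ℂ Y 0 (0, w) = w := by
    intro w
    have h1 : HasFDerivAt (fun b : B => Y (0, b))
        ((fderiv ℂ Y 0).comp (ContinuousLinearMap.inr ℂ A B)) 0 :=
      HasFDerivAt.comp (g := Y) (f := fun b : B => ((0 : A), b)) (0 : B) hYd
        (hasFDerivAt_prodMk_right 0 0)
    have h2 : HasFDerivAt (fun b : B => Y (0, b)) (ContinuousLinearMap.id ℂ B) 0 :=
      (hasFDerivAt_id (0 : B)).congr_of_eventuallyEq hYb
    have := congrArg (fun l : B →L[ℂ] B => l w) (h1.unique h2)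
    simpa only [ContinuousLinearMap.comp_apply, ContinuousLinearMap.inr_apply, ContinuousLinearMap.id_apply] using     this
  have hsplit : ∀ q : A × B, fderiv ℂ Y 0 q = fderiv ℂ Y 0 (q.1, 0) + q.2 := by
    intro q
    have : q = (q.1, 0) + (0, q.2) := by simp
    conv_lhs => rw [this, map_add, hY2]
  let f₁ : (A × B) →L[ℂ] (A × B) := (ContinuousLinearMap.fst ℂ A B).prod (fderiv ℂ Y 0)
  let f₂ : (A × B) →L[ℂ] (A × B) := (ContinuousLinearMap.fst ℂ A B).prod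
    ((ContinuousLinearMap.snd ℂ A B) - (fderiv ℂ Y 0).comp
      ((ContinuousLinearMap.inl ℂ A B).comp (ContinuousLinearMap.fst ℂ A B)))
  have h12 : ∀ q, f₂ (f₁ q) = q := by
    intro q
    show (q.1, fderiv ℂ Y 0 q - fderiv ℂ Y 0 (q.1, 0)) = q
    rw [hsplit q, add_sub_cancel_left]
  have h21 : ∀ q, f₁ (f₂ q) = q := by
    intro q
    show (q.1, fderiv ℂ Y 0 (q.1, q.2 - fderiv ℂ Y 0 (q.1, 0))) = q
    rw [hsplit (q.1, q.2 - fderiv ℂ Y 0 (q.1, 0)), add_sub_cancel]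
  let Ψ' : (A × B) ≃L[ℂ] (A × B) := ContinuousLinearEquiv.equivOfInverse f₁ f₂ h12 h21
  have hΨ' : HasFDerivAt Ψ (Ψ' : (A × B) →L[ℂ] (A × B)) 0 := hasFDerivAt_fst.prodMk hYd
  have hΨ0 : Ψ 0 = 0 := by
    show ((0 : A), Y 0) = 0
    rw [hY0]; rfl
  set g := hΨ.toOpenPartialHomeomorph Ψ hΨ' (by simp) with hg
  have hg0 : (0 : A × B) ∈ g.source := hΨ.mem_toOpenPartialHomeomorph_source hΨ' (by simp)
  have hgt : (0 : A × B) ∈ g.target := by
    have := g.map_source hg0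
    rwa [show g 0 = Ψ 0 from rfl, hΨ0] at this
  have hgs : ContDiffAt ℂ ω g.symm 0 := by
    have := hΨ.to_localInverse hΨ' (by simp)
    rw [hΨ0] at this
    exact this
  have hgs0 : g.symm 0 = 0 := by
    have := g.left_inv hg0
    rwa [show g 0 = Ψ 0 from rfl, hΨ0] at this
  have hgt' : Tendsto g.symm (𝓝 0) (𝓝 0) := by
    have := (g.continuousAt_symm hgt).tendsto
    rwa [hgs0] at this
  refine ⟨fun p => (g.symm p).2, hgs.snd, ?_⟩
  filter_upwards [hgs.eventually (by simp), g.open_target.mem_nhds hgt,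
    hgt'.eventually (hY.eventually (by simp)), hgt'.eventually hYF] with p h1 h2 h3 h4 v w
  set q := g.symm p with hq
  have hqs : q ∈ g.source := g.map_target h2
  have hΨq : Ψ q = p := g.right_inv h2
  have hS : HasFDerivAt g.symm (fderiv ℂ g.symm p) p := (h1.differentiableAt (by simp)).hasFDerivAt
  set S := fderiv ℂ g.symm p with hSdef
  have hDY : HasFDerivAt Y (fderiv ℂ Y q) q := (h3.differentiableAt (by simp)).hasFDerivAt
  set T : (A × B) →L[ℂ] (A × B) := (ContinuousLinearMap.fst ℂ A B).prod (fderiv ℂ Y q) with hT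
  have hTd : HasFDerivAt Ψ T q := hasFDerivAt_fst.prodMk hDY
  have hf' : fderiv ℂ (fun p => (g.symm p).2) p = (ContinuousLinearMap.snd ℂ A B).comp S :=
    (hasFDerivAt_snd.comp p hS).fderiv
  have hTS : ∀ u, T (S u) = u := by
    intro u
    have k1 : HasFDerivAt (fun p => Ψ (g.symm p)) (T.comp S) p :=
      HasFDerivAt.comp (g := Ψ) (f := g.symm) p hTd hS
    have k2 : HasFDerivAt (fun p => Ψ (g.symm p)) (ContinuousLinearMap.id ℂ (A × B)) p := by
      refine (hasFDerivAt_id p).congr_of_eventuallyEq ?_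
      filter_upwards [g.open_target.mem_nhds h2] with p' hp'
      exact g.right_inv hp'
    have := congrArg (fun l : (A × B) →L[ℂ] (A × B) => l u) (k1.unique k2)
    simpa using this
  have hST : ∀ u, S (T u) = u := by
    intro u
    have hS' : HasFDerivAt g.symm S (Ψ q) := by rw [hΨq]; exact hS
    have k1 : HasFDerivAt (fun q => g.symm (Ψ q)) (S.comp T) q :=
      HasFDerivAt.comp (g := g.symm) (f := Ψ) q hS' hTd
    have k2 : HasFDerivAt (fun q => g.symm (Ψ q)) (ContinuousLinearMap.id ℂ (A × B)) q := by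
      refine (hasFDerivAt_id q).congr_of_eventuallyEq ?_
      filter_upwards [g.open_source.mem_nhds hqs] with p' hp'
      exact g.left_inv hp'
    have := congrArg (fun l : (A × B) →L[ℂ] (A × B) => l u) (k1.unique k2)
    simpa using this
  have hFp : ∀ v, fderiv ℂ Y q (v, 0) = F p v := by
    intro v
    rw [h4 v]
    congr 1
    rw [← hΨq]
  rw [hf']
  show (S (v, w)).2 = 0 ↔ w = F p v
  constructor
  · intro h
    have k1 := hTS (v, w)
    have k2 : T (S (v, w)) = ((S (v, w)).1, fderiv ℂ Y q (S (v, w))) := rfl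
    have k3 : S (v, w) = ((S (v, w)).1, 0) := Prod.ext rfl h
    rw [k2] at k1
    have k4 : (S (v, w)).1 = v := congrArg Prod.fst k1
    have k5 : fderiv ℂ Y q (S (v, w)) = w := congrArg Prod.snd k1
    rw [k3, hFp, k4] at k5
    exact k5.symm
  · intro h
    have k1 := hST (v, 0)
    have k2 : T (v, 0) = (v, w) := by
      show (v, fderiv ℂ Y q (v, 0)) = (v, w)
      rw [hFp, h]
    rw [k2] at k1
    rw [k1]

end graph

section vector
variable {E : Type*} [NormedAddCommGroup E] [NormedSpace ℂ E] [FiniteDimensional ℂ E]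

set_option maxHeartbeats 400000 in
/-- **Holomorphic Frobenius theorem**: first integrals of an integrable holomorphic distribution
on an open set of a vector space. -/
theorem exists_first_integral {r : ℕ} (σ : Fin r → E → E) (p₀ : E)
    (hσ : ∀ j, ContDiffAt ℂ ω (σ j) p₀) (hli : LinearIndependent ℂ fun j => σ j p₀)
    (hint : ∀ᶠ p in 𝓝 p₀, ∀ V W : E → E, ContDiffAt ℂ ω V p → ContDiffAt ℂ ω W p →
      (∀ᶠ q in 𝓝 p, V q ∈ Submodule.span ℂ (range fun j => σ j q)) →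
      (∀ᶠ q in 𝓝 p, W q ∈ Submodule.span ℂ (range fun j => σ j q)) →
      VectorField.lieBracket ℂ V W p ∈ Submodule.span ℂ (range fun j => σ j p)) :
    ∃ (C : Submodule ℂ E) (f : E → C), ContDiffAt ℂ ω f p₀ ∧ finrank ℂ C + r = finrank ℂ E ∧
      ∀ᶠ p in 𝓝 p₀, ∀ v, v ∈ Submodule.span ℂ (range fun j => σ j p) ↔ fderiv ℂ f p v = 0 := by
  have : CompleteSpace E := FiniteDimensional.complete ℂ E
  set D₀ : Submodule ℂ E := Submodule.span ℂ (range fun j => σ j p₀) with hD₀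
  obtain ⟨C, hC⟩ := D₀.exists_isCompl
  have hD₀r : finrank ℂ D₀ = r := by
    rw [hD₀, finrank_span_eq_card hli, Fintype.card_fin]
  let l : (D₀ × C) ≃ₗ[ℂ] E := Submodule.prodEquivOfIsCompl D₀ C hC
  let ℓ : (D₀ × C) ≃L[ℂ] E := l.toContinuousLinearEquiv
  have hℓ : ∀ q : D₀ × C, ℓ q = (q.1 : E) + (q.2 : E) := fun q => rfl
  let πA : E →L[ℂ] D₀ := (ContinuousLinearMap.fst ℂ D₀ C).comp (ℓ.symm : E →L[ℂ] (D₀ × C))
  let πB : E →L[ℂ] C := (ContinuousLinearMap.snd ℂ D₀ C).comp (ℓ.symm : E →L[ℂ] (D₀ × C))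
  have hπ : ∀ v, ℓ.symm v = (πA v, πB v) := fun v => rfl
  have hπA : ∀ q : D₀ × C, πA (ℓ q) = q.1 := by
    intro q
    show (ℓ.symm (ℓ q)).1 = q.1
    rw [ℓ.symm_apply_apply]
  have hπB : ∀ q : D₀ × C, πB (ℓ q) = q.2 := by
    intro q
    show (ℓ.symm (ℓ q)).2 = q.2
    rw [ℓ.symm_apply_apply]
  have hext : ∀ v w : E, πA v = πA w → πB v = πB w → v = w := by
    intro v w h1 h2
    apply ℓ.symm.injective
    rw [hπ, hπ, h1, h2]
  -- the frame as a linear map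
  let M : E → (Fin r → ℂ) →L[ℂ] E := fun p =>
    ∑ j, (ContinuousLinearMap.proj (R := ℂ) (φ := fun _ : Fin r => ℂ) j).smulRight (σ j p)
  have hM : ∀ p c, M p c = ∑ j, c j • σ j p := by
    intro p c
    simp only [sum_apply, ContinuousLinearMap.smulRight_apply, ContinuousLinearMap.proj_apply, M]
  have hMana : ContDiffAt ℂ ω M p₀ := by
    apply ContDiffAt.sum
    intro j _
    exact ContDiffAt.comp
      (g := fun v : E => (ContinuousLinearMap.smulRightL ℂ (Fin r → ℂ) E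
        (ContinuousLinearMap.proj (R := ℂ) (φ := fun _ : Fin r => ℂ) j)) v)
      (f := σ j) p₀ (ContinuousLinearMap.contDiff _).contDiffAt (hσ j)
  have hspan : ∀ p v, v ∈ Submodule.span ℂ (range fun j => σ j p) ↔ ∃ c, M p c = v := by
    intro p v
    rw [Submodule.mem_span_range_iff_exists_fun]
    simp only [hM]
  let MA : E → (Fin r → ℂ) →L[ℂ] D₀ := fun p => πA.comp (M p)
  let MB : E → (Fin r → ℂ) →L[ℂ] C := fun p => πB.comp (M p)
  have hMAana : ContDiffAt ℂ ω MA p₀ := contDiffAt_const.clm_comp hMana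
  have hMBana : ContDiffAt ℂ ω MB p₀ := contDiffAt_const.clm_comp hMana
  let b : (Fin r → ℂ) ≃L[ℂ] D₀ :=
    (Basis.span hli).equivFun.symm.toContinuousLinearEquiv
  have hb : (b : (Fin r → ℂ) →L[ℂ] D₀) = MA p₀ := by
    ext c
    show (((Basis.span hli).equivFun.symm c : D₀) : E) = ((πA (M p₀ c) : D₀) : E)
    have h1 : M p₀ c = ℓ ((Basis.span hli).equivFun.symm c, 0) := by
      rw [hℓ, hM, Basis.equivFun_symm_apply]
      simp only [Submodule.coe_sum, Submodule.coe_smul, ZeroMemClass.coe_zero, add_zero]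
      refine Finset.sum_congr rfl fun j _ => ?_
      rw [Basis.span_apply]
    rw [h1, hπA]
  let Fm : E → D₀ →L[ℂ] C := fun p => (MB p).comp (MA p).inverse
  have hFmana : ContDiffAt ℂ ω Fm p₀ := by
    have h1 : ContDiffAt ℂ ω (fun p => (MA p).inverse) p₀ := by
      have h2 : ContDiffAt ℂ ω ContinuousLinearMap.inverse (MA p₀) := by
        rw [← hb]
        exact contDiffAt_map_inverse b
      exact h2.comp p₀ hMAana
    exact hMBana.clm_comp h1
  have hinv : ∀ᶠ p in 𝓝 p₀, ∃ e : (Fin r → ℂ) ≃L[ℂ] D₀, (e : (Fin r → ℂ) →L[ℂ] D₀) = MA p := by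
    have h1 : range ((↑) : ((Fin r → ℂ) ≃L[ℂ] D₀) → ((Fin r → ℂ) →L[ℂ] D₀)) ∈ 𝓝 (MA p₀) := by
      rw [← hb]
      exact b.nhds
    filter_upwards [hMAana.continuousAt.eventually h1] with p hp
    exact hp
  have hmem : ∀ᶠ p in 𝓝 p₀, ∀ v, v ∈ Submodule.span ℂ (range fun j => σ j p) ↔
      πB v = Fm p (πA v) := by
    filter_upwards [hinv] with p ⟨e, he⟩ v
    have hFme : Fm p = (MB p).comp (e.symm : D₀ →L[ℂ] (Fin r → ℂ)) := by
      show (MB p).comp (MA p).inverse = _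
      rw [← he, ContinuousLinearMap.inverse_equiv]
    rw [hspan]
    constructor
    · rintro ⟨c, rfl⟩
      rw [hFme]
      show πB (M p c) = πB (M p (e.symm (MA p c)))
      rw [← he]
      simp
    · intro h
      refine ⟨e.symm (πA v), hext _ _ ?_ ?_⟩
      · show MA p (e.symm (πA v)) = πA v
        rw [← he]
        simp
      · rw [h, hFme]
        rfl
  -- integrability
  have hintF : ∀ᶠ p in 𝓝 p₀, ∀ a b : D₀,
      fderiv ℂ Fm p (ℓ (a, Fm p a)) b = fderiv ℂ Fm p (ℓ (b, Fm p b)) a := by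
    filter_upwards [hint, hmem.eventually_nhds, hFmana.eventually (by simp)] with p h1 h2 h3 a b
    have hV : ∀ a : D₀, ContDiffAt ℂ ω (fun q => ℓ (a, Fm q a)) p := by
      intro a
      exact (ℓ.contDiff.contDiffAt).comp p (contDiffAt_const.prodMk (h3.clm_apply contDiffAt_const))
    have hVm : ∀ a : D₀, ∀ᶠ q in 𝓝 p,
        ℓ (a, Fm q a) ∈ Submodule.span ℂ (range fun j => σ j q) := by
      intro a
      filter_upwards [h2] with q hq
      rw [hq, hπA, hπB]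
    have hVd : ∀ a u, fderiv ℂ (fun q => ℓ (a, Fm q a)) p u = ℓ (0, fderiv ℂ Fm p u a) := by
      intro a u
      have k1 : HasFDerivAt Fm (fderiv ℂ Fm p) p := (h3.differentiableAt (by simp)).hasFDerivAt
      have k2 : HasFDerivAt (fun q => ℓ (a, Fm q a))
          ((ℓ : (D₀ × C) →L[ℂ] E).comp ((0 : E →L[ℂ] D₀).prod
            ((fderiv ℂ Fm p).flip a))) p := by
        refine (ℓ : (D₀ × C) →L[ℂ] E).hasFDerivAt.comp p
          ((hasFDerivAt_const a p).prodMk ?_)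
        have k3 := k1.clm_apply (hasFDerivAt_const a p)
        convert k3 using 1
        ext u
        simp only [ContinuousLinearMap.flip_apply, ContinuousLinearMap.comp_zero, zero_add]
      rw [k2.fderiv]
      rfl
    have h4 := h1 _ _ (hV a) (hV b) (hVm a) (hVm b)
    rw [VectorField.lieBracket] at h4
    rw [hVd, hVd, ← map_sub, h2.self_of_nhds, hπA, hπB] at h4
    have h5 : fderiv ℂ Fm p (ℓ (a, Fm p a)) b - fderiv ℂ Fm p (ℓ (b, Fm p b)) a = 0 := by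
      have : ((0 : D₀), fderiv ℂ Fm p (ℓ (a, Fm p a)) b) - (0, fderiv ℂ Fm p (ℓ (b, Fm p b)) a) =
        (0, fderiv ℂ Fm p (ℓ (a, Fm p a)) b - fderiv ℂ Fm p (ℓ (b, Fm p b)) a) := by
        rw [Prod.mk_sub_mk, sub_zero]
      rw [this] at h4
      simpa using h4
    exact sub_eq_zero.1 h5
  -- transport to the product
  let κ : D₀ × C → E := fun q => p₀ + ℓ q
  have hκ : ContDiff ℂ ω κ := contDiff_const.add ℓ.contDiff
  have hκ0 : κ 0 = p₀ := by
    show p₀ + ℓ 0 = p₀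
    rw [map_zero, add_zero]
  have hκt : Tendsto κ (𝓝 0) (𝓝 p₀) := by
    have := hκ.continuous.tendsto 0
    rwa [hκ0] at this
  have hκd : ∀ q, HasFDerivAt κ (ℓ : (D₀ × C) →L[ℂ] E) q := fun q =>
    (ℓ : (D₀ × C) →L[ℂ] E).hasFDerivAt.const_add p₀
  let F : D₀ × C → D₀ →L[ℂ] C := fun q => Fm (κ q)
  have hF : AnalyticAt ℂ F 0 := by
    have h1 : ContDiffAt ℂ ω Fm (κ 0) := by rw [hκ0]; exact hFmana
    exact (h1.comp (0 : D₀ × C) hκ.contDiffAt).analyticAt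
  obtain ⟨f₀, hf₀, hf₀'⟩ := exists_first_integral_graph hF (by
    filter_upwards [hκt.eventually hintF, hκt.eventually (hFmana.eventually (by simp))]
      with q h1 h2 v w
    have h3 : fderiv ℂ F q = (fderiv ℂ Fm (κ q)).comp (ℓ : (D₀ × C) →L[ℂ] E) :=
      (((h2.differentiableAt (by simp)).hasFDerivAt).comp q (hκd q)).fderiv
    rw [h3]
    exact h1 v w)
  let κ' : E → D₀ × C := fun p => ℓ.symm (p - p₀)
  have hκ' : ContDiff ℂ ω κ' := ℓ.symm.contDiff.comp (contDiff_id.sub contDiff_const)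
  have hκ'0 : κ' p₀ = 0 := by
    show ℓ.symm (p₀ - p₀) = 0
    rw [sub_self, map_zero]
  have hκ't : Tendsto κ' (𝓝 p₀) (𝓝 0) := by
    have := hκ'.continuous.tendsto p₀
    rwa [hκ'0] at this
  have hκ'd : ∀ p, HasFDerivAt κ' (ℓ.symm : E →L[ℂ] (D₀ × C)) p := fun p =>
    (ℓ.symm : E →L[ℂ] (D₀ × C)).hasFDerivAt.comp p ((hasFDerivAt_id p).sub_const p₀)
  have hκκ' : ∀ p, κ (κ' p) = p := by
    intro p
    show p₀ + ℓ (ℓ.symm (p - p₀)) = p
    rw [ℓ.apply_symm_apply, add_sub_cancel]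
  refine ⟨C, fun p => f₀ (κ' p), ?_, ?_, ?_⟩
  · have h1 : ContDiffAt ℂ ω f₀ (κ' p₀) := by rw [hκ'0]; exact hf₀
    exact h1.comp p₀ hκ'.contDiffAt
  · have := Submodule.finrank_add_eq_of_isCompl hC
    rw [hD₀r] at this
    omega
  · filter_upwards [hmem, hκ't.eventually hf₀', hκ't.eventually (hf₀.eventually (by simp))]
      with p h1 h2 h3 v
    have h4 : fderiv ℂ (fun p => f₀ (κ' p)) p = (fderiv ℂ f₀ (κ' p)).comp
        (ℓ.symm : E →L[ℂ] (D₀ × C)) :=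
      (((h3.differentiableAt (by simp)).hasFDerivAt).comp p (hκ'd p)).fderiv
    rw [h1, h4]
    show _ ↔ fderiv ℂ f₀ (κ' p) (πA v, πB v) = 0
    rw [h2]
    show _ ↔ πB v = Fm (κ (κ' p)) (πA v)
    rw [hκκ']

end vector

end Vale.Agent.P278
end
end
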