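import Vale.Agent.P278.MathlibUsed
import Vale.Agent.P278.Bdl.B2
import Vale.Agent.P278.Bdl.B1

set_option linter.all false

namespace AFastae031ax6a
@[reducible] def a0.{u1, u2} {x1 : Type u1} {x2 : Type u2} [x3 : NormedAddCommGroup x2] [x4 : NormedAddCommGroup x1] : TopologicalSpace (x1 × x2) := inferInstance
@[reducible] def a1.{u1, u2} {x1 : Type u1} {x2 : Type u2} [x3 : NormedAddCommGroup x1] [x4 : NormedAddCommGroup x2] [x5 : NormedSpace ℂ x1] [x6 : NormedSpace ℂ x2] : Module ℂ (x1 × x2) := inferInstance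
@[reducible] noncomputable def a2 : DistribMulAction ℝ ℂ := inferInstance
@[reducible] noncomputable def a3 : SMulZeroClass ℝ ℂ := inferInstance
theorem a4 : ContinuousSMul ℝ ℂ := inferInstance
@[reducible] noncomputable def a5 : DistribSMul ℝ ℂ := inferInstance
@[reducible] def a6.{u1, u2} {x1 : Type u1} {x2 : Type u2} [x3 : NormedAddCommGroup x2] [x4 : NormedAddCommGroup x1] : AddCommMonoid (x1 × x2) := inferInstance
theorem a7.{u1, u2} {x1 : Type u1} [x2 : NormedAddCommGroup x1] [x3 : NormedSpace ℂ x1] {x4 : Type u2} [x5 : TopologicalSpace x4] [x6 : ChartedSpace x1 x4] [x7 : IsManifold (modelWithCornersSelf ℂ x1) ⊤ x4] : IsManifold (modelWithCornersSelf ℂ x1) (minSmoothness ℂ 1) x4 := inferInstance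
theorem a8.{u1, u2} {x1 : Type u1} [x2 : NormedAddCommGroup x1] [x3 : NormedSpace ℂ x1] {x4 : Type u2} [x5 : TopologicalSpace x4] [x6 : ChartedSpace x1 x4] [x7 : IsManifold (modelWithCornersSelf ℂ x1) ⊤ x4] : IsManifold (modelWithCornersSelf ℂ x1) (minSmoothness ℂ 2) x4 := inferInstance
theorem a9.{u1, u2} {x1 : Type u1} [x2 : NormedAddCommGroup x1] [x3 : NormedSpace ℂ x1] {x4 : Type u2} [x5 : TopologicalSpace x4] [x6 : ChartedSpace x1 x4] [x7 : IsManifold (modelWithCornersSelf ℂ x1) ⊤ x4] : IsManifold (modelWithCornersSelf ℂ x1) (minSmoothness ℂ 3) x4 := inferInstance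
@[reducible] def a10.{u1, u2} {x1 : Type u1} {x2 : Type u2} [x3 : NormedAddCommGroup x2] [x4 : NormedAddCommGroup x1] : UniformSpace (x1 × x2) := inferInstance
@[reducible] noncomputable def a11 : Module ℝ (ℂ × ℂ) := inferInstance
@[reducible] noncomputable def a12.{u1, u2} {x1 : Type u1} [x2 : NormedAddCommGroup x1] [x3 : NormedSpace ℂ x1] {x4 : Type u2} [x5 : TopologicalSpace x4] [x6 : ChartedSpace x1 x4] {x7 : x4} : AddCommMonoid (TangentSpace (modelWithCornersSelf ℂ x1) x7) := inferInstance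
theorem a13 : ContinuousSMul ℝ (ℂ × ℂ) := inferInstance
@[reducible] noncomputable def a14 : SemigroupAction ℝ ℂ := inferInstance
theorem a15 : ContinuousAdd ℂ := inferInstance
@[reducible] noncomputable def a16 : MulAction ℝ ℂ := inferInstance
theorem a17 : IsSemitopologicalSemiring ℂ := inferInstance
theorem a18 : IsTopologicalRing ℂ := inferInstance
theorem a19 : ClosedIicTopology ℝ := inferInstance
@[reducible] noncomputable def a20.{u1, u2, u3} {x1 : Type u1} {x2 : Type u2} [x3 : NormedAddCommGroup x1] [x4 : NormedAddCommGroup x2] [x5 : @NormedSpace Complex x1 Complex.instNormedField (@NormedAddCommGroup.toSeminormedAddCommGroup x1 x3)] [x6 : @NormedSpace Complex x2 Complex.instNormedField (@NormedAddCommGroup.toSeminormedAddCommGroup x2 x4)] {x7 : Type u3} [x8 : TopologicalSpace x7] {x9 : @OpenPartialHomeomorph x7 (Prod x1 x2) x8 (@instTopologicalSpaceProd x1 x2 (@UniformSpace.toTopologicalSpace x1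 (@PseudoMetricSpace.toUniformSpace x1 (@SeminormedAddCommGroup.toPseudoMetricSpace x1 (@NormedAddCommGroup.toSeminormedAddCommGroup x1 x3)))) (@UniformSpace.toTopologicalSpace x2 (@PseudoMetricSpace.toUniformSpace x2 (@SeminormedAddCommGroup.toPseudoMetricSpace x2 (@NormedAddCommGroup.toSeminormedAddCommGroup x2 x4)))))} {x10 : x7} : AddCommMonoid (@TangentSpace Complex (@DenselyNormedField.toNontriviallyNormedField Complex Complex.instDenselyNormedField) (Prod x1 x2) (@Prod.normedAddCommGroup x1 x2 x3 x4) (@Prod.normedSpace Complex x1 x2 (@NontriviallyNormedField.toNormedField Complex (@DenselyNormedField.toNontriviallyNormedField Complex Complex.instDenselyNormedField)) (@NormedAddCommGroup.toSeminormedAddCommGroup x1 x3) (@NormedAddCommGroup.toSeminormedAddCommGroup x2 x4) x5 x6) (Prod x1 x2) (@UniformSpace.toTopologicalSpace (Prod x1 x2) (@PseudoMetricSpace.toUniformSpace (Prod x1 x2) (@SeminormedAddCommGroup.toPseudoMetricSpace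 (Prod x1 x2) (@NormedAddCommGroup.toSeminormedAddCommGroup (Prod x1 x2) (@Prod.normedAddCommGroup x1 x2 x3 x4))))) (@modelWithCornersSelf Complex (@DenselyNormedField.toNontriviallyNormedField Complex Complex.instDenselyNormedField) (Prod x1 x2) (@Prod.normedAddCommGroup x1 x2 x3 x4) (@Prod.normedSpace Complex x1 x2 (@NontriviallyNormedField.toNormedField Complex (@DenselyNormedField.toNontriviallyNormedField Complex Complex.instDenselyNormedField)) (@NormedAddCommGroup.toSeminormedAddCommGroup x1 x3) (@NormedAddCommGroup.toSeminormedAddCommGroup x2 x4) x5 x6)) (Prod x1 x2) (@instTopologicalSpaceProd x1 x2 (@UniformSpace.toTopologicalSpace x1 (@PseudoMetricSpace.toUniformSpace x1 (@SeminormedAddCommGroup.toPseudoMetricSpace x1 (@NormedAddCommGroup.toSeminormedAddCommGroup x1 x3)))) (@UniformSpace.toTopologicalSpace x2 (@PseudoMetricSpace.toUniformSpace x2 (@SeminormedAddCommGroup.toPseudoMetricSpace x2 (@NormedAddCommGroup.toSeminormedAddCommGroup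 x2 x4))))) (@chartedSpaceSelf (Prod x1 x2) (@UniformSpace.toTopologicalSpace (Prod x1 x2) (@PseudoMetricSpace.toUniformSpace (Prod x1 x2) (@SeminormedAddCommGroup.toPseudoMetricSpace (Prod x1 x2) (@NormedAddCommGroup.toSeminormedAddCommGroup (Prod x1 x2) (@Prod.normedAddCommGroup x1 x2 x3 x4)))))) (@OpenPartialHomeomorph.toFun' x7 (Prod x1 x2) x8 (@instTopologicalSpaceProd x1 x2 (@UniformSpace.toTopologicalSpace x1 (@PseudoMetricSpace.toUniformSpace x1 (@SeminormedAddCommGroup.toPseudoMetricSpace x1 (@NormedAddCommGroup.toSeminormedAddCommGroup x1 x3)))) (@UniformSpace.toTopologicalSpace x2 (@PseudoMetricSpace.toUniformSpace x2 (@SeminormedAddCommGroup.toPseudoMetricSpace x2 (@NormedAddCommGroup.toSeminormedAddCommGroup x2 x4))))) x9 x10)) := inferInstance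
theorem a21 : IsSemitopologicalRing ℂ := inferInstance
@[reducible] def a22.{u1, u2} {x1 : Type u1} {x2 : Type u2} [x3 : NormedAddCommGroup x2] [x4 : NormedAddCommGroup x1] : PseudoMetricSpace (x1 × x2) := inferInstance
@[reducible] def a23.{u1, u2} {x1 : Type u1} {x2 : Type u2} [x3 : NormedAddCommGroup x2] [x4 : NormedAddCommGroup x1] : SeminormedAddCommGroup (x1 × x2) := inferInstance
@[reducible] def a24.{u1, u2} {x1 : Type u1} {x2 : Type u2} [x3 : NormedAddCommGroup x2] [x4 : NormedAddCommGroup x1] : AddCommGroup (x1 × x2) := inferInstance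
@[reducible] noncomputable def a25.{u1, u2} {x1 : Type u1} {x2 : Type u2} [x3 : NormedAddCommGroup x1] [x4 : NormedAddCommGroup x2] [x5 : NormedSpace ℂ x1] [x6 : NormedSpace ℂ x2] : NormedSpace ℂ (x1 × x2) := inferInstance
@[reducible] noncomputable def a26.{u1, u2} {x1 : Type u1} [x2 : NormedAddCommGroup x1] [x3 : NormedSpace ℂ x1] {x4 : Type u2} [x5 : TopologicalSpace x4] [x6 : ChartedSpace x1 x4] {x7 : x4} : SMulZeroClass ℂ (TangentSpace (modelWithCornersSelf ℂ x1) x7) := inferInstance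
@[reducible] def a27.{u1, u2} {x1 : Type u1} {x2 : Type u2} [x3 : NormedAddCommGroup x1] [x4 : NormedAddCommGroup x2] [x5 : NormedSpace ℂ x1] [x6 : NormedSpace ℂ x2] : Module ℂ (x1 × x2 →ₗ[ℂ] ℂ) := inferInstance
theorem a28 : CharZero ℝ := inferInstance
@[reducible] noncomputable def a29.{u1, u2} {x1 : Type u1} [x2 : NormedAddCommGroup x1] [x3 : NormedSpace ℂ x1] {x4 : Type u2} [x5 : TopologicalSpace x4] [x6 : ChartedSpace x1 x4] {x7 : x4} : DistribSMul ℂ (TangentSpace (modelWithCornersSelf ℂ x1) x7) := inferInstance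
theorem a30 : CovariantClass ℝ ℝ (Function.swap fun x1 x2 => x1 + x2) fun x1 x2 => x1 ≤ x2 := inferInstance
theorem a31 : ContinuousAdd (ℂ × ℂ) := inferInstance
theorem a32 : IsTopologicalDivisionRing ℂ := inferInstance
@[reducible] def a33 : Monoid ℂ := inferInstance
theorem a34 : AddLeftMono ℝ := inferInstance
@[reducible] noncomputable def a35 : NormedSpace ℝ ℂ := inferInstance
theorem a36 : OrderClosedTopology ℝ := inferInstance
@[reducible] noncomputable def a37.{u1, u2} {x1 : Type u1} [x2 : NormedAddCommGroup x1] [x3 : NormedSpace ℂ x1] {x4 : Type u2} [x5 : TopologicalSpace x4] [x6 : ChartedSpace x1 x4] {x7 : x4} : SMul ℂ (TangentSpace (modelWithCornersSelf ℂ x1) x7) := inferInstance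
theorem a38 : PosMulReflectLT ℝ := inferInstance
theorem a39 : IsBoundedSMul ℝ ℂ := inferInstance
@[reducible] noncomputable def a40.{u1, u2, u3} {x1 : Type u1} {x2 : Type u2} [x3 : NormedAddCommGroup x1] [x4 : NormedAddCommGroup x2] [x5 : @NormedSpace Complex x1 Complex.instNormedField (@NormedAddCommGroup.toSeminormedAddCommGroup x1 x3)] [x6 : @NormedSpace Complex x2 Complex.instNormedField (@NormedAddCommGroup.toSeminormedAddCommGroup x2 x4)] {x7 : Type u3} [x8 : TopologicalSpace x7] {x9 : @OpenPartialHomeomorph x7 (Prod x1 x2) x8 (@instTopologicalSpaceProd x1 x2 (@UniformSpace.toTopologicalSpace x1 (@PseudoMetricSpace.toUniformSpace x1 (@SeminormedAddCommGroup.toPseudoMetricSpace x1 (@NormedAddCommGroup.toSeminormedAddCommGroup x1 x3)))) (@UniformSpace.toTopologicalSpace x2 (@PseudoMetricSpace.toUniformSpace x2 (@SeminormedAddCommGroup.toPseudoMetricSpace x2 (@NormedAddCommGroup.toSeminormedAddCommGroup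 x2 x4)))))} {x10 : x7} : @Module Complex (@TangentSpace Complex (@DenselyNormedField.toNontriviallyNormedField Complex Complex.instDenselyNormedField) (Prod x1 x2) (@Prod.normedAddCommGroup x1 x2 x3 x4) (@Prod.normedSpace Complex x1 x2 (@NontriviallyNormedField.toNormedField Complex (@DenselyNormedField.toNontriviallyNormedField Complex Complex.instDenselyNormedField)) (@NormedAddCommGroup.toSeminormedAddCommGroup x1 x3) (@NormedAddCommGroup.toSeminormedAddCommGroup x2 x4) x5 x6) (Prod x1 x2) (@UniformSpace.toTopologicalSpace (Prod x1 x2) (@PseudoMetricSpace.toUniformSpace (Prod x1 x2) (@SeminormedAddCommGroup.toPseudoMetricSpace (Prod x1 x2) (@NormedAddCommGroup.toSeminormedAddCommGroup (Prod x1 x2) (@Prod.normedAddCommGroup x1 x2 x3 x4))))) (@modelWithCornersSelf Complex (@DenselyNormedField.toNontriviallyNormedField Complex Complex.instDenselyNormedField) (Prod x1 x2) (@Prod.normedAddCommGroup x1 x2 x3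 x4) (@Prod.normedSpace Complex x1 x2 (@NontriviallyNormedField.toNormedField Complex (@DenselyNormedField.toNontriviallyNormedField Complex Complex.instDenselyNormedField)) (@NormedAddCommGroup.toSeminormedAddCommGroup x1 x3) (@NormedAddCommGroup.toSeminormedAddCommGroup x2 x4) x5 x6)) (Prod x1 x2) (@instTopologicalSpaceProd x1 x2 (@UniformSpace.toTopologicalSpace x1 (@PseudoMetricSpace.toUniformSpace x1 (@SeminormedAddCommGroup.toPseudoMetricSpace x1 (@NormedAddCommGroup.toSeminormedAddCommGroup x1 x3)))) (@UniformSpace.toTopologicalSpace x2 (@PseudoMetricSpace.toUniformSpace x2 (@SeminormedAddCommGroup.toPseudoMetricSpace x2 (@NormedAddCommGroup.toSeminormedAddCommGroup x2 x4))))) (@chartedSpaceSelf (Prod x1 x2) (@UniformSpace.toTopologicalSpace (Prod x1 x2) (@PseudoMetricSpace.toUniformSpace (Prod x1 x2) (@SeminormedAddCommGroup.toPseudoMetricSpace (Prod x1 x2) (@NormedAddCommGroup.toSeminormedAddCommGroup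 (Prod x1 x2) (@Prod.normedAddCommGroup x1 x2 x3 x4)))))) (@OpenPartialHomeomorph.toFun' x7 (Prod x1 x2) x8 (@instTopologicalSpaceProd x1 x2 (@UniformSpace.toTopologicalSpace x1 (@PseudoMetricSpace.toUniformSpace x1 (@SeminormedAddCommGroup.toPseudoMetricSpace x1 (@NormedAddCommGroup.toSeminormedAddCommGroup x1 x3)))) (@UniformSpace.toTopologicalSpace x2 (@PseudoMetricSpace.toUniformSpace x2 (@SeminormedAddCommGroup.toPseudoMetricSpace x2 (@NormedAddCommGroup.toSeminormedAddCommGroup x2 x4))))) x9 x10)) (@DivisionSemiring.toSemiring Complex (@Semifield.toDivisionSemiring Complex (@Field.toSemifield Complex (@NormedField.toField Complex (@NontriviallyNormedField.toNormedField Complex (@DenselyNormedField.toNontriviallyNormedField Complex Complex.instDenselyNormedField)))))) (@AddCommGroup.toAddCommMonoid (@TangentSpace Complex (@DenselyNormedField.toNontriviallyNormedField Complex Complex.instDenselyNormedField)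 (Prod x1 x2) (@Prod.normedAddCommGroup x1 x2 x3 x4) (@Prod.normedSpace Complex x1 x2 (@NontriviallyNormedField.toNormedField Complex (@DenselyNormedField.toNontriviallyNormedField Complex Complex.instDenselyNormedField)) (@NormedAddCommGroup.toSeminormedAddCommGroup x1 x3) (@NormedAddCommGroup.toSeminormedAddCommGroup x2 x4) x5 x6) (Prod x1 x2) (@UniformSpace.toTopologicalSpace (Prod x1 x2) (@PseudoMetricSpace.toUniformSpace (Prod x1 x2) (@SeminormedAddCommGroup.toPseudoMetricSpace (Prod x1 x2) (@NormedAddCommGroup.toSeminormedAddCommGroup (Prod x1 x2) (@Prod.normedAddCommGroup x1 x2 x3 x4))))) (@modelWithCornersSelf Complex (@DenselyNormedField.toNontriviallyNormedField Complex Complex.instDenselyNormedField) (Prod x1 x2) (@Prod.normedAddCommGroup x1 x2 x3 x4) (@Prod.normedSpace Complex x1 x2 (@NontriviallyNormedField.toNormedField Complex (@DenselyNormedField.toNontriviallyNormedField Complex Complex.instDenselyNormedField))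 (@NormedAddCommGroup.toSeminormedAddCommGroup x1 x3) (@NormedAddCommGroup.toSeminormedAddCommGroup x2 x4) x5 x6)) (Prod x1 x2) (@instTopologicalSpaceProd x1 x2 (@UniformSpace.toTopologicalSpace x1 (@PseudoMetricSpace.toUniformSpace x1 (@SeminormedAddCommGroup.toPseudoMetricSpace x1 (@NormedAddCommGroup.toSeminormedAddCommGroup x1 x3)))) (@UniformSpace.toTopologicalSpace x2 (@PseudoMetricSpace.toUniformSpace x2 (@SeminormedAddCommGroup.toPseudoMetricSpace x2 (@NormedAddCommGroup.toSeminormedAddCommGroup x2 x4))))) (@chartedSpaceSelf (Prod x1 x2) (@UniformSpace.toTopologicalSpace (Prod x1 x2) (@PseudoMetricSpace.toUniformSpace (Prod x1 x2) (@SeminormedAddCommGroup.toPseudoMetricSpace (Prod x1 x2) (@NormedAddCommGroup.toSeminormedAddCommGroup (Prod x1 x2) (@Prod.normedAddCommGroup x1 x2 x3 x4)))))) (@OpenPartialHomeomorph.toFun' x7 (Prod x1 x2) x8 (@instTopologicalSpaceProd x1 x2 (@UniformSpace.toTopologicalSpace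 x1 (@PseudoMetricSpace.toUniformSpace x1 (@SeminormedAddCommGroup.toPseudoMetricSpace x1 (@NormedAddCommGroup.toSeminormedAddCommGroup x1 x3)))) (@UniformSpace.toTopologicalSpace x2 (@PseudoMetricSpace.toUniformSpace x2 (@SeminormedAddCommGroup.toPseudoMetricSpace x2 (@NormedAddCommGroup.toSeminormedAddCommGroup x2 x4))))) x9 x10)) (@instAddCommGroupTangentSpace Complex (@DenselyNormedField.toNontriviallyNormedField Complex Complex.instDenselyNormedField) (Prod x1 x2) (@Prod.normedAddCommGroup x1 x2 x3 x4) (@Prod.normedSpace Complex x1 x2 (@NontriviallyNormedField.toNormedField Complex (@DenselyNormedField.toNontriviallyNormedField Complex Complex.instDenselyNormedField)) (@NormedAddCommGroup.toSeminormedAddCommGroup x1 x3) (@NormedAddCommGroup.toSeminormedAddCommGroup x2 x4) x5 x6) (Prod x1 x2) (@UniformSpace.toTopologicalSpace (Prod x1 x2) (@PseudoMetricSpace.toUniformSpace (Prod x1 x2) (@SeminormedAddCommGroup.toPseudoMetricSpace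 (Prod x1 x2) (@NormedAddCommGroup.toSeminormedAddCommGroup (Prod x1 x2) (@Prod.normedAddCommGroup x1 x2 x3 x4))))) (@modelWithCornersSelf Complex (@DenselyNormedField.toNontriviallyNormedField Complex Complex.instDenselyNormedField) (Prod x1 x2) (@Prod.normedAddCommGroup x1 x2 x3 x4) (@Prod.normedSpace Complex x1 x2 (@NontriviallyNormedField.toNormedField Complex (@DenselyNormedField.toNontriviallyNormedField Complex Complex.instDenselyNormedField)) (@NormedAddCommGroup.toSeminormedAddCommGroup x1 x3) (@NormedAddCommGroup.toSeminormedAddCommGroup x2 x4) x5 x6)) (Prod x1 x2) (@instTopologicalSpaceProd x1 x2 (@UniformSpace.toTopologicalSpace x1 (@PseudoMetricSpace.toUniformSpace x1 (@SeminormedAddCommGroup.toPseudoMetricSpace x1 (@NormedAddCommGroup.toSeminormedAddCommGroup x1 x3)))) (@UniformSpace.toTopologicalSpace x2 (@PseudoMetricSpace.toUniformSpace x2 (@SeminormedAddCommGroup.toPseudoMetricSpace x2 (@NormedAddCommGroup.toSeminormedAddCommGroup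 x2 x4))))) (@chartedSpaceSelf (Prod x1 x2) (@UniformSpace.toTopologicalSpace (Prod x1 x2) (@PseudoMetricSpace.toUniformSpace (Prod x1 x2) (@SeminormedAddCommGroup.toPseudoMetricSpace (Prod x1 x2) (@NormedAddCommGroup.toSeminormedAddCommGroup (Prod x1 x2) (@Prod.normedAddCommGroup x1 x2 x3 x4)))))) (@OpenPartialHomeomorph.toFun' x7 (Prod x1 x2) x8 (@instTopologicalSpaceProd x1 x2 (@UniformSpace.toTopologicalSpace x1 (@PseudoMetricSpace.toUniformSpace x1 (@SeminormedAddCommGroup.toPseudoMetricSpace x1 (@NormedAddCommGroup.toSeminormedAddCommGroup x1 x3)))) (@UniformSpace.toTopologicalSpace x2 (@PseudoMetricSpace.toUniformSpace x2 (@SeminormedAddCommGroup.toPseudoMetricSpace x2 (@NormedAddCommGroup.toSeminormedAddCommGroup x2 x4))))) x9 x10))) := inferInstance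
theorem a41 : PosMulReflectLE ℝ := inferInstance
@[reducible] noncomputable def a42 : SMul ℝ ℂ := inferInstance
@[reducible] noncomputable def a43.{u1, u2, u3} {x1 : Type u1} {x2 : Type u2} [x3 : NormedAddCommGroup x1] [x4 : NormedAddCommGroup x2] [x5 : @NormedSpace Complex x1 Complex.instNormedField (@NormedAddCommGroup.toSeminormedAddCommGroup x1 x3)] [x6 : @NormedSpace Complex x2 Complex.instNormedField (@NormedAddCommGroup.toSeminormedAddCommGroup x2 x4)] {x7 : Type u3} [x8 : TopologicalSpace x7] {x9 : @OpenPartialHomeomorph x7 (Prod x1 x2) x8 (@instTopologicalSpaceProd x1 x2 (@UniformSpace.toTopologicalSpace x1 (@PseudoMetricSpace.toUniformSpace x1 (@SeminormedAddCommGroup.toPseudoMetricSpace x1 (@NormedAddCommGroup.toSeminormedAddCommGroup x1 x3)))) (@UniformSpace.toTopologicalSpace x2 (@PseudoMetricSpace.toUniformSpace x2 (@SeminormedAddCommGroup.toPseudoMetricSpace x2 (@NormedAddCommGroup.toSeminormedAddCommGroup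 x2 x4)))))} {x10 : x7} : AddCommGroup (@TangentSpace Complex (@DenselyNormedField.toNontriviallyNormedField Complex Complex.instDenselyNormedField) (Prod x1 x2) (@Prod.normedAddCommGroup x1 x2 x3 x4) (@Prod.normedSpace Complex x1 x2 (@NontriviallyNormedField.toNormedField Complex (@DenselyNormedField.toNontriviallyNormedField Complex Complex.instDenselyNormedField)) (@NormedAddCommGroup.toSeminormedAddCommGroup x1 x3) (@NormedAddCommGroup.toSeminormedAddCommGroup x2 x4) x5 x6) (Prod x1 x2) (@UniformSpace.toTopologicalSpace (Prod x1 x2) (@PseudoMetricSpace.toUniformSpace (Prod x1 x2) (@SeminormedAddCommGroup.toPseudoMetricSpace (Prod x1 x2) (@NormedAddCommGroup.toSeminormedAddCommGroup (Prod x1 x2) (@Prod.normedAddCommGroup x1 x2 x3 x4))))) (@modelWithCornersSelf Complex (@DenselyNormedField.toNontriviallyNormedField Complex Complex.instDenselyNormedField) (Prod x1 x2) (@Prod.normedAddCommGroup x1 x2 x3 x4)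 (@Prod.normedSpace Complex x1 x2 (@NontriviallyNormedField.toNormedField Complex (@DenselyNormedField.toNontriviallyNormedField Complex Complex.instDenselyNormedField)) (@NormedAddCommGroup.toSeminormedAddCommGroup x1 x3) (@NormedAddCommGroup.toSeminormedAddCommGroup x2 x4) x5 x6)) (Prod x1 x2) (@instTopologicalSpaceProd x1 x2 (@UniformSpace.toTopologicalSpace x1 (@PseudoMetricSpace.toUniformSpace x1 (@SeminormedAddCommGroup.toPseudoMetricSpace x1 (@NormedAddCommGroup.toSeminormedAddCommGroup x1 x3)))) (@UniformSpace.toTopologicalSpace x2 (@PseudoMetricSpace.toUniformSpace x2 (@SeminormedAddCommGroup.toPseudoMetricSpace x2 (@NormedAddCommGroup.toSeminormedAddCommGroup x2 x4))))) (@chartedSpaceSelf (Prod x1 x2) (@UniformSpace.toTopologicalSpace (Prod x1 x2) (@PseudoMetricSpace.toUniformSpace (Prod x1 x2) (@SeminormedAddCommGroup.toPseudoMetricSpace (Prod x1 x2) (@NormedAddCommGroup.toSeminormedAddCommGroup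 (Prod x1 x2) (@Prod.normedAddCommGroup x1 x2 x3 x4)))))) (@OpenPartialHomeomorph.toFun' x7 (Prod x1 x2) x8 (@instTopologicalSpaceProd x1 x2 (@UniformSpace.toTopologicalSpace x1 (@PseudoMetricSpace.toUniformSpace x1 (@SeminormedAddCommGroup.toPseudoMetricSpace x1 (@NormedAddCommGroup.toSeminormedAddCommGroup x1 x3)))) (@UniformSpace.toTopologicalSpace x2 (@PseudoMetricSpace.toUniformSpace x2 (@SeminormedAddCommGroup.toPseudoMetricSpace x2 (@NormedAddCommGroup.toSeminormedAddCommGroup x2 x4))))) x9 x10)) := inferInstance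
@[reducible] noncomputable def a44.{u1, u2, u3} {x1 : Type u1} {x2 : Type u2} [x3 : NormedAddCommGroup x1] [x4 : NormedAddCommGroup x2] [x5 : @NormedSpace Complex x1 Complex.instNormedField (@NormedAddCommGroup.toSeminormedAddCommGroup x1 x3)] [x6 : @NormedSpace Complex x2 Complex.instNormedField (@NormedAddCommGroup.toSeminormedAddCommGroup x2 x4)] {x7 : Type u3} [x8 : TopologicalSpace x7] {x9 : @OpenPartialHomeomorph x7 (Prod x1 x2) x8 (@instTopologicalSpaceProd x1 x2 (@UniformSpace.toTopologicalSpace x1 (@PseudoMetricSpace.toUniformSpace x1 (@SeminormedAddCommGroup.toPseudoMetricSpace x1 (@NormedAddCommGroup.toSeminormedAddCommGroup x1 x3)))) (@UniformSpace.toTopologicalSpace x2 (@PseudoMetricSpace.toUniformSpace x2 (@SeminormedAddCommGroup.toPseudoMetricSpace x2 (@NormedAddCommGroup.toSeminormedAddCommGroup x2 x4)))))} {x10 : x7} : TopologicalSpace (@TangentSpace Complex (@DenselyNormedField.toNontriviallyNormedField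 Complex Complex.instDenselyNormedField) (Prod x1 x2) (@Prod.normedAddCommGroup x1 x2 x3 x4) (@Prod.normedSpace Complex x1 x2 (@NontriviallyNormedField.toNormedField Complex (@DenselyNormedField.toNontriviallyNormedField Complex Complex.instDenselyNormedField)) (@NormedAddCommGroup.toSeminormedAddCommGroup x1 x3) (@NormedAddCommGroup.toSeminormedAddCommGroup x2 x4) x5 x6) (Prod x1 x2) (@UniformSpace.toTopologicalSpace (Prod x1 x2) (@PseudoMetricSpace.toUniformSpace (Prod x1 x2) (@SeminormedAddCommGroup.toPseudoMetricSpace (Prod x1 x2) (@NormedAddCommGroup.toSeminormedAddCommGroup (Prod x1 x2) (@Prod.normedAddCommGroup x1 x2 x3 x4))))) (@modelWithCornersSelf Complex (@DenselyNormedField.toNontriviallyNormedField Complex Complex.instDenselyNormedField) (Prod x1 x2) (@Prod.normedAddCommGroup x1 x2 x3 x4) (@Prod.normedSpace Complex x1 x2 (@NontriviallyNormedField.toNormedField Complex (@DenselyNormedField.toNontriviallyNormedField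 Complex Complex.instDenselyNormedField)) (@NormedAddCommGroup.toSeminormedAddCommGroup x1 x3) (@NormedAddCommGroup.toSeminormedAddCommGroup x2 x4) x5 x6)) (Prod x1 x2) (@instTopologicalSpaceProd x1 x2 (@UniformSpace.toTopologicalSpace x1 (@PseudoMetricSpace.toUniformSpace x1 (@SeminormedAddCommGroup.toPseudoMetricSpace x1 (@NormedAddCommGroup.toSeminormedAddCommGroup x1 x3)))) (@UniformSpace.toTopologicalSpace x2 (@PseudoMetricSpace.toUniformSpace x2 (@SeminormedAddCommGroup.toPseudoMetricSpace x2 (@NormedAddCommGroup.toSeminormedAddCommGroup x2 x4))))) (@chartedSpaceSelf (Prod x1 x2) (@UniformSpace.toTopologicalSpace (Prod x1 x2) (@PseudoMetricSpace.toUniformSpace (Prod x1 x2) (@SeminormedAddCommGroup.toPseudoMetricSpace (Prod x1 x2) (@NormedAddCommGroup.toSeminormedAddCommGroup (Prod x1 x2) (@Prod.normedAddCommGroup x1 x2 x3 x4)))))) (@OpenPartialHomeomorph.toFun' x7 (Prod x1 x2) x8 (@instTopologicalSpaceProd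 x1 x2 (@UniformSpace.toTopologicalSpace x1 (@PseudoMetricSpace.toUniformSpace x1 (@SeminormedAddCommGroup.toPseudoMetricSpace x1 (@NormedAddCommGroup.toSeminormedAddCommGroup x1 x3)))) (@UniformSpace.toTopologicalSpace x2 (@PseudoMetricSpace.toUniformSpace x2 (@SeminormedAddCommGroup.toPseudoMetricSpace x2 (@NormedAddCommGroup.toSeminormedAddCommGroup x2 x4))))) x9 x10)) := inferInstance
theorem a45 : PosMulStrictMono ℝ := inferInstance
theorem a46 : PosSMulStrictMono ℝ ℝ := inferInstance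
@[reducible] def a47.{u1} {x1 : Type u1} [x2 : NormedAddCommGroup x1] [x3 : NormedSpace ℂ x1] : Module ℂ (x1 →ₗ[ℂ] ℂ) := inferInstance
@[reducible] noncomputable def a48 : SMulZeroClass ℝ (ℂ × ℂ) := inferInstance
theorem a49 : DenselyOrdered ℝ := inferInstance
@[reducible] noncomputable def a50 : DistribSMul ℝ (ℂ × ℂ) := inferInstance
@[reducible] def a51.{u1, u2} {x1 : Type u1} {x2 : Type u2} [x3 : NormedAddCommGroup x1] [x4 : NormedAddCommGroup x2] [x5 : NormedSpace ℂ x1] [x6 : NormedSpace ℂ x2] : DistribMulAction ℂ (x1 × x2) := inferInstance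
@[reducible] noncomputable def a52.{u1, u2} {x1 : Vale.Agent.P278.CxManifold} {x2 : Vale.Agent.P278.CxManifold} {x3 : Type u2} [x4 : NormedAddCommGroup x3] [x5 : NormedSpace ℂ x3] {x6 : Type u1} [x7 : TopologicalSpace x6] [x8 : ChartedSpace x3 x6] {x9 : Diffeomorph (modelWithCornersSelf ℂ x3) ((modelWithCornersSelf ℂ x1.Model).prod (modelWithCornersSelf ℂ x2.Model)) x6 (x1.Pt × x2.Pt) ⊤} {x10 : x6} : Zero (TangentSpace (modelWithCornersSelf ℂ x1.Model) (x9 x10).1) := inferInstance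
@[reducible] noncomputable def a53.{u1, u2} {x1 : Vale.Agent.P278.CxManifold} {x2 : Vale.Agent.P278.CxManifold} {x3 : Type u2} [x4 : NormedAddCommGroup x3] [x5 : NormedSpace ℂ x3] {x6 : Type u1} [x7 : TopologicalSpace x6] [x8 : ChartedSpace x3 x6] {x9 : Diffeomorph (modelWithCornersSelf ℂ x3) ((modelWithCornersSelf ℂ x2.Model).prod (modelWithCornersSelf ℂ x1.Model)) x6 (x2.Pt × x1.Pt) ⊤} {x10 : x6} : Zero (TangentSpace (modelWithCornersSelf ℂ x1.Model) (x9 x10).2) := inferInstance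
theorem a54 : SeparatelyContinuousMul ℂ := inferInstance
@[reducible] noncomputable def a55 : DistribMulAction ℝ (ℂ × ℂ) := inferInstance
@[reducible] noncomputable def a56 : MeasureTheory.MeasureSpace ℂ := inferInstance
theorem a57 : AddRightReflectLE ℝ := inferInstance
@[reducible] noncomputable def a58.{u1, u2} {x1 : Vale.Agent.P278.CxManifold} {x2 : Vale.Agent.P278.CxManifold} {x3 : Type u2} [x4 : NormedAddCommGroup x3] [x5 : NormedSpace ℂ x3] {x6 : Type u1} [x7 : TopologicalSpace x6] [x8 : ChartedSpace x3 x6] {x9 : Diffeomorph (modelWithCornersSelf ℂ x3) ((modelWithCornersSelf ℂ x2.Model).prod (modelWithCornersSelf ℂ x1.Model)) x6 (x2.Pt × x1.Pt) ⊤} {x10 : x6} : AddCommMonoid (TangentSpace (modelWithCornersSelf ℂ x1.Model) (x9 x10).2) := inferInstance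
@[reducible] noncomputable def a59.{u1, u2} {x1 : Vale.Agent.P278.CxManifold} {x2 : Vale.Agent.P278.CxManifold} {x3 : Type u2} [x4 : NormedAddCommGroup x3] [x5 : NormedSpace ℂ x3] {x6 : Type u1} [x7 : TopologicalSpace x6] [x8 : ChartedSpace x3 x6] {x9 : Diffeomorph (modelWithCornersSelf ℂ x3) ((modelWithCornersSelf ℂ x1.Model).prod (modelWithCornersSelf ℂ x2.Model)) x6 (x1.Pt × x2.Pt) ⊤} {x10 : x6} : AddCommMonoid (TangentSpace (modelWithCornersSelf ℂ x1.Model) (x9 x10).1) := inferInstance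
@[reducible] noncomputable def a60.{u1, u2, u3} {x1 : Type u1} [x2 : NormedAddCommGroup x1] [x3 : @NormedSpace Complex x1 Complex.instNormedField (@NormedAddCommGroup.toSeminormedAddCommGroup x1 x2)] {x4 : Type u2} [x5 : TopologicalSpace x4] [x6 : @ChartedSpace x1 (@UniformSpace.toTopologicalSpace x1 (@PseudoMetricSpace.toUniformSpace x1 (@SeminormedAddCommGroup.toPseudoMetricSpace x1 (@NormedAddCommGroup.toSeminormedAddCommGroup x1 x2)))) x4 x5] {x7 : Type u3} [x8 : NormedAddCommGroup x7] {x9 : @OpenPartialHomeomorph x4 x7 x5 (@UniformSpace.toTopologicalSpace x7 (@PseudoMetricSpace.toUniformSpace x7 (@SeminormedAddCommGroup.toPseudoMetricSpace x7 (@NormedAddCommGroup.toSeminormedAddCommGroup x7 x8))))} {x10 : x7} : AddCommMonoid (@TangentSpace Complex (@DenselyNormedField.toNontriviallyNormedField Complex Complex.instDenselyNormedField) x1 x2 x3 x1 (@UniformSpace.toTopologicalSpace x1 (@PseudoMetricSpace.toUniformSpace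 x1 (@SeminormedAddCommGroup.toPseudoMetricSpace x1 (@NormedAddCommGroup.toSeminormedAddCommGroup x1 x2)))) (@modelWithCornersSelf Complex (@DenselyNormedField.toNontriviallyNormedField Complex Complex.instDenselyNormedField) x1 x2 x3) x4 x5 x6 (@OpenPartialHomeomorph.toFun' x7 x4 (@UniformSpace.toTopologicalSpace x7 (@PseudoMetricSpace.toUniformSpace x7 (@SeminormedAddCommGroup.toPseudoMetricSpace x7 (@NormedAddCommGroup.toSeminormedAddCommGroup x7 x8)))) x5 (@OpenPartialHomeomorph.symm x4 x7 x5 (@UniformSpace.toTopologicalSpace x7 (@PseudoMetricSpace.toUniformSpace x7 (@SeminormedAddCommGroup.toPseudoMetricSpace x7 (@NormedAddCommGroup.toSeminormedAddCommGroup x7 x8)))) x9) x10)) := inferInstance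
@[reducible] def a61.{u1, u2} {x1 : Type u1} {x2 : Type u2} [x3 : NormedAddCommGroup x2] [x4 : NormedAddCommGroup x1] : Zero (x1 × x2) := inferInstance
@[reducible] noncomputable def a62.{u1, u2} {x1 : Type u1} [x2 : NormedAddCommGroup x1] [x3 : NormedSpace ℂ x1] {x4 : Type u2} [x5 : TopologicalSpace x4] [x6 : ChartedSpace x1 x4] {x7 : x4} : DistribMulAction ℂ (TangentSpace (modelWithCornersSelf ℂ x1) x7) := inferInstance
theorem a63 : SeparatelyContinuousAdd ℂ := inferInstance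
@[reducible] def a64.{u1, u2} {x1 : Type u1} {x2 : Type u2} [x3 : NormedAddCommGroup x2] [x4 : NormedAddCommGroup x1] : AddZero (x1 × x2) := inferInstance
@[reducible] def a65.{u1, u2} {x1 : Type u1} {x2 : Type u2} [x3 : NormedAddCommGroup x2] [x4 : NormedAddCommGroup x1] : AddZeroClass (x1 × x2) := inferInstance
theorem a66 {x1 : ℝ} : (nhdsWithin x1 (Set.Iio x1)).NeBot := inferInstance
theorem a67 : ContinuousSMul ℝ ℝ := inferInstance
@[reducible] noncomputable def a68.{u1, u2} {x1 : Type u1} [x2 : NormedAddCommGroup x1] [x3 : NormedSpace ℂ x1] {x4 : Submodule ℂ x1} {x5 : Type u2} {x6 : x5 → ↥x4} {x7 : x5} : AddCommMonoid (TangentSpace (modelWithCornersSelf ℂ ↥x4) (x6 x7)) := inferInstance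
theorem a69 : T2Space ℝ := inferInstance
@[reducible] def a70 : SMulZeroClass ℂ ℂ := inferInstance
@[reducible] noncomputable def a71.{u1, u2} {x1 : Type u1} [x2 : NormedAddCommGroup x1] [x3 : @NormedSpace Complex x1 Complex.instNormedField (@NormedAddCommGroup.toSeminormedAddCommGroup x1 x2)] {x4 : Type u2} [x5 : TopologicalSpace x4] {x6 : @OpenPartialHomeomorph x4 x1 x5 (@UniformSpace.toTopologicalSpace x1 (@PseudoMetricSpace.toUniformSpace x1 (@SeminormedAddCommGroup.toPseudoMetricSpace x1 (@NormedAddCommGroup.toSeminormedAddCommGroup x1 x2))))} {x7 : x4} : AddCommMonoid (@TangentSpace Complex (@DenselyNormedField.toNontriviallyNormedField Complex Complex.instDenselyNormedField) x1 x2 x3 x1 (@UniformSpace.toTopologicalSpace x1 (@PseudoMetricSpace.toUniformSpace x1 (@SeminormedAddCommGroup.toPseudoMetricSpace x1 (@NormedAddCommGroup.toSeminormedAddCommGroup x1 x2)))) (@modelWithCornersSelf Complex (@DenselyNormedField.toNontriviallyNormedField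 Complex Complex.instDenselyNormedField) x1 x2 x3) x1 (@UniformSpace.toTopologicalSpace x1 (@PseudoMetricSpace.toUniformSpace x1 (@SeminormedAddCommGroup.toPseudoMetricSpace x1 (@NormedAddCommGroup.toSeminormedAddCommGroup x1 x2)))) (@chartedSpaceSelf x1 (@UniformSpace.toTopologicalSpace x1 (@PseudoMetricSpace.toUniformSpace x1 (@SeminormedAddCommGroup.toPseudoMetricSpace x1 (@NormedAddCommGroup.toSeminormedAddCommGroup x1 x2))))) (@OpenPartialHomeomorph.toFun' x4 x1 x5 (@UniformSpace.toTopologicalSpace x1 (@PseudoMetricSpace.toUniformSpace x1 (@SeminormedAddCommGroup.toPseudoMetricSpace x1 (@NormedAddCommGroup.toSeminormedAddCommGroup x1 x2)))) x6 x7)) := inferInstance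
@[reducible] def a72.{u1} {x1 : Type u1} [x2 : NormedAddCommGroup x1] [x3 : NormedSpace ℂ x1] {x4 : Submodule ℂ x1} : AddCommGroup ↥x4 := inferInstance
@[reducible] def a73 : SMulZeroClass ℝ ℝ := inferInstance
end AFastae031ax6a
attribute [local instance] AFastae031ax6a.a0 AFastae031ax6a.a1 AFastae031ax6a.a2 AFastae031ax6a.a3
  AFastae031ax6a.a4 AFastae031ax6a.a5 AFastae031ax6a.a6 AFastae031ax6a.a7 AFastae031ax6a.a8
  AFastae031ax6a.a9 AFastae031ax6a.a10 AFastae031ax6a.a11 AFastae031ax6a.a12 AFastae031ax6a.a13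
  AFastae031ax6a.a14 AFastae031ax6a.a15 AFastae031ax6a.a16 AFastae031ax6a.a17 AFastae031ax6a.a18
  AFastae031ax6a.a19 AFastae031ax6a.a20 AFastae031ax6a.a21 AFastae031ax6a.a22 AFastae031ax6a.a23
  AFastae031ax6a.a24 AFastae031ax6a.a25 AFastae031ax6a.a26 AFastae031ax6a.a27 AFastae031ax6a.a28
  AFastae031ax6a.a29 AFastae031ax6a.a30 AFastae031ax6a.a31 AFastae031ax6a.a32 AFastae031ax6a.a33
  AFastae031ax6a.a34 AFastae031ax6a.a35 AFastae031ax6a.a36 AFastae031ax6a.a37 AFastae031ax6a.a38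
  AFastae031ax6a.a39 AFastae031ax6a.a40 AFastae031ax6a.a41 AFastae031ax6a.a42 AFastae031ax6a.a43
  AFastae031ax6a.a44 AFastae031ax6a.a45 AFastae031ax6a.a46 AFastae031ax6a.a47 AFastae031ax6a.a48
  AFastae031ax6a.a49 AFastae031ax6a.a50 AFastae031ax6a.a51 AFastae031ax6a.a52 AFastae031ax6a.a53
  AFastae031ax6a.a54 AFastae031ax6a.a55 AFastae031ax6a.a56 AFastae031ax6a.a57 AFastae031ax6a.a58
  AFastae031ax6a.a59 AFastae031ax6a.a60 AFastae031ax6a.a61 AFastae031ax6a.a62 AFastae031ax6a.a63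
  AFastae031ax6a.a64 AFastae031ax6a.a65 AFastae031ax6a.a66 AFastae031ax6a.a67 AFastae031ax6a.a68
  AFastae031ax6a.a69 AFastae031ax6a.a70 AFastae031ax6a.a71 AFastae031ax6a.a72 AFastae031ax6a.a73
namespace AFastae031ax6b
@[reducible] noncomputable def a0 : Module ℝ ℂ := inferInstance
theorem a1.{u1, u2} {x1 : Type u1} [x2 : NormedAddCommGroup x1] [x3 : NormedSpace ℂ x1] {x4 : Type u2} [x5 : TopologicalSpace x4] [x6 : ChartedSpace x1 x4] [x7 : IsManifold (modelWithCornersSelf ℂ x1) ⊤ x4] : IsManifold (modelWithCornersSelf ℂ x1) 1 x4 := inferInstance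
@[reducible] def a2.{u1, u2} {x1 : Type u1} {x2 : Type u2} [x3 : NormedAddCommGroup x2] [x4 : NormedSpace ℂ x2] [x5 : NormedAddCommGroup x1] [x6 : NormedSpace ℂ x1] : SMul ℂ (x1 × x2) := inferInstance
theorem a3.{u1, u2} {x1 : Type u1} {x2 : Type u2} [x3 : NormedAddCommGroup x1] [x4 : NormedAddCommGroup x2] : T2Space (x1 × x2) := inferInstance
@[reducible] noncomputable def a4.{u1} {x1 : Type u1} [x2 : NormedAddCommGroup x1] [x3 : NormedSpace ℂ x1] {x4 : Submodule ℂ x1} : NormedSpace ℂ ↥x4 := inferInstance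
theorem a5.{u1, u2} {x1 : Type u1} {x2 : Type u2} [x3 : NormedAddCommGroup x1] [x4 : NormedSpace ℂ x1] [x5 : NormedAddCommGroup x2] [x6 : NormedSpace ℂ x2] : ContinuousSMul ℂ (x1 × x2) := inferInstance
@[reducible] def a6.{u1, u2} {x1 : Type u1} {x2 : Type u2} [x3 : NormedAddCommGroup x1] [x4 : NormedAddCommGroup x2] [x5 : NormedSpace ℂ x1] [x6 : NormedSpace ℂ x2] : SMulZeroClass ℂ (x1 × x2) := inferInstance
@[reducible] def a7.{u1, u2} {x1 : Type u1} {x2 : Type u2} [x3 : NormedAddCommGroup x1] [x4 : NormedAddCommGroup x2] [x5 : NormedSpace ℂ x1] [x6 : NormedSpace ℂ x2] : DistribSMul ℂ (x1 × x2) := inferInstance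
end AFastae031ax6b
attribute [local instance] AFastae031ax6b.a0 AFastae031ax6b.a1 AFastae031ax6b.a2 AFastae031ax6b.a3
  AFastae031ax6b.a4 AFastae031ax6b.a5 AFastae031ax6b.a6 AFastae031ax6b.a7
section

section

open scoped ContDiff Manifold

namespace Vale.Agent.P278.Stmt

universe u

end Vale.Agent.P278.Stmt
end
end

section

section

open Set Topology Filter
open scoped Manifold ContDiff

set_option linter.unusedSectionVars false

namespace Vale.Agent.P278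

variable {M A B : Type*} [TopologicalSpace M] [NormedAddCommGroup A] [NormedSpace ℂ A]
  [NormedAddCommGroup B] [NormedSpace ℂ B] {W : Type*} [PseudoMetricSpace W]

section
variable {𝒜 : Set (OpenPartialHomeomorph M (A × B))} [h𝒜 : BoxAtlas 𝒜] {D : M → W}

end

end Vale.Agent.P278
end
end

section

section

open Set Topology Filter Metric
open scoped Manifold ContDiff

set_option linter.unusedSectionVars false

namespace Vale.Agent.P278

variable {M A B : Type*} [TopologicalSpace M] [NormedAddCommGroup A] [NormedSpace ℂ A]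
  [NormedAddCommGroup B] [NormedSpace ℂ B]

/-- The path `γ` has speed at most `1` at `t`, within `S`. -/
def SlowAt (𝒜 : Set (OpenPartialHomeomorph M (A × B)))
    (N : OpenPartialHomeomorph M (A × B) → A × B → Seminorm ℝ A) (γ : ℝ → Leaf 𝒜) (S : Set ℝ)
    (t : ℝ) : Prop :=
  ∀ φ ∈ 𝒜, Leaf.toM 𝒜 (γ t) ∈ φ.source → ∀ m > 1, ∀ᶠ s in 𝓝[S] t,
    N φ (φ (Leaf.toM 𝒜 (γ t))) ((φ (Leaf.toM 𝒜 (γ s))).1 - (φ (Leaf.toM 𝒜 (γ t))).1) ≤
      m * |s - t|

/-- The path `γ` has speed at most `1` on `S`. -/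
def SlowOn (𝒜 : Set (OpenPartialHomeomorph M (A × B)))
    (N : OpenPartialHomeomorph M (A × B) → A × B → Seminorm ℝ A) (γ : ℝ → Leaf 𝒜)
    (S : Set ℝ) : Prop :=
  ContinuousOn γ S ∧ ∀ t ∈ S, SlowAt 𝒜 N γ S t

variable {𝒜 : Set (OpenPartialHomeomorph M (A × B))} [h𝒜 : BoxAtlas 𝒜]
  {N : OpenPartialHomeomorph M (A × B) → A × B → Seminorm ℝ A}

theorem SlowOn.congr {γ γ' : ℝ → Leaf 𝒜} {S : Set ℝ} (h : SlowOn 𝒜 N γ S)
    (hγ : EqOn γ' γ S) : SlowOn 𝒜 N γ' S := by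
  refine ⟨h.1.congr hγ, fun t ht φ hφ hx m hm => ?_⟩
  rw [hγ ht] at hx ⊢
  filter_upwards [h.2 t ht φ hφ hx m hm, self_mem_nhdsWithin] with s hs hsS
  rw [hγ hsS]; exact hs

end Vale.Agent.P278
end
end

section

section

open Set Topology Filter Metric TopologicalSpace
open scoped Manifold ContDiff

set_option linter.unusedSectionVars false

namespace Vale.Agent.P278

section sheet
variable {X M : Type*} [TopologicalSpace X] [TopologicalSpace M]

/-- Sheets of a covering map. -/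
theorem exists_sheet {π : M → X} (hπ : IsCoveringMap π) (x : X) :
    ∃ U : Set X, IsOpen U ∧ x ∈ U ∧ ∀ y, π y ∈ U →
      ∃ σ : OpenPartialHomeomorph M X, y ∈ σ.source ∧ σ.target = U ∧ ∀ z, σ z = π z := by
  obtain ⟨hI, U, hxU, hU, hfU, H, hH⟩ := hπ x
  refine ⟨U, hU, hxU, fun y hy => ?_⟩
  set k := (H ⟨y, hy⟩).2 with hk
  have : Nonempty M := ⟨y⟩
  let S : Set M := Subtype.val '' {w : π ⁻¹' U | (H w).2 = k}
  have hS : IsOpen S := by
    apply hfU.isOpenMap_subtype_val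
    have h1 : Continuous fun w : π ⁻¹' U => (H w).2 := continuous_snd.comp H.continuous
    exact (isOpen_discrete {k}).preimage h1
  have hbij : BijOn π S U := by
    refine ⟨?_, ?_, ?_⟩
    · rintro _ ⟨w, -, rfl⟩
      exact w.2
    · rintro _ ⟨w, hw, rfl⟩ _ ⟨w', hw', rfl⟩ h
      have h1 : (H w).1 = (H w').1 := Subtype.ext (by rw [hH, hH]; exact h)
      have h2 : H w = H w' := Prod.ext h1 (Eq.trans hw (Eq.symm hw'))
      rw [H.injective h2]
    · intro x' hx'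
      refine ⟨H.symm (⟨x', hx'⟩, k), ⟨H.symm (⟨x', hx'⟩, k), ?_, rfl⟩, ?_⟩
      · show (H (H.symm (⟨x', hx'⟩, k))).2 = k
        rw [H.apply_symm_apply]
      · rw [← hH, H.apply_symm_apply]
  refine ⟨OpenPartialHomeomorph.ofContinuousOpen (hbij.toPartialEquiv π S U)
    hπ.continuous.continuousOn hπ.isOpenMap hS, ⟨⟨y, hy⟩, rfl, rfl⟩, rfl, fun z => rfl⟩

end sheet

variable {X M A B E : Type*} [TopologicalSpace X] [TopologicalSpace M]
  [NormedAddCommGroup A] [NormedSpace ℂ A]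
  [NormedAddCommGroup B] [NormedSpace ℂ B] [NormedAddCommGroup E] [NormedSpace ℂ E]
  [ChartedSpace E X] [ChartedSpace E M]

/-- Lifts of charts to a covering space. -/
theorem exists_lift_chart {π : M → X} (hπ : IsCoveringMap π)
    (φ : OpenPartialHomeomorph X (A × B)) {x : X} (hx : x ∈ φ.source) {O : Set (A × B)}
    (hO : O ∈ 𝓝 (φ x)) :
    ∃ r > 0, ball (φ x).1 (2 * r) ×ˢ ball (φ x).2 (2 * r) ⊆ O ∩ φ.target ∧
      ∀ y, π y ∈ φ.source → φ (π y) ∈ ball (φ x).1 (2 * r) ×ˢ ball (φ x).2 (2 * r) →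
      ∃ χ : OpenPartialHomeomorph M (A × B), y ∈ χ.source ∧
        χ.target = ball (φ x).1 (2 * r) ×ˢ ball (φ x).2 (2 * r) ∧ MapsTo π χ.source φ.source ∧
        ∀ z, χ z = φ (π z) := by
  obtain ⟨U, hU, hxU, hsheet⟩ := exists_sheet hπ x
  have h1 : (O ∩ (φ.target ∩ φ.symm ⁻¹' U)) ∈ 𝓝 (φ x) := by
    refine Filter.inter_mem hO (IsOpen.mem_nhds (φ.isOpen_inter_preimage_symm hU)
      ⟨φ.map_source hx, ?_⟩)
    rw [mem_preimage, φ.left_inv hx]; exact hxU
  obtain ⟨r, hr, hrb⟩ := Metric.mem_nhds_iff.1 h1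
  have hrb' : ball (φ x).1 (2 * (r / 2)) ×ˢ ball (φ x).2 (2 * (r / 2)) ⊆
      O ∩ (φ.target ∩ φ.symm ⁻¹' U) := by
    rw [show 2 * (r / 2) = r by ring, ball_prod_same]
    exact hrb
  refine ⟨r / 2, by positivity, fun p hp => ⟨(hrb' hp).1, (hrb' hp).2.1⟩, fun y hy hy2 => ?_⟩
  have hyU : π y ∈ U := by
    have := (hrb' hy2).2.2
    rwa [mem_preimage, φ.left_inv hy] at this
  obtain ⟨σ, hσ1, hσ2, hσ3⟩ := hsheet y hyU
  set Q : Set (A × B) := ball (φ x).1 (2 * (r / 2)) ×ˢ ball (φ x).2 (2 * (r / 2)) with hQ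
  have hQo : IsOpen Q := isOpen_ball.prod isOpen_ball
  refine ⟨((σ ≫ₕ φ).symm.restrOpen Q hQo).symm, ?_, ?_, ?_, ?_⟩
  · show y ∈ (σ ≫ₕ φ).source ∩ (σ ≫ₕ φ).symm.symm ⁻¹' Q
    refine ⟨⟨hσ1, ?_⟩, ?_⟩
    · show σ y ∈ φ.source
      rw [hσ3]; exact hy
    · show φ (σ y) ∈ Q
      rw [hσ3]; exact hy2
  · show (σ ≫ₕ φ).target ∩ Q = Q
    apply inter_eq_right.2
    intro p hp
    refine ⟨(hrb' hp).2.1, ?_⟩
    show φ.symm p ∈ σ.target
    rw [hσ2]
    exact (hrb' hp).2.2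
  · rintro z ⟨⟨hz1, hz2⟩, -⟩
    rw [← hσ3]; exact hz2
  · intro z
    show φ (σ z) = φ (π z)
    rw [hσ3]

/-- A family of product charts, for a pair of transverse foliations. -/
structure ProdAtlas (𝒬 : Set (OpenPartialHomeomorph X (A × B))) : Prop where
  cover : ∀ x, ∃ φ ∈ 𝒬, x ∈ φ.source
  toFun : ∀ φ ∈ 𝒬, ContMDiffOn 𝓘(ℂ, E) 𝓘(ℂ, A × B) ω φ φ.source
  invFun : ∀ φ ∈ 𝒬, ContMDiffOn 𝓘(ℂ, A × B) 𝓘(ℂ, E) ω φ.symm φ.target
  trans : ∀ φ ∈ 𝒬, ∀ ψ ∈ 𝒬, ∀ x ∈ φ.source, x ∈ ψ.source →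
    ∀ᶠ y in 𝓝 x, (φ y).2 = (φ x).2 → (ψ y).2 = (ψ x).2
  trans' : ∀ φ ∈ 𝒬, ∀ ψ ∈ 𝒬, ∀ x ∈ φ.source, x ∈ ψ.source →
    ∀ᶠ y in 𝓝 x, (φ y).1 = (φ x).1 → (ψ y).1 = (ψ x).1

/-- The lifted atlas. -/
def liftAtlas (π : M → X) (𝒬 : Set (OpenPartialHomeomorph X (A × B))) :
    Set (OpenPartialHomeomorph M (A × B)) :=
  {χ | (∃ (U : Set A) (V : Set B), IsPreconnected U ∧ IsPreconnected V ∧ χ.target = U ×ˢ V) ∧
    ∃ φ ∈ 𝒬, MapsTo π χ.source φ.source ∧ ∀ z, χ z = φ (π z)}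

variable {π : M → X} {𝒬 : Set (OpenPartialHomeomorph X (A × B))}

theorem lift_symm {χ : OpenPartialHomeomorph M (A × B)} {φ : OpenPartialHomeomorph X (A × B)}
    (h1 : MapsTo π χ.source φ.source) (h2 : ∀ z, χ z = φ (π z)) {p : A × B} (hp : p ∈ χ.target) :
    p ∈ φ.target ∧ π (χ.symm p) = φ.symm p := by
  have h3 : χ.symm p ∈ χ.source := χ.map_target hp
  have h4 : φ (π (χ.symm p)) = p := by rw [← h2, χ.right_inv hp]
  have h5 : p ∈ φ.target := by
    rw [← h4]; exact φ.map_source (h1 h3)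
  exact ⟨h5, by conv_rhs => rw [← h4, φ.left_inv (h1 h3)]⟩

theorem exists_mem_liftAtlas (hπ : IsCoveringMap π) {φ : OpenPartialHomeomorph X (A × B)}
    (hφ : φ ∈ 𝒬) {y : M} (hy : π y ∈ φ.source) :
    ∃ χ ∈ liftAtlas π 𝒬, y ∈ χ.source ∧ MapsTo π χ.source φ.source ∧ ∀ z, χ z = φ (π z) := by
  obtain ⟨r, hr, -, h⟩ := exists_lift_chart hπ φ hy (O := univ) univ_mem
  obtain ⟨χ, h1, h2, h3, h4⟩ := h y hy
    ⟨mem_ball_self (by positivity), mem_ball_self (by (clear * - hr; positivity))⟩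
  exact ⟨χ, ⟨⟨_, _, (convex_ball _ _).isPreconnected, (convex_ball _ _).isPreconnected, h2⟩,
    φ, hφ, h3, h4⟩, h1, h3, h4⟩

/-- The lift of the atlas is an atlas, compatible with the manifold structure. -/
theorem anaCompat_liftAtlas (hQ : ProdAtlas (E := E) 𝒬)
    (hπl : IsLocalDiffeomorph 𝓘(ℂ, E) 𝓘(ℂ, E) ω π) :
    AnaCompat (E := E) (liftAtlas π 𝒬) := by
  constructor
  · rintro χ ⟨-, φ, hφ, h1, h2⟩
    have h3 := (hQ.toFun φ hφ).comp hπl.contMDiff.contMDiffOn h1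
    exact h3.congr (fun z _ => h2 z)
  · rintro χ ⟨-, φ, hφ, h1, h2⟩ p hp
    apply ContMDiffAt.contMDiffWithinAt
    set y := χ.symm p with hy
    have hys : y ∈ χ.source := χ.map_target hp
    have hl := hπl y
    have k1 : π y = φ.symm p := (lift_symm h1 h2 hp).2
    have k2 : ContMDiffAt 𝓘(ℂ, A × B) 𝓘(ℂ, E) ω φ.symm p :=
      (hQ.invFun φ hφ).contMDiffAt (φ.open_target.mem_nhds (lift_symm h1 h2 hp).1)
    have k3 := hl.localInverse_contMDiffAt
    rw [k1] at k3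
    refine (k3.comp p k2).congr_of_eventuallyEq ?_
    have k4 : ∀ᶠ p' in 𝓝 p, χ.symm p' ∈ hl.localInverse.target := by
      have : ContinuousAt χ.symm p := χ.continuousAt_symm hp
      exact this.eventually_mem (hl.localInverse.open_target.mem_nhds hl.localInverse_mem_target)
    filter_upwards [k4, χ.open_target.mem_nhds hp] with p' h3 h4
    have h5 := hl.localInverse_left_inv h3
    show χ.symm p' = hl.localInverse (φ.symm p')
    rw [← (lift_symm h1 h2 h4).2]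
    exact h5.symm

theorem boxAtlas_liftAtlas (hQ : ProdAtlas (E := E) 𝒬) (hπ : IsCoveringMap π)
    (hπl : IsLocalDiffeomorph 𝓘(ℂ, E) 𝓘(ℂ, E) ω π) : BoxAtlas (liftAtlas π 𝒬) := by
  have hA := anaCompat_liftAtlas hQ hπl
  refine { cover := ?_, trans := ?_, trans' := ?_, box := fun χ hχ => hχ.1, ana := ?_ }
  · intro y
    obtain ⟨φ, hφ, hy⟩ := hQ.cover (π y)
    obtain ⟨χ, h1, h2, -⟩ := exists_mem_liftAtlas hπ hφ hy
    exact ⟨χ, h1, h2⟩
  · rintro χ ⟨-, φ, hφ, h1, h2⟩ χ' ⟨-, φ', hφ', h1', h2'⟩ y hy hy'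
    have := hπ.continuous.continuousAt.eventually (hQ.trans φ hφ φ' hφ' (π y) (h1 hy) (h1' hy'))
    filter_upwards [this] with z hz
    rw [h2, h2, h2', h2']
    exact hz
  · intro χ hχ χ' hχ'
    have h1 : ContMDiffOn 𝓘(ℂ, A × B) 𝓘(ℂ, A × B) ω (χ.symm ≫ₕ χ') (χ.symm ≫ₕ χ').source := by
      exact (hA.toFun χ' hχ').comp ((hA.invFun χ hχ).mono fun p hp => hp.1) fun p hp => hp.2
    exact contMDiffOn_iff_contDiffOn.1 h1
  · rintro χ ⟨-, φ, hφ, h1, h2⟩ χ' ⟨-, φ', hφ', h1', h2'⟩ y hy hy'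
    have := hπ.continuous.continuousAt.eventually (hQ.trans' φ hφ φ' hφ' (π y) (h1 hy) (h1' hy'))
    filter_upwards [this] with z hz
    rw [h2, h2, h2', h2']
    exact hz

variable {N : OpenPartialHomeomorph X (A × B) → A × B → Seminorm ℝ A}

end Vale.Agent.P278
end
end

section

section

open Topology Set Filter Complex
open scoped ContDiff Matrix ComplexConjugate

namespace Vale.Agent.P278

set_option linter.unusedSectionVars false

variable {E : Type*} [NormedAddCommGroup E] [NormedSpace ℂ E]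
variable {ι κ : Type*} [Fintype ι] [DecidableEq ι] [Fintype κ] [DecidableEq κ]
variable {H : E → E →ₗ⋆[ℂ] E →ₗ[ℂ] ℂ} {Ω : Set E}

end Vale.Agent.P278
end
end

section

section

open Topology Set Filter Complex
open scoped ContDiff Matrix ComplexConjugate

namespace Vale.Agent.P278

set_option linter.unusedSectionVars false

variable {E : Type*} [NormedAddCommGroup E] [NormedSpace ℂ E]
variable {ι κ : Type*} [Fintype ι] [DecidableEq ι] [Fintype κ] [DecidableEq κ]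
variable {H : E → E →ₗ⋆[ℂ] E →ₗ[ℂ] ℂ} {Ω : Set E}

end Vale.Agent.P278
end
end

section

section

open Topology Set Filter Complex
open scoped ContDiff Matrix ComplexConjugate

namespace Vale.Agent.P278

set_option linter.unusedSectionVars false

variable {E : Type*} [NormedAddCommGroup E] [NormedSpace ℂ E]
variable {ι κ : Type*} [Fintype ι] [DecidableEq ι] [Fintype κ] [DecidableEq κ]
variable {H : E → E →ₗ⋆[ℂ] E →ₗ[ℂ] ℂ} {Ω : Set E}

/-- Symmetry of the mixed curvature. -/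
lemma FlatKahler.curv_symm (hK : FlatKahler H Ω) {p : E} (hp : p ∈ Ω) (ξ v : E) :
    wd (fun q => wdb (fun r => H r v v) ξ q) ξ p = wd (fun q => wdb (fun r => H r ξ ξ) v q) v p := by
  have h1 : (fun q => wdb (fun r => H r v v) ξ q) =ᶠ[𝓝 p] fun q => wdb (fun r => H r ξ v) v q := by
    filter_upwards [hK.isOpen.mem_nhds hp] with q hq
    rw [hK.wdb_eq hq, hK.wdb_eq hq, hK.kahler q hq]
  rw [wd_congr h1, wd_wdb_comm ((hK.contDiffAt hp _ _).of_le (by norm_cast))]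
  have h2 : (fun q => wd (fun r => H r ξ v) ξ q) =ᶠ[𝓝 p] fun q => wd (fun r => H r ξ ξ) v q := by
    filter_upwards [hK.isOpen.mem_nhds hp] with q hq
    rw [hK.kahler q hq]
  rw [wdb_congr h2, wd_wdb_comm ((hK.contDiffAt hp _ _).of_le (by norm_cast))]

end Vale.Agent.P278
end
end

section

section

open Topology Set Filter Complex
open scoped ContDiff Matrix ComplexConjugate

namespace Vale.Agent.P278

set_option linter.unusedSectionVars false

variable {E : Type*} [NormedAddCommGroup E] [NormedSpace ℂ E]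
variable {H : E → E →ₗ⋆[ℂ] E →ₗ[ℂ] ℂ} {Ω : Set E}

lemma IsChristoffel.swap (hK : FlatKahler H Ω) {p : E} (hp : p ∈ Ω) {ξ v Γ : E}
    (h : IsChristoffel H p ξ v Γ) : IsChristoffel H p v ξ Γ := by
  intro y
  rw [h y]
  exact hK.kahler p hp _ _ _

lemma MixedNonpos.swap (hK : FlatKahler H Ω) {p : E} (hp : p ∈ Ω) {Z W : Submodule ℂ E}
    (h : MixedNonpos H p Z W) : MixedNonpos H p W Z := by
  intro m n v ξ Γ hv hξ hov hoξ hΓ
  have := h n m ξ v (fun j a => Γ a j) hξ hv hoξ hov (fun j a => (hΓ a j).swap hK hp)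
  rw [Finset.sum_comm]
  refine le_trans (le_of_eq ?_) this
  apply Finset.sum_congr rfl; intro a _
  apply Finset.sum_congr rfl; intro j _
  unfold curv
  rw [hK.curv_symm hp]

end Vale.Agent.P278
end
end

section

section

open Topology Set Filter Complex
open scoped ContDiff Manifold Matrix ComplexConjugate

namespace Vale.Agent.P278

section
variable {E : Type*} [NormedAddCommGroup E] [NormedSpace ℂ E]
  {X : Type*} [TopologicalSpace X] [ChartedSpace E X]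

end

section flat
variable {E : Type*} [NormedAddCommGroup E] [NormedSpace ℂ E]

/-- Closedness of the fundamental form in terms of Wirtinger derivatives. -/
lemma kahler_of_closed {H : E → E →ₗ⋆[ℂ] E →ₗ[ℂ] ℂ} {p : E}
    (hd : ∀ u v, DifferentiableAt ℝ (fun q => H q u v) p)
    (hs : ∀ᶠ q in 𝓝 p, ∀ u v, conj (H q u v) = H q v u)
    (hc : ∀ u v w : E, fderiv ℝ (fun q => (H q v w).im) p u +
      fderiv ℝ (fun q => (H q w u).im) p v + fderiv ℝ (fun q => (H q u v).im) p w = 0)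
    (u v y : E) : wd (fun q => H q y v) u p = wd (fun q => H q y u) v p := by
  set f : E → E → E → ℂ := fun u v x => fderiv ℝ (fun q => H q u v) p x with hf
  have him : ∀ u v x, fderiv ℝ (fun q => (H q u v).im) p x = (f u v x).im := by
    intro u v x
    have := (Complex.imCLM.hasFDerivAt.comp p (hd u v).hasFDerivAt).fderiv
    rw [show (fun q => (H q u v).im) = Complex.imCLM ∘ (fun q => H q u v) from rfl, this]
    rfl
  have hconj : ∀ u v x, f v u x = conj (f u v x) := by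
    intro u v x
    simp only [hf]
    rw [← fderiv_conj_apply]
    congr 1
    apply Filter.EventuallyEq.fderiv_eq
    filter_upwards [hs] with q hq
    exact (hq u v).symm
  have hsm : ∀ u v x, f u (I • v) x = I * f u v x := by
    intro u v x
    simp only [hf, LinearMap.map_smul, smul_eq_mul]
    have := ((hd u v).hasFDerivAt.const_mul I).fderiv
    rw [this]; rfl
  have hsm' : ∀ u v x, f (I • u) v x = -I * f u v x := by
    intro u v x
    rw [hconj v (I • u), hsm, map_mul, ← hconj, conj_I]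
  simp only [him] at hc
  unfold wd
  change (f y v u - I * f y v (I • u)) / 2 = (f y u v - I * f y u (I • v)) / 2
  congr 1
  have a1 := hc u y (I • v)
  have a2 := hc (I • u) y v
  have a3 := hc u y v
  have a4 := hc (I • u) y (I • v)
  rw [hsm, hsm'] at a1
  rw [hsm, hsm'] at a2
  rw [hsm y v, hsm' v (I • u), hsm v u, hsm' u y] at a4
  rw [hconj y u] at a1 a3 a4
  rw [hconj y u] at a2
  simp only [Complex.mul_im, Complex.mul_re, Complex.neg_re, Complex.neg_im, Complex.I_re,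
    Complex.I_im, Complex.conj_re, Complex.conj_im] at a1 a2 a3 a4
  apply Complex.ext
  · simp only [Complex.sub_re, Complex.mul_re, Complex.I_re, Complex.I_im]
    linarith only [a1, a2]
  · simp only [Complex.sub_im, Complex.mul_im, Complex.I_re, Complex.I_im]
    linarith only [a3, a4]

end flat

end Vale.Agent.P278
end
end

section

section

open Topology Set Filter Complex
open scoped ContDiff Manifold Matrix ComplexConjugate

namespace Vale.Agent.P278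

variable {E : Type*} [NormedAddCommGroup E] [NormedSpace ℂ E]
  {X : Type*} [TopologicalSpace X] [ChartedSpace E X]
  {E' : Type*} [NormedAddCommGroup E'] [NormedSpace ℂ E']
  {E'' : Type*} [NormedAddCommGroup E''] [NormedSpace ℂ E'']

/-- Holomorphic charts with values in an arbitrary model. -/
structure IsHolChart (φ : OpenPartialHomeomorph X E') : Prop where
  toFun : ContMDiffOn 𝓘(ℂ, E) 𝓘(ℂ, E') ω φ φ.source
  invFun : ContMDiffOn 𝓘(ℂ, E') 𝓘(ℂ, E) ω φ.symm φ.target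

lemma form_congr (h : TangentForm E X) {x y : X} (e : x = y) (a b : E) :
    (show E →ₗ⋆[ℂ] E →ₗ[ℂ] ℂ from h x) a b = (show E →ₗ⋆[ℂ] E →ₗ[ℂ] ℂ from h y) a b := by
  subst e; rfl

lemma dist_congr (F : TangentDist E X) {x y : X} (e : x = y) (a : E) :
    (a ∈ (show Submodule ℂ E from F x)) ↔ a ∈ (show Submodule ℂ E from F y) := by
  subst e; rfl

lemma IsHolChart.mdiffAt {φ : OpenPartialHomeomorph X E'} (hφ : IsHolChart (E := E) φ) {x : X}
    (hx : x ∈ φ.source) : MDifferentiableAt 𝓘(ℂ, E) 𝓘(ℂ, E') φ x :=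
  ((hφ.toFun x hx).contMDiffAt (φ.open_source.mem_nhds hx)).mdifferentiableAt (by simp)

lemma IsHolChart.mdiffAt_symm {φ : OpenPartialHomeomorph X E'} (hφ : IsHolChart (E := E) φ)
    {p : E'} (hp : p ∈ φ.target) : MDifferentiableAt 𝓘(ℂ, E') 𝓘(ℂ, E) φ.symm p :=
  ((hφ.invFun p hp).contMDiffAt (φ.open_target.mem_nhds hp)).mdifferentiableAt (by simp)

lemma IsHolChart.chartD_mfderiv {φ : OpenPartialHomeomorph X E'} (hφ : IsHolChart (E := E) φ)
    {x : X} (hx : x ∈ φ.source) (a : E) :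
    (chartD (E := E) φ (φ x) (mfderiv 𝓘(ℂ, E) 𝓘(ℂ, E') φ x a) : E) = a := by
  have h1 : MDifferentiableAt 𝓘(ℂ, E') 𝓘(ℂ, E) φ.symm (φ x) := hφ.mdiffAt_symm (φ.map_source hx)
  have h2 := mfderiv_comp x h1 (hφ.mdiffAt hx)
  have h3 : (φ.symm ∘ φ) =ᶠ[𝓝 x] id := by
    filter_upwards [φ.open_source.mem_nhds hx] with y hy
    exact φ.left_inv hy
  have h4 : mfderiv 𝓘(ℂ, E) 𝓘(ℂ, E) (φ.symm ∘ φ) x = mfderiv 𝓘(ℂ, E) 𝓘(ℂ, E) id x :=
    h3.mfderiv_eq
  have h5 := congrArg (fun L : E →L[ℂ] E => L a) (h2.symm.trans h4)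
  have h6 : (mfderiv 𝓘(ℂ, E) 𝓘(ℂ, E) (id : X → X) x : E →L[ℂ] E) a = a := by
    rw [mfderiv_id]; rfl
  exact h5.trans h6

lemma IsHolChart.mfderiv_chartD {φ : OpenPartialHomeomorph X E'} (hφ : IsHolChart (E := E) φ)
    {p : E'} (hp : p ∈ φ.target) (a : E') :
    (mfderiv 𝓘(ℂ, E) 𝓘(ℂ, E') φ (φ.symm p) (chartD (E := E) φ p a) : E') = a := by
  have h1 : MDifferentiableAt 𝓘(ℂ, E) 𝓘(ℂ, E') φ (φ.symm p) := hφ.mdiffAt (φ.map_target hp)
  have h2 := mfderiv_comp p h1 (hφ.mdiffAt_symm hp)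
  have h3 : (φ ∘ φ.symm) =ᶠ[𝓝 p] id := by
    filter_upwards [φ.open_target.mem_nhds hp] with y hy
    exact φ.right_inv hy
  have h4 : mfderiv 𝓘(ℂ, E') 𝓘(ℂ, E') (φ ∘ φ.symm) p = mfderiv 𝓘(ℂ, E') 𝓘(ℂ, E') id p :=
    h3.mfderiv_eq
  have h5 := congrArg (fun L : E' →L[ℂ] E' => L a) (h2.symm.trans h4)
  have h6 : (mfderiv 𝓘(ℂ, E') 𝓘(ℂ, E') (id : E' → E') p : E' →L[ℂ] E') a = a := by
    rw [mfderiv_id]; rfl
  exact h5.trans h6

/-- The derivative of a transition map. -/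
lemma IsHolChart.mfderiv_trans {φ : OpenPartialHomeomorph X E'} (hφ : IsHolChart (E := E) φ)
    {ψ : OpenPartialHomeomorph X E''} (hψ : IsHolChart (E := E) ψ)
    {p : E'} (hp : p ∈ φ.target) (hp' : φ.symm p ∈ ψ.source) (a : E') :
    fderiv ℂ (ψ ∘ φ.symm) p a =
      (mfderiv 𝓘(ℂ, E) 𝓘(ℂ, E'') ψ (φ.symm p) (chartD (E := E) φ p a) : E'') := by
  have h2 := mfderiv_comp p (hψ.mdiffAt hp') (hφ.mdiffAt_symm hp)
  rw [mfderiv_eq_fderiv] at h2
  exact congrArg (fun L : E' →L[ℂ] E'' => L a) h2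

lemma IsHolChart.chartD_trans {φ : OpenPartialHomeomorph X E'} (hφ : IsHolChart (E := E) φ)
    {ψ : OpenPartialHomeomorph X E''} (hψ : IsHolChart (E := E) ψ)
    {p : E'} (hp : p ∈ φ.target) (hp' : φ.symm p ∈ ψ.source) (a : E') :
    (chartD (E := E) ψ (ψ (φ.symm p)) (fderiv ℂ (ψ ∘ φ.symm) p a) : E) =
      chartD (E := E) φ p a := by
  rw [hφ.mfderiv_trans hψ hp hp']
  exact hψ.chartD_mfderiv hp' _

lemma localForm_trans (h : TangentForm E X) {φ : OpenPartialHomeomorph X E'}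
    (hφ : IsHolChart (E := E) φ) {ψ : OpenPartialHomeomorph X E''} (hψ : IsHolChart (E := E) ψ)
    {p : E'} (hp : p ∈ φ.target) (hp' : φ.symm p ∈ ψ.source) (u v : E') :
    localForm h φ p u v = localForm h ψ (ψ (φ.symm p)) (fderiv ℂ (ψ ∘ φ.symm) p u)
      (fderiv ℂ (ψ ∘ φ.symm) p v) := by
  have h1 := form_congr h (ψ.left_inv hp') (chartD (E := E) φ p u) (chartD (E := E) φ p v)
  have h2 := hφ.chartD_trans hψ hp hp' u
  have h3 := hφ.chartD_trans hψ hp hp' v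
  symm
  refine Eq.trans ?_ h1
  change (show E →ₗ⋆[ℂ] E →ₗ[ℂ] ℂ from h (ψ.symm (ψ (φ.symm p)))) _ _ = _
  exact congrArg₂ (fun a b : E =>
    (show E →ₗ⋆[ℂ] E →ₗ[ℂ] ℂ from h (ψ.symm (ψ (φ.symm p)))) a b) h2 h3

lemma localDist_trans (F : TangentDist E X) {φ : OpenPartialHomeomorph X E'}
    (hφ : IsHolChart (E := E) φ) {ψ : OpenPartialHomeomorph X E''} (hψ : IsHolChart (E := E) ψ)
    {p : E'} (hp : p ∈ φ.target) (hp' : φ.symm p ∈ ψ.source) (u : E') :
    u ∈ localDist F φ p ↔ fderiv ℂ (ψ ∘ φ.symm) p u ∈ localDist F ψ (ψ (φ.symm p)) := by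
  have h1 := dist_congr F (ψ.left_inv hp') (chartD (E := E) φ p u)
  have h2 := hφ.chartD_trans hψ hp hp' u
  refine Iff.trans h1.symm ?_
  change _ ↔ (chartD (E := E) ψ (ψ (φ.symm p)) (fderiv ℂ (ψ ∘ φ.symm) p u) : E) ∈
    (show Submodule ℂ E from F (ψ.symm (ψ (φ.symm p))))
  rw [h2]
  exact Iff.rfl

/-- Charts of the maximal atlas. -/
lemma isHolChart_of_mem [IsManifold 𝓘(ℂ, E) ω X] {φ : OpenPartialHomeomorph X E}
    (hφ : φ ∈ IsManifold.maximalAtlas 𝓘(ℂ, E) ω X) : IsHolChart (E := E) φ :=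
  ⟨contMDiffOn_of_mem_maximalAtlas hφ, contMDiffOn_symm_of_mem_maximalAtlas hφ⟩

/-- Transport a chart by a linear isomorphism of the model. -/
noncomputable def chartE (φ : OpenPartialHomeomorph X E') (L : E' ≃L[ℂ] E) :
    OpenPartialHomeomorph X E :=
  φ.trans L.toHomeomorph.toOpenPartialHomeomorph

omit [ChartedSpace E X] in
lemma chartE_source (φ : OpenPartialHomeomorph X E') (L : E' ≃L[ℂ] E) :
    (chartE φ L).source = φ.source := by
  simp [chartE]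

lemma chartE_mem [IsManifold 𝓘(ℂ, E) ω X] {φ : OpenPartialHomeomorph X E'}
    (hφ : IsHolChart (E := E) φ) (L : E' ≃L[ℂ] E) :
    chartE φ L ∈ IsManifold.maximalAtlas 𝓘(ℂ, E) ω X := by
  apply OpenPartialHomeomorph.mem_maximalAtlas_of_contMDiffOn
  · rw [chartE_source]
    exact (L.contDiff.contMDiff (n := ω)).comp_contMDiffOn hφ.toFun
  · have h1 : ContMDiffOn 𝓘(ℂ, E) 𝓘(ℂ, E') ω (L.symm : E → E') (chartE φ L).target :=
      (L.symm.contDiff.contMDiff (n := ω)).contMDiffOn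
    exact hφ.invFun.comp h1 (fun p hp => by
      simp only [chartE, OpenPartialHomeomorph.trans_target] at hp
      exact hp.2)

/-- Pull back of a flat Kähler metric by a linear isomorphism. -/
lemma FlatKahler.pullback {H₁ : E' → E' →ₗ⋆[ℂ] E' →ₗ[ℂ] ℂ} {H₂ : E → E →ₗ⋆[ℂ] E →ₗ[ℂ] ℂ}
    {Ω₁ : Set E'} {Ω₂ : Set E} (hK : FlatKahler H₂ Ω₂) (L : E' ≃L[ℂ] E) (hΩ₁ : IsOpen Ω₁)
    (hΩ : ∀ p ∈ Ω₁, L p ∈ Ω₂) (heq : ∀ p ∈ Ω₁, ∀ u v, H₁ p u v = H₂ (L p) (L u) (L v)) :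
    FlatKahler H₁ Ω₁ where
  isOpen := hΩ₁
  symm := fun p hp u v => by rw [heq p hp, heq p hp]; exact hK.symm _ (hΩ p hp) _ _
  pos := fun p hp u hu => by
    rw [heq p hp]; exact hK.pos _ (hΩ p hp) _ (by simpa using hu)
  smooth := fun u v => by
    have h1 : ContDiffOn ℝ ∞ (fun p => H₂ (L p) (L u) (L v)) Ω₁ :=
      (hK.smooth (L u) (L v)).comp ((L.contDiff.restrict_scalars ℝ).contDiffOn) hΩ
    exact h1.congr fun p hp => heq p hp u v
  kahler := fun p hp u v y => by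
    have h1 : ∀ u v x, wd (fun q => H₁ q u v) x p = wd (fun q => H₂ q (L u) (L v)) (L x) (L p) := by
      intro u v x
      have e : (fun q => H₁ q u v) =ᶠ[𝓝 p] fun q => H₂ (L q) (L u) (L v) := by
        filter_upwards [hΩ₁.mem_nhds hp] with q hq
        exact heq q hq u v
      rw [wd_congr e, wd_comp_holo (f := fun q => H₂ q (L u) (L v)) (L.differentiableAt)
        ((hK.contDiffAt (hΩ p hp) _ _).differentiableAt (by simp)), L.fderiv]
      rfl
    rw [h1, h1]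
    exact hK.kahler _ (hΩ p hp) _ _ _

lemma MixedNonpos.pullback {H₁ : E' → E' →ₗ⋆[ℂ] E' →ₗ[ℂ] ℂ} {H₂ : E → E →ₗ⋆[ℂ] E →ₗ[ℂ] ℂ}
    {Ω₁ : Set E'} {Ω₂ : Set E} (hK : FlatKahler H₂ Ω₂) (L : E' ≃L[ℂ] E) (hΩ₁ : IsOpen Ω₁)
    (hΩ : ∀ p ∈ Ω₁, L p ∈ Ω₂) (heq : ∀ p ∈ Ω₁, ∀ u v, H₁ p u v = H₂ (L p) (L u) (L v))
    {p : E'} (hp : p ∈ Ω₁) {Z₁ W₁ : Submodule ℂ E'} {Z₂ W₂ : Submodule ℂ E}
    (hZ : ∀ u, u ∈ Z₁ ↔ L u ∈ Z₂) (hW : ∀ u, u ∈ W₁ ↔ L u ∈ W₂)
    (h : MixedNonpos H₂ (L p) Z₂ W₂) : MixedNonpos H₁ p Z₁ W₁ := by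
  have hwd : ∀ u v x, ∀ q ∈ Ω₁,
      wd (fun q => H₁ q u v) x q = wd (fun q => H₂ q (L u) (L v)) (L x) (L q) := by
    intro u v x q hq
    have e : (fun q => H₁ q u v) =ᶠ[𝓝 q] fun q => H₂ (L q) (L u) (L v) := by
      filter_upwards [hΩ₁.mem_nhds hq] with q hq
      exact heq q hq u v
    rw [wd_congr e, wd_comp_holo (f := fun q => H₂ q (L u) (L v)) (L.differentiableAt)
      ((hK.contDiffAt (hΩ q hq) _ _).differentiableAt (by simp)), L.fderiv]
    rfl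
  have hwdb : ∀ u v x, ∀ q ∈ Ω₁,
      wdb (fun q => H₁ q u v) x q = wdb (fun q => H₂ q (L u) (L v)) (L x) (L q) := by
    intro u v x q hq
    have e : (fun q => H₁ q u v) =ᶠ[𝓝 q] fun q => H₂ (L q) (L u) (L v) := by
      filter_upwards [hΩ₁.mem_nhds hq] with q hq
      exact heq q hq u v
    rw [wdb_congr e, wdb_comp_holo (f := fun q => H₂ q (L u) (L v)) (L.differentiableAt)
      ((hK.contDiffAt (hΩ q hq) _ _).differentiableAt (by simp)), L.fderiv]
    rfl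
  have hspan : ∀ {k : ℕ} (e : Fin k → E') {S₁ : Submodule ℂ E'} {S₂ : Submodule ℂ E},
      (∀ u, u ∈ S₁ ↔ L u ∈ S₂) → Submodule.span ℂ (range e) = S₁ →
      Submodule.span ℂ (range fun i => L (e i)) = S₂ := by
    intro k e S₁ S₂ hS he
    have h1 : (range fun i => L (e i)) = (L.toLinearEquiv : E' →ₗ[ℂ] E) '' range e := by
      rw [← range_comp]; rfl
    rw [h1, ← Submodule.map_span, he]
    ext y
    rw [Submodule.mem_map]
    constructor
    · rintro ⟨x, hx, rfl⟩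
      exact (hS x).mp hx
    · intro hy
      refine ⟨L.symm y, (hS _).mpr (by simpa using hy), by simp⟩
  intro m n v ξ Γ hv hξ hov hoξ hΓ
  have h1 := h m n (fun a => L (v a)) (fun j => L (ξ j)) (fun j a => L (Γ j a))
    (hspan v hZ hv) (hspan ξ hW hξ) (fun a b => by rw [← heq p hp]; exact hov a b)
    (fun a b => by rw [← heq p hp]; exact hoξ a b)
    (fun j a y => by
      obtain ⟨y', rfl⟩ := L.surjective y
      rw [← heq p hp, hΓ j a y', hwd _ _ _ p hp])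
  refine le_trans (le_of_eq ?_) h1
  apply Finset.sum_congr rfl; intro j _
  apply Finset.sum_congr rfl; intro a _
  unfold curv
  rw [heq p hp]
  congr 2
  have e : (fun q => wdb (fun r => H₁ r (v a) (v a)) (ξ j) q) =ᶠ[𝓝 p]
      fun q => wdb (fun r => H₂ r (L (v a)) (L (v a))) (L (ξ j)) (L q) := by
    filter_upwards [hΩ₁.mem_nhds hp] with q hq
    exact hwdb _ _ _ q hq
  rw [wd_congr e, wd_comp_holo (f := fun q => wdb (fun r => H₂ r (L (v a)) (L (v a))) (L (ξ j)) q)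
    (L.differentiableAt) ((contDiffAt_wdb (n := 1) ((hK.contDiffAt (hΩ p hp) _ _).of_le
      (by norm_cast)) _).differentiableAt (by norm_num)), L.fderiv]
  rfl

lemma IsKahlerMetric.flat [IsManifold 𝓘(ℂ, E) ω X] {h : TangentForm E X}
    (hh : IsKahlerMetric h) {φ : OpenPartialHomeomorph X E}
    (hφ : φ ∈ IsManifold.maximalAtlas 𝓘(ℂ, E) ω X) : FlatKahler (localForm h φ) φ.target := by
  have hc := isHolChart_of_mem hφ
  have hs : ∀ p u v, conj (localForm h φ p u v) = localForm h φ p v u := fun p u v =>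
    hh.symm _ _ _
  refine ⟨φ.open_target, fun p _ u v => hs p u v, fun p hp u hu => ?_, hh.smooth φ hφ,
    fun p hp u v y => ?_⟩
  · apply hh.pos
    intro h0
    apply hu
    have h1 := hc.mfderiv_chartD hp u
    rw [h0] at h1
    rw [← h1]
    exact map_zero (mfderiv 𝓘(ℂ, E) 𝓘(ℂ, E) φ (φ.symm p))
  · apply kahler_of_closed
    · intro u v
      exact ((hh.smooth φ hφ u v).contDiffAt (φ.open_target.mem_nhds hp)).differentiableAt
        (by simp)
    · exact Filter.Eventually.of_forall fun q u v => hs q u v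
    · exact hh.closed φ hφ p hp

/-- Flat Kähler metric in charts with values in an arbitrary model. -/
lemma IsKahlerMetric.flat' [IsManifold 𝓘(ℂ, E) ω X] {h : TangentForm E X}
    (hh : IsKahlerMetric h) {φ : OpenPartialHomeomorph X E'} (hφ : IsHolChart (E := E) φ)
    (L : E' ≃L[ℂ] E) :
    FlatKahler (localForm h φ) φ.target ∧
    ∀ F₁ F₂ : TangentDist E X, NonposMixed h F₁ F₂ → ∀ p ∈ φ.target,
      MixedNonpos (localForm h φ) p (localDist F₁ φ p) (localDist F₂ φ p) := by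
  have hm := chartE_mem hφ L
  have hc := isHolChart_of_mem hm
  have hK := hh.flat hm
  have hsymm : ∀ p ∈ φ.target, φ.symm p ∈ (chartE φ L).source := fun p hp => by
    rw [chartE_source]; exact φ.map_target hp
  have hval : ∀ p ∈ φ.target, chartE φ L (φ.symm p) = L p := fun p hp => by
    change L (φ (φ.symm p)) = L p
    rw [φ.right_inv hp]
  have hΩ : ∀ p ∈ φ.target, L p ∈ (chartE φ L).target := fun p hp => by
    rw [← hval p hp]; exact (chartE φ L).map_source (hsymm p hp)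
  have hder : ∀ p ∈ φ.target, ∀ u, fderiv ℂ (chartE φ L ∘ φ.symm) p u = L u := fun p hp u => by
    have h1 : (chartE φ L ∘ φ.symm) =ᶠ[𝓝 p] L := by
      filter_upwards [φ.open_target.mem_nhds hp] with q hq
      exact hval q hq
    rw [h1.fderiv_eq, L.fderiv]; rfl
  have heq : ∀ p ∈ φ.target, ∀ u v, localForm h φ p u v =
      localForm h (chartE φ L) (L p) (L u) (L v) := fun p hp u v => by
    rw [localForm_trans h hφ hc hp (hsymm p hp), hder p hp, hder p hp, hval p hp]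
  refine ⟨hK.pullback L φ.open_target hΩ heq, fun F₁ F₂ hmix p hp => ?_⟩
  refine MixedNonpos.pullback hK L φ.open_target hΩ heq hp ?_ ?_ (hmix _ hm _ (hΩ p hp))
  · intro u
    rw [localDist_trans F₁ hφ hc hp (hsymm p hp), hder p hp, hval p hp]
  · intro u
    rw [localDist_trans F₂ hφ hc hp (hsymm p hp), hder p hp, hval p hp]

end Vale.Agent.P278
end
end

section

section

open Topology Set Filter Complex
open scoped ContDiff Manifold Matrix ComplexConjugate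

namespace Vale.Agent.P278

variable {E : Type*} [NormedAddCommGroup E] [NormedSpace ℂ E]
  {X : Type*} [TopologicalSpace X] [ChartedSpace E X]
  {A : Type*} [NormedAddCommGroup A] [NormedSpace ℂ A]
  {B : Type*} [NormedAddCommGroup B] [NormedSpace ℂ B]

/-- Product charts for a pair of complementary foliations. -/
structure ProdCharts (F₁ F₂ : TangentDist E X) (𝒬 : Set (OpenPartialHomeomorph X (A × B))) :
    Prop where
  atlas : ProdAtlas (E := E) 𝒬
  mem₁ : ∀ φ ∈ 𝒬, ∀ x ∈ φ.source, ∀ v : TangentSpace 𝓘(ℂ, E) x,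
    v ∈ F₁ x ↔ (show A × B from mfderiv 𝓘(ℂ, E) 𝓘(ℂ, A × B) φ x v).2 = 0
  mem₂ : ∀ φ ∈ 𝒬, ∀ x ∈ φ.source, ∀ v : TangentSpace 𝓘(ℂ, E) x,
    v ∈ F₂ x ↔ (show A × B from mfderiv 𝓘(ℂ, E) 𝓘(ℂ, A × B) φ x v).1 = 0

variable {F₁ F₂ : TangentDist E X} {𝒬 : Set (OpenPartialHomeomorph X (A × B))}

section
variable [FiniteDimensional ℂ A] [FiniteDimensional ℂ B]

end

end Vale.Agent.P278
end
end

section

section

open Set Topology Filter Metric
open scoped Manifold ContDiff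

set_option linter.unusedSectionVars false

namespace Vale.Agent.P278

variable {M A B : Type*} [TopologicalSpace M] [NormedAddCommGroup A] [NormedSpace ℂ A]
  [NormedAddCommGroup B] [NormedSpace ℂ B] {W : Type*} [PseudoMetricSpace W]
  {𝒜 : Set (OpenPartialHomeomorph M (A × B))} [h𝒜 : BoxAtlas 𝒜] {D : M → W}

end Vale.Agent.P278
end
end

section

section

/-! Lemma T, step (B2): the set of bad points is finite. -/

open Set Topology Filter Metric MeasureTheory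
open scoped ContDiff Manifold ComplexConjugate ENNReal

set_option linter.all false

namespace Vale.Agent.P278.Full

/-- A disc minus a finite set is connected. -/
theorem isConnected_ball_diff_finite {z₀ : ℂ} {ρ : ℝ} (hρ : 0 < ρ) {S : Set ℂ} (hS : S.Finite) :
    IsConnected (ball z₀ ρ \ S) := by
  set e := OpenPartialHomeomorph.univBall z₀ ρ with he
  have hsrc : e.source = univ := OpenPartialHomeomorph.univBall_source z₀ ρ
  have htgt : e.target = ball z₀ ρ := OpenPartialHomeomorph.univBall_target z₀ hρ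
  have hinj : Function.Injective e := by
    rw [← injOn_univ, ← hsrc]; exact e.injOn
  have hfin : (e ⁻¹' S).Finite := hS.preimage hinj.injOn
  have hrank : 1 < Module.rank ℝ ℂ := by
    rw [Complex.rank_real_complex]; exact Cardinal.one_lt_two
  have hc : IsConnected ((e ⁻¹' S)ᶜ) := hfin.countable.isConnected_compl_of_one_lt_rank hrank
  have him : e '' ((e ⁻¹' S)ᶜ) = ball z₀ ρ \ S := by
    ext y
    constructor
    · rintro ⟨x, hx, rfl⟩
      exact ⟨htgt ▸ e.map_source (hsrc ▸ mem_univ x), hx⟩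
    · rintro ⟨hy, hyS⟩
      refine ⟨e.symm y, ?_, e.right_inv (htgt ▸ hy)⟩
      show e (e.symm y) ∉ S
      rw [e.right_inv (htgt ▸ hy)]; exact hyS
  rw [← him]
  exact hc.image _ (OpenPartialHomeomorph.continuous_univBall z₀ ρ).continuousOn

variable {X : Type*} [TopologicalSpace X] {A B : Type*} [NormedAddCommGroup A] [NormedSpace ℂ A]
  [NormedAddCommGroup B] [NormedSpace ℂ B]
  {𝒬 : Set (OpenPartialHomeomorph X (A × B))}
  {H : OpenPartialHomeomorph X (A × B) → A × B → (A × B) →ₗ⋆[ℂ] (A × B) →ₗ[ℂ] ℂ}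

/-- The concentration set. -/
def concSet (𝒬 : Set (OpenPartialHomeomorph X (A × B)))
    (H : OpenPartialHomeomorph X (A × B) → A × B → (A × B) →ₗ⋆[ℂ] (A × B) →ₗ[ℂ] ℂ)
    (Ψ : ℂ × ℂ → X) (T ε₀ : ℝ) (D : Set ℂ) : Set ℂ :=
  {p | p ∈ D ∧ ∀ r > 0, ball p r ⊆ D →
    ∀ᶠ t : ℝ in 𝓝[<] T, ENNReal.ofReal ε₀ ≤ energy 𝒬 H (fun z => Ψ (z, (t : ℂ))) (ball p r)}

theorem concSet_finite {Ψ : ℂ × ℂ → X} {T ε₀ A₀ : ℝ} {D : Set ℂ} (hD : IsOpen D) (hT : 0 < T)
    (hε : 0 < ε₀)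
    (hA : ∀ t ∈ Ico (0 : ℝ) T, energy 𝒬 H (fun z => Ψ (z, (t : ℂ))) D ≤ ENNReal.ofReal A₀) :
    (concSet 𝒬 H Ψ T ε₀ D).Finite := by
  by_contra hinf
  obtain ⟨n, hn'⟩ := exists_nat_gt (max (A₀ / ε₀) 0)
  have hn : A₀ / ε₀ < n := (le_max_left _ _).trans_lt hn'
  have hn0 : (0 : ℝ) < n := (le_max_right _ _).trans_lt hn'
  obtain ⟨F, hFS, hFn⟩ := (Set.not_finite.1 hinf |> fun h => h.exists_subset_card_eq n)
  obtain ⟨U, hU, hUd⟩ := F.finite_toSet.t2_separation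
  have hr : ∀ p ∈ F, ∃ r > 0, ball p r ⊆ U p ∩ D := by
    intro p hp
    exact Metric.isOpen_iff.1 ((hU p).2.inter hD) p ⟨(hU p).1, (hFS hp).1⟩
  choose! r hr0 hrU using hr
  have hev : ∀ᶠ t : ℝ in 𝓝[<] T, ∀ p ∈ F,
      ENNReal.ofReal ε₀ ≤ energy 𝒬 H (fun z => Ψ (z, (t : ℂ))) (ball p (r p)) := by
    rw [Filter.eventually_all_finset]
    intro p hp
    exact (hFS hp).2 (r p) (hr0 p hp) ((hrU p hp).trans inter_subset_right)
  have hev2 : ∀ᶠ t : ℝ in 𝓝[<] T, t ∈ Ico (0 : ℝ) T := by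
    have : Ico (0 : ℝ) T ∈ 𝓝[<] T := Ico_mem_nhdsLT hT
    exact this
  obtain ⟨t, ht1, ht2⟩ := (hev.and hev2).exists
  have hsum : (∑ p ∈ F, energy 𝒬 H (fun z => Ψ (z, (t : ℂ))) (ball p (r p))) ≤
      energy 𝒬 H (fun z => Ψ (z, (t : ℂ))) D := by
    unfold energy
    rw [← lintegral_biUnion_finset (μ := volume) (s := F) (t := fun p => ball p (r p))
      (fun p hp q hq hpq => (hUd hp hq hpq).mono ((hrU p hp).trans inter_subset_left)
        ((hrU q hq).trans inter_subset_left))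
      (fun p hp => measurableSet_ball)]
    apply lintegral_mono_set
    intro y hy
    simp only [mem_iUnion] at hy
    obtain ⟨p, hp, hy⟩ := hy
    exact (hrU p hp hy).2
  have h1 : (n : ℝ≥0∞) * ENNReal.ofReal ε₀ ≤ ENNReal.ofReal A₀ := by
    calc (n : ℝ≥0∞) * ENNReal.ofReal ε₀ = ∑ p ∈ F, ENNReal.ofReal ε₀ := by
          rw [Finset.sum_const, hFn, nsmul_eq_mul]
      _ ≤ ∑ p ∈ F, energy 𝒬 H (fun z => Ψ (z, (t : ℂ))) (ball p (r p)) :=
          Finset.sum_le_sum ht1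
      _ ≤ _ := hsum.trans (hA t ht2)
  have h2 : ENNReal.ofReal (n * ε₀) ≤ ENNReal.ofReal A₀ := by
    rw [ENNReal.ofReal_mul (Nat.cast_nonneg n), ENNReal.ofReal_natCast]; exact h1
  have h3 : A₀ < n * ε₀ := by
    rwa [div_lt_iff₀ hε] at hn
  have h4 : 0 < n * ε₀ := mul_pos hn0 hε
  exact absurd h2 (not_le.2 ((ENNReal.ofReal_lt_ofReal_iff h4).2 h3))

/-- The statement of step (B1). -/
def LocConstGood (𝒬 : Set (OpenPartialHomeomorph X (A × B)))
    (H : OpenPartialHomeomorph X (A × B) → A × B → (A × B) →ₗ⋆[ℂ] (A × B) →ₗ[ℂ] ℂ)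
    (ε₀ : ℝ) : Prop :=
  ∀ (Ψ : ℂ × ℂ → X) (T : ℝ) (p : ℂ) (r : ℝ), 0 < T → 0 < r →
    (∀ z ∈ ball p r, ∀ t ∈ Ico (0 : ℝ) T, IsF 𝒬 Ψ (z, (t : ℂ))) →
    (∃ᶠ t : ℝ in 𝓝[<] T, energy 𝒬 H (fun z => Ψ (z, (t : ℂ))) (ball p r) < ENNReal.ofReal ε₀) →
    ∃ η > 0, ∀ q ∈ ball p η, ∀ q' ∈ ball p η, Good 𝒬 Ψ T q → Good 𝒬 Ψ T q'

variable [CompleteSpace A] [CompleteSpace B]

theorem IsF.good {Ψ : ℂ × ℂ → X} {T : ℝ} {p : ℂ} (h : IsF 𝒬 Ψ (p, (T : ℂ))) : Good 𝒬 Ψ T p :=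
  ⟨Ψ, h, Eventually.of_forall fun t => Filter.EventuallyEq.rfl⟩

/-- **Step (B2)**: the bad set is finite. -/
theorem finite_bad {ε₀ : ℝ} (hε : 0 < ε₀) (hLoc : LocConstGood 𝒬 H ε₀)
    {Ψ : ℂ × ℂ → X} {z₀ : ℂ} {ρ T A₀ : ℝ} (hρ : 0 < ρ) (hT : 0 < T)
    (h1 : ∀ z ∈ closedBall z₀ ρ, ∀ t ∈ Ico (0 : ℝ) T, IsF 𝒬 Ψ (z, (t : ℂ)))
    (h2 : ∀ z ∈ sphere z₀ ρ, IsF 𝒬 Ψ (z, (T : ℂ)))
    (hA : ∀ t ∈ Ico (0 : ℝ) T, energy 𝒬 H (fun z => Ψ (z, (t : ℂ))) (closedBall z₀ ρ) ≤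
      ENNReal.ofReal A₀) :
    {p | p ∈ closedBall z₀ ρ ∧ ¬ Good 𝒬 Ψ T p}.Finite := by
  set S := concSet 𝒬 H Ψ T ε₀ (ball z₀ ρ) with hS
  have hSfin : S.Finite := concSet_finite isOpen_ball hT hε fun t ht =>
    (lintegral_mono_set ball_subset_closedBall).trans (hA t ht)
  set U := ball z₀ ρ \ S with hU
  have hUc : IsConnected U := isConnected_ball_diff_finite hρ hSfin
  -- local constancy on `U`
  have hloc : ∀ p ∈ U, ∃ η > 0, ∀ q ∈ ball p η, ∀ q' ∈ ball p η,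
      Good 𝒬 Ψ T q → Good 𝒬 Ψ T q' := by
    rintro p ⟨hpD, hpS⟩
    have : ∃ r > 0, ball p r ⊆ ball z₀ ρ ∧ ∃ᶠ t : ℝ in 𝓝[<] T,
        energy 𝒬 H (fun z => Ψ (z, (t : ℂ))) (ball p r) < ENNReal.ofReal ε₀ := by
      by_contra hcon
      push Not at hcon
      apply hpS
      refine ⟨hpD, fun r hr hrD => ?_⟩
      have := hcon r hr hrD
      filter_upwards [this] with t ht
      exact ht
    obtain ⟨r, hr, hrD, hfr⟩ := this
    exact hLoc Ψ T p r hT hr (fun z hz t ht => h1 z (ball_subset_closedBall (hrD hz)) t ht) hfr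
  -- the two open sets
  set V₁ : Set ℂ := {p | ∃ η > 0, ∀ q ∈ ball p η, Good 𝒬 Ψ T q} with hV₁
  set V₂ : Set ℂ := {p | ∃ η > 0, ∀ q ∈ ball p η, ¬ Good 𝒬 Ψ T q} with hV₂
  have hop : ∀ P : ℂ → Prop, IsOpen {p : ℂ | ∃ η > 0, ∀ q ∈ ball p η, P q} := by
    intro P
    have : {p : ℂ | ∃ η > 0, ∀ q ∈ ball p η, P q} = interior {q | P q} := by
      ext p
      rw [mem_interior_iff_mem_nhds, Metric.mem_nhds_iff]
      rfl
    rw [this]; exact isOpen_interior
  have hcover : U ⊆ V₁ ∪ V₂ := by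
    intro p hp
    obtain ⟨η, hη, h⟩ := hloc p hp
    by_cases hg : Good 𝒬 Ψ T p
    · exact Or.inl ⟨η, hη, fun q hq => h p (mem_ball_self hη) q hq hg⟩
    · exact Or.inr ⟨η, hη, fun q hq hgq => hg (h q hq p (mem_ball_self hη) hgq)⟩
  have hdisj : ∀ p, p ∈ V₁ → p ∈ V₂ → False := by
    rintro p ⟨η, hη, h⟩ ⟨η', hη', h'⟩
    exact h' p (mem_ball_self hη') (h p (mem_ball_self hη))
  -- a point of `U` near the sphere
  have hne : (U ∩ V₁).Nonempty := by
    set p₀ : ℂ := z₀ + ρ with hp₀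
    have hp₀s : p₀ ∈ sphere z₀ ρ := by
      rw [mem_sphere_iff_norm, hp₀, add_sub_cancel_left, Complex.norm_real, Real.norm_eq_abs,
        abs_of_pos hρ]
    have hop1 : ∀ᶠ q in 𝓝 p₀, Good 𝒬 Ψ T q := by
      have hcont : ContinuousAt (fun q : ℂ => (q, (T : ℂ))) p₀ := by fun_prop
      filter_upwards [hcont.eventually (h2 p₀ hp₀s).eventually] with q hq
      exact hq.good
    obtain ⟨η, hη, hball⟩ := Metric.eventually_nhds_iff_ball.1 hop1
    have hSop : IsOpen (Sᶜ) := hSfin.isClosed.isOpen_compl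
    -- the infinite set of points of the ball near `p₀`
    have hcl : p₀ ∈ closure (ball z₀ ρ) := by
      rw [closure_ball z₀ hρ.ne']; exact sphere_subset_closedBall hp₀s
    obtain ⟨q₀, hq₀, hq₀'⟩ := mem_closure_iff.1 hcl (ball p₀ η) isOpen_ball (mem_ball_self hη)
    have hopen : IsOpen (ball p₀ η ∩ ball z₀ ρ) := isOpen_ball.inter isOpen_ball
    have hinf : (ball p₀ η ∩ ball z₀ ρ).Infinite := infinite_of_mem_nhds q₀
      (hopen.mem_nhds ⟨hq₀, hq₀'⟩)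
    obtain ⟨q, hq, hqS⟩ := (hinf.diff hSfin).nonempty
    refine ⟨q, ⟨hq.2, hqS⟩, ?_⟩
    obtain ⟨η', hη', hb⟩ := Metric.isOpen_iff.1 isOpen_ball q hq.1
    exact ⟨η', hη', fun y hy => hball y (hb hy)⟩
  have hall : ∀ p ∈ U, Good 𝒬 Ψ T p := by
    intro p hp
    by_contra hbad
    have hpV₂ : p ∈ V₂ := by
      rcases hcover hp with h | h
      · exfalso
        obtain ⟨η, hη, h⟩ := h
        exact hbad (h p (mem_ball_self hη))
      · exact h
    obtain ⟨y, hy, hy1, hy2⟩ := hUc.isPreconnected V₁ V₂ (hop _) (hop _) hcover hne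
      ⟨p, hp, hpV₂⟩
    exact hdisj y hy1 hy2
  refine hSfin.subset ?_
  rintro p ⟨hp, hbad⟩
  by_contra hpS
  rcases (mem_closedBall.1 hp).lt_or_eq with h | h
  · exact hbad (hall p ⟨mem_ball.2 h, hpS⟩)
  · exact hbad (h2 p (mem_sphere.2 h)).good

end Vale.Agent.P278.Full
end
end

section

section

open Set Topology Filter Metric TopologicalSpace
open scoped Manifold ContDiff unitInterval

set_option linter.unusedSectionVars false

namespace Vale.Agent.P278.Full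

variable {M A B : Type*} [TopologicalSpace M] [NormedAddCommGroup A] [NormedSpace ℂ A]
  [NormedAddCommGroup B] [NormedSpace ℂ B]

/-- `u` is a disc tangent to the first foliation at `z`. -/
def IsDisc1 (𝒜 : Set (OpenPartialHomeomorph M (A × B))) (u : ℂ → M) (z : ℂ) : Prop :=
  ∃ φ ∈ 𝒜, ∃ f : ℂ → A, AnalyticAt ℂ f z ∧
    ∀ᶠ y in 𝓝 z, u y ∈ φ.source ∧ φ (u y) = (f y, (φ (u z)).2)

/-- The path `γ` is tangent to the second foliation. -/
def IsPath2 (𝒜 : Set (OpenPartialHomeomorph M (A × B))) (γ : ℝ → M) : Prop :=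
  Continuous γ ∧ ∀ t, ∃ φ ∈ 𝒜, γ t ∈ φ.source ∧ ∀ᶠ s in 𝓝 t, (φ (γ s)).1 = (φ (γ t)).1

/-- **Theorem C**, weak form: F-maps near a cross extend to the product. -/
def CrossExt (𝒜 : Set (OpenPartialHomeomorph M (A × B))) : Prop :=
  ∀ (R : ℝ) (D : Set ℂ), 0 < R → IsOpen D → Convex ℝ D → (0 : ℂ) ∈ D → ∀ Ψ : ℂ × ℂ → M,
    FOn 𝒜 Ψ (ball 0 R ×ˢ {0} ∪ {0} ×ˢ D) →
    ∃ Ψ' : ℂ × ℂ → M, FOn 𝒜 Ψ' (ball 0 R ×ˢ D) ∧
      ∀ p ∈ ball (0 : ℂ) R ×ˢ ({0} : Set ℂ) ∪ {0} ×ˢ D, Ψ' =ᶠ[𝓝 p] Ψ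

/-- The germ of an admissible map, as a point of the space of germs. -/
def adm (𝒜 : Set (OpenPartialHomeomorph M (A × B))) {x : M} {f : M → Leaf 𝒜} (h : Adm 𝒜 x f) :
    Etale (AdmGerm 𝒜) := ⟨x, ⟨f, ⟨f, rfl, h⟩⟩⟩

/-- Every admissible germ continues along every disc tangent to the first foliation. -/
def DiscCont (𝒜 : Set (OpenPartialHomeomorph M (A × B))) (x : M) (f : M → Leaf 𝒜)
    (h : Adm 𝒜 x f) : Prop :=
  ∀ u : ℂ → M, (∀ z ∈ ball (0 : ℂ) 2, IsDisc1 𝒜 u z) → u 0 = x →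
    ∃ s : ℂ → Etale (AdmGerm 𝒜), ContinuousOn s (ball 0 2) ∧
      (∀ z ∈ ball (0 : ℂ) 2, Etale.proj (s z) = u z) ∧ s 0 = adm 𝒜 h

end Vale.Agent.P278.Full
end
end

section

section

/-! F-maps in charts, continuation along discs, Theorem C in the form `CrossExt`. -/

open Set Topology Filter Metric MeasureTheory
open scoped ContDiff Manifold ComplexConjugate ENNReal

set_option linter.all false

namespace Vale.Agent.P278.Full

variable {X : Type*} [TopologicalSpace X] {A B : Type*} [NormedAddCommGroup A] [NormedSpace ℂ A]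
  [NormedAddCommGroup B] [NormedSpace ℂ B]
  {𝒬 : Set (OpenPartialHomeomorph X (A × B))} {Ψ Ψ' : ℂ × ℂ → X} {p : ℂ × ℂ}

/-- An atlas of product charts with analytic transition maps. -/
structure PAtlas (𝒬 : Set (OpenPartialHomeomorph X (A × B))) : Prop where
  cover : ∀ x, ∃ φ ∈ 𝒬, x ∈ φ.source
  ana : ∀ φ ∈ 𝒬, ∀ ψ ∈ 𝒬, ∀ x ∈ φ.source, x ∈ ψ.source →
    AnalyticAt ℂ (fun p => ψ (φ.symm p)) (φ x)
  trans : ∀ φ ∈ 𝒬, ∀ ψ ∈ 𝒬, ∀ x ∈ φ.source, x ∈ ψ.source →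
    ∀ᶠ y in 𝓝 x, (φ y).2 = (φ x).2 → (ψ y).2 = (ψ x).2
  trans' : ∀ φ ∈ 𝒬, ∀ ψ ∈ 𝒬, ∀ x ∈ φ.source, x ∈ ψ.source →
    ∀ᶠ y in 𝓝 x, (φ y).1 = (φ x).1 → (ψ y).1 = (ψ x).1

theorem KAtlas.pAtlas {H : OpenPartialHomeomorph X (A × B) → A × B → (A × B) →ₗ⋆[ℂ] (A × B) →ₗ[ℂ] ℂ}
    (K : KAtlas 𝒬 H) : PAtlas 𝒬 := ⟨K.cover, K.ana, K.trans, K.trans'⟩

section
variable [CompleteSpace A] [CompleteSpace B]

/-- An F-map is analytic in every chart. -/
theorem IsF.analyticAt_of_memP (K : PAtlas 𝒬) (h : IsF 𝒬 Ψ p)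
    {φ : OpenPartialHomeomorph X (A × B)} (hφ : φ ∈ 𝒬) (hp : Ψ p ∈ φ.source) :
    (∀ᶠ q in 𝓝 p, Ψ q ∈ φ.source) ∧ AnalyticAt ℂ (fun q => φ (Ψ q)) p := by
  obtain ⟨ψ, hψ, hs, ha⟩ := h.analyticAt_chart
  refine ⟨h.continuousAt.eventually (φ.open_source.mem_nhds hp), ?_⟩
  have h1 : AnalyticAt ℂ (fun y => φ (ψ.symm y)) (ψ (Ψ p)) :=
    K.ana ψ hψ φ hφ (Ψ p) hs.self_of_nhds hp
  have h2 : AnalyticAt ℂ (fun q => φ (ψ.symm (ψ (Ψ q)))) p :=
    AnalyticAt.comp' (g := fun y => φ (ψ.symm y)) (f := fun q => ψ (Ψ q)) h1 ha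
  exact h2.congr (hs.mono fun q hq => by simp only; rw [ψ.left_inv hq])

/-- Two F-maps agreeing at points close to `p` agree near `p`. -/
theorem IsF.eventuallyEq_of_frequentlyP [T2Space X] (K : PAtlas 𝒬) (h : IsF 𝒬 Ψ p)
    (h' : IsF 𝒬 Ψ' p) (hfr : ∃ᶠ q in 𝓝 p, Ψ =ᶠ[𝓝 q] Ψ') : Ψ =ᶠ[𝓝 p] Ψ' := by
  have hval : Ψ p = Ψ' p := by
    by_contra hne
    obtain ⟨U, V, hU, hV, hpU, hpV, hUV⟩ := t2_separation hne
    have h1 := h.continuousAt.eventually (hU.mem_nhds hpU)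
    have h2 := h'.continuousAt.eventually (hV.mem_nhds hpV)
    obtain ⟨q, hq, h3, h4⟩ := (hfr.and_eventually (h1.and h2)).exists
    exact disjoint_left.1 hUV h3 (hq.self_of_nhds ▸ h4)
  obtain ⟨φ, hφ, hs, ha⟩ := h.analyticAt_chart
  obtain ⟨hs', ha'⟩ := h'.analyticAt_of_memP K hφ (hval ▸ hs.self_of_nhds)
  have hev := ((ha.eventually_analyticAt.and ha'.eventually_analyticAt).and (hs.and hs'))
  obtain ⟨ε, hε, hball⟩ := Metric.eventually_nhds_iff_ball.1 hev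
  obtain ⟨q, hq, hqb⟩ := (hfr.and_eventually (ball_mem_nhds p hε)).exists
  have han : AnalyticOnNhd ℂ (fun q => φ (Ψ q)) (ball p ε) := fun y hy => (hball y hy).1.1
  have han' : AnalyticOnNhd ℂ (fun q => φ (Ψ' q)) (ball p ε) := fun y hy => (hball y hy).1.2
  have heq : EqOn (fun q => φ (Ψ q)) (fun q => φ (Ψ' q)) (ball p ε) :=
    han.eqOn_of_preconnected_of_eventuallyEq han' (convex_ball p ε).isPreconnected hqb
      (hq.mono fun y hy => by simp only; rw [hy])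
  filter_upwards [ball_mem_nhds p hε] with y hy
  exact φ.injOn (hball y hy).2.1 (hball y hy).2.2 (heq hy)

/-- **Identity theorem.** -/
theorem FOn.eventuallyEqP [T2Space X] (K : PAtlas 𝒬) {S : Set (ℂ × ℂ)} (h : FOn 𝒬 Ψ S)
    (h' : FOn 𝒬 Ψ' S) (hS : IsPreconnected S) (hp : p ∈ S) (he : Ψ =ᶠ[𝓝 p] Ψ') :
    ∀ q ∈ S, Ψ =ᶠ[𝓝 q] Ψ' := by
  set U : Set (ℂ × ℂ) := {q | Ψ =ᶠ[𝓝 q] Ψ'} with hU
  set V : Set (ℂ × ℂ) := {q | ¬ ∃ᶠ q' in 𝓝 q, Ψ =ᶠ[𝓝 q'] Ψ'} with hV
  have hUo : IsOpen U := by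
    rw [isOpen_iff_mem_nhds]; intro q hq; exact hq.eventually_nhds
  have hVo : IsOpen V := by
    rw [isOpen_iff_mem_nhds]
    intro q hq
    have hq' : ∀ᶠ q' in 𝓝 q, ¬ (Ψ =ᶠ[𝓝 q'] Ψ') := not_frequently.1 hq
    filter_upwards [hq'.eventually_nhds] with y hy
    exact not_frequently.2 hy
  by_contra hcon
  push Not at hcon
  obtain ⟨q, hqS, hq⟩ := hcon
  have hcover : S ⊆ U ∪ V := by
    intro y hy
    by_cases hfr : ∃ᶠ q' in 𝓝 y, Ψ =ᶠ[𝓝 q'] Ψ'
    · left; exact (h y hy).eventuallyEq_of_frequentlyP K (h' y hy) hfr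
    · right; exact hfr
  have hqV : q ∈ V := (hcover hqS).resolve_left hq
  obtain ⟨y, hyS, hyU, hyV⟩ := hS U V hUo hVo hcover ⟨p, hp, he⟩ ⟨q, hqS, hqV⟩
  apply hyV
  exact Filter.Eventually.frequently (hUo.mem_nhds hyU)

/-- F-maps on open sets form an abstract class. -/
def fclassP [T2Space X] (K : PAtlas 𝒬) : FClass X where
  F Ψ Ω := IsOpen Ω ∧ FOn 𝒬 Ψ Ω
  isOpen h := h.1
  mono h ho hs := ⟨ho, h.2.mono hs⟩
  loc ho h := ⟨ho, fun p hp => by
    obtain ⟨N, hpN, hN⟩ := h p hp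
    exact hN.2 p hpN⟩
  congr h he := ⟨h.1, fun p hp => (h.2 p hp).congr
    (Filter.eventuallyEq_of_mem (h.1.mem_nhds hp) he)⟩
  ident h h' hc hp he := fun q hq => (FOn.eventuallyEqP K h.2 h'.2 hc hp he q hq).self_of_nhds

/-- An F-map has product form in every chart. -/
theorem IsF.chart_prod (K : PAtlas 𝒬) (h : IsF 𝒬 Ψ p)
    {φ : OpenPartialHomeomorph X (A × B)} (hφ : φ ∈ 𝒬) (hp : Ψ p ∈ φ.source) :
    ∃ (f : ℂ → A) (g : ℂ → B), AnalyticAt ℂ f p.1 ∧ AnalyticAt ℂ g p.2 ∧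
      ∀ᶠ q in 𝓝 p, Ψ q ∈ φ.source ∧ φ (Ψ q) = (f q.1, g q.2) := by
  obtain ⟨hs, ha⟩ := h.analyticAt_of_memP K hφ hp
  have hF := h.eventually
  obtain ⟨ψ, hψ, f₀, g₀, hf₀, hg₀, he₀⟩ := h
  obtain ⟨ε, hε, hball⟩ := Metric.eventually_nhds_iff_ball.1 (hF.and (hs.and he₀))
  have hb : ∀ z ∈ ball p.1 ε, ∀ w ∈ ball p.2 ε, IsF 𝒬 Ψ (z, w) ∧ Ψ (z, w) ∈ φ.source ∧
      Ψ (z, w) ∈ ψ.source ∧ ψ (Ψ (z, w)) = (f₀ z, g₀ w) := by
    intro z hz w hw
    exact hball (z, w) (by rw [← ball_prod_same]; exact ⟨hz, hw⟩)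
  have h1 : ∀ z ∈ ball p.1 ε, ∀ w ∈ ball p.2 ε,
      (φ (Ψ (z, p.2))).1 = (φ (Ψ (z, w))).1 := by
    intro z hz w hw
    refine (convex_ball p.2 ε).isPreconnected.induction₂
      (fun w w' => (φ (Ψ (z, w))).1 = (φ (Ψ (z, w'))).1) ?_
      (fun _ _ _ _ _ _ h1 h2 => h1.trans h2) (fun _ _ _ _ h => h.symm) (mem_ball_self hε) hw
    intro w₁ hw₁
    obtain ⟨c1, c2, c3, c4⟩ := hb z hz w₁ hw₁
    have ht : Tendsto (fun w' : ℂ => Ψ (z, w')) (𝓝 w₁) (𝓝 (Ψ (z, w₁))) :=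
      c1.continuousAt.tendsto.comp (by
        have : ContinuousAt (fun w' : ℂ => (z, w')) w₁ := by fun_prop
        exact this.tendsto)
    have ht2 := ht.eventually (K.trans' ψ hψ φ hφ _ c3 c2)
    have ht3 : ∀ᶠ w' in 𝓝[ball p.2 ε] w₁, w' ∈ ball p.2 ε := self_mem_nhdsWithin
    filter_upwards [nhdsWithin_le_nhds ht2, ht3] with w' h2 h3
    refine (h2 ?_).symm
    rw [(hb z hz w' h3).2.2.2, c4]
  have h2 : ∀ z ∈ ball p.1 ε, ∀ w ∈ ball p.2 ε,
      (φ (Ψ (p.1, w))).2 = (φ (Ψ (z, w))).2 := by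
    intro z hz w hw
    refine (convex_ball p.1 ε).isPreconnected.induction₂
      (fun z z' => (φ (Ψ (z, w))).2 = (φ (Ψ (z', w))).2) ?_
      (fun _ _ _ _ _ _ h1 h2 => h1.trans h2) (fun _ _ _ _ h => h.symm) (mem_ball_self hε) hz
    intro z₁ hz₁
    obtain ⟨c1, c2, c3, c4⟩ := hb z₁ hz₁ w hw
    have ht : Tendsto (fun z' : ℂ => Ψ (z', w)) (𝓝 z₁) (𝓝 (Ψ (z₁, w))) :=
      c1.continuousAt.tendsto.comp (by
        have : ContinuousAt (fun z' : ℂ => (z', w)) z₁ := by fun_prop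
        exact this.tendsto)
    have ht2 := ht.eventually (K.trans ψ hψ φ hφ _ c3 c2)
    have ht3 : ∀ᶠ z' in 𝓝[ball p.1 ε] z₁, z' ∈ ball p.1 ε := self_mem_nhdsWithin
    filter_upwards [nhdsWithin_le_nhds ht2, ht3] with z' h2 h3
    refine (h2 ?_).symm
    rw [(hb z' h3 w hw).2.2.2, c4]
  refine ⟨fun z => (φ (Ψ (z, p.2))).1, fun w => (φ (Ψ (p.1, w))).2, ?_, ?_, ?_⟩
  · have h1 : AnalyticAt ℂ (fun z : ℂ => (z, p.2)) p.1 := analyticAt_id.prod analyticAt_const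
    have h2 : AnalyticAt ℂ (fun z : ℂ => φ (Ψ (z, p.2))) p.1 :=
      AnalyticAt.comp' (g := fun q => φ (Ψ q)) (f := fun z : ℂ => (z, p.2)) ha h1
    exact AnalyticAt.comp' (g := Prod.fst) (f := fun z : ℂ => φ (Ψ (z, p.2))) analyticAt_fst h2
  · have h1 : AnalyticAt ℂ (fun w : ℂ => (p.1, w)) p.2 := analyticAt_const.prod analyticAt_id
    have h2 : AnalyticAt ℂ (fun w : ℂ => φ (Ψ (p.1, w))) p.2 :=
      AnalyticAt.comp' (g := fun q => φ (Ψ q)) (f := fun w : ℂ => (p.1, w)) ha h1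
    exact AnalyticAt.comp' (g := Prod.snd) (f := fun w : ℂ => φ (Ψ (p.1, w))) analyticAt_snd h2
  · filter_upwards [ball_mem_nhds p hε] with q hq
    obtain ⟨z, w⟩ := q
    rw [← ball_prod_same] at hq
    refine ⟨(hb z hq.1 w hq.2).2.1, ?_⟩
    ext1
    · exact (h1 z hq.1 w hq.2).symm
    · exact (h2 z hq.1 w hq.2).symm

omit [CompleteSpace A] [CompleteSpace B] in
/-- Construction of F-maps in a chart. -/
theorem isF_of_chart {φ : OpenPartialHomeomorph X (A × B)} (hφ : φ ∈ 𝒬) {f : ℂ → A} {g : ℂ → B}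
    (hf : AnalyticAt ℂ f p.1) (hg : AnalyticAt ℂ g p.2) (hp : (f p.1, g p.2) ∈ φ.target) :
    IsF 𝒬 (fun q => φ.symm (f q.1, g q.2)) p := by
  refine ⟨φ, hφ, f, g, hf, hg, ?_⟩
  have hc : ContinuousAt (fun q : ℂ × ℂ => (f q.1, g q.2)) p :=
    (hf.continuousAt.comp continuousAt_fst).prodMk (hg.continuousAt.comp continuousAt_snd)
  filter_upwards [hc.eventually (φ.open_target.mem_nhds hp)] with q hq
  exact ⟨φ.map_target hq, φ.right_inv hq⟩

omit [CompleteSpace A] [CompleteSpace B] in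
/-- A horizontal disc in a chart. -/
theorem disc_chart {l : ℂ → X} {z c : ℂ} (h : IsF 𝒬 (fun q => l q.1) (z, c)) :
    ∃ φ ∈ 𝒬, ∃ (f : ℂ → A) (b : B), AnalyticAt ℂ f z ∧
      ∀ᶠ y in 𝓝 z, l y ∈ φ.source ∧ φ (l y) = (f y, b) := by
  obtain ⟨φ, hφ, f, g, hf, hg, he⟩ := h
  refine ⟨φ, hφ, f, g c, hf, ?_⟩
  have hc : ContinuousAt (fun y : ℂ => (y, c)) z := by fun_prop
  exact hc.eventually he

/-- Local continuation along a horizontal disc. -/
theorem exists_locCont [T2Space X] (K : PAtlas 𝒬) {l : ℂ → X} {z₁ c : ℂ} (w₀ : ℂ)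
    (h : IsF 𝒬 (fun q => l q.1) (z₁, c)) : ∃ δ > 0, Tube.LocCont (fclassP K) l w₀ z₁ δ := by
  obtain ⟨φ, hφ, f, b, hf, he⟩ := disc_chart h
  obtain ⟨δ, hδ, hball⟩ := Metric.nhds_basis_closedBall.eventually_iff.1
    (hf.eventually_analyticAt.and he)
  have hcomp : ContinuousOn f (closedBall z₁ δ) := fun y hy =>
    (hball hy).1.continuousAt.continuousWithinAt
  -- a neighbourhood of `b`
  obtain ⟨U, V, hU, hV, hfU, hbV, hUV⟩ := generalized_tube_lemma
    ((isCompact_closedBall z₁ δ).image_of_continuousOn hcomp) (isCompact_singleton (x := b))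
    φ.open_target (by
      rintro ⟨a, b'⟩ ⟨⟨y, hy, rfl⟩, hb'⟩
      simp only [mem_singleton_iff] at hb'
      subst hb'
      rw [← (hball hy).2.2]
      exact φ.map_source (hball hy).2.1)
  refine ⟨δ, hδ, ?_⟩
  intro z' hz' Θ Ω hF hmem hl
  have hz'c : z' ∈ closedBall z₁ δ := ball_subset_closedBall hz'
  have hΘval : Θ (z', w₀) = l z' := hl.self_of_nhds
  obtain ⟨f₁, g₁, hf₁, hg₁, he₁⟩ := (hF.2 _ hmem).chart_prod K hφ
    (by rw [hΘval]; exact (hball hz'c).2.1)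
  simp only at hf₁ hg₁
  have hg₁b : g₁ w₀ = b := by
    have h1 := he₁.self_of_nhds.2
    rw [hΘval, (hball hz'c).2.2] at h1
    exact (congrArg Prod.snd h1).symm
  have hff₁ : ∀ᶠ z in 𝓝 z', f z = f₁ z := by
    have hc : ContinuousAt (fun y : ℂ => (y, w₀)) z' := by fun_prop
    filter_upwards [hc.eventually he₁, hl, isOpen_ball.mem_nhds hz'] with z h1 h2 h3
    have h4 := (hball (ball_subset_closedBall h3)).2.2
    have h5 := h1.2
    rw [h2, h4] at h5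
    exact congrArg Prod.fst h5
  have hgV : ∀ᶠ w in 𝓝 w₀, g₁ w ∈ V :=
    hg₁.continuousAt.eventually (hV.mem_nhds (by rw [hg₁b]; exact hbV rfl))
  obtain ⟨τ, hτ, hτb⟩ := Metric.eventually_nhds_iff_ball.1 (hg₁.eventually_analyticAt.and hgV)
  have htarget : ∀ z ∈ ball z₁ δ, ∀ w ∈ ball w₀ τ, (f z, g₁ w) ∈ φ.target := by
    intro z hz w hw
    exact hUV ⟨hfU ⟨z, ball_subset_closedBall hz, rfl⟩, (hτb w hw).2⟩
  refine ⟨τ, hτ, fun q => φ.symm (f q.1, g₁ q.2), ⟨isOpen_ball.prod isOpen_ball, ?_⟩, ?_, ?_⟩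
  · rintro ⟨z, w⟩ ⟨hz, hw⟩
    exact isF_of_chart hφ (hball (ball_subset_closedBall hz)).1 (hτb w hw).1 (htarget z hz w hw)
  · have hc : ContinuousAt (fun q : ℂ × ℂ => q.1) (z', w₀) := continuousAt_fst
    filter_upwards [he₁, hc.eventually hff₁] with q h1 h2
    rw [h2, ← h1.2, φ.left_inv h1.1]
  · intro z hz
    have h1 := (hball (ball_subset_closedBall hz)).2
    show φ.symm (f z, g₁ w₀) = l z
    rw [hg₁b, ← h1.2, φ.left_inv h1.1]

/-- **Theorem C** in the form used for the product decomposition. -/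
theorem crossExtP [T2Space X] (K : PAtlas 𝒬) (hE : (fclassP K).EllExt) : CrossExt 𝒬 := by
  intro R D hR hDo hDc hD0 Ψ hΨ
  obtain ⟨Ω, ho, hs, hF⟩ := hΨ.exists_open
  obtain ⟨Ψ', h3, h4, h5⟩ := (fclassP K).extend hE hR hDo hDc.isPreconnected hD0 ⟨ho, hF⟩
    (subset_union_left.trans hs) (subset_union_right.trans hs)
  refine ⟨Ψ', h3.2, ?_⟩
  rintro ⟨z, w⟩ (⟨hz, hw⟩ | ⟨hz, hw⟩)
  · simp only [mem_singleton_iff] at hw
    subst hw
    exact h5 z hz
  · simp only [mem_singleton_iff] at hz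
    subst hz
    exact h4 w hw

/-- The abstract class does not depend on the metric. -/
theorem crossExt_of_ellExt [T2Space X]
    {H : OpenPartialHomeomorph X (A × B) → A × B → (A × B) →ₗ⋆[ℂ] (A × B) →ₗ[ℂ] ℂ}
    (K : KAtlas 𝒬 H) (hE : (fclass K).EllExt) : CrossExt 𝒬 :=
  crossExtP K.pAtlas hE

end

section box
variable {M : Type*} [TopologicalSpace M] {𝒜 : Set (OpenPartialHomeomorph M (A × B))}

theorem BoxAtlas.pAtlas (h : BoxAtlas 𝒜) : PAtlas 𝒜 where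
  cover := h.cover
  ana := by
    intro φ hφ ψ hψ x hx hx'
    have h1 := h.ana φ hφ ψ hψ
    have hmem : φ x ∈ (φ.symm ≫ₕ ψ).source := by
      rw [OpenPartialHomeomorph.trans_source]
      refine ⟨φ.map_source hx, ?_⟩
      show φ.symm (φ x) ∈ ψ.source
      rw [φ.left_inv hx]; exact hx'
    exact (h1.contDiffAt ((φ.symm ≫ₕ ψ).open_source.mem_nhds hmem)).analyticAt
  trans := h.trans
  trans' := h.trans'

variable [CompleteSpace A] [CompleteSpace B]

/-- (FID) -/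
theorem isF_ident [T2Space M] (h𝒜 : BoxAtlas 𝒜) {Ψ Ψ' : ℂ × ℂ → M} {S : Set (ℂ × ℂ)}
    (hS : IsPreconnected S) (h : FOn 𝒜 Ψ S) (h' : FOn 𝒜 Ψ' S) {p : ℂ × ℂ} (hp : p ∈ S)
    (hpp : Ψ =ᶠ[𝓝 p] Ψ') : ∀ q ∈ S, Ψ =ᶠ[𝓝 q] Ψ' :=
  h.eventuallyEqP (BoxAtlas.pAtlas h𝒜) h' hS hp hpp

/-- A horizontal disc, as an F-map. -/
theorem IsDisc1.isF {u : ℂ → M} {z : ℂ} (h : IsDisc1 𝒜 u z) (c : ℂ) :
    IsF 𝒜 (fun q => u q.1) (z, c) := by
  obtain ⟨φ, hφ, f, hf, he⟩ := h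
  refine ⟨φ, hφ, f, fun _ => (φ (u z)).2, hf, analyticAt_const, ?_⟩
  have hc : ContinuousAt (fun q : ℂ × ℂ => q.1) (z, c) := continuousAt_fst
  exact hc.eventually he

/-- (TUBE) -/
theorem exists_tube [T2Space M] (h𝒜 : BoxAtlas 𝒜) {u : ℂ → M} {R : ℝ} (hR : 0 < R)
    (hu : ∀ z ∈ ball (0 : ℂ) R, IsDisc1 𝒜 u z) {φ : OpenPartialHomeomorph M (A × B)} (hφ : φ ∈ 𝒜)
    (h0 : u 0 ∈ φ.source) {v : ℂ → B} (hv : AnalyticAt ℂ v 0) (hv0 : v 0 = (φ (u 0)).2) :
    ∃ Ψ : ℂ × ℂ → M, FOn 𝒜 Ψ (ball 0 R ×ˢ {0}) ∧ (∀ z ∈ ball (0 : ℂ) R, Ψ (z, 0) = u z) ∧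
      ∀ᶠ q in 𝓝 ((0 : ℂ), (0 : ℂ)), Ψ q = φ.symm ((φ (u q.1)).1, v q.2) := by
  have K := BoxAtlas.pAtlas h𝒜
  obtain ⟨f, g, hf, hg, he⟩ := ((hu 0 (mem_ball_self hR)).isF 0).chart_prod K hφ h0
  simp only at hf hg he
  have hc : ContinuousAt (fun y : ℂ => (y, (0 : ℂ))) 0 := by fun_prop
  have he1 : ∀ᶠ y in 𝓝 (0 : ℂ), u y ∈ φ.source ∧ φ (u y) = (f y, g 0) := hc.eventually he
  have hval := he1.self_of_nhds
  have hg0 : g 0 = v 0 := by rw [hv0, hval.2]
  have hmem : (f ((0 : ℂ), (0 : ℂ)).1, v ((0 : ℂ), (0 : ℂ)).2) ∈ φ.target := by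
    show (f 0, v 0) ∈ φ.target
    rw [← hg0, ← hval.2]; exact φ.map_source hval.1
  have hIs : IsF 𝒜 (fun q => φ.symm (f q.1, v q.2)) ((0 : ℂ), (0 : ℂ)) :=
    isF_of_chart hφ hf hv hmem
  obtain ⟨Ω, hΩo, hΩs, hΩF⟩ := (show FOn 𝒜 (fun q => φ.symm (f q.1, v q.2))
    {((0 : ℂ), (0 : ℂ))} from fun p hp => by rw [mem_singleton_iff] at hp; rw [hp]; exact hIs).exists_open
  obtain ⟨Ψ, Ω', hF, hsub, hl, hge⟩ := Tube.tube (fclassP K) (l := u) (w₀ := 0) hR
    (fun z₁ hz₁ => exists_locCont K 0 ((hu z₁ hz₁).isF 0)) ⟨hΩo, hΩF⟩ (hΩs rfl) (by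
      filter_upwards [he1] with y hy
      show φ.symm (f y, v 0) = u y
      rw [← hg0, ← hy.2, φ.left_inv hy.1])
  refine ⟨Ψ, hF.2.mono hsub, hl, ?_⟩
  have hcf : ContinuousAt (fun q : ℂ × ℂ => q.1) ((0 : ℂ), (0 : ℂ)) := continuousAt_fst
  filter_upwards [hge, hcf.eventually he1] with q h1 h2
  rw [h1, h2.2]

end box

end Vale.Agent.P278.Full
end
end

section

section

open Set Topology Filter Metric MeasureTheory
open scoped ContDiff Manifold ComplexConjugate ENNReal Real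

set_option linter.all false

namespace Vale.Agent.P278.Full

variable {X : Type*} [TopologicalSpace X] {A B : Type*} [NormedAddCommGroup A] [NormedSpace ℂ A]
  [NormedAddCommGroup B] [NormedSpace ℂ B] {𝒬 : Set (OpenPartialHomeomorph X (A × B))}
  {H : OpenPartialHomeomorph X (A × B) → A × B → (A × B) →ₗ⋆[ℂ] (A × B) →ₗ[ℂ] ℂ}
  [FiniteDimensional ℂ A] [FiniteDimensional ℂ B]

/-- horizontal slices of an F-map are discs -/
theorem IsF.slice {Θ : ℂ × ℂ → X} {q w : ℂ} (h : IsF 𝒬 Θ (q, w)) :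
    IsDisc 𝒬 (fun z => Θ (z, w)) q := by
  obtain ⟨φ, hφ, f, g, hf, hg, he⟩ := h
  have hc : ContinuousAt (fun y : ℂ => (y, w)) q := by fun_prop
  have he' := hc.eventually he
  refine ⟨φ, hφ, he'.mono fun y hy => hy.1, ?_⟩
  have h1 : AnalyticAt ℂ (fun y => (f y, g w)) q := AnalyticAt.prod hf analyticAt_const
  exact h1.congr (he'.mono fun y hy => hy.2.symm)

/-- continuity of the energy density of the slices -/
theorem IsF.slice_eden_continuousAt (K : KAtlas 𝒬 H) {Θ : ℂ × ℂ → X} {q w : ℂ}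
    (h : IsF 𝒬 Θ (q, w)) :
    ContinuousAt (fun w' => eden 𝒬 H (fun z => Θ (z, w')) q) w := by
  haveI := FiniteDimensional.complete ℂ A
  haveI := FiniteDimensional.complete ℂ B
  have hev := h.eventually
  obtain ⟨φ, hφ, f, g, hf, hg, he⟩ := h
  have hc : ContinuousAt (fun w' : ℂ => (q, w')) w := by fun_prop
  have hval : ∀ᶠ w' in 𝓝 w, eden 𝒬 H (fun z => Θ (z, w')) q =
      (H φ (f q, g w') (deriv f q, 0) (deriv f q, 0)).re := by
    have hff : ∀ᶠ w' in 𝓝 w, IsF 𝒬 Θ (q, w') := hc.eventually hev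
    have he2 : ∀ᶠ w' in 𝓝 w, ∀ᶠ q' in 𝓝 (q, w'), Θ q' ∈ φ.source ∧
        φ (Θ q') = (f q'.1, g q'.2) := hc.eventually he.eventually_nhds
    filter_upwards [hff, he2] with w' h1 h2
    have h3 : ContinuousAt (fun y : ℂ => (y, w')) q := by fun_prop
    have h4 := h3.eventually h2
    have h5 := h4.self_of_nhds
    rw [eden_eq K h1.slice hφ h5.1]
    have h6 : deriv (fun y => φ (Θ (y, w'))) q = (deriv f q, 0) := by
      have h7 : (fun y => φ (Θ (y, w'))) =ᶠ[𝓝 q] fun y => (f y, g w') :=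
        h4.mono fun y hy => hy.2
      rw [h7.deriv_eq]
      exact (hf.differentiableAt.hasDerivAt.prodMk (hasDerivAt_const q (g w'))).deriv
    rw [h6, h5.2]
  refine ContinuousAt.congr ?_ (hval.mono fun y hy => hy.symm)
  have h5 := (continuousOn_form (K.kahler φ hφ)).continuousAt
    (x := ((f q, g w), (deriv f q, (0 : B)), (deriv f q, (0 : B))))
    (prod_mem_nhds (φ.open_target.mem_nhds (by
      have := he.self_of_nhds
      have h6 := φ.map_source this.1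
      rwa [this.2] at h6)) univ_mem)
  have h7 : ContinuousAt (fun w' => ((f q, g w'), (deriv f q, (0 : B)), (deriv f q, (0 : B)))) w :=
    (continuousAt_const.prodMk hg.continuousAt).prodMk continuousAt_const
  exact Complex.continuous_re.continuousAt.comp
    (ContinuousAt.comp (g := fun q : (A × B) × (A × B) × (A × B) => H φ q.1 q.2.1 q.2.2)
      (f := fun w' => ((f q, g w'), (deriv f q, (0 : B)), (deriv f q, (0 : B)))) (x := w) h5 h7)

/-- spreading of the agreement around a good point -/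
theorem good_spread [T2Space X] (K : KAtlas 𝒬 H) {Ψ Θ : ℂ × ℂ → X} {z₀ q : ℂ} {ρ T : ℝ}
    (hT : 0 < T) (h1 : ∀ z ∈ closedBall z₀ ρ, ∀ t ∈ Ico 0 T, IsF 𝒬 Ψ (z, ((t : ℝ) : ℂ)))
    (hq : q ∈ ball z₀ ρ) (hΘ : IsF 𝒬 Θ (q, (T : ℂ)))
    (he : ∀ᶠ t in 𝓝[<] T, Θ =ᶠ[𝓝 (q, ((t : ℝ) : ℂ))] Ψ) :
    ∃ ε > 0, (∀ z ∈ ball q ε, IsF 𝒬 Θ (z, (T : ℂ))) ∧
      ∀ᶠ t in 𝓝[<] T, ∀ z ∈ ball q ε, Θ =ᶠ[𝓝 (z, ((t : ℝ) : ℂ))] Ψ := by
  haveI := FiniteDimensional.complete ℂ A
  haveI := FiniteDimensional.complete ℂ B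
  obtain ⟨ε, hε, hball⟩ := Metric.eventually_nhds_iff_ball.1 hΘ.eventually
  obtain ⟨ε', hε', hball'⟩ := Metric.isOpen_iff.1 isOpen_ball q hq
  have hF : ∀ z ∈ ball q ε, ∀ w ∈ ball (T : ℂ) ε, IsF 𝒬 Θ (z, w) := by
    intro z hz w hw
    exact hball (z, w) (by rw [← ball_prod_same]; exact ⟨hz, hw⟩)
  refine ⟨min ε ε', lt_min hε hε', fun z hz => hF z (ball_subset_ball (min_le_left _ _) hz) _
    (mem_ball_self hε), ?_⟩
  have hIoo : Ioo (max 0 (T - ε)) T ∈ 𝓝[<] T := Ioo_mem_nhdsLT (max_lt hT (by linarith))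
  filter_upwards [he, hIoo] with t ht htI
  have ht0 : 0 < t := lt_of_le_of_lt (le_max_left _ _) htI.1
  have htε : T - ε < t := lt_of_le_of_lt (le_max_right _ _) htI.1
  have htb : (t : ℂ) ∈ ball (T : ℂ) ε := by
    rw [mem_ball, dist_eq_norm, ← Complex.ofReal_sub, Complex.norm_real, Real.norm_eq_abs,
      abs_of_neg (by linarith only [htI.2])]
    linarith only [htε]
  intro z hz
  refine FOn.eventuallyEq K (S := ball q (min ε ε') ×ˢ {(t : ℂ)}) ?_ ?_
    ((convex_ball _ _).isPreconnected.prod isPreconnected_singleton)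
    (p := (q, (t : ℂ))) ⟨mem_ball_self (lt_min hε hε'), rfl⟩ ht (z, (t : ℂ)) ⟨hz, rfl⟩
  · rintro ⟨a, b⟩ ⟨ha, hb⟩
    rw [mem_singleton_iff] at hb
    subst hb
    exact hF a (ball_subset_ball (min_le_left _ _) ha) _ htb
  · rintro ⟨a, b⟩ ⟨ha, hb⟩
    rw [mem_singleton_iff] at hb
    subst hb
    exact h1 a (ball_subset_closedBall (hball' (ball_subset_ball (min_le_right _ _) ha))) t
      ⟨ht0.le, htI.2⟩

/-- the limit of the slices at a good point -/
theorem tendsto_of_agree {Ψ Θ : ℂ × ℂ → X} {z : ℂ} {T : ℝ} [CompleteSpace A] [CompleteSpace B]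
    (hΘ : IsF 𝒬 Θ (z, (T : ℂ)))
    (he : ∀ᶠ t in 𝓝[<] T, Θ =ᶠ[𝓝 (z, ((t : ℝ) : ℂ))] Ψ) :
    Tendsto (fun t : ℝ => Ψ (z, (t : ℂ))) (𝓝[<] T) (𝓝 (Θ (z, (T : ℂ)))) := by
  have h1 : Tendsto (fun t : ℝ => Θ (z, (t : ℂ))) (𝓝[<] T) (𝓝 (Θ (z, (T : ℂ)))) := by
    have h2 : Tendsto (fun t : ℝ => (z, (t : ℂ))) (𝓝[<] T) (𝓝 (z, (T : ℂ))) := by
      have : Continuous fun t : ℝ => (z, (t : ℂ)) := by fun_prop
      exact (this.tendsto T).mono_left nhdsWithin_le_nhds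
    exact hΘ.continuousAt.tendsto.comp h2
  refine h1.congr' ?_
  filter_upwards [he] with t ht
  exact ht.self_of_nhds

/-- **Part (C) of Lemma T**: an isolated point of the set of non-good points is good. -/
theorem good_of_punctured [CompactSpace X] [T2Space X] (K : KAtlas 𝒬 H) {Ψ : ℂ × ℂ → X}
    {z₀ p : ℂ} {ρ T E₀ : ℝ} (hT : 0 < T)
    (h1 : ∀ z ∈ closedBall z₀ ρ, ∀ t ∈ Ico 0 T, IsF 𝒬 Ψ (z, ((t : ℝ) : ℂ)))
    (hE : ∀ t ∈ Ico 0 T, energy 𝒬 H (fun z => Ψ (z, ((t : ℝ) : ℂ))) (closedBall z₀ ρ) ≤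
      ENNReal.ofReal E₀)
    (hp : p ∈ ball z₀ ρ) (hgood : ∀ᶠ q in 𝓝[≠] p, Good 𝒬 Ψ T q) : Good 𝒬 Ψ T p := by
  classical
  haveI := FiniteDimensional.complete ℂ A
  haveI := FiniteDimensional.complete ℂ B
  obtain ⟨r₁, hr₁, hball₁⟩ := Metric.isOpen_iff.1 isOpen_ball p hp
  obtain ⟨r₂, hr₂, hball₂⟩ := Metric.eventually_nhds_iff_ball.1 (eventually_nhdsWithin_iff.1 hgood)
  set r : ℝ := min r₁ r₂ with hr
  have hr0 : 0 < r := lt_min hr₁ hr₂
  have hin : ∀ q ∈ ball p r, q ∈ ball z₀ ρ := fun q hq =>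
    hball₁ (ball_subset_ball (min_le_left _ _) hq)
  have hg : ∀ q ∈ ball p r, q ≠ p → Good 𝒬 Ψ T q := fun q hq hqp =>
    hball₂ q (ball_subset_ball (min_le_right _ _) hq) hqp
  haveI : Nonempty (ℂ × ℂ → X) := ⟨Ψ⟩
  choose! Θ hΘ hΘe using hg
  set k : ℂ → X := fun z => Θ z (z, (T : ℂ)) with hk
  -- local consistency
  have hloc : ∀ q ∈ ball p r, q ≠ p → k =ᶠ[𝓝 q] fun z => Θ q (z, (T : ℂ)) := by
    intro q hq hqp
    obtain ⟨ε, hε, hF, hev⟩ := good_spread K hT h1 (hin q hq) (hΘ q hq hqp) (hΘe q hq hqp)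
    filter_upwards [ball_mem_nhds q hε, isOpen_ball.mem_nhds hq,
      isOpen_compl_singleton.mem_nhds (show q ∈ ({p} : Set ℂ)ᶜ from hqp)] with z hz hzr hzp
    have t1 := tendsto_of_agree (hF z hz) (hev.mono fun t ht => ht z hz)
    have t2 := tendsto_of_agree (hΘ z hzr hzp) (hΘe z hzr hzp)
    exact tendsto_nhds_unique t2 t1
  have hkd : ∀ q ∈ ball p r, q ≠ p → IsDisc 𝒬 k q := fun q hq hqp =>
    (hΘ q hq hqp).slice.congr (hloc q hq hqp).symm
  -- convergence of the energy densities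
  have hconv : ∀ q ∈ ball p r, q ≠ p → Tendsto
      (fun t : ℝ => eden 𝒬 H (fun z => Ψ (z, (t : ℂ))) q) (𝓝[<] T) (𝓝 (eden 𝒬 H k q)) := by
    intro q hq hqp
    have e1 : eden 𝒬 H k q = eden 𝒬 H (fun z => Θ q (z, (T : ℂ))) q :=
      eden_congr K (hkd q hq hqp) (hloc q hq hqp)
    rw [e1]
    have h2 : Tendsto (fun t : ℝ => eden 𝒬 H (fun z => Θ q (z, (t : ℂ))) q) (𝓝[<] T)
        (𝓝 (eden 𝒬 H (fun z => Θ q (z, (T : ℂ))) q)) := by
      have h3 : Tendsto (fun t : ℝ => (t : ℂ)) (𝓝[<] T) (𝓝 (T : ℂ)) :=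
        (Complex.continuous_ofReal.tendsto T).mono_left nhdsWithin_le_nhds
      exact ((hΘ q hq hqp).slice_eden_continuousAt K).tendsto.comp h3
    refine h2.congr' ?_
    have hIoo : Ioo 0 T ∈ 𝓝[<] T := Ioo_mem_nhdsLT hT
    filter_upwards [hΘe q hq hqp, hIoo] with t ht htI
    have hc : ContinuousAt (fun y : ℂ => (y, (t : ℂ))) q := by fun_prop
    have hd : IsDisc 𝒬 (fun z => Ψ (z, (t : ℂ))) q :=
      (h1 q (ball_subset_closedBall (hin q hq)) t ⟨htI.1.le, htI.2⟩).slice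
    exact (eden_congr K hd ((hc.eventually ht).mono fun y hy => hy.symm)).symm
  -- finite energy
  have henergy : energy 𝒬 H k (ball p r \ {p}) < ⊤ := by
    obtain ⟨t, -, htm, htt⟩ := exists_seq_strictMono_tendsto' hT
    have htT : Tendsto t atTop (𝓝[<] T) := tendsto_nhdsWithin_iff.2
      ⟨htt, Filter.Eventually.of_forall fun n => (htm n).2⟩
    have hmeas : MeasurableSet (ball p r \ {p}) := measurableSet_ball.diff (measurableSet_singleton p)
    have h2 : energy 𝒬 H k (ball p r \ {p}) = ∫⁻ z in ball p r \ {p},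
        liminf (fun n => ENNReal.ofReal (eden 𝒬 H (fun z => Ψ (z, ((t n : ℝ) : ℂ))) z)) atTop := by
      refine setLIntegral_congr_fun hmeas fun z hz => ?_
      have h3 := (hconv z hz.1 hz.2).comp htT
      exact ((ENNReal.tendsto_ofReal h3).liminf_eq).symm
    have h4 : ∫⁻ z in ball p r \ {p},
        liminf (fun n => ENNReal.ofReal (eden 𝒬 H (fun z => Ψ (z, ((t n : ℝ) : ℂ))) z)) atTop ≤
        liminf (fun n => ∫⁻ z in ball p r \ {p},
          ENNReal.ofReal (eden 𝒬 H (fun z => Ψ (z, ((t n : ℝ) : ℂ))) z)) atTop := by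
      refine lintegral_liminf_le' fun n => ?_
      refine AEMeasurable.ennreal_ofReal (ContinuousOn.aemeasurable (fun z hz => ?_) hmeas)
      exact (eden_continuousAt K ((h1 z (ball_subset_closedBall (hin z hz.1)) (t n)
        ⟨(htm n).1.le, (htm n).2⟩).slice)).continuousWithinAt
    have h5 : liminf (fun n => ∫⁻ z in ball p r \ {p},
          ENNReal.ofReal (eden 𝒬 H (fun z => Ψ (z, ((t n : ℝ) : ℂ))) z)) atTop ≤
        ENNReal.ofReal E₀ := by
      have h6 : (fun n => ∫⁻ z in ball p r \ {p},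
          ENNReal.ofReal (eden 𝒬 H (fun z => Ψ (z, ((t n : ℝ) : ℂ))) z)) ≤
          fun _ => ENNReal.ofReal E₀ := by
        intro n
        refine (energy_mono (𝒬 := 𝒬) (H := H) (fun z hz => ?_)).trans
          (hE (t n) ⟨(htm n).1.le, (htm n).2⟩)
        exact ball_subset_closedBall (hin z hz.1)
      exact (liminf_le_liminf (Filter.Eventually.of_forall h6)).trans (by simp)
    rw [h2]
    exact lt_of_le_of_lt (h4.trans h5) ENNReal.ofReal_lt_top
  obtain ⟨x₀, hx₀⟩ := removable K hr0 hkd henergy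
  set k' : ℂ → X := Function.update k p x₀ with hk'
  have hk'ne : ∀ y, y ≠ p → k' y = k y := fun y hy => Function.update_of_ne hy _ _
  -- a chart at the limit point
  obtain ⟨φ, hφ, hs, ha⟩ := hx₀ p (mem_ball_self hr0)
  set F : ℂ → A × B := fun y => φ (k' y) with hF
  obtain ⟨η', hη', hballη⟩ := Metric.eventually_nhds_iff_ball.1 (hs.and ha.eventually_analyticAt)
  set η : ℝ := min η' r with hη
  have hη0 : 0 < η := lt_min hη' hr0
  have hηs : ∀ y ∈ ball p η, k' y ∈ φ.source ∧ AnalyticAt ℂ F y := fun y hy =>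
    hballη y (ball_subset_ball (min_le_left _ _) hy)
  have hηr : ∀ y ∈ ball p η, y ∈ ball p r := fun y hy => ball_subset_ball (min_le_right _ _) hy
  set z₁ : ℂ := p + (η / 2 : ℝ) with hz₁
  have hz₁b : z₁ ∈ ball p η := by
    rw [mem_ball, dist_eq_norm, hz₁, add_sub_cancel_left, Complex.norm_real, Real.norm_eq_abs,
      abs_of_pos (by (clear * - hη' hr₁ hr₂; positivity))]
    linarith only [hη0]
  have hz₁p : z₁ ≠ p := by
    intro h
    rw [hz₁] at h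
    have h2 : ((η / 2 : ℝ) : ℂ) = 0 := by simpa only [Complex.ofReal_div, Complex.ofReal_ofNat, div_eq_zero_iff, Complex.ofReal_eq_zero,     OfNat.ofNat_ne_zero, or_false, add_eq_left] using h
    rw [Complex.ofReal_eq_zero] at h2
    linarith only [hη0, h2]
  have hz₁r := hηr z₁ hz₁b
  -- the F-map at `z₁` in the chart
  have hΘ₁ := hΘ z₁ hz₁r hz₁p
  have hval : Θ z₁ (z₁, (T : ℂ)) = k' z₁ := (hk'ne z₁ hz₁p).symm
  obtain ⟨f₁, g₁, hf₁, hg₁, he₁⟩ := hΘ₁.chart_prod K.pAtlas hφ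
    (by rw [hval]; exact (hηs z₁ hz₁b).1)
  have hcz : ContinuousAt (fun y : ℂ => (y, (T : ℂ))) z₁ := by fun_prop
  have hFz : ∀ᶠ y in 𝓝 z₁, F y = (f₁ y, g₁ T) := by
    have e2 := hcz.eventually he₁
    filter_upwards [e2, hloc z₁ hz₁r hz₁p,
      isOpen_compl_singleton.mem_nhds (show z₁ ∈ ({p} : Set ℂ)ᶜ from hz₁p)] with y hy hy2 hy3
    show φ (k' y) = _
    rw [hk'ne y hy3, hy2]
    exact hy.2
  -- the second coordinate is constant
  have hF2 : ∀ y ∈ ball p η, (F y).2 = g₁ T := by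
    have an1 : AnalyticOnNhd ℂ (fun y => (F y).2) (ball p η) := fun y hy =>
      analyticAt_snd.comp' (hηs y hy).2
    have an2 : AnalyticOnNhd ℂ (fun _ : ℂ => g₁ T) (ball p η) := fun y _ => analyticAt_const
    exact an1.eqOn_of_preconnected_of_eventuallyEq an2 (convex_ball p η).isPreconnected hz₁b
      (hFz.mono fun y hy => by simp only; rw [hy])
  set Θ' : ℂ × ℂ → X := fun q => φ.symm ((F q.1).1, g₁ q.2) with hΘ'
  have hFeq : ∀ y ∈ ball p η, ((F y).1, g₁ T) = F y := fun y hy => by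
    rw [← hF2 y hy]
  have hΘ'F : ∀ y ∈ ball p η, IsF 𝒬 Θ' (y, (T : ℂ)) := by
    intro y hy
    refine isF_of_chart (f := fun z => (F z).1) (g := g₁) hφ ?_ hg₁ ?_
    · exact analyticAt_fst.comp' (hηs y hy).2
    · show ((F y).1, g₁ T) ∈ φ.target
      rw [hFeq y hy]
      exact φ.map_source (hηs y hy).1
  -- agreement near `(z₁, T)`
  have hagree : Θ' =ᶠ[𝓝 (z₁, (T : ℂ))] Θ z₁ := by
    have hfst : Tendsto (fun q : ℂ × ℂ => q.1) (𝓝 (z₁, (T : ℂ))) (𝓝 z₁) :=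
      continuous_fst.tendsto _
    have e3 : ∀ᶠ q : ℂ × ℂ in 𝓝 (z₁, (T : ℂ)), F q.1 = (f₁ q.1, g₁ T) :=
      hfst.eventually hFz
    filter_upwards [he₁, e3] with q h2 h3
    show φ.symm ((F q.1).1, g₁ q.2) = Θ z₁ q
    rw [h3, ← h2.2]
    exact φ.left_inv h2.1
  refine ⟨Θ', hΘ'F p (mem_ball_self hη0), ?_⟩
  have hseg : segment ℝ p z₁ ⊆ ball p η :=
    (convex_ball p η).segment_subset (mem_ball_self hη0) hz₁b
  -- the tube
  have htube : ∀ᶠ w in 𝓝 (T : ℂ), ∀ y ∈ segment ℝ p z₁, IsF 𝒬 Θ' (y, w) := by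
    have hcomp : IsCompact (segment ℝ p z₁) := by
      rw [segment_eq_image]
      exact isCompact_Icc.image (by fun_prop)
    refine hcomp.eventually_forall_of_forall_eventually fun y hy => ?_
    have h2 := (hΘ'F y (hseg hy)).eventually
    have h3 : Tendsto (fun q : ℂ × ℂ => (q.2, q.1)) (𝓝 ((T : ℂ), y)) (𝓝 (y, (T : ℂ))) :=
      (by fun_prop : Continuous fun q : ℂ × ℂ => (q.2, q.1)).tendsto _
    exact h3.eventually h2
  have hofReal : Tendsto (fun t : ℝ => (t : ℂ)) (𝓝[<] T) (𝓝 (T : ℂ)) :=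
    (Complex.continuous_ofReal.tendsto T).mono_left nhdsWithin_le_nhds
  have hag2 : ∀ᶠ t : ℝ in 𝓝[<] T, Θ' =ᶠ[𝓝 (z₁, ((t : ℝ) : ℂ))] Θ z₁ := by
    have hc2 : Tendsto (fun t : ℝ => (z₁, (t : ℂ))) (𝓝[<] T) (𝓝 (z₁, (T : ℂ))) :=
      tendsto_const_nhds.prodMk_nhds hofReal
    exact hc2.eventually hagree.eventually_nhds
  have hIoo : Ioo 0 T ∈ 𝓝[<] T := Ioo_mem_nhdsLT hT
  filter_upwards [hofReal.eventually htube, hag2, hΘe z₁ hz₁r hz₁p, hIoo] with t a1 a2 a3 a4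
  refine FOn.eventuallyEq K (S := segment ℝ p z₁ ×ˢ {(t : ℂ)}) ?_ ?_
    ((convex_segment p z₁).isPreconnected.prod isPreconnected_singleton)
    (p := (z₁, (t : ℂ))) ⟨right_mem_segment ℝ p z₁, rfl⟩ (a2.trans a3) (p, (t : ℂ))
    ⟨left_mem_segment ℝ p z₁, rfl⟩
  · rintro ⟨a, b⟩ ⟨ha, hb⟩
    rw [mem_singleton_iff] at hb
    subst hb
    exact a1 a ha
  · rintro ⟨a, b⟩ ⟨ha, hb⟩
    rw [mem_singleton_iff] at hb
    subst hb
    exact h1 a (ball_subset_closedBall (hin a (hηr a (hseg ha)))) t ⟨a4.1.le, a4.2⟩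

end Vale.Agent.P278.Full
end
end

section

section

/-! Lemma T, step (B1): goodness is locally constant where the energy does not concentrate. -/

open Set Topology Filter Metric MeasureTheory
open scoped ContDiff Manifold ComplexConjugate ENNReal

set_option linter.all false

namespace Vale.Agent.P278.Full

variable {X : Type*} [TopologicalSpace X] {A B : Type*} [NormedAddCommGroup A] [NormedSpace ℂ A]
  [NormedAddCommGroup B] [NormedSpace ℂ B]
  {𝒬 : Set (OpenPartialHomeomorph X (A × B))}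
  {H : OpenPartialHomeomorph X (A × B) → A × B → (A × B) →ₗ⋆[ℂ] (A × B) →ₗ[ℂ] ℂ}

/-- The horizontal discs of an F-map. -/
theorem IsF.horiz [CompleteSpace A] [CompleteSpace B] {Ψ : ℂ × ℂ → X} {z w : ℂ} (h : IsF 𝒬 Ψ (z, w)) :
    IsDisc 𝒬 (fun y => Ψ (y, w)) z := by
  obtain ⟨φ, hφ, hs, ha⟩ := h.analyticAt_chart
  have h1 : AnalyticAt ℂ (fun y : ℂ => (y, w)) z := analyticAt_id.prod analyticAt_const
  refine ⟨φ, hφ, h1.continuousAt.eventually (f := fun y : ℂ => (y, w)) hs, ?_⟩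
  exact AnalyticAt.comp' (g := fun q => φ (Ψ q)) (f := fun y : ℂ => (y, w)) ha h1

/-- A map given in a chart by a product is an F-map. -/
theorem IsF.of_chart {φ : OpenPartialHomeomorph X (A × B)} (hφ : φ ∈ 𝒬) {f : ℂ → A} {g : ℂ → B}
    {p : ℂ × ℂ} (hf : AnalyticAt ℂ f p.1) (hg : AnalyticAt ℂ g p.2)
    (ht : ∀ᶠ q in 𝓝 p, (f q.1, g q.2) ∈ φ.target) :
    IsF 𝒬 (fun q => φ.symm (f q.1, g q.2)) p :=
  ⟨φ, hφ, f, g, hf, hg, ht.mono fun q hq => ⟨φ.map_target hq, φ.right_inv hq⟩⟩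

/-- **Step (B1)**. -/
theorem good_locConst [CompactSpace X] [T2Space X] [FiniteDimensional ℂ A] [FiniteDimensional ℂ B]
    (K : KAtlas 𝒬 H) : ∃ ε₀ > 0, LocConstGood 𝒬 H ε₀ := by
  haveI := FiniteDimensional.complete ℂ A
  haveI := FiniteDimensional.complete ℂ B
  obtain ⟨δ, hδ, c, hc, C, hC, hbox⟩ := exists_uniform_box K
  obtain ⟨ε₀, hε₀, CE, hCE, hE⟩ := eps_regularity K
  refine ⟨ε₀, hε₀, ?_⟩
  intro Ψ T p r hT hr hΨ hfr
  set Λ : ℝ := CE * ε₀ / (r / 2) ^ 2 with hΛ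
  have hΛ0 : 0 < Λ := by (clear * - hCE hε₀ hr; positivity)
  set L : ℝ := Real.sqrt (Λ / c) with hL
  have hL0 : 0 ≤ L := Real.sqrt_nonneg _
  have hLsq : c * L ^ 2 = Λ := by
    rw [hL, Real.sq_sqrt (by (clear * - hCE hε₀ hr hc; positivity))]
    (clear * - hc hΛ0; field_simp)
  set η : ℝ := min (r / 4) (δ / (16 * (L + 1))) with hη
  have hη0 : 0 < η := lt_min (by (clear * - hr; positivity)) (by (clear * - hδ hCE hε₀ hr hc; (clear * - hδ hCE hε₀ hr hc; positivity)))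
  have hηr : η ≤ r / 4 := min_le_left _ _
  have hηδ : L * (2 * η) < δ / 4 := by
    have h1 : η ≤ δ / (16 * (L + 1)) := min_le_right _ _
    rw [le_div_iff₀ (by positivity)] at h1
    linarith only [hδ, hη0, h1]
  refine ⟨η, hη0, fun q hq q' hq' hgood => ?_⟩
  obtain ⟨Θ, hΘ, hΘe⟩ := hgood
  obtain ⟨φ, hφ, hx, hsub, hb⟩ := hbox (Θ (q, (T : ℂ)))
  obtain ⟨a, g, ha, hg, hag⟩ := hΘ.chart K hφ hx
  simp only at ha hg
  have hφx : φ (Θ (q, (T : ℂ))) = (a q, g T) := hag.self_of_nhds.2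
  -- the time window
  have hgc : ∀ᶠ w in 𝓝 (T : ℂ), AnalyticAt ℂ g w ∧ ‖g w - g T‖ < δ / 4 := by
    refine hg.eventually_analyticAt.and ?_
    have h1 : ContinuousAt (fun w => ‖g w - g T‖) (T : ℂ) :=
      (hg.continuousAt.sub continuousAt_const).norm
    refine h1.eventually (f := fun w => ‖g w - g T‖) (p := fun y => y < δ / 4) ?_
    simp only [sub_self, norm_zero]
    exact gt_mem_nhds (by positivity)
  obtain ⟨τ₁, hτ₁, hτ1⟩ := Metric.eventually_nhds_iff_ball.1 hag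
  obtain ⟨τ₂, hτ₂, hτ2⟩ := Metric.eventually_nhds_iff_ball.1 hgc
  set τ : ℝ := min τ₁ τ₂ with hτ
  have hτ0 : 0 < τ := lt_min hτ₁ hτ₂
  have hw1 : ∀ z ∈ ball q τ, ∀ w ∈ ball (T : ℂ) τ,
      Θ (z, w) ∈ φ.source ∧ φ (Θ (z, w)) = (a z, g w) := by
    intro z hz w hw
    refine hτ1 (z, w) ?_
    rw [mem_ball, Prod.dist_eq]
    exact max_lt (lt_of_lt_of_le hz (min_le_left _ _)) (lt_of_lt_of_le hw (min_le_left _ _))
  have hw2 : ∀ w ∈ ball (T : ℂ) τ, AnalyticAt ℂ g w ∧ ‖g w - g T‖ < δ / 4 := fun w hw =>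
    hτ2 w (ball_subset_ball (min_le_right _ _) hw)
  have hwin : ∀ᶠ t : ℝ in 𝓝[<] T, t ∈ Ioo (max 0 (T - τ)) T :=
    Ioo_mem_nhdsLT (max_lt hT (by linarith only [hτ0]))
  obtain ⟨t, htE, htΘ, htw⟩ := (hfr.and_eventually (hΘe.and hwin)).exists
  have ht0 : 0 < t := (le_max_left _ _).trans_lt htw.1
  have htτ : T - τ < t := (le_max_right _ _).trans_lt htw.1
  have htT : t < T := htw.2
  have hmemw : ∀ s ∈ Icc t T, ((s : ℝ) : ℂ) ∈ ball (T : ℂ) τ := by
    intro s hs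
    rw [mem_ball, Complex.dist_eq, ← Complex.ofReal_sub, Complex.norm_real, Real.norm_eq_abs,
      abs_sub_comm, abs_of_nonneg (by linarith only [hs.2])]
    linarith only [htτ, hs.1]
  have htw' : (t : ℂ) ∈ ball (T : ℂ) τ := hmemw t ⟨le_rfl, htT.le⟩
  -- the disc `u` at time `t`
  set u : ℂ → X := fun z => Ψ (z, (t : ℂ)) with hu
  have hF : ∀ z ∈ ball p r, IsF 𝒬 Ψ (z, (t : ℂ)) := fun z hz => hΨ z hz t ⟨ht0.le, htT⟩
  have hdisc : ∀ z ∈ ball p r, IsDisc 𝒬 u z := fun z hz => (hF z hz).horiz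
  have heden : ∀ z ∈ ball p (r / 2), eden 𝒬 H u z ≤ c * L ^ 2 := by
    intro z hz
    have hsubz : ball z (r / 2) ⊆ ball p r := by
      intro y hy
      rw [mem_ball] at hy hz ⊢
      have := dist_triangle y z p
      linarith only [hz, hy, this]
    have hlt : energy 𝒬 H u (ball z (r / 2)) < ENNReal.ofReal ε₀ :=
      (energy_mono hsubz).trans_lt htE
    have h1 := hE u z (r / 2) (by positivity) (fun y hy => hdisc y (hsubz hy)) hlt
    refine h1.trans ?_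
    rw [hLsq, hΛ]
    have h2 : (energy 𝒬 H u (ball z (r / 2))).toReal ≤ ε₀ := by
      have := ENNReal.toReal_mono ENNReal.ofReal_ne_top hlt.le
      rwa [ENNReal.toReal_ofReal hε₀.le] at this
    (clear * - h2 hCE hr; gcongr)
  have hηsub : ball p η ⊆ ball p (r / 2) := ball_subset_ball (by linarith only [hη0, hηr])
  have hηsub' : ball p η ⊆ ball p r := ball_subset_ball (by linarith only [hη0, hηr])
  have hΨΘ : Ψ (q, (t : ℂ)) = Θ (q, (t : ℂ)) := htΘ.self_of_nhds.symm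
  have hqt := hw1 q (mem_ball_self hτ0) _ htw'
  have huq : u q ∈ φ.source := by
    show Ψ (q, (t : ℂ)) ∈ φ.source
    rw [hΨΘ]; exact hqt.1
  have huq2 : φ (u q) = (a q, g t) := by
    show φ (Ψ (q, (t : ℂ))) = _
    rw [hΨΘ]; exact hqt.2
  have hdq : dist (φ (u q)) (φ (Θ (q, (T : ℂ)))) < δ / 4 := by
    rw [huq2, hφx, Prod.dist_eq, dist_self, max_eq_right dist_nonneg, dist_eq_norm]
    exact (hw2 _ htw').2
  have hconf : ∀ z ∈ ball p η, u z ∈ φ.source ∧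
      dist (φ (u z)) (φ (Θ (q, (T : ℂ)))) < δ / 2 := by
    intro z hz
    have hseg : segment ℝ q z ⊆ ball p η := (convex_ball p η).segment_subset hq hz
    have hzq : ‖z - q‖ < 2 * η := by
      rw [← dist_eq_norm]
      have h1 := dist_triangle z p q
      rw [mem_ball] at hz hq
      rw [dist_comm p q] at h1
      linarith only [hq, hz, h1]
    have hlt : L * ‖z - q‖ < δ / 4 :=
      (mul_le_mul_of_nonneg_left hzq.le hL0).trans_lt hηδ
    have := seg_confined K hφ hc hsub (fun p hp v => (hb p hp v).1) (u := u) (z₁ := q)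
      (z₂ := z) (fun w hw => hdisc w (hηsub' (hseg hw))) (L := L) hL0
      (fun w hw => heden w (hηsub (hseg hw))) huq (by linarith only [hδ, hdq, hlt])
    refine ⟨this.1, ?_⟩
    have h2 := dist_triangle (φ (u z)) (φ (u q)) (φ (Θ (q, (T : ℂ))))
    have h3 := this.2
    linarith only [hdq, hlt, this, h2]
  -- product form near the points `(z, t)`
  have hprod : ∀ z ∈ ball p η, ∃ (F : ℂ → A) (G : ℂ → B), AnalyticAt ℂ F z ∧
      AnalyticAt ℂ G (t : ℂ) ∧ ∀ᶠ y in 𝓝 (z, (t : ℂ)), Ψ y ∈ φ.source ∧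
        φ (Ψ y) = (F y.1, G y.2) := by
    intro z hz
    exact (hF z (hηsub' hz)).chart K hφ (hconf z hz).1
  set f : ℂ → A := fun z => (φ (Ψ (z, (t : ℂ)))).1 with hf
  have hcz : ∀ z : ℂ, Tendsto (fun y : ℂ => (y, (t : ℂ))) (𝓝 z) (𝓝 (z, (t : ℂ))) := fun z =>
    (Continuous.prodMk_left (t : ℂ)).tendsto z
  have hfan : ∀ z ∈ ball p η, AnalyticAt ℂ f z := by
    intro z hz
    obtain ⟨F, G, hFa, hGa, he⟩ := hprod z hz
    refine hFa.congr ?_
    filter_upwards [(hcz z).eventually he] with y hy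
    simp only [hf]
    rw [hy.2]
  have hsnd : ∀ z ∈ ball p η, (φ (Ψ (z, (t : ℂ)))).2 = g t := by
    intro z hz
    have h1 : (φ (Ψ (z, (t : ℂ)))).2 = (φ (Ψ (q, (t : ℂ)))).2 := by
      refine const_of_loc (f := fun z => (φ (Ψ (z, (t : ℂ)))).2)
        (convex_ball p η).isPreconnected ?_ hz hq
      intro z' hz'
      obtain ⟨F, G, hFa, hGa, he⟩ := hprod z' hz'
      filter_upwards [(hcz z').eventually he] with y hy
      rw [hy.2, he.self_of_nhds.2]
    rw [h1]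
    have := huq2
    simp only [hu] at this
    rw [this]
  -- the continuation
  set Θ' : ℂ × ℂ → X := fun y => φ.symm (f y.1, g y.2) with hΘ'
  have htarget : ∀ z ∈ ball p η, ∀ w ∈ ball (T : ℂ) τ, (f z, g w) ∈ φ.target := by
    intro z hz w hw
    apply hsub
    rw [mem_closedBall, hφx, Prod.dist_eq]
    apply max_le
    · have h1 := (hconf z hz).2
      rw [hφx, Prod.dist_eq] at h1
      have h2 := (le_max_left _ _).trans_lt h1
      simp only at h2 ⊢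
      exact (h2.trans (by linarith only [hδ])).le
    · simp only
      rw [dist_eq_norm]
      linarith only [hδ, (hw2 w hw).2]
  have hΘ'F : ∀ z ∈ ball p η, ∀ w ∈ ball (T : ℂ) τ, IsF 𝒬 Θ' (z, w) := by
    intro z hz w hw
    refine IsF.of_chart hφ (hfan z hz) (hw2 w hw).1 ?_
    have h1 : ball p η ×ˢ ball (T : ℂ) τ ∈ 𝓝 (z, w) :=
      (isOpen_ball.prod isOpen_ball).mem_nhds ⟨hz, hw⟩
    filter_upwards [h1] with y hy
    exact htarget _ hy.1 _ hy.2
  -- agreement near `(q, t)`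
  have hagree : Θ' =ᶠ[𝓝 (q, (t : ℂ))] Ψ := by
    have h1 : ball q τ ×ˢ ball (T : ℂ) τ ∈ 𝓝 (q, (t : ℂ)) :=
      (isOpen_ball.prod isOpen_ball).mem_nhds ⟨mem_ball_self hτ0, htw'⟩
    have h2 : ∀ᶠ z in 𝓝 q, Θ (z, (t : ℂ)) = Ψ (z, (t : ℂ)) := (hcz q).eventually htΘ
    have h3 : ∀ᶠ y in 𝓝 (q, (t : ℂ)), Θ (y.1, (t : ℂ)) = Ψ (y.1, (t : ℂ)) :=
      (continuousAt_fst (p := (q, (t : ℂ)))).eventually
        (p := fun z => Θ (z, (t : ℂ)) = Ψ (z, (t : ℂ))) h2
    filter_upwards [h1, h3, htΘ] with y hy hy3 hyΘ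
    have h4 := hw1 y.1 hy.1 y.2 hy.2
    have h5 := hw1 y.1 hy.1 _ htw'
    have h6 : f y.1 = a y.1 := by
      simp only [hf]
      rw [← hy3, h5.2]
    simp only [hΘ']
    rw [h6, ← h4.2, φ.left_inv h4.1]
    exact hyΘ
  have hS : IsPreconnected (ball p η ×ˢ ((fun s : ℝ => (s : ℂ)) '' Ico t T)) :=
    (convex_ball p η).isPreconnected.prod
      (isPreconnected_Ico.image _ Complex.continuous_ofReal.continuousOn)
  have hFΨ : FOn 𝒬 Ψ (ball p η ×ˢ ((fun s : ℝ => (s : ℂ)) '' Ico t T)) := by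
    rintro ⟨z, w⟩ ⟨hz, s, hs, rfl⟩
    exact hΨ z (hηsub' hz) s ⟨ht0.le.trans hs.1, hs.2⟩
  have hFΘ : FOn 𝒬 Θ' (ball p η ×ˢ ((fun s : ℝ => (s : ℂ)) '' Ico t T)) := by
    rintro ⟨z, w⟩ ⟨hz, s, hs, rfl⟩
    exact hΘ'F z hz _ (hmemw s ⟨hs.1, hs.2.le⟩)
  have hall := FOn.eventuallyEq K hFΘ hFΨ hS
    (show (q, (t : ℂ)) ∈ _ from ⟨hq, t, ⟨le_rfl, htT⟩, rfl⟩) hagree
  refine ⟨Θ', hΘ'F q' hq' _ (mem_ball_self hτ0), ?_⟩
  filter_upwards [Ico_mem_nhdsLT htT] with s hs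
  exact hall _ ⟨hq', s, hs, rfl⟩

end Vale.Agent.P278.Full
end
end

section

section

open Set Topology Filter Metric TopologicalSpace
open scoped Manifold ContDiff unitInterval

set_option linter.unusedSectionVars false

namespace Vale.Agent.P278.Full

variable {M A B E : Type*} [TopologicalSpace M] [NormedAddCommGroup A] [NormedSpace ℂ A]
  [NormedAddCommGroup B] [NormedSpace ℂ B] [NormedAddCommGroup E] [NormedSpace ℂ E]
  [ChartedSpace E M] {𝒜 : Set (OpenPartialHomeomorph M (A × B))} [h𝒜 : BoxAtlas 𝒜]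

/-- A box in a chart is preconnected. -/
theorem isPreconnected_box {ψ : OpenPartialHomeomorph M (A × B)} {V : Set A} {B' : Set B}
    (hV : IsPreconnected V) (hB' : IsPreconnected B')
    (hVB : ∀ a ∈ V, ∀ b ∈ B', (a, b) ∈ ψ.target) :
    IsPreconnected {y | y ∈ ψ.source ∧ ψ y ∈ V ×ˢ B'} := by
  have h1 : {y | y ∈ ψ.source ∧ ψ y ∈ V ×ˢ B'} = ψ.symm '' (V ×ˢ B') := by
    ext y
    constructor
    · rintro ⟨h1, h2⟩
      exact ⟨ψ y, h2, ψ.left_inv h1⟩
    · rintro ⟨p, hp, rfl⟩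
      have hpt : p ∈ ψ.target := hVB p.1 hp.1 p.2 hp.2
      refine ⟨ψ.map_target hpt, ?_⟩
      rw [ψ.right_inv hpt]; exact hp
  rw [h1]
  exact (hV.prod hB').image _ (ψ.continuousOn_symm.mono fun p hp => hVB p.1 hp.1 p.2 hp.2)

/-- Small boxes around a point, in a given chart. -/
theorem exists_box {φ : OpenPartialHomeomorph M (A × B)} {x : M} (hx : x ∈ φ.source) {O : Set M}
    (hO : O ∈ 𝓝 x) : ∃ ρ > 0, ∀ a ∈ ball (φ x).1 ρ, ∀ b ∈ ball (φ x).2 ρ,
      (a, b) ∈ φ.target ∧ φ.symm (a, b) ∈ O := by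
  have hO' : IsOpen (φ.target ∩ φ.symm ⁻¹' (interior O)) :=
    φ.symm.isOpen_inter_preimage isOpen_interior
  have hmem : φ x ∈ φ.target ∩ φ.symm ⁻¹' (interior O) := by
    refine ⟨φ.map_source hx, ?_⟩
    show φ.symm (φ x) ∈ interior O
    rw [φ.left_inv hx]
    exact mem_interior_iff_mem_nhds.2 hO
  obtain ⟨ρ, hρ, hball⟩ := Metric.isOpen_iff.1 hO' _ hmem
  rw [← ball_prod_same] at hball
  refine ⟨ρ, hρ, fun a ha b hb => ?_⟩
  have := hball (show (a, b) ∈ ball (φ x).1 ρ ×ˢ ball (φ x).2 ρ from ⟨ha, hb⟩)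
  exact ⟨this.1, interior_subset this.2⟩

/-- Admissibility is an open property. -/
theorem adm_eventually {x : M} {f : M → Leaf 𝒜} (h : Adm 𝒜 x f) : ∀ᶠ y in 𝓝 x, Adm 𝒜 y f := by
  induction h with
  | base φ hφ a ha =>
    obtain ⟨ρ, hρ, hb⟩ := exists_box ha (O := univ) univ_mem
    have hVB : ∀ a' ∈ ball (φ a).1 ρ, ∀ b ∈ ball (φ a).2 ρ, (a', b) ∈ φ.target :=
      fun a' ha' b hb' => (hb a' ha' b hb').1
    have e1 : ∀ᶠ y in 𝓝 a, φ y ∈ ball (φ a).1 ρ ×ˢ ball (φ a).2 ρ :=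
      (φ.continuousAt ha).eventually_mem
        ((isOpen_ball.prod isOpen_ball).mem_nhds ⟨mem_ball_self hρ, mem_ball_self hρ⟩)
    filter_upwards [e1, φ.open_source.mem_nhds ha] with y h1 h2
    have ht := hVB _ h1.1 _ (mem_ball_self hρ)
    have h3 : Adm 𝒜 (φ.symm ((φ y).1, (φ a).2))
        (fun w => (Leaf.toM 𝒜).symm (φ.symm ((φ w).1, (φ a).2))) := by
      have := Adm.base φ hφ _ (φ.map_target ht)
      rwa [φ.right_inv ht] at this
    have h4 := Adm.cont φ hφ (ball (φ a).1 ρ) (ball (φ a).2 ρ) isOpen_ball isOpen_ball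
      (convex_ball _ _).isPreconnected hVB
      (fun w => (Leaf.toM 𝒜).symm (φ.symm ((φ w).1, (φ a).2)))
      (fun u hu c hc c' hc' => by
        show (Leaf.toM 𝒜).symm (φ.symm ((φ (φ.symm (u, c))).1, (φ a).2)) =
          (Leaf.toM 𝒜).symm (φ.symm ((φ (φ.symm (u, c'))).1, (φ a).2))
        rw [φ.right_inv (hVB u hu c hc), φ.right_inv (hVB u hu c' hc')])
      (φ y).1 h1.1 (φ a).2 (φ y).2 (mem_ball_self hρ) h1.2 h3
    rwa [show ((φ y).1, (φ y).2) = φ y from rfl, φ.left_inv h2] at h4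
  | germ x f g _ hgf ih =>
    filter_upwards [ih, hgf.eventuallyEq_nhds] with y h1 h2
    exact Adm.germ y f g h1 h2
  | cont φ hφ V B' hV hB'o hB' hVB f hf a ha b b' hb hb' _ ih =>
    have hat : (a, b') ∈ φ.target := hVB a ha b' hb'
    have hat0 : (a, b) ∈ φ.target := hVB a ha b hb
    set x := φ.symm (a, b') with hxdef
    have hxs : x ∈ φ.source := φ.map_target hat
    have hφx : φ x = (a, b') := φ.right_inv hat
    have e1 : ∀ᶠ y in 𝓝 x, φ y ∈ V ×ˢ B' :=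
      (φ.continuousAt hxs).eventually_mem (by rw [hφx]; exact (hV.prod hB'o).mem_nhds ⟨ha, hb'⟩)
    have e2 : Tendsto (fun y => φ.symm ((φ y).1, b)) (𝓝 x) (𝓝 (φ.symm (a, b))) := by
      have s1 : ContinuousAt (fun y => ((φ y).1, b)) x :=
        (continuousAt_fst.comp (φ.continuousAt hxs)).prodMk continuousAt_const
      have s2 : ContinuousAt φ.symm ((fun y => ((φ y).1, b)) x) := by
        apply φ.continuousAt_symm
        show ((φ x).1, b) ∈ φ.target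
        rw [hφx]; exact hat0
      have s3 : Tendsto (fun y => φ.symm ((φ y).1, b)) (𝓝 x) (𝓝 (φ.symm ((φ x).1, b))) :=
        (ContinuousAt.comp (g := φ.symm) (f := fun y => ((φ y).1, b)) (x := x) s2 s1).tendsto
      rwa [hφx] at s3
    filter_upwards [e1, e2.eventually ih, φ.open_source.mem_nhds hxs] with y h1 h2 h3
    have h4 := Adm.cont φ hφ V B' hV hB'o hB' hVB f hf (φ y).1 h1.1 b (φ y).2 hb h1.2 h2
    rwa [show ((φ y).1, (φ y).2) = φ y from rfl, φ.left_inv h3] at h4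

theorem admGerm_eventually (x : M) (f : M → Leaf 𝒜)
    (h : (f : Germ (𝓝 x) (Leaf 𝒜)) ∈ AdmGerm 𝒜 x) :
    ∀ᶠ y in 𝓝 x, (f : Germ (𝓝 y) (Leaf 𝒜)) ∈ AdmGerm 𝒜 y := by
  filter_upwards [adm_eventually (coe_mem_admGerm.1 h)] with y hy
  exact coe_mem_admGerm.2 hy

/-- Identity theorem for admissible germs. -/
theorem adm_ident [T2Space M] [CompleteSpace A] [hA : AnaCompat (E := E) 𝒜] {U : Set M}
    (hU : IsPreconnected U) {f g : M → Leaf 𝒜} (hf : ∀ y ∈ U, Adm 𝒜 y f)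
    (hg : ∀ y ∈ U, Adm 𝒜 y g) {y : M} (hy : y ∈ U) (hfg : f =ᶠ[𝓝 y] g) :
    ∀ z ∈ U, f =ᶠ[𝓝 z] g :=
  eventuallyEq_of_isPreconnected (E := E) (E' := A) hU
    (fun u hu => (hf u hu).contMDiffAt) (fun u hu => (hg u hu).contMDiffAt) hy hfg

/-- Open preconnected neighbourhoods where an admissible germ is admissible. -/
theorem exists_preconn_nhds {x : M} {f g : M → Leaf 𝒜} (hf : Adm 𝒜 x f) (hg : Adm 𝒜 x g) :
    ∃ U, IsOpen U ∧ x ∈ U ∧ IsPreconnected U ∧ (∀ y ∈ U, Adm 𝒜 y f) ∧ ∀ y ∈ U, Adm 𝒜 y g := by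
  obtain ⟨φ, hφ, hx⟩ := FolAtlas.cover (𝒜 := 𝒜) x
  obtain ⟨ρ, hρ, hb⟩ := exists_box hx ((adm_eventually hf).and (adm_eventually hg))
  have hVB : ∀ a' ∈ ball (φ x).1 ρ, ∀ b ∈ ball (φ x).2 ρ, (a', b) ∈ φ.target :=
    fun a' ha' b hb' => (hb a' ha' b hb').1
  have key : ∀ y ∈ {y | y ∈ φ.source ∧ φ y ∈ ball (φ x).1 ρ ×ˢ ball (φ x).2 ρ},
      Adm 𝒜 y f ∧ Adm 𝒜 y g := by
    rintro y ⟨h1, h2⟩
    have := (hb _ h2.1 _ h2.2).2
    rwa [show ((φ y).1, (φ y).2) = φ y from rfl, φ.left_inv h1] at this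
  refine ⟨{y | y ∈ φ.source ∧ φ y ∈ ball (φ x).1 ρ ×ˢ ball (φ x).2 ρ},
    φ.isOpen_inter_preimage (isOpen_ball.prod isOpen_ball),
    ⟨hx, mem_ball_self hρ, mem_ball_self hρ⟩,
    isPreconnected_box (convex_ball _ _).isPreconnected (convex_ball _ _).isPreconnected hVB,
    fun y hy => (key y hy).1, fun y hy => (key y hy).2⟩

theorem isLocalHomeomorph_adm : IsLocalHomeomorph (Etale.proj (V := AdmGerm 𝒜)) :=
  isLocalHomeomorph_etale admGerm_eventually

theorem isSeparatedMap_adm [T2Space M] [CompleteSpace A] [hA : AnaCompat (E := E) 𝒜] :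
    IsSeparatedMap (Etale.proj (V := AdmGerm 𝒜)) := by
  apply isSeparatedMap_etale
  intro x f g hf hg
  obtain ⟨U, h1, h2, h3, h4, h5⟩ := exists_preconn_nhds (coe_mem_admGerm.1 hf) (coe_mem_admGerm.1 hg)
  refine ⟨U, h1, h2, ?_⟩
  rintro ⟨y, hy, hyfg⟩
  exact adm_ident (E := E) h3 h4 h5 hy hyfg x h2

theorem adm_congr {x : M} {f g : M → Leaf 𝒜} (hf : Adm 𝒜 x f) (hg : Adm 𝒜 x g)
    (h : f =ᶠ[𝓝 x] g) : adm 𝒜 hf = adm 𝒜 hg :=
  mkE_congr (V := AdmGerm 𝒜) (coe_mem_admGerm.2 hf) (coe_mem_admGerm.2 hg) h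

theorem eventuallyEq_of_adm_eq {x : M} {f g : M → Leaf 𝒜} {hf : Adm 𝒜 x f} {hg : Adm 𝒜 x g}
    (h : adm 𝒜 hf = adm 𝒜 hg) : f =ᶠ[𝓝 x] g := by
  have h1 : ∀ s s' : Etale (AdmGerm 𝒜), s = s' → HEq s.2.1 s'.2.1 := by
    rintro s _ rfl; rfl
  exact Germ.coe_eq.1 (eq_of_heq (h1 _ _ h))

theorem exists_eq_adm (s : Etale (AdmGerm 𝒜)) :
    ∃ (x : M) (f : M → Leaf 𝒜) (h : Adm 𝒜 x f), s = adm 𝒜 h := by
  obtain ⟨x, f, h, rfl⟩ := exists_eq_mkE s
  exact ⟨x, f, coe_mem_admGerm.1 h, rfl⟩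

/-- Continuity of a family given by one admissible germ. -/
theorem continuousAt_adm {N : Type*} [TopologicalSpace N] {Γ : N → Etale (AdmGerm 𝒜)} {γ : N → M}
    {n : N} (hγ : ContinuousAt γ n) (f : M → Leaf 𝒜)
    (h : ∀ᶠ n' in 𝓝 n, ∃ hf : Adm 𝒜 (γ n') f, Γ n' = adm 𝒜 hf) : ContinuousAt Γ n := by
  refine continuousAt_etale hγ f ?_
  filter_upwards [h] with n' hn'
  obtain ⟨hf, h1⟩ := hn'
  exact ⟨coe_mem_admGerm.2 hf, h1⟩

/-- Local description of a continuous family of germs. -/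
theorem eventually_eq_adm {N : Type*} [TopologicalSpace N] {Γ : N → Etale (AdmGerm 𝒜)}
    {n : N} (hΓ : ContinuousAt Γ n) {x : M} {f : M → Leaf 𝒜} {hf : Adm 𝒜 x f}
    (h : Γ n = adm 𝒜 hf) :
    ∀ᶠ n' in 𝓝 n, ∃ hf' : Adm 𝒜 (Etale.proj (Γ n')) f, Γ n' = adm 𝒜 hf' := by
  have h1 : (Γ n).2.1 = (f : Germ (𝓝 (Γ n).1) (Leaf 𝒜)) := by
    rw [h]; rfl
  filter_upwards [eventually_germ_eq hΓ h1] with n' h2
  obtain ⟨y, g, hg, h3⟩ := exists_eq_adm (Γ n')
  rw [h3] at h2 ⊢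
  have h4 : g =ᶠ[𝓝 y] f := Germ.coe_eq.1 h2
  have h5 : Adm 𝒜 y f := Adm.germ y g f hg h4.symm
  exact ⟨h5, adm_congr hg h5 h4⟩

end Vale.Agent.P278.Full
end
end

section

section

open Set Topology Filter Metric TopologicalSpace
open scoped Manifold ContDiff unitInterval

set_option linter.unusedSectionVars false

namespace Vale.Agent.P278.Full

variable {M A B E : Type*} [TopologicalSpace M] [NormedAddCommGroup A] [NormedSpace ℂ A]
  [NormedAddCommGroup B] [NormedSpace ℂ B] [NormedAddCommGroup E] [NormedSpace ℂ E]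
  [ChartedSpace E M] {𝒜 : Set (OpenPartialHomeomorph M (A × B))} [h𝒜 : BoxAtlas 𝒜]

/-- The second factor of a box is open. -/
theorem isOpen_box_snd {φ : OpenPartialHomeomorph M (A × B)} (hφ : φ ∈ 𝒜) {a : A} {b : B}
    (h : (a, b) ∈ φ.target) : ∃ V : Set B, IsOpen V ∧ IsPreconnected V ∧
      (∀ b', (a, b') ∈ φ.target ↔ b' ∈ V) ∧
      ∀ a' b', b' ∈ V → (a', b) ∈ φ.target → (a', b') ∈ φ.target := by
  obtain ⟨U, V, hU, hV, hUV⟩ := h𝒜.box φ hφ
  have ha : a ∈ U := by rw [hUV] at h; exact h.1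
  have h1 : ∀ b', (a, b') ∈ φ.target ↔ b' ∈ V := by
    intro b'
    rw [hUV]
    exact ⟨fun h => h.2, fun h => ⟨ha, h⟩⟩
  refine ⟨V, ?_, hV, h1, ?_⟩
  · have : V = (fun b' => (a, b')) ⁻¹' φ.target := by
      ext b'; exact (h1 b').symm
    rw [this]
    exact φ.open_target.preimage (by fun_prop)
  · intro a' b' hb' ha'
    rw [hUV] at ha' ⊢
    exact ⟨ha'.1, hb'⟩

/-- An admissible germ extends along the plaque of the second foliation. -/
theorem adm_extend_plaque {φ : OpenPartialHomeomorph M (A × B)} (hφ : φ ∈ 𝒜) {a : A} {b : B}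
    (h : (a, b) ∈ φ.target) {f : M → Leaf 𝒜} (hf : Adm 𝒜 (φ.symm (a, b)) f) :
    (fun y => f (φ.symm ((φ y).1, b))) =ᶠ[𝓝 (φ.symm (a, b))] f ∧
    ∀ b', (a, b') ∈ φ.target → Adm 𝒜 (φ.symm (a, b')) (fun y => f (φ.symm ((φ y).1, b))) := by
  obtain ⟨V, hVo, hVp, hV, hV'⟩ := isOpen_box_snd hφ h
  have hxs : φ.symm (a, b) ∈ φ.source := φ.map_target h
  have hφx : φ (φ.symm (a, b)) = (a, b) := φ.right_inv h
  constructor
  · have h1 := hf.inv2 hφ hxs
    rw [hφx] at h1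
    have h2 : Tendsto φ (𝓝 (φ.symm (a, b))) (𝓝 (a, b)) := by
      have := (φ.continuousAt hxs).tendsto
      rwa [hφx] at this
    filter_upwards [h2.eventually h1, φ.open_source.mem_nhds hxs] with y h3 h4
    rw [← h3, φ.left_inv h4]
  · -- a small neighbourhood of `a` in the plaque
    have h1 : ∀ᶠ a' in 𝓝 a, (a', b) ∈ φ.target ∧ Adm 𝒜 (φ.symm (a', b)) f := by
      have hc : ContinuousAt (fun a' : A => (a', b)) a := by fun_prop
      have hc2 : ContinuousAt (fun a' => φ.symm (a', b)) a :=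
        ContinuousAt.comp (g := φ.symm) (f := fun a' => (a', b)) (φ.continuousAt_symm h) hc
      exact (hc.eventually_mem (φ.open_target.mem_nhds h)).and
        (hc2.eventually (adm_eventually hf))
    obtain ⟨W, hW, hWo, haW⟩ := _root_.eventually_nhds_iff.1 h1
    intro b' hb'
    exact Adm.displace hφ hWo hVo hVp (fun a' ha' c hc => hV' a' c hc (hW a' ha').1)
      ((hV b).1 h) (fun a' ha' => (hW a' ha').2) haW ((hV b').1 hb')

/-- Lifting of paths tangent to the second foliation. -/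
theorem exists_lift_path2 [T2Space M] [CompleteSpace A] [hA : AnaCompat (E := E) 𝒜] {γ : ℝ → M}
    (hγ : IsPath2 𝒜 γ) {f : M → Leaf 𝒜} (hf : Adm 𝒜 (γ 0) f) :
    ∃ Γ : ℝ → Etale (AdmGerm 𝒜), Continuous Γ ∧ (∀ t, Etale.proj (Γ t) = γ t) ∧ Γ 0 = adm 𝒜 hf := by
  let V : ∀ t : ℝ, Set (Germ (𝓝 t) (Etale (AdmGerm 𝒜))) := fun t =>
    {δ | ∃ (F : ℝ → Etale (AdmGerm 𝒜)) (g : M → Leaf 𝒜),
      ((F : ℝ → Etale (AdmGerm 𝒜)) : Germ (𝓝 t) (Etale (AdmGerm 𝒜))) = δ ∧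
      ∀ᶠ t' in 𝓝 t, ∃ h : Adm 𝒜 (γ t') g, F t' = adm 𝒜 h}
  have hmemV : ∀ (t : ℝ) (F : ℝ → Etale (AdmGerm 𝒜)),
      ((F : ℝ → Etale (AdmGerm 𝒜)) : Germ (𝓝 t) (Etale (AdmGerm 𝒜))) ∈ V t ↔
      ∃ g : M → Leaf 𝒜, ∀ᶠ t' in 𝓝 t, ∃ h : Adm 𝒜 (γ t') g, F t' = adm 𝒜 h := by
    intro t F
    constructor
    · rintro ⟨F', g, h1, h2⟩
      refine ⟨g, ?_⟩
      filter_upwards [h2, Germ.coe_eq.1 h1] with t' h3 h4
      rw [← h4]; exact h3
    · rintro ⟨g, hg⟩
      exact ⟨F, g, rfl, hg⟩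
  -- local triviality
  have hloc : ∀ t : ℝ, ∃ (U : Set ℝ) (S : Set (ℝ → Etale (AdmGerm 𝒜))), IsOpen U ∧ t ∈ U ∧
      (∀ f ∈ S, ∀ y ∈ U, ((f : ℝ → Etale (AdmGerm 𝒜)) : Germ (𝓝 y) (Etale (AdmGerm 𝒜))) ∈ V y) ∧
      (∀ y ∈ U, ∀ γ ∈ V y, ∃ f ∈ S,
        ((f : ℝ → Etale (AdmGerm 𝒜)) : Germ (𝓝 y) (Etale (AdmGerm 𝒜))) = γ) ∧
      (∀ f ∈ S, ∀ f' ∈ S, ∀ y ∈ U, f =ᶠ[𝓝 y] f' → ∀ z ∈ U, f =ᶠ[𝓝 z] f') := by
    intro t₀
    obtain ⟨φ, hφ, h0, h1⟩ := hγ.2 t₀
    set a := (φ (γ t₀)).1 with ha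
    have h2 : ∀ᶠ t in 𝓝 t₀, γ t ∈ φ.source :=
      hγ.1.continuousAt.eventually_mem (φ.open_source.mem_nhds h0)
    obtain ⟨ε, hε, hball⟩ := Metric.eventually_nhds_iff_ball.1 (h1.and h2)
    have hsrc : ∀ t ∈ ball t₀ ε, γ t ∈ φ.source := fun t ht => (hball t ht).2
    have hpt : ∀ t ∈ ball t₀ ε, φ.symm (a, (φ (γ t)).2) = γ t := by
      intro t ht
      rw [← (hball t ht).1]
      exact φ.left_inv (hsrc t ht)
    have htt : ∀ t ∈ ball t₀ ε, (a, (φ (γ t)).2) ∈ φ.target := by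
      intro t ht
      rw [← (hball t ht).1]
      exact φ.map_source (hsrc t ht)
    refine ⟨ball t₀ ε, {F | ∃ g : M → Leaf 𝒜, ∀ t ∈ ball t₀ ε, ∃ h : Adm 𝒜 (γ t) g,
      F t = adm 𝒜 h}, isOpen_ball, mem_ball_self hε, ?_, ?_, ?_⟩
    · rintro F ⟨g, hg⟩ t ht
      rw [hmemV]
      exact ⟨g, by filter_upwards [isOpen_ball.mem_nhds ht] with t' ht' using hg t' ht'⟩
    · rintro t ht _ ⟨F, g, rfl, hg⟩
      obtain ⟨hgt, hFt⟩ := hg.self_of_nhds
      have hgt' : Adm 𝒜 (φ.symm (a, (φ (γ t)).2)) g := by rw [hpt t ht]; exact hgt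
      obtain ⟨k1, k2⟩ := adm_extend_plaque hφ (htt t ht) hgt'
      rw [hpt t ht] at k1
      set g' : M → Leaf 𝒜 := fun y => g (φ.symm ((φ y).1, (φ (γ t)).2)) with hg'
      have k3 : ∀ t' ∈ ball t₀ ε, Adm 𝒜 (γ t') g' := by
        intro t' ht'
        have := k2 _ (htt t' ht')
        rwa [hpt t' ht'] at this
      classical
      refine ⟨fun t' => if h : t' ∈ ball t₀ ε then adm 𝒜 (k3 t' h) else F t', ⟨g', ?_⟩, ?_⟩
      · intro t' ht'
        exact ⟨k3 t' ht', dif_pos ht'⟩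
      · apply Germ.coe_eq.2
        filter_upwards [isOpen_ball.mem_nhds ht, hg,
          hγ.1.continuousAt.eventually k1.eventuallyEq_nhds] with t' l1 l2 l3
        obtain ⟨l4, l5⟩ := l2
        show (if h : t' ∈ ball t₀ ε then adm 𝒜 (k3 t' h) else F t') = F t'
        rw [dif_pos l1, l5]
        exact adm_congr _ _ l3
    · rintro F ⟨g, hg⟩ F' ⟨g', hg'⟩ t ht hFF' z hz
      -- the germs agree at `γ t`
      obtain ⟨m1, m2⟩ := hg t ht
      obtain ⟨m3, m4⟩ := hg' t ht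
      have m5 : g =ᶠ[𝓝 (γ t)] g' := by
        have := hFF'.self_of_nhds
        rw [m2, m4] at this
        exact eventuallyEq_of_adm_eq this
      have hpre : IsPreconnected (γ '' ball t₀ ε) :=
        (convex_ball t₀ ε).isPreconnected.image _ hγ.1.continuousOn
      have m6 := adm_ident (E := E) hpre (f := g) (g := g')
        (by rintro _ ⟨t', ht', rfl⟩; exact (hg t' ht').choose)
        (by rintro _ ⟨t', ht', rfl⟩; exact (hg' t' ht').choose)
        (mem_image_of_mem γ ht) m5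
      filter_upwards [isOpen_ball.mem_nhds hz] with t' ht'
      obtain ⟨n1, n2⟩ := hg t' ht'
      obtain ⟨n3, n4⟩ := hg' t' ht'
      rw [n2, n4]
      exact adm_congr _ _ (m6 _ (mem_image_of_mem γ ht'))
  -- the initial germ
  classical
  let F₀ : ℝ → Etale (AdmGerm 𝒜) := fun t =>
    if h : Adm 𝒜 (γ t) f then adm 𝒜 h else adm 𝒜 hf
  have hF₀ : ((F₀ : ℝ → Etale (AdmGerm 𝒜)) : Germ (𝓝 (0 : ℝ)) (Etale (AdmGerm 𝒜))) ∈ V 0 := by
    rw [hmemV]
    refine ⟨f, ?_⟩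
    filter_upwards [hγ.1.continuousAt.eventually (adm_eventually hf)] with t ht
    exact ⟨ht, dif_pos ht⟩
  obtain ⟨Γ, hΓ, hΓ0⟩ := exists_global_of_germs (V := V) hloc 0 F₀ hF₀
  have key : ∀ t, ∃ g : M → Leaf 𝒜, ∀ᶠ t' in 𝓝 t, ∃ h : Adm 𝒜 (γ t') g, Γ t' = adm 𝒜 h :=
    fun t => (hmemV t Γ).1 (hΓ t)
  refine ⟨Γ, ?_, ?_, ?_⟩
  · rw [continuous_iff_continuousAt]
    intro t
    obtain ⟨g, hg⟩ := key t
    exact continuousAt_adm hγ.1.continuousAt g hg
  · intro t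
    obtain ⟨g, hg⟩ := key t
    obtain ⟨h1, h2⟩ := hg.self_of_nhds
    rw [h2]; rfl
  · rw [hΓ0.self_of_nhds]
    exact dif_pos hf

end Vale.Agent.P278.Full
end
end

section

section

open Set Topology Filter Metric TopologicalSpace
open scoped Manifold ContDiff unitInterval

set_option linter.unusedSectionVars false

namespace Vale.Agent.P278.Full

variable {M A B E : Type*} [TopologicalSpace M] [NormedAddCommGroup A] [NormedSpace ℂ A]
  [NormedAddCommGroup B] [NormedSpace ℂ B] [NormedAddCommGroup E] [NormedSpace ℂ E]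
  [ChartedSpace E M] {𝒜 : Set (OpenPartialHomeomorph M (A × B))}

/-- Extension of a disc of the first foliation along an analytic arc of the second one, inside a
chart. -/
def SegExt (𝒜 : Set (OpenPartialHomeomorph M (A × B))) : Prop :=
  ∀ (R r : ℝ), 0 < r → r < R → ∀ l : ℂ → M, (∀ z ∈ ball (0 : ℂ) R, IsDisc1 𝒜 l z) →
    ∀ φ ∈ 𝒜, ∀ (a : A) (b c : B), (∀ w ∈ ball (0 : ℂ) 2, (a, b + w • c) ∈ φ.target) →
    l 0 = φ.symm (a, b) →
    ∃ Ψ : ℂ × ℂ → M, FOn 𝒜 Ψ (ball 0 r ×ˢ ball 0 (3/2)) ∧ (∀ z ∈ ball (0 : ℂ) r, Ψ (z, 0) = l z) ∧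
      ∀ w ∈ ball (0 : ℂ) (3/2), Ψ (0, w) = φ.symm (a, b + w • c)

theorem isF_continuousAt {Ψ : ℂ × ℂ → M} {p : ℂ × ℂ} (h : IsF 𝒜 Ψ p) : ContinuousAt Ψ p := by
  obtain ⟨φ, hφ, f, g, hf, hg, hq⟩ := h
  have h1 : Ψ =ᶠ[𝓝 p] fun q => φ.symm (f q.1, g q.2) := by
    filter_upwards [hq] with q hq
    rw [← hq.2, φ.left_inv hq.1]
  rw [continuousAt_congr h1]
  have h2 := hq.self_of_nhds
  have h3 : (f p.1, g p.2) ∈ φ.target := by
    rw [← h2.2]; exact φ.map_source h2.1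
  have h4 : ContinuousAt (fun q : ℂ × ℂ => (f q.1, g q.2)) p :=
    (hf.continuousAt.comp continuousAt_fst).prodMk (hg.continuousAt.comp continuousAt_snd)
  exact ContinuousAt.comp (g := φ.symm) (f := fun q : ℂ × ℂ => (f q.1, g q.2))
    (φ.continuousAt_symm h3) h4

theorem IsDisc1.continuousAt {u : ℂ → M} {z : ℂ} (h : IsDisc1 𝒜 u z) : ContinuousAt u z := by
  obtain ⟨φ, hφ, f, hf, hq⟩ := h
  have h1 : u =ᶠ[𝓝 z] fun y => φ.symm (f y, (φ (u z)).2) := by
    filter_upwards [hq] with q hq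
    rw [← hq.2, φ.left_inv hq.1]
  rw [continuousAt_congr h1]
  have h2 := hq.self_of_nhds
  have h3 : (f z, (φ (u z)).2) ∈ φ.target := by
    rw [← h2.2]; exact φ.map_source h2.1
  have h4 : ContinuousAt (fun y => (f y, (φ (u z)).2)) z :=
    hf.continuousAt.prodMk continuousAt_const
  exact ContinuousAt.comp (g := φ.symm) (f := fun y => (f y, (φ (u z)).2))
    (φ.continuousAt_symm h3) h4

/-- The horizontal slices of an F-map are discs. -/
theorem IsF.isDisc1 {Ψ : ℂ × ℂ → M} {z w : ℂ} (h : IsF 𝒜 Ψ (z, w)) :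
    IsDisc1 𝒜 (fun y => Ψ (y, w)) z := by
  obtain ⟨φ, hφ, f, g, hf, hg, hq⟩ := h
  refine ⟨φ, hφ, f, hf, ?_⟩
  have h2 := hq.self_of_nhds
  have h3 : (φ (Ψ (z, w))).2 = g w := by rw [h2.2]
  have h4 : Tendsto (fun y : ℂ => (y, w)) (𝓝 z) (𝓝 (z, w)) := by
    have : ContinuousAt (fun y : ℂ => (y, w)) z := by fun_prop
    exact this.tendsto
  filter_upwards [h4.eventually hq] with y hy
  refine ⟨hy.1, ?_⟩
  show φ (Ψ (y, w)) = (f y, (φ (Ψ (z, w))).2)
  rw [h3, hy.2]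

/-- The vertical slices of an F-map. -/
theorem IsF.vertical {Ψ : ℂ × ℂ → M} {z w : ℂ} (h : IsF 𝒜 Ψ (z, w)) :
    ∃ φ ∈ 𝒜, Ψ (z, w) ∈ φ.source ∧ ∀ᶠ y in 𝓝 w, (φ (Ψ (z, y))).1 = (φ (Ψ (z, w))).1 := by
  obtain ⟨φ, hφ, f, g, hf, hg, hq⟩ := h
  have h2 := hq.self_of_nhds
  refine ⟨φ, hφ, h2.1, ?_⟩
  have h4 : Tendsto (fun y : ℂ => (z, y)) (𝓝 w) (𝓝 (z, w)) := by
    have : ContinuousAt (fun y : ℂ => (z, y)) w := by fun_prop
    exact this.tendsto
  filter_upwards [h4.eventually hq] with y hy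
  rw [hy.2, h2.2]

variable [h𝒜 : BoxAtlas 𝒜]

/-- Every horizontal disc through `x` lifts to the space of germs. -/
def DiscLift (𝒜 : Set (OpenPartialHomeomorph M (A × B))) (x : M) (f : M → Leaf 𝒜) : Prop :=
  ∃ h : Adm 𝒜 x f, ∀ (R r : ℝ) (hr : 0 < r), r < R → ∀ l : ℂ → M,
    (∀ z ∈ ball (0 : ℂ) R, IsDisc1 𝒜 l z) → l 0 = x →
    ∃ s : ball (0 : ℂ) r → Etale (AdmGerm 𝒜), Continuous s ∧ (∀ z, Etale.proj (s z) = l z) ∧
      s ⟨0, mem_ball_self hr⟩ = adm 𝒜 h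

theorem mem_ball_32 {t : ℝ} (h0 : 0 ≤ t) (h1 : t ≤ 1) : (t : ℂ) ∈ ball (0 : ℂ) (3/2) := by
  rw [mem_ball_zero_iff, Complex.norm_real, Real.norm_eq_abs, abs_of_nonneg h0]
  linarith only [h1]

set_option maxHeartbeats 800000 in
theorem discLift_step [T2Space M] [CompleteSpace A] [hA : AnaCompat (E := E) 𝒜]
    (hS : SegExt 𝒜) {φ : OpenPartialHomeomorph M (A × B)}
    (hφ : φ ∈ 𝒜) {a : A} {b c : B} (ht : ∀ w ∈ ball (0 : ℂ) 2, (a, b + w • c) ∈ φ.target)
    {f : M → Leaf 𝒜} (hf : ∀ w ∈ ball (0 : ℂ) 2, Adm 𝒜 (φ.symm (a, b + w • c)) f)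
    (h : DiscLift 𝒜 (φ.symm (a, b + (1 : ℂ) • c)) f) : DiscLift 𝒜 (φ.symm (a, b)) f := by
  have h02 : (0 : ℂ) ∈ ball (0 : ℂ) 2 := mem_ball_self (by norm_num)
  have hf0 : Adm 𝒜 (φ.symm (a, b)) f := by
    have := hf 0 h02
    rwa [zero_smul, add_zero] at this
  refine ⟨hf0, ?_⟩
  intro R r hr hrR l hl hl0
  obtain ⟨r', hrr', hr'R⟩ := exists_between hrR
  obtain ⟨Ψ, hΨ, hΨl, hΨb⟩ := hS R r' (hr.trans hrr') hr'R l hl φ hφ a b c ht hl0
  have hm : ∀ z ∈ ball (0 : ℂ) r', ∀ t : ℝ, 0 ≤ t → t ≤ 1 → IsF 𝒜 Ψ (z, (t : ℂ)) :=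
    fun z hz t h0 h1 => hΨ (z, (t : ℂ)) ⟨hz, mem_ball_32 h0 h1⟩
  have hΨ1 : ∀ z ∈ ball (0 : ℂ) r', IsDisc1 𝒜 (fun y => Ψ (y, 1)) z := by
    intro z hz
    have := (hm z hz 1 (by norm_num) le_rfl)
    rw [Complex.ofReal_one] at this
    exact this.isDisc1
  obtain ⟨h1, H⟩ := h
  have h1m : (1 : ℂ) ∈ ball (0 : ℂ) (3/2) := by
    have := mem_ball_32 (t := 1) (by norm_num) le_rfl
    rwa [Complex.ofReal_one] at this
  obtain ⟨s₁, hs₁c, hs₁p, hs₁0⟩ := H r' r hr hrr' (fun y => Ψ (y, 1)) hΨ1 (hΨb 1 h1m)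
  -- the homotopy
  have hsub : ∀ z : ball (0 : ℂ) r, (z : ℂ) ∈ ball (0 : ℂ) r' :=
    fun z => ball_subset_ball hrr'.le z.2
  let H' : C(I × ball (0 : ℂ) r, M) :=
    { toFun := fun p => Ψ ((p.2 : ℂ), ((1 - (p.1 : ℝ) : ℝ) : ℂ))
      continuous_toFun := by
        rw [continuous_iff_continuousAt]
        intro p
        have k1 : ContinuousAt Ψ ((p.2 : ℂ), ((1 - (p.1 : ℝ) : ℝ) : ℂ)) :=
          isF_continuousAt (hm _ (hsub p.2) _ (by linarith only [p.1.2.2]) (by linarith only [p.1.2.1]))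
        have k2 : ContinuousAt (fun p : I × ball (0 : ℂ) r =>
            ((p.2 : ℂ), ((1 - (p.1 : ℝ) : ℝ) : ℂ))) p := by (clear * -; (clear * -; fun_prop))
        exact ContinuousAt.comp (g := Ψ) (f := fun p : I × ball (0 : ℂ) r =>
            ((p.2 : ℂ), ((1 - (p.1 : ℝ) : ℝ) : ℂ))) k1 k2 }
  have hH' : ∀ p, H' p = Ψ ((p.2 : ℂ), ((1 - (p.1 : ℝ) : ℝ) : ℂ)) := fun p => rfl
  obtain ⟨g, hgc, hgp, hg0⟩ := exists_lift_homotopy (V := AdmGerm 𝒜) isLocalHomeomorph_adm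
    (isSeparatedMap_adm (E := E)) H' s₁ hs₁c (by
      intro z
      -- the vertical path
      let τ : ℝ → ℝ := fun t => 1 - max 0 (min 1 t)
      have hτc : Continuous τ := by fun_prop
      have hτ0 : ∀ t, 0 ≤ τ t := fun t => by
        have : max 0 (min 1 t) ≤ 1 := max_le zero_le_one (min_le_left _ _)
        show 0 ≤ 1 - _
        linarith only [this]
      have hτ1 : ∀ t, τ t ≤ 1 := fun t => by
        have : 0 ≤ max 0 (min 1 t) := le_max_left _ _
        show 1 - _ ≤ 1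
        linarith only [this]
      let γ : ℝ → M := fun t => Ψ ((z : ℂ), (τ t : ℂ))
      have hγ : IsPath2 𝒜 γ := by
        constructor
        · rw [continuous_iff_continuousAt]
          intro t
          have k1 : ContinuousAt Ψ ((z : ℂ), (τ t : ℂ)) :=
            isF_continuousAt (hm _ (hsub z) _ (hτ0 t) (hτ1 t))
          have k2 : ContinuousAt (fun t : ℝ => ((z : ℂ), (τ t : ℂ))) t := by
            have : Continuous (fun t : ℝ => ((z : ℂ), (τ t : ℂ))) :=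
              continuous_const.prodMk (Complex.continuous_ofReal.comp hτc)
            exact this.continuousAt
          exact ContinuousAt.comp (g := Ψ) (f := fun t : ℝ => ((z : ℂ), (τ t : ℂ))) k1 k2
        · intro t
          obtain ⟨ψ, hψ, m1, m2⟩ := (hm _ (hsub z) _ (hτ0 t) (hτ1 t)).vertical
          have k2 : Tendsto (fun t : ℝ => (τ t : ℂ)) (𝓝 t) (𝓝 (τ t : ℂ)) :=
            (Complex.continuous_ofReal.comp hτc).continuousAt.tendsto
          exact ⟨ψ, hψ, m1, k2.eventually m2⟩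
      obtain ⟨x', g, hg, hgs⟩ := exists_eq_adm (s₁ z)
      have hτ00 : τ 0 = 1 := by
        show 1 - max 0 (min 1 0) = (1 : ℝ)
        norm_num
      have hx' : x' = γ 0 := by
        have m1 := hs₁p z
        rw [hgs] at m1
        show x' = Ψ ((z : ℂ), (τ 0 : ℂ))
        rw [hτ00, Complex.ofReal_one]
        exact m1
      subst hx'
      obtain ⟨Γ, hΓc, hΓp, hΓ0⟩ := exists_lift_path2 (E := E) hγ hg
      refine ⟨fun t => Γ t, hΓc.comp continuous_subtype_val, ?_, ?_⟩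
      · intro t
        rw [hΓp, hH']
        have : τ (t : ℝ) = 1 - (t : ℝ) := by
          show 1 - max 0 (min 1 (t : ℝ)) = 1 - (t : ℝ)
          rw [min_eq_right t.2.2, max_eq_right t.2.1]
        show Ψ ((z : ℂ), (τ (t : ℝ) : ℂ)) = _
        rw [this]
      · show Γ ((0 : I) : ℝ) = _
        rw [Set.Icc.coe_zero, hΓ0, hgs])
  refine ⟨fun z => g (1, z), hgc.comp (by fun_prop), ?_, ?_⟩
  · intro z
    rw [hgp, hH']
    have : ((1 - ((1 : I) : ℝ) : ℝ) : ℂ) = 0 := by simp only [Icc.coe_one, sub_self, Complex.ofReal_zero]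
    show Ψ ((z : ℂ), ((1 - ((1 : I) : ℝ) : ℝ) : ℂ)) = l z
    rw [this]
    exact hΨl z (hsub z)
  · -- uniqueness of lifts over the base path
    set z₀ : ball (0 : ℂ) r := ⟨0, mem_ball_self hr⟩ with hz₀
    have hw : ∀ t : I, ((1 - (t : ℝ) : ℝ) : ℂ) ∈ ball (0 : ℂ) 2 := fun t =>
      ball_subset_ball (by norm_num) (mem_ball_32 (t := 1 - (t : ℝ)) (by linarith only [t.2.2])
        (by linarith only [t.2.1]))
    have hw' : ∀ t : I, ((1 - (t : ℝ) : ℝ) : ℂ) ∈ ball (0 : ℂ) (3/2) := fun t =>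
      mem_ball_32 (t := 1 - (t : ℝ)) (by linarith only [t.2.2]) (by linarith only [t.2.1])
    let Γ' : I → Etale (AdmGerm 𝒜) := fun t => adm 𝒜 (hf _ (hw t))
    have hΓ'c : Continuous Γ' := by
      rw [continuous_iff_continuousAt]
      intro t
      refine continuousAt_adm (γ := fun t : I => φ.symm (a, b + ((1 - (t : ℝ) : ℝ) : ℂ) • c)) ?_ f
        (Eventually.of_forall fun t' => ⟨hf _ (hw t'), rfl⟩)
      have k1 : ContinuousAt φ.symm (a, b + ((1 - (t : ℝ) : ℝ) : ℂ) • c) :=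
        φ.continuousAt_symm (ht _ (hw t))
      have k2 : ContinuousAt (fun t : I => (a, b + ((1 - (t : ℝ) : ℝ) : ℂ) • c)) t := by
        have : Continuous (fun t : I => (a, b + ((1 - (t : ℝ) : ℝ) : ℂ) • c)) := by (clear * -; fun_prop)
        exact this.continuousAt
      exact ContinuousAt.comp (g := φ.symm)
        (f := fun t : I => (a, b + ((1 - (t : ℝ) : ℝ) : ℂ) • c)) k1 k2
    have heq : (fun t : I => g (t, z₀)) = Γ' := by
      refine (isSeparatedMap_adm (E := E) (𝒜 := 𝒜)).eq_of_comp_eq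
        (isLocalHomeomorph_adm (𝒜 := 𝒜)).isLocallyInjective
        (hgc.comp (by fun_prop)) hΓ'c ?_ 0 ?_
      · funext t
        show Etale.proj (g (t, z₀)) = Etale.proj (Γ' t)
        rw [hgp, hH']
        exact hΨb _ (hw' t)
      · show g (0, z₀) = Γ' 0
        rw [hg0, hs₁0]
        have : ∀ (w w' : ℂ) (h : Adm 𝒜 (φ.symm (a, b + w • c)) f)
            (h' : Adm 𝒜 (φ.symm (a, b + w' • c)) f), w = w' → adm 𝒜 h = adm 𝒜 h' := by
          rintro w _ h h' rfl; rfl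
        exact this _ _ _ _ (by simp only [Icc.coe_zero, sub_zero, Complex.ofReal_one])
    have h3 := congrFun heq 1
    show g (1, z₀) = adm 𝒜 hf0
    rw [show g (1, z₀) = Γ' 1 from h3]
    have : ∀ (x x' : M) (h : Adm 𝒜 x f) (h' : Adm 𝒜 x' f), x = x' → adm 𝒜 h = adm 𝒜 h' := by
      rintro w _ h h' rfl; rfl
    exact this _ _ _ _ (by simp only [Icc.coe_one, sub_self, Complex.ofReal_zero, zero_smul, add_zero])

end Vale.Agent.P278.Full
end
end

section

section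

open Set Topology Filter Metric TopologicalSpace
open scoped Manifold ContDiff unitInterval

set_option linter.unusedSectionVars false

namespace Vale.Agent.P278.Full

variable {M A B E : Type*} [TopologicalSpace M] [NormedAddCommGroup A] [NormedSpace ℂ A]
  [NormedAddCommGroup B] [NormedSpace ℂ B] [NormedAddCommGroup E] [NormedSpace ℂ E]
  [ChartedSpace E M] {𝒜 : Set (OpenPartialHomeomorph M (A × B))} [h𝒜 : BoxAtlas 𝒜]

/-- The base germs do not depend on the chart. -/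
theorem base_germ_eq {φ ψ : OpenPartialHomeomorph M (A × B)} (hφ : φ ∈ 𝒜) (hψ : ψ ∈ 𝒜) {a : M}
    (ha : a ∈ φ.source) (hx : a ∈ ψ.source) :
    (fun y => (Leaf.toM 𝒜).symm (ψ.symm ((ψ y).1, (ψ a).2))) =ᶠ[𝓝 a]
      fun y => (Leaf.toM 𝒜).symm (φ.symm ((φ y).1, (φ a).2)) := by
  have haa : ψ.symm ((ψ a).1, (ψ a).2) = a := ψ.left_inv hx
  obtain ⟨A₂, B₂, hA₂, hB₂, -, -, h1, h2, h3, h4, h5⟩ :=
    exists_prod_nhds hφ hψ ha hx (O := univ) univ_mem
  have e1 : ∀ᶠ y in 𝓝 a, ψ y ∈ A₂ ×ˢ B₂ :=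
    (ψ.continuousAt hx).eventually_mem ((hA₂.prod hB₂).mem_nhds ⟨h1, h2⟩)
  filter_upwards [e1, ψ.open_source.mem_nhds hx] with y hy hys
  obtain ⟨k1, k2, -⟩ := h3 _ hy.1 _ h2
  have k3 := h4 _ hy.1 _ hy.2 _ h2
  have k4 := h5 _ hy.1 _ h1 _ h2
  rw [show ((ψ y).1, (ψ y).2) = ψ y from rfl, ψ.left_inv hys] at k3
  rw [haa] at k4
  show (Leaf.toM 𝒜).symm (ψ.symm ((ψ y).1, (ψ a).2)) =
    (Leaf.toM 𝒜).symm (φ.symm ((φ y).1, (φ a).2))
  congr 1
  rw [k3, ← k4]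
  exact (φ.left_inv k2).symm

/-- The identity germ at a point. -/
noncomputable def baseE (𝒜 : Set (OpenPartialHomeomorph M (A × B))) [h𝒜 : BoxAtlas 𝒜] (y : M) :
    Etale (AdmGerm 𝒜) :=
  adm 𝒜 (Adm.base _ (FolAtlas.cover (𝒜 := 𝒜) y).choose_spec.1 y
    (FolAtlas.cover (𝒜 := 𝒜) y).choose_spec.2)

theorem baseE_eq {φ : OpenPartialHomeomorph M (A × B)} (hφ : φ ∈ 𝒜) {y : M}
    (hy : y ∈ φ.source) : baseE 𝒜 y = adm 𝒜 (Adm.base φ hφ y hy) :=
  adm_congr _ _ (base_germ_eq hφ (FolAtlas.cover (𝒜 := 𝒜) y).choose_spec.1 hy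
    (FolAtlas.cover (𝒜 := 𝒜) y).choose_spec.2)

/-- The identity germs form a continuous family along a disc of the first foliation. -/
theorem continuousAt_baseE {u : ℂ → M} {z : ℂ} (hu : IsDisc1 𝒜 u z) :
    ContinuousAt (fun y => baseE 𝒜 (u y)) z := by
  have huc := hu.continuousAt
  obtain ⟨φ, hφ, f, hf, hq⟩ := hu
  refine continuousAt_adm huc
    (fun w => (Leaf.toM 𝒜).symm (φ.symm ((φ w).1, (φ (u z)).2))) ?_
  filter_upwards [hq] with y hy
  have h1 : (φ (u y)).2 = (φ (u z)).2 := by rw [hy.2]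
  have h2 := Adm.base φ hφ (u y) hy.1
  rw [h1] at h2
  refine ⟨h2, ?_⟩
  rw [baseE_eq hφ hy.1]
  have : ∀ (b b' : B) (h : Adm 𝒜 (u y) (fun w => (Leaf.toM 𝒜).symm (φ.symm ((φ w).1, b))))
      (h' : Adm 𝒜 (u y) (fun w => (Leaf.toM 𝒜).symm (φ.symm ((φ w).1, b')))), b = b' →
      adm 𝒜 h = adm 𝒜 h' := by
    rintro b _ h h' rfl; rfl
  exact this _ _ _ _ h1

/-- **Every admissible germ continues along every disc of the first foliation.** -/
theorem discLift_of_adm [T2Space M] [CompleteSpace A] [hA : AnaCompat (E := E) 𝒜]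
    (hS : SegExt 𝒜) {x : M} {f : M → Leaf 𝒜} (h : Adm 𝒜 x f) : DiscLift 𝒜 x f := by
  induction h with
  | base φ hφ a ha =>
    refine ⟨Adm.base φ hφ a ha, ?_⟩
    intro R r hr hrR l hl hl0
    refine ⟨fun z => baseE 𝒜 (l z), ?_, fun z => rfl, ?_⟩
    · rw [continuous_iff_continuousAt]
      intro z
      have h1 := continuousAt_baseE (hl z (ball_subset_ball hrR.le z.2))
      exact ContinuousAt.comp (g := fun y => baseE 𝒜 (l y)) h1 continuous_subtype_val.continuousAt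
    · show baseE 𝒜 (l 0) = _
      rw [hl0]
      exact baseE_eq hφ ha
  | germ x f g _ hgf ih =>
    obtain ⟨h, H⟩ := ih
    refine ⟨Adm.germ x f g h hgf, ?_⟩
    intro R r hr hrR l hl hl0
    obtain ⟨s, h1, h2, h3⟩ := H R r hr hrR l hl hl0
    exact ⟨s, h1, h2, h3.trans (adm_congr _ _ hgf.symm)⟩
  | cont φ hφ V B' hV hB'o hB' hVB f hf a ha b b' hb hb' h ih =>
    have hadm : ∀ c ∈ B', Adm 𝒜 (φ.symm (a, c)) f := fun c hc =>
      Adm.cont φ hφ V B' hV hB'o hB' hVB f hf a ha b c hb hc h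
    refine hB'.induction₂' (fun b₁ b₂ => DiscLift 𝒜 (φ.symm (a, b₁)) f →
      DiscLift 𝒜 (φ.symm (a, b₂)) f) ?_ (fun _ _ _ _ _ _ h1 h2 h => h2 (h1 h)) hb hb' ih
    intro b₁ hb₁
    obtain ⟨ε, hε, hball⟩ := Metric.isOpen_iff.1 hB'o b₁ hb₁
    apply mem_nhdsWithin_of_mem_nhds
    filter_upwards [ball_mem_nhds b₁ (show 0 < ε / 3 by (clear * - hε; positivity))] with b₂ hb₂
    have hd : ‖b₂ - b₁‖ < ε / 3 := by rwa [mem_ball_iff_norm] at hb₂
    have k1 : ∀ w ∈ ball (0 : ℂ) 2, b₂ + w • (b₁ - b₂) ∈ B' := by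
      intro w hw
      rw [mem_ball_zero_iff] at hw
      apply hball
      rw [mem_ball_iff_norm]
      calc ‖b₂ + w • (b₁ - b₂) - b₁‖ = ‖(b₂ - b₁) + w • (b₁ - b₂)‖ := by congr 1; abel
        _ ≤ ‖b₂ - b₁‖ + ‖w • (b₁ - b₂)‖ := norm_add_le _ _
        _ = ‖b₂ - b₁‖ + ‖w‖ * ‖b₂ - b₁‖ := by rw [norm_smul, norm_sub_rev b₁ b₂]
        _ ≤ ‖b₂ - b₁‖ + 2 * ‖b₂ - b₁‖ := by (clear * - hw; gcongr)
        _ < ε := by linarith only [hd]
    have k2 : ∀ w ∈ ball (0 : ℂ) 2, b₁ + w • (b₂ - b₁) ∈ B' := by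
      intro w hw
      rw [mem_ball_zero_iff] at hw
      apply hball
      rw [mem_ball_iff_norm]
      calc ‖b₁ + w • (b₂ - b₁) - b₁‖ = ‖w • (b₂ - b₁)‖ := by congr 1; abel
        _ = ‖w‖ * ‖b₂ - b₁‖ := norm_smul _ _
        _ ≤ 2 * ‖b₂ - b₁‖ := by (clear * - hw; gcongr)
        _ < ε := by linarith only [hε, hd]
    constructor
    · intro h1
      refine discLift_step (E := E) hS hφ (b := b₂) (c := b₁ - b₂)
        (fun w hw => hVB a ha _ (k1 w hw)) (fun w hw => hadm _ (k1 w hw)) ?_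
      rwa [one_smul, add_sub_cancel]
    · intro h1
      refine discLift_step (E := E) hS hφ (b := b₁) (c := b₂ - b₁)
        (fun w hw => hVB a ha _ (k2 w hw)) (fun w hw => hadm _ (k2 w hw)) ?_
      rwa [one_smul, add_sub_cancel]

end Vale.Agent.P278.Full
end
end

section

section

set_option autoImplicit false

open Set Filter Topology Metric

namespace Vale.Agent.P278.Full

variable {X : Type*}

theorem isOpen_touchBall : IsOpen touchBall := by
  apply isOpen_lt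
  · (clear * -; fun_prop)
  · exact continuous_const.mul (Complex.continuous_re.comp (by (clear * -; fun_prop)))

theorem ellipsoid_convex (z₀ w₀ : ℂ) {M : ℝ} (hM : 0 < M) (c : ℝ) :
    Convex ℝ (ellipsoid z₀ w₀ M c) := by
  have h1 : ConvexOn ℝ univ (fun p : ℂ × ℂ => ‖p.1 - z₀‖ ^ 2) := by
    have h0 : ConvexOn ℝ univ (fun z : ℂ => ‖z‖ ^ 2) :=
      (convexOn_norm (convex_univ : Convex ℝ (univ : Set ℂ))).pow (fun x _ => norm_nonneg x) 2
    have := (h0.translate_left (-z₀)).comp_linearMap (LinearMap.fst ℝ ℂ ℂ)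
    rw [preimage_univ, preimage_univ] at this
    refine this.congr fun p _ => ?_
    simp [sub_eq_add_neg]
  have h2 : ConvexOn ℝ univ (fun p : ℂ × ℂ => ‖p.2 - w₀‖ ^ 2) := by
    have h0 : ConvexOn ℝ univ (fun z : ℂ => ‖z‖ ^ 2) :=
      (convexOn_norm (convex_univ : Convex ℝ (univ : Set ℂ))).pow (fun x _ => norm_nonneg x) 2
    have := (h0.translate_left (-w₀)).comp_linearMap (LinearMap.snd ℝ ℂ ℂ)
    rw [preimage_univ, preimage_univ] at this
    refine this.congr fun p _ => ?_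
    simp only [LinearMap.coe_snd, Function.comp_apply, sub_eq_add_neg]
  have h3 : ConvexOn ℝ univ (fun p : ℂ × ℂ => ‖p.1 - z₀‖ ^ 2 + M * ‖p.2 - w₀‖ ^ 2) :=
    h1.add (h2.smul hM.le)
  have := h3.convex_lt c
  simpa only [ellipsoid, mem_univ, true_and] using this

/-- The ellipsoid condition in the affine coordinates of the touching ball. -/
theorem mem_ellipsoid_of_touch {z₀ w₀ z₂ w₂ : ℂ} {M c : ℝ} (hM : 0 < M) (hz : z₂ ≠ z₀)
    (hw : w₂ ≠ w₀) (hc : ‖z₂ - z₀‖ ^ 2 + M * ‖w₂ - w₀‖ ^ 2 = c) {p : ℂ × ℂ}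
    (hp : p ∈ touchBall) :
    ((-(z₂ - z₀) * ((M * ‖w₂ - w₀‖ ^ 2 / c : ℝ) : ℂ)) * p.1 + z₂,
      ((w₂ - w₀) * ((‖z₂ - z₀‖ ^ 2 / c : ℝ) : ℂ)) * p.2 + w₂) ∈ ellipsoid z₀ w₀ M c := by
  obtain ⟨Z, W⟩ := p
  have hP : 0 < ‖z₂ - z₀‖ ^ 2 := by have := norm_pos_iff.2 (sub_ne_zero.2 hz); (clear * - this; positivity)
  have hQ : 0 < M * ‖w₂ - w₀‖ ^ 2 := by
    have := norm_pos_iff.2 (sub_ne_zero.2 hw); (clear * - hM this; (clear * - hM this; positivity))
  set P := ‖z₂ - z₀‖ ^ 2 with hPd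
  set Q := M * ‖w₂ - w₀‖ ^ 2 with hQd
  have hc0 : 0 < c := by rw [← hc]; (clear * - hP hQ; positivity)
  simp only [touchBall, mem_ofPred_eq] at hp
  simp only [ellipsoid, mem_ofPred_eq]
  have e1 : -(z₂ - z₀) * ((Q / c : ℝ) : ℂ) * Z + z₂ - z₀ =
      (z₂ - z₀) * (1 - ((Q / c : ℝ) : ℂ) * Z) := by ring
  have e2 : (w₂ - w₀) * ((P / c : ℝ) : ℂ) * W + w₂ - w₀ =
      (w₂ - w₀) * (1 + ((P / c : ℝ) : ℂ) * W) := by ring
  rw [e1, e2, norm_mul, norm_mul, mul_pow, mul_pow, ← mul_assoc, ← hPd, ← hQd]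
  have n1 : ‖1 - ((Q / c : ℝ) : ℂ) * Z‖ ^ 2 = 1 - 2 * (Q / c) * Z.re + (Q / c) ^ 2 * ‖Z‖ ^ 2 := by
    rw [Complex.sq_norm, Complex.sq_norm, Complex.normSq_apply, Complex.normSq_apply]
    simp only [Complex.sub_re, Complex.one_re, Complex.re_ofReal_mul, Complex.sub_im,
      Complex.one_im, Complex.im_ofReal_mul]
    ring
  have n2 : ‖1 + ((P / c : ℝ) : ℂ) * W‖ ^ 2 = 1 + 2 * (P / c) * W.re + (P / c) ^ 2 * ‖W‖ ^ 2 := by
    rw [Complex.sq_norm, Complex.sq_norm, Complex.normSq_apply, Complex.normSq_apply]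
    simp only [Complex.add_re, Complex.one_re, Complex.re_ofReal_mul, Complex.add_im,
      Complex.one_im, Complex.im_ofReal_mul]
    ring
  rw [n1, n2]
  rw [Complex.sub_re] at hp
  have hPc : P ≤ c := by rw [← hc]; linarith only [hQ]
  have hQc : Q ≤ c := by rw [← hc]; linarith only [hP]
  have key : P * (1 - 2 * (Q / c) * Z.re + (Q / c) ^ 2 * ‖Z‖ ^ 2) +
      Q * (1 + 2 * (P / c) * W.re + (P / c) ^ 2 * ‖W‖ ^ 2) =
      (P + Q) - P * Q / c * (2 * (Z.re - W.re)) +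
        P * Q / c * ((Q / c) * ‖Z‖ ^ 2 + (P / c) * ‖W‖ ^ 2) := by
    field_simp
    ring
  rw [key, hc]
  have hk : 0 < P * Q / c := by (clear * - hP hQ hc0; (clear * - hP hQ hc0; positivity))
  have hl : (Q / c) * ‖Z‖ ^ 2 + (P / c) * ‖W‖ ^ 2 ≤ ‖Z‖ ^ 2 + ‖W‖ ^ 2 := by
    have h5 : Q / c ≤ 1 := by rw [div_le_one hc0]; exact hQc
    have h6 : P / c ≤ 1 := by rw [div_le_one hc0]; exact hPc
    linarith only [mul_nonneg (sq_nonneg (1 * ‖W‖ : ℝ)) (sub_nonneg.2 h6), mul_nonneg (sq_nonneg (1 * ‖Z‖ : ℝ)) (sub_nonneg.2 h5)]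
  nlinarith only [hk, hl, hp]

/-- **TT3**: extension across boundary points of ellipsoids, from the touching ball. -/
theorem ellExt (F : FTh X) (C : FClass X)
    (hC : ∀ Ψ Ω, C.F Ψ Ω ↔ IsOpen Ω ∧ ∀ p ∈ Ω, F.IsF Ψ p)
    (haff : ∀ (Ψ : ℂ × ℂ → X) (a b a' b' : ℂ) (p : ℂ × ℂ),
      F.IsF Ψ (a * p.1 + b, a' * p.2 + b') →
      F.IsF (fun q => Ψ (a * q.1 + b, a' * q.2 + b')) p)
    (hTT : ∀ Ψ : ℂ × ℂ → X, (∀ p ∈ touchBall, F.IsF Ψ p) →
      ∃ Ψ3 : ℂ × ℂ → X, F.IsF Ψ3 (0, 0) ∧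
        ∀ᶠ p in 𝓝 ((0 : ℂ), (0 : ℂ)), p ∈ touchBall → Ψ3 p = Ψ p) :
    C.EllExt := by
  intro Ψ z₀ w₀ z₂ w₂ M c hM hz hw hc hF
  have hFΨ := ((hC _ _).1 hF).2
  have hP : 0 < ‖z₂ - z₀‖ ^ 2 := by have := norm_pos_iff.2 (sub_ne_zero.2 hz); (clear * - this; positivity)
  have hQ : 0 < M * ‖w₂ - w₀‖ ^ 2 := by
    have := norm_pos_iff.2 (sub_ne_zero.2 hw); (clear * - hM this; positivity)
  have hc0 : 0 < c := by rw [← hc]; (clear * - hP hQ; positivity)
  set a : ℂ := -(z₂ - z₀) * ((M * ‖w₂ - w₀‖ ^ 2 / c : ℝ) : ℂ) with ha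
  set a' : ℂ := (w₂ - w₀) * ((‖z₂ - z₀‖ ^ 2 / c : ℝ) : ℂ) with ha'
  have ha0 : a ≠ 0 := by
    rw [ha]
    refine mul_ne_zero (neg_ne_zero.2 (sub_ne_zero.2 hz)) ?_
    exact_mod_cast (div_pos hQ hc0).ne'
  have ha0' : a' ≠ 0 := by
    rw [ha']
    refine mul_ne_zero (sub_ne_zero.2 hw) ?_
    exact_mod_cast (div_pos hP hc0).ne'
  obtain ⟨Ψ3, h1, h2⟩ := hTT (fun q => Ψ (a * q.1 + z₂, a' * q.2 + w₂)) fun p hp =>
    haff Ψ a z₂ a' w₂ p (hFΨ _ (mem_ellipsoid_of_touch hM hz hw hc hp))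
  -- the pull back of the extension
  set Ψ' : ℂ × ℂ → X := fun q => Ψ3 (a⁻¹ * q.1 + -(a⁻¹ * z₂), a'⁻¹ * q.2 + -(a'⁻¹ * w₂)) with hΨ'
  have h3 : F.IsF Ψ' (z₂, w₂) := by
    refine haff Ψ3 a⁻¹ (-(a⁻¹ * z₂)) a'⁻¹ (-(a'⁻¹ * w₂)) (z₂, w₂) ?_
    simpa only [add_neg_cancel] using h1
  obtain ⟨ε, hε, hball⟩ := Metric.eventually_nhds_iff_ball.1 (F.ev h3)
  refine ⟨ball (z₂, w₂) ε, Ψ', mem_ball_self hε, (hC _ _).2 ⟨isOpen_ball, hball⟩, ?_⟩
  -- a point where they agree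
  set L : ℂ × ℂ → ℂ × ℂ := fun q => (a * q.1 + z₂, a' * q.2 + w₂) with hL
  have hLc : Continuous L := by (clear * -; fun_prop)
  have hL0 : L (0, 0) = (z₂, w₂) := by simp [hL]
  have e1 : ∀ᶠ p in 𝓝 ((0 : ℂ), (0 : ℂ)), L p ∈ ball (z₂, w₂) ε := by
    have := hLc.continuousAt (x := ((0 : ℂ), (0 : ℂ)))
    refine this.eventually ?_
    rw [hL0]
    exact ball_mem_nhds _ hε
  have e2 : ∀ᶠ p in 𝓝 ((0 : ℂ), (0 : ℂ)),
      (∀ᶠ p' in 𝓝 p, p' ∈ touchBall → Ψ3 p' = Ψ (L p')) ∧ L p ∈ ball (z₂, w₂) ε :=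
    h2.eventually_nhds.and e1
  obtain ⟨δ, hδ, hδb⟩ := Metric.eventually_nhds_iff_ball.1 e2
  set x : ℝ := min (δ / 2) 1 with hx
  have hx0 : 0 < x := by (clear * - hδ; positivity)
  have hx1 : x ≤ 1 := min_le_right _ _
  have hx2 : x < δ := lt_of_le_of_lt (min_le_left _ _) (by (clear * - hδ; linarith))
  set p₀ : ℂ × ℂ := (0, ((-x : ℝ) : ℂ)) with hp₀
  have hp₀t : p₀ ∈ touchBall := by
    simp only [hp₀, touchBall, mem_ofPred_eq, Complex.norm_real, Real.norm_eq_abs, Complex.sub_re,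
      Complex.ofReal_re, norm_zero, Complex.zero_re, abs_neg]
    rw [abs_of_pos hx0]
    nlinarith only [hx0, hx1]
  have hp₀b : p₀ ∈ ball ((0 : ℂ), (0 : ℂ)) δ := by
    rw [mem_ball, Prod.dist_eq]
    simp only [hp₀, dist_self, dist_zero_right, Complex.norm_real, Real.norm_eq_abs, abs_neg]
    rw [abs_of_pos hx0]
    exact max_lt hδ hx2
  obtain ⟨g1, g2⟩ := hδb p₀ hp₀b
  have hLe : L p₀ ∈ ellipsoid z₀ w₀ M c := mem_ellipsoid_of_touch hM hz hw hc hp₀t
  have g3 : ∀ᶠ p' in 𝓝 p₀, Ψ3 p' = Ψ (L p') := by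
    filter_upwards [g1, isOpen_touchBall.mem_nhds hp₀t] with p' q1 q2 using q1 q2
  -- germ equality at L p₀
  set L' : ℂ × ℂ → ℂ × ℂ :=
    fun q => (a⁻¹ * q.1 + -(a⁻¹ * z₂), a'⁻¹ * q.2 + -(a'⁻¹ * w₂)) with hL'
  have hL'c : Continuous L' := by (clear * -; fun_prop)
  have hLL' : ∀ q, L (L' q) = q := by
    intro q
    simp only [hL, hL']
    ext
    · simp only; field_simp; ring
    · simp only; field_simp; ring
  have hL'L : ∀ q, L' (L q) = q := by
    intro q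
    simp only [hL, hL']
    ext
    · simp only; field_simp; ring
    · simp only; field_simp; ring
  have g4 : Ψ' =ᶠ[𝓝 (L p₀)] Ψ := by
    have h5 : Tendsto L' (𝓝 (L p₀)) (𝓝 p₀) := by
      have := hL'c.continuousAt (x := L p₀)
      rwa [ContinuousAt, hL'L] at this
    filter_upwards [h5.eventually g3] with q hq
    have h6 : Ψ' q = Ψ3 (L' q) := rfl
    rw [h6, hq, hLL']
  have hU : IsPreconnected (ball (z₂, w₂) ε ∩ ellipsoid z₀ w₀ M c) :=
    ((convex_ball _ _).inter (ellipsoid_convex z₀ w₀ hM c)).isPreconnected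
  have hfin := F.ident hU (fun p hp => hball p hp.1) (fun p hp => hFΨ p hp.2)
    ⟨L p₀, ⟨g2, hLe⟩, g4⟩
  intro p hp
  exact ((hfin p hp).eq_of_nhds).symm

/-- **TT** (all together): ellipsoid extension from Lemma T (inside `F`), the affine invariance,
and the annulus statement TT2. -/
theorem ellExt_of_annulus (F : FTh X) (C : FClass X)
    (hC : ∀ Ψ Ω, C.F Ψ Ω ↔ IsOpen Ω ∧ ∀ p ∈ Ω, F.IsF Ψ p)
    (haff : ∀ (Ψ : ℂ × ℂ → X) (a b a' b' : ℂ) (p : ℂ × ℂ),
      F.IsF Ψ (a * p.1 + b, a' * p.2 + b') →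
      F.IsF (fun q => Ψ (a * q.1 + b, a' * q.2 + b')) p)
    (hTT2 : ∀ Ψ : ℂ × ℂ → X, (∀ p ∈ touchBall, F.IsF Ψ p) →
      ∃ s r : ℝ, 0 < s ∧ 0 < r ∧ 10 ^ 4 * s ≤ r ∧ 100 * r ≤ √s / 2 ∧
        ∃ Ψ1 : ℂ × ℂ → X,
          (∀ z ∈ ann (r / 25) (25 * r), ∀ w ∈ ann (r / 25) (25 * r), F.IsF Ψ1 (z, w)) ∧
          ∀ z ∈ ann (r / 25) (25 * r), z - s ∈ ann (r / 25) (25 * r) →
            Ψ1 =ᶠ[𝓝 (z, z - s)] Ψ) :
    C.EllExt := by
  refine ellExt F C hC haff fun Ψ hΨ => ?_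
  obtain ⟨s, r, hs, hr, h1, h2, Ψ1, h3, h4⟩ := hTT2 Ψ hΨ
  refine tt1 F hr hs (by linarith only [h1]) ?_ hΨ h3 h4
  have h5 : 200 * r ≤ √s := by linarith only [h2]
  have h6 : (200 * r) ^ 2 ≤ √s ^ 2 := by (clear * - hr h5; gcongr)
  rw [Real.sq_sqrt hs.le] at h6
  nlinarith only [h6]

/-- Two-function form of Lemma T from the one-function form. -/
theorem T_two_of_one {IsF : (ℂ × ℂ → X) → ℂ × ℂ → Prop}
    (congr : ∀ {Ψ Ψ' : ℂ × ℂ → X} {p : ℂ × ℂ}, IsF Ψ p → Ψ =ᶠ[𝓝 p] Ψ' → IsF Ψ' p)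
    {z0 : ℂ} {R : ℝ} {w0 w1 : ℂ}
    (T1 : ∀ Ψ : ℂ × ℂ → X, (∀ z ∈ closedBall z0 R, IsF Ψ (z, w0)) →
      (∀ z ∈ sphere z0 R, ∀ w ∈ segment ℝ w0 w1, IsF Ψ (z, w)) →
      ∃ Ψ2 : ℂ × ℂ → X, (∀ z ∈ closedBall z0 R, ∀ w ∈ segment ℝ w0 w1, IsF Ψ2 (z, w)) ∧
        (∀ z ∈ closedBall z0 R, Ψ2 =ᶠ[𝓝 (z, w0)] Ψ))
    {Ψ0 Ψ1 : ℂ × ℂ → X} (hR : 0 < R)
    (h0 : ∀ z ∈ closedBall z0 R, IsF Ψ0 (z, w0))
    (h1 : ∀ z ∈ sphere z0 R, ∀ w ∈ segment ℝ w0 w1, IsF Ψ1 (z, w))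
    (h01 : ∀ z ∈ sphere z0 R, Ψ0 =ᶠ[𝓝 (z, w0)] Ψ1) :
    ∃ Ψ2 : ℂ × ℂ → X, (∀ z ∈ closedBall z0 R, ∀ w ∈ segment ℝ w0 w1, IsF Ψ2 (z, w)) ∧
      (∀ z ∈ closedBall z0 R, Ψ2 =ᶠ[𝓝 (z, w0)] Ψ0) := by
  classical
  -- a uniform δ
  have hU : IsOpen {p : ℂ × ℂ | Ψ0 =ᶠ[𝓝 p] Ψ1} := isOpen_setOfPred_eventually_nhds
  have hK : IsCompact ((fun z : ℂ => (z, w0)) '' sphere z0 R) :=
    (isCompact_sphere z0 R).image (by fun_prop)
  obtain ⟨δ, hδ, hsub⟩ := hK.exists_thickening_subset_open hU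
    (by rintro _ ⟨z, hz, rfl⟩; exact h01 z hz)
  set e : ℝ := min δ R with he
  have he0 : 0 < e := lt_min hδ hR
  have heR : e ≤ R := min_le_right _ _
  have heδ : e ≤ δ := min_le_left _ _
  -- on the collar they agree
  have hcol : ∀ p : ℂ × ℂ, R - e < dist p.1 z0 → dist p.1 z0 < R + e → dist p.2 w0 < e →
      Ψ0 =ᶠ[𝓝 p] Ψ1 := by
    intro p hp1 hp2 hp3
    refine hsub ?_
    rw [mem_thickening_iff]
    have hpos : 0 < dist p.1 z0 := by linarith only [heR, hp1]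
    have hne : p.1 - z0 ≠ 0 := by
      intro h; rw [dist_eq_norm, h, norm_zero] at hpos; exact lt_irrefl _ hpos
    set t : ℂ := z0 + ((R / dist p.1 z0 : ℝ) : ℂ) * (p.1 - z0) with ht
    have ht1 : t ∈ sphere z0 R := by
      rw [mem_sphere_iff_norm, ht, add_sub_cancel_left, norm_mul, Complex.norm_real,
        Real.norm_eq_abs, abs_of_pos (by (clear * - hR hpos; positivity)), ← dist_eq_norm]
      (clear * - hpos hR; field_simp)
    refine ⟨(t, w0), ⟨t, ht1, rfl⟩, ?_⟩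
    rw [Prod.dist_eq]
    refine max_lt ?_ (hp3.trans_le heδ)
    have h5 : p.1 - t = ((1 - R / dist p.1 z0 : ℝ) : ℂ) * (p.1 - z0) := by
      rw [ht]; push_cast; ring
    rw [dist_eq_norm, h5, norm_mul, Complex.norm_real, Real.norm_eq_abs, ← dist_eq_norm]
    have h6 : |1 - R / dist p.1 z0| * dist p.1 z0 = |dist p.1 z0 - R| := by
      rw [← abs_of_pos hpos, ← abs_mul, abs_of_pos hpos]
      congr 1
      (clear * - hpos; (clear * - hpos; field_simp))
    rw [h6]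
    exact (abs_lt.2 ⟨by linarith only [hp1], by linarith only [hp2]⟩).trans_le heδ
  set Ψ : ℂ × ℂ → X := fun p => if R - e / 2 < dist p.1 z0 then Ψ1 p else Ψ0 p with hΨ
  have hout : ∀ p : ℂ × ℂ, R - e / 2 < dist p.1 z0 → Ψ =ᶠ[𝓝 p] Ψ1 := by
    intro p hp
    have h7 : ∀ᶠ q : ℂ × ℂ in 𝓝 p, R - e / 2 < dist q.1 z0 :=
      (continuous_fst.dist continuous_const).continuousAt.eventually_const_lt hp
    filter_upwards [h7] with q hq
    exact if_pos hq
  have hin : ∀ z ∈ closedBall z0 R, Ψ =ᶠ[𝓝 (z, w0)] Ψ0 := by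
    intro z hz
    rcases lt_or_ge (R - e) (dist z z0) with h8 | h8
    · have h9 : Ψ0 =ᶠ[𝓝 (z, w0)] Ψ1 :=
        hcol (z, w0) h8 (lt_of_le_of_lt hz (by linarith only [he0])) (by simpa only [dist_self] using he0)
      filter_upwards [h9] with q hq
      by_cases h10 : R - e / 2 < dist q.1 z0
      · rw [hΨ]; simp only [h10, if_true]; exact hq.symm
      · rw [hΨ]; simp only [h10, if_false]
    · have h7 : ∀ᶠ q : ℂ × ℂ in 𝓝 (z, w0), dist q.1 z0 < R - e / 2 :=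
        (continuous_fst.dist continuous_const).continuousAt.eventually_lt_const
          (by show dist z z0 < _; linarith only [he0, h8])
      filter_upwards [h7] with q hq
      exact if_neg (not_lt.2 hq.le)
  have hsph : ∀ z ∈ sphere z0 R, ∀ w : ℂ, Ψ =ᶠ[𝓝 (z, w)] Ψ1 := by
    intro z hz w
    refine hout (z, w) ?_
    rw [mem_sphere] at hz
    show _ < dist z z0
    rw [hz]; linarith only [he0]
  obtain ⟨Ψ2, k1, k2⟩ := T1 Ψ (fun z hz => congr (h0 z hz) (hin z hz).symm)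
    (fun z hz w hw => congr (h1 z hz w hw) (hsph z hz w).symm)
  exact ⟨Ψ2, k1, fun z hz => (k2 z hz).trans (hin z hz)⟩

end Vale.Agent.P278.Full
end
end

section

section

open Set Topology TopologicalSpace Filter

namespace Vale.Agent.P278.Full

/-- A connected space with an open cover by second countable sets, each of them meeting only
countably many of them, is second countable. -/
theorem secondCountable_of_chain {M : Type*} [TopologicalSpace M] [PreconnectedSpace M]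
    [Nonempty M] {ι : Type*} (S : ι → Set M) (hSo : ∀ i, IsOpen (S i))
    (hSc : ∀ i, SecondCountableTopology (S i)) (hcov : ∀ x, ∃ i, x ∈ S i)
    (hcount : ∀ i, {j | (S i ∩ S j).Nonempty}.Countable) : SecondCountableTopology M := by
  obtain ⟨x₀⟩ : Nonempty M := inferInstance
  obtain ⟨i₀, hi₀⟩ := hcov x₀
  let T : ℕ → Set ι := fun n => Nat.rec {i₀} (fun _ R => ⋃ i ∈ R, {j | (S i ∩ S j).Nonempty}) n
  have hT0 : T 0 = {i₀} := rfl
  have hTs : ∀ n, T (n + 1) = ⋃ i ∈ T n, {j | (S i ∩ S j).Nonempty} := fun n => rfl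
  have hTc : ∀ n, (T n).Countable := by
    intro n
    induction n with
    | zero => rw [hT0]; exact countable_singleton _
    | succ n ih => rw [hTs]; exact ih.biUnion fun i _ => hcount i
  set R : Set ι := ⋃ n, T n with hR
  have hRc : R.Countable := countable_iUnion hTc
  have hRn : ∀ i ∈ R, ∀ j, (S i ∩ S j).Nonempty → j ∈ R := by
    intro i hi j hj
    obtain ⟨n, hn⟩ := mem_iUnion.1 hi
    refine mem_iUnion.2 ⟨n + 1, ?_⟩
    rw [hTs]
    exact mem_biUnion hn hj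
  set W : Set M := ⋃ i ∈ R, S i with hW
  have hWo : IsOpen W := isOpen_biUnion fun i _ => hSo i
  have hWc : IsOpen Wᶜ := by
    rw [isOpen_iff_forall_mem_open]
    intro x hx
    obtain ⟨i, hi⟩ := hcov x
    refine ⟨S i, fun y hy hyW => hx ?_, hSo i, hi⟩
    obtain ⟨j, hj, hyj⟩ := mem_iUnion₂.1 hyW
    exact mem_biUnion (hRn j hj i ⟨y, hyj, hy⟩) hi
  have hWu : W = univ := by
    refine IsClopen.eq_univ ⟨isOpen_compl_iff.1 hWc, hWo⟩ ⟨x₀, ?_⟩
    exact mem_biUnion (mem_iUnion.2 ⟨0, by rw [hT0]; rfl⟩) hi₀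
  have _ : Countable R := hRc.to_subtype
  have h1 : ∀ i : R, SecondCountableTopology (S i) := fun i => hSc i
  refine secondCountableTopology_of_countable_cover (U := fun i : R => S i) (fun i => hSo i) ?_
  rw [← hWu, hW, biUnion_eq_iUnion]

/-- A connected covering of a second countable space is second countable. -/
theorem secondCountable_of_isCoveringMap {M X : Type*} [TopologicalSpace M] [TopologicalSpace X]
    [PreconnectedSpace M] [Nonempty M] [SecondCountableTopology X] {π : M → X}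
    (hπ : IsCoveringMap π) : SecondCountableTopology M := by
  choose hdisc U hxU hUo hpo H hH using fun x => hπ x
  obtain ⟨s, hs, hsU⟩ := TopologicalSpace.countable_cover_nhds fun x : X => (hUo x).mem_nhds (hxU x)
  let S : (Σ x : s, π ⁻¹' {(x : X)}) → Set M := fun a =>
    {y | ∃ h : π y ∈ U a.1, (H a.1 ⟨y, h⟩).2 = a.2}
  have hSo : ∀ a, IsOpen (S a) := by
    rintro ⟨x, i⟩
    have h1 : S ⟨x, i⟩ = Subtype.val '' ((fun z : π ⁻¹' U x => (H x z).2) ⁻¹' {i}) := by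
      ext y
      constructor
      · rintro ⟨h, h'⟩
        exact ⟨⟨y, h⟩, h', rfl⟩
      · rintro ⟨⟨y, h⟩, h', rfl⟩
        exact ⟨h, h'⟩
    rw [h1]
    have := hdisc x
    exact (hpo x).isOpenMap_subtype_val _
      ((isOpen_discrete _).preimage (continuous_snd.comp (H x).continuous))
  have hSc : ∀ a, SecondCountableTopology (S a) := by
    rintro ⟨x, i⟩
    have hl : IsLocalHomeomorph (fun y : S ⟨x, i⟩ => π y) :=
      hπ.isLocalHomeomorph.comp (hSo ⟨x, i⟩).isOpenEmbedding_subtypeVal.isLocalHomeomorph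
    have hi : Function.Injective (fun y : S ⟨x, i⟩ => π y) := by
      rintro ⟨y, h, h'⟩ ⟨z, k, k'⟩ hyz
      have hyz' : π y = π z := hyz
      apply Subtype.ext
      have e1 : H x ⟨y, h⟩ = H x ⟨z, k⟩ := by
        refine Prod.ext (Subtype.ext ?_) (h'.trans k'.symm)
        rw [hH, hH]; exact hyz'
      exact Subtype.mk.inj ((H x).injective e1)
    exact (hl.isOpenEmbedding_of_injective hi).isInducing.secondCountableTopology
  refine secondCountable_of_chain S hSo hSc ?_ ?_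
  · intro y
    have : π y ∈ ⋃ x ∈ s, U x := by rw [hsU]; trivial
    obtain ⟨x, hx, hy⟩ := mem_iUnion₂.1 this
    exact ⟨⟨⟨x, hx⟩, (H x ⟨y, hy⟩).2⟩, hy, rfl⟩
  · intro a
    have _ : SecondCountableTopology (S a) := hSc a
    have _ : Countable s := hs.to_subtype
    have h1 : {b | (S a ∩ S b).Nonempty} ⊆ ⋃ x : s, Sigma.mk x '' {j | (S a ∩ S ⟨x, j⟩).Nonempty} := by
      rintro ⟨x, j⟩ hj
      exact mem_iUnion.2 ⟨x, j, hj, rfl⟩
    refine (countable_iUnion fun x => ?_).mono h1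
    apply Countable.image
    refine Set.PairwiseDisjoint.countable_of_isOpen
      (s := fun j => (Subtype.val ⁻¹' S ⟨x, j⟩ : Set (S a))) ?_ ?_ ?_
    · intro j _ j' _ hjj'
      rw [Function.onFun, Set.disjoint_left]
      rintro ⟨y, hy⟩ ⟨h1, h2⟩ ⟨h3, h4⟩
      exact hjj' (h2.symm.trans h4)
    · intro j _
      exact (hSo ⟨x, j⟩).preimage continuous_subtype_val
    · rintro j ⟨y, hy1, hy2⟩
      exact ⟨⟨y, hy1⟩, hy2⟩

/-- A connected covering of a compact complex manifold is second countable. -/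
theorem secondCountable_of_covering {E : Type*} [NormedAddCommGroup E] [NormedSpace ℂ E]
    [FiniteDimensional ℂ E] {X : Type*} [TopologicalSpace X] [CompactSpace X] [ChartedSpace E X]
    {M : Type*} [TopologicalSpace M] [PathConnectedSpace M] {π : M → X}
    (hπ : IsCoveringMap π) : SecondCountableTopology M := by
  have _ : ProperSpace E := FiniteDimensional.proper ℂ E
  have _ : SecondCountableTopology E := inferInstance
  have _ : SecondCountableTopology X := ChartedSpace.secondCountable_of_sigmaCompact E X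
  exact secondCountable_of_isCoveringMap hπ

end Vale.Agent.P278.Full
end
end

section

section

open Set Topology Filter Metric TopologicalSpace
open scoped Manifold ContDiff unitInterval

set_option linter.unusedSectionVars false

namespace Vale.Agent.P278.Full

section sections
variable {L C : Type*} [TopologicalSpace L] [TopologicalSpace C]

/-- A local homeomorphism with Hausdorff source and preconnected target, with a section through
each point, is a covering map. -/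
theorem isCoveringMap_of_sections [T2Space L] [PreconnectedSpace C] {p : L → C}
    (hp : IsLocalHomeomorph p) (hs : Function.Surjective p)
    (hsec : ∀ z : L, ∃ s : C → L, Continuous s ∧ (∀ n, p (s n) = n) ∧ s (p z) = z) :
    IsCoveringMap p := by
  choose s hsc hps hsz using hsec
  have huniq : ∀ z w : L, ∀ n : C, s z n = s w n → s z = s w := by
    intro z w n h
    refine (T2Space.isSeparatedMap p).eq_of_comp_eq hp.isLocallyInjective (hsc z) (hsc w) ?_ n h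
    funext m
    show p (s z m) = p (s w m)
    rw [hps, hps]
  have hopen : ∀ z, IsOpen (range (s z)) := by
    intro z
    refine (hp.isOpenEmbedding_of_comp ?_ (hsc z)).isOpen_range
    have : p ∘ s z = id := funext fun n => hps z n
    rw [this]
    exact IsOpenEmbedding.id
  have hsymm : ∀ x y, y ∈ range (s x) → x ∈ range (s y) := by
    rintro x _ ⟨n, rfl⟩
    have h1 : s (s x n) n = s x n := by
      have := hsz (s x n)
      rwa [hps] at this
    have h2 := huniq _ _ n h1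
    exact ⟨p x, by rw [h2, hsz]⟩
  refine isCoveringMap_of_plaques p hp.continuous hp.isOpenMap hs (fun x => range (s x))
    (fun x => range (s x)) (fun x => range (s x)) hopen (fun x => ⟨p x, hsz x⟩) hsymm hsymm
    (fun x => Subset.rfl) (fun x => Subset.rfl) ?_ ?_ ?_
  · rintro x _ ⟨n, rfl⟩ _ ⟨m, rfl⟩ h
    have h' : p (s x n) = p (s x m) := h
    rw [hps, hps] at h'
    rw [h']
  · rintro x x' - n -
    exact ⟨s x' n, ⟨n, rfl⟩, hps x' n⟩
  · rintro x x' - n -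
    exact ⟨s x' n, ⟨n, rfl⟩, hps x' n⟩

end sections

variable {M A B E : Type*} [TopologicalSpace M] [NormedAddCommGroup A] [NormedSpace ℂ A]
  [NormedAddCommGroup B] [NormedSpace ℂ B] [NormedAddCommGroup E] [NormedSpace ℂ E]
  [ChartedSpace E M] {𝒜 : Set (OpenPartialHomeomorph M (A × B))} [h𝒜 : BoxAtlas 𝒜]

/-- An admissible germ moves along a plaque of the second foliation, keeping its value. -/
theorem adm_move_box {φ : OpenPartialHomeomorph M (A × B)} (hφ : φ ∈ 𝒜) {a : A} {b b' : B}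
    (h : (a, b) ∈ φ.target) (h' : (a, b') ∈ φ.target) {g : M → Leaf 𝒜}
    (hg : Adm 𝒜 (φ.symm (a, b)) g) :
    ∃ f : M → Leaf 𝒜, Adm 𝒜 (φ.symm (a, b')) f ∧ f (φ.symm (a, b')) = g (φ.symm (a, b)) := by
  obtain ⟨U, V, hU, hV, hUV⟩ := h𝒜.box φ hφ
  have hUo : IsOpen U := by
    have hc : Continuous (fun u : A => ((u, b) : A × B)) := by fun_prop
    have h1 := φ.open_target.preimage hc
    have h2 : (fun u : A => ((u, b) : A × B)) ⁻¹' φ.target = U := by
      ext u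
      rw [hUV] at h ⊢
      exact ⟨fun k => k.1, fun k => ⟨k, h.2⟩⟩
    rwa [h2] at h1
  have hVo : IsOpen V := by
    have hc : Continuous (fun v : B => ((a, v) : A × B)) := by fun_prop
    have h1 := φ.open_target.preimage hc
    have h2 : (fun v : B => ((a, v) : A × B)) ⁻¹' φ.target = V := by
      ext v
      rw [hUV] at h ⊢
      exact ⟨fun k => k.2, fun k => ⟨h.1, k⟩⟩
    rwa [h2] at h1
  have hx : φ.symm (a, b) ∈ φ.source := φ.map_target h
  have hφx : φ (φ.symm (a, b)) = (a, b) := φ.right_inv h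
  have hVB : ∀ u ∈ U, ∀ v ∈ V, (u, v) ∈ φ.target := by
    intro u hu v hv
    rw [hUV]; exact ⟨hu, hv⟩
  have hab : a ∈ U ∧ b ∈ V := by rw [hUV] at h; exact h
  have hab' : a ∈ U ∧ b' ∈ V := by rw [hUV] at h'; exact h'
  refine ⟨fun y => g (φ.symm ((φ y).1, b)), ?_, ?_⟩
  · refine Adm.cont φ hφ U V hUo hVo hV hVB _ ?_ a hab.1 b b' hab.2 hab'.2 ?_
    · intro u hu v hv v' hv'
      show g (φ.symm ((φ (φ.symm (u, v))).1, b)) = g (φ.symm ((φ (φ.symm (u, v'))).1, b))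
      rw [φ.right_inv (hVB u hu v hv), φ.right_inv (hVB u hu v' hv')]
    · refine Adm.germ _ g _ hg ?_
      have h1 := hg.inv2 hφ hx
      rw [hφx] at h1
      have h2 : Tendsto φ (𝓝 (φ.symm (a, b))) (𝓝 (a, b)) := by
        have := (φ.continuousAt hx).tendsto
        rwa [hφx] at this
      filter_upwards [h2.eventually h1, φ.open_source.mem_nhds hx] with y hy hys
      rw [← hy, φ.left_inv hys]
  · show g (φ.symm ((φ (φ.symm (a, b'))).1, b)) = g (φ.symm (a, b))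
    rw [φ.right_inv h']

/-- An admissible germ moves along a leaf of the second foliation, keeping its value. -/
theorem adm_move {x y : M} (h : toLeafSpace 𝒜 x = toLeafSpace 𝒜 y) {g : M → Leaf 𝒜}
    (hg : Adm 𝒜 x g) : ∃ f : M → Leaf 𝒜, Adm 𝒜 y f ∧ f y = g x := by
  have key := rel_of_toLeafSpace_eq (𝒜 := 𝒜)
    (fun x y => ∀ g : M → Leaf 𝒜, Adm 𝒜 x g → ∃ f : M → Leaf 𝒜, Adm 𝒜 y f ∧ f y = g x)
    (fun x g hg => ⟨g, hg, rfl⟩)
    (fun x y z h1 h2 g hg => by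
      obtain ⟨f, hf, hfg⟩ := h1 g hg
      obtain ⟨k, hk, hkf⟩ := h2 f hf
      exact ⟨k, hk, hkf.trans hfg⟩) ?_ h
  · exact key g hg
  · intro x
    obtain ⟨φ, hφ, hx⟩ := FolAtlas.cover (𝒜 := 𝒜) x
    refine ⟨φ, hφ, hx, ?_⟩
    have h0 : ((φ x).1, (φ x).2) ∈ φ.target := φ.map_source hx
    have hxx : φ.symm ((φ x).1, (φ x).2) = x := φ.left_inv hx
    have hc : Continuous (fun b : B => (((φ x).1, b) : A × B)) := by fun_prop
    have h1 : ∀ᶠ b in 𝓝 (φ x).2, ((φ x).1, b) ∈ φ.target :=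
      (φ.open_target.preimage hc).mem_nhds h0
    filter_upwards [h1] with b hb
    constructor
    · intro g hg
      have := adm_move_box hφ h0 hb (g := g) (by rw [hxx]; exact hg)
      rwa [hxx] at this
    · intro g hg
      have := adm_move_box hφ hb h0 hg
      rwa [hxx] at this

/-- There is an admissible germ with any prescribed value on the leaf of the second foliation. -/
theorem exists_adm {x : M} {z : Leaf 𝒜} (h : toLeafSpace 𝒜 (Leaf.toM 𝒜 z) = toLeafSpace 𝒜 x) :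
    ∃ f : M → Leaf 𝒜, Adm 𝒜 x f ∧ f x = z := by
  obtain ⟨φ, hφ, hz⟩ := FolAtlas.cover (𝒜 := 𝒜) (Leaf.toM 𝒜 z)
  obtain ⟨f, hf, hfz⟩ := adm_move h (Adm.base φ hφ _ hz)
  refine ⟨f, hf, hfz.trans ?_⟩
  show (Leaf.toM 𝒜).symm (φ.symm ((φ (Leaf.toM 𝒜 z)).1, (φ (Leaf.toM 𝒜 z)).2)) = z
  rw [show ((φ (Leaf.toM 𝒜 z)).1, (φ (Leaf.toM 𝒜 z)).2) = φ (Leaf.toM 𝒜 z) from rfl,
    φ.left_inv hz, Equiv.symm_apply_apply]

set_option maxHeartbeats 1000000 in
/-- (PROD) **Product theorem**: a simply connected manifold with two transverse foliations for which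
the system of admissible germs is locally trivial is a product. -/
theorem exists_product_of_locTriv [T2Space M] [SimplyConnectedSpace M]
    [LocallyPathConnectedSpace M] [IsManifold 𝓘(ℂ, E) ω M] [CompleteSpace A]
    [hA : AnaCompat (E := E) 𝒜] (hlt : LocTriv 𝒜) :
    ∃ (C₁ : Opens (Leaf 𝒜)) (C₂ : Opens (Leaf (swapAtlas 𝒜)))
      (Φ : Diffeomorph 𝓘(ℂ, E) (𝓘(ℂ, A).prod 𝓘(ℂ, B)) M (C₁ × C₂) ω),
      SimplyConnectedSpace C₁ ∧ SimplyConnectedSpace C₂ ∧
      (∀ φ ∈ 𝒜, ∀ x ∈ φ.source, ∀ v : TangentSpace 𝓘(ℂ, E) x,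
        (mfderiv 𝓘(ℂ, E) 𝓘(ℂ, A) (fun y => (Φ y).1) x v = 0 ↔
          mfderiv 𝓘(ℂ, E) 𝓘(ℂ, A) (fun y => (φ y).1) x v = 0)) ∧
      (∀ φ ∈ 𝒜, ∀ x ∈ φ.source, ∀ v : TangentSpace 𝓘(ℂ, E) x,
        (mfderiv 𝓘(ℂ, E) 𝓘(ℂ, B) (fun y => (Φ y).2) x v = 0 ↔
          mfderiv 𝓘(ℂ, E) 𝓘(ℂ, B) (fun y => (φ y).2) x v = 0)) := by
  set e := Leaf.toM 𝒜 with he
  obtain ⟨x₀⟩ : Nonempty M := inferInstance
  obtain ⟨φ₀, hφ₀, hx₀⟩ := FolAtlas.cover (𝒜 := 𝒜) x₀
  have hbase := Adm.base φ₀ hφ₀ x₀ hx₀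
  obtain ⟨r, hr, hr0⟩ := exists_global_of_germs (V := AdmGerm 𝒜)
    hlt x₀ _ (coe_mem_admGerm.2 hbase)
  have hadm : ∀ x, Adm 𝒜 x r := fun x => coe_mem_admGerm.1 (hr x)
  have hrana : ContMDiff 𝓘(ℂ, E) 𝓘(ℂ, A) ω r := fun x => (hadm x).contMDiffAt
  have hrc : Continuous r := hrana.continuous
  have hreana : ContMDiff 𝓘(ℂ, A) 𝓘(ℂ, A) ω (fun z : Leaf 𝒜 => r (e z)) :=
    hrana.comp (contMDiff_toM (E := E))
  have hLD : ∀ z : Leaf 𝒜, IsLocalDiffeomorphAt 𝓘(ℂ, A) 𝓘(ℂ, A) ω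
      (fun z : Leaf 𝒜 => r (e z)) z := by
    intro z
    have := (hadm (e z)).isLocalDiffeomorphAt
    rwa [← he, e.symm_apply_apply] at this
  -- constancy on the leaves of the second foliation
  have hrbox : ∀ φ ∈ 𝒜, ∀ a b b', (a, b) ∈ φ.target → (a, b') ∈ φ.target →
      r (φ.symm (a, b)) = r (φ.symm (a, b')) := by
    intro φ hφ a b b' h h'
    obtain ⟨U, V, hU, hV, hUV⟩ := h𝒜.box φ hφ
    rw [hUV] at h h'
    refine hV.induction₂' (fun b b' => r (φ.symm (a, b)) = r (φ.symm (a, b'))) ?_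
      (fun _ _ _ _ _ _ h1 h2 => h1.trans h2) h.2 h'.2
    intro c hc
    have hct : (a, c) ∈ φ.target := by rw [hUV]; exact ⟨h.1, hc⟩
    have h1 := (hadm (φ.symm (a, c))).inv2 hφ (φ.map_target hct)
    rw [φ.right_inv hct] at h1
    have h2 : Tendsto (fun c' : B => (a, c')) (𝓝 c) (𝓝 (a, c)) := by
      have : ContinuousAt (fun c' : B => (a, c')) c := by fun_prop
      exact this.tendsto
    apply mem_nhdsWithin_of_mem_nhds
    filter_upwards [h2.eventually h1] with c' hc'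
    exact ⟨hc'.symm, hc'⟩
  have hrconst : ∀ x y, toLeafSpace 𝒜 x = toLeafSpace 𝒜 y → r x = r y :=
    fun x y h => eq_of_toLeafSpace_eq r hrbox h
  have hrsame : ∀ x, toLeafSpace 𝒜 (e (r x)) = toLeafSpace 𝒜 x := fun x => (hadm x).same
  -- value at the base point
  have hr00 : r x₀ = e.symm x₀ := by
    rw [hr0.self_of_nhds]
    show e.symm (φ₀.symm ((φ₀ x₀).1, (φ₀ x₀).2)) = e.symm x₀
    congr 1
    exact φ₀.left_inv hx₀
  have hrC : ∀ x, r x ∈ connectedComponent (e.symm x₀) := by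
    intro x
    have h1 : IsPreconnected (range r) := isPreconnected_range hrc
    exact h1.subset_connectedComponent ⟨x₀, hr00⟩ ⟨x, rfl⟩
  -- identity on the leaf
  have hrid : ∀ z ∈ connectedComponent (e.symm x₀), r (e z) = z := by
    have h1 : (fun z : Leaf 𝒜 => r (e z)) =ᶠ[𝓝 (e.symm x₀)] id := by
      have t : Tendsto e (𝓝 (e.symm x₀)) (𝓝 x₀) := by
        have := (Leaf.continuous_toM (𝒜 := 𝒜)).tendsto (e.symm x₀)
        rwa [← he, e.apply_symm_apply] at this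
      have hmem : e.symm x₀ ∈ (Leaf.plaque φ₀ hφ₀ (φ₀ x₀).2).source := ⟨hx₀, rfl⟩
      filter_upwards [t.eventually hr0,
        (Leaf.plaque φ₀ hφ₀ (φ₀ x₀).2).open_source.mem_nhds hmem] with z z1 z2
      rw [z1]
      exact (Leaf.plaque φ₀ hφ₀ (φ₀ x₀).2).left_inv z2
    intro z hz
    exact (eventuallyEq_of_isPreconnected (E := A) (E' := A)
      (isPreconnected_connectedComponent (x := e.symm x₀)) (fun u _ => hreana u)
      (fun u _ => contMDiffAt_id) mem_connectedComponent h1 z hz).self_of_nhds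
  have hopen1 : IsOpen (connectedComponent (e.symm x₀)) := by
    rw [← pathComponent_eq_connectedComponent]
    exact IsOpen.pathComponent _
  let C₁ : Opens (Leaf 𝒜) := ⟨connectedComponent (e.symm x₀), hopen1⟩
  let q : M → C₁ := fun x => ⟨r x, hrC x⟩
  have hqc : Continuous q := hrc.subtype_mk _
  have hpc : Continuous (fun z : Leaf 𝒜 => q (e z)) := hqc.comp Leaf.continuous_toM
  have hloc : IsLocalHomeomorph (fun z : Leaf 𝒜 => q (e z)) := by
    have h1 : IsLocalHomeomorph (fun z : Leaf 𝒜 => r (e z)) := by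
      have : IsLocalDiffeomorph 𝓘(ℂ, A) 𝓘(ℂ, A) ω (fun z : Leaf 𝒜 => r (e z)) := hLD
      exact this.isLocalHomeomorph
    have h2 : IsLocalHomeomorph (Subtype.val : C₁ → Leaf 𝒜) :=
      (hopen1.isOpenEmbedding_subtypeVal).isLocalHomeomorph
    exact IsLocalHomeomorph.of_comp (g := (Subtype.val : C₁ → Leaf 𝒜))
      (f := fun z : Leaf 𝒜 => q (e z)) h1 h2 hpc
  have hconn : PreconnectedSpace C₁ :=
    isPreconnected_iff_preconnectedSpace.1 (isPreconnected_connectedComponent (x := e.symm x₀))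
  have hcov : IsCoveringMap (fun z : Leaf 𝒜 => q (e z)) := by
    refine isCoveringMap_of_sections hloc (fun z => ⟨z.1, Subtype.ext (hrid z.1 z.2)⟩) ?_
    intro z
    -- an admissible germ at `r (e z)`, with value `z`
    obtain ⟨g, hg, hgz⟩ := exists_adm (x := e (r (e z))) (z := z) (hrsame (e z)).symm
    obtain ⟨F, hF, hF0⟩ := exists_global_of_germs (V := AdmGerm 𝒜)
      hlt (e (r (e z))) _ (coe_mem_admGerm.2 hg)
    have hFadm : ∀ x, Adm 𝒜 x F := fun x => coe_mem_admGerm.1 (hF x)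
    have hFc : Continuous F :=
      (show ContMDiff 𝓘(ℂ, E) 𝓘(ℂ, A) ω F from fun x => (hFadm x).contMDiffAt).continuous
    refine ⟨fun n => F (e n.1), (hFc.comp Leaf.continuous_toM).comp continuous_subtype_val,
      fun n => Subtype.ext ?_, ?_⟩
    · show r (e (F (e n.1))) = n.1
      rw [hrconst _ _ (hFadm (e n.1)).same]
      exact hrid n.1 n.2
    · show F (e (r (e z))) = z
      rw [hF0.self_of_nhds]
      exact hgz
  refine exists_product_of_cover_gen q hqc hcov ?_ ?_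
  · intro x y
    rw [← toLeafSpace_eq_iff]
    constructor
    · intro h
      have h1 : r x = r y := congrArg Subtype.val h
      rw [← hrsame x, ← hrsame y, h1]
    · intro h
      exact Subtype.ext (hrconst x y h)
  · intro r₁ hr₁c hr₁q
    -- `r₁` is a lift of `r`
    have hl : ∀ x, r (e (r₁ x)) = r x := fun x => congrArg Subtype.val (hr₁q x)
    have key : ∀ x, r₁ =ᶠ[𝓝 x] fun y => (hLD (r₁ x)).localInverse (r y) := by
      intro x
      have h1 : ∀ᶠ y in 𝓝 x, r₁ y ∈ (hLD (r₁ x)).localInverse.target :=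
        hr₁c.continuousAt.eventually_mem
          ((hLD (r₁ x)).localInverse.open_target.mem_nhds (hLD (r₁ x)).localInverse_mem_target)
      filter_upwards [h1] with y hy
      have := (hLD (r₁ x)).localInverse_left_inv hy
      rw [← this]
      congr 1
      exact hl y
    constructor
    · intro x
      have h1 := (hLD (r₁ x)).localInverse_contMDiffAt
      rw [show r (e (r₁ x)) = r x from hl x] at h1
      exact (h1.comp x (hrana x)).congr_of_eventuallyEq (key x)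
    · intro z
      have h1 := (hLD (r₁ (e z))).localInverse_isLocalDiffeomorphAt
      rw [show r (e (r₁ (e z))) = r (e z) from hl (e z)] at h1
      have h2 := IsLocalDiffeomorphAt.comp _ _ (hLD z) h1
      refine isLocalDiffeomorphAt_congr h2 ?_
      have t : Tendsto e (𝓝 z) (𝓝 (e z)) := (Leaf.continuous_toM (𝒜 := 𝒜)).tendsto z
      exact t.eventually (key (e z))

end Vale.Agent.P278.Full
end
end

section

section

open Set Topology Filter Metric Module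
open scoped ContDiff Manifold

set_option linter.unusedSectionVars false

namespace Vale.Agent.P278

variable {E : Type*} [NormedAddCommGroup E] [NormedSpace ℂ E]
  {X : Type*} [TopologicalSpace X] [ChartedSpace E X] [IsManifold 𝓘(ℂ, E) ω X]

section chart
variable {e : OpenPartialHomeomorph X E} (he : e.MDifferentiable 𝓘(ℂ, E) 𝓘(ℂ, E))
include he

theorem chart_inverse {x : X} (hx : x ∈ e.source) (w : E) :
    (mfderiv 𝓘(ℂ, E) 𝓘(ℂ, E) e x).inverse w = mfderiv 𝓘(ℂ, E) 𝓘(ℂ, E) e.symm (e x) w := by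
  have h1 : mfderiv 𝓘(ℂ, E) 𝓘(ℂ, E) e x = ((he.mfderiv hx : TangentSpace 𝓘(ℂ, E) x ≃L[ℂ]
    TangentSpace 𝓘(ℂ, E) (e x)) : TangentSpace 𝓘(ℂ, E) x →L[ℂ] TangentSpace 𝓘(ℂ, E) (e x)) := rfl
  rw [h1, ContinuousLinearMap.inverse_equiv]
  rfl

set_option backward.isDefEq.respectTransparency false in
theorem chart_symm_inverse {x : X} (hx : x ∈ e.source) (w : TangentSpace 𝓘(ℂ, E) x) :
    (mfderiv 𝓘(ℂ, E) 𝓘(ℂ, E) e.symm (e x)).inverse w = mfderiv 𝓘(ℂ, E) 𝓘(ℂ, E) e x w := by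
  have h1 : mfderiv 𝓘(ℂ, E) 𝓘(ℂ, E) e.symm (e x) =
    ((he.mfderiv hx).symm : TangentSpace 𝓘(ℂ, E) (e x) →L[ℂ] TangentSpace 𝓘(ℂ, E) x) := rfl
  rw [h1, ContinuousLinearMap.inverse_equiv]
  rfl

theorem chart_deriv_symm {x : X} (hx : x ∈ e.source) (w : E) :
    mfderiv 𝓘(ℂ, E) 𝓘(ℂ, E) e x (mfderiv 𝓘(ℂ, E) 𝓘(ℂ, E) e.symm (e x) w) = w :=
  (he.mfderiv hx).right_inv w

end chart

set_option backward.isDefEq.respectTransparency false in
theorem mlieBracket_eq_lieBracket' (V W : ∀ x : E, TangentSpace 𝓘(ℂ, E) x) (p : E) :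
    VectorField.mlieBracket 𝓘(ℂ, E) V W p = VectorField.lieBracket ℂ V W p := by
  rw [← VectorField.mlieBracketWithin_univ, VectorField.mlieBracketWithin_eq_lieBracketWithin,
    VectorField.lieBracketWithin_univ]

set_option backward.isDefEq.respectTransparency false in
/-- **Holomorphic Frobenius theorem** on manifolds: an integrable holomorphic subbundle is locally
the kernel of the differential of a holomorphic map with values in a space of the right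
dimension. -/
theorem exists_local_first_integral [FiniteDimensional ℂ E] {D : TangentDist E X}
    (hD : IsHolSubbundle D) (hI : IsIntegrable D) (x₀ : X) :
    ∃ (C : Submodule ℂ E) (g : X → C),
      finrank ℂ C + finrank ℂ (D x₀) = finrank ℂ E ∧
      ∀ᶠ x in 𝓝 x₀, ContMDiffAt 𝓘(ℂ, E) 𝓘(ℂ, C) ω g x ∧
        ∀ v, v ∈ D x ↔ mfderiv 𝓘(ℂ, E) 𝓘(ℂ, C) g x v = 0 := by
  have : CompleteSpace E := FiniteDimensional.complete ℂ E
  obtain ⟨U, hU, hxU, r, s, hs, hsp⟩ := hD x₀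
  set e := chartAt E x₀ with he
  have hed : e.MDifferentiable 𝓘(ℂ, E) 𝓘(ℂ, E) := mdifferentiable_chart x₀
  have hes : ContMDiffOn 𝓘(ℂ, E) 𝓘(ℂ, E) ω e e.source := contMDiffOn_chart
  have het : ContMDiffOn 𝓘(ℂ, E) 𝓘(ℂ, E) ω e.symm e.target := contMDiffOn_chart_symm
  have hx₀ : x₀ ∈ e.source := mem_chart_source E x₀
  set p₀ : E := e x₀ with hp₀
  -- the frame in the chart
  let σ : Fin r → E → E := fun j => VectorField.mpullback 𝓘(ℂ, E) 𝓘(ℂ, E) e.symm (s j)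
  have hσe : ∀ y ∈ e.source, ∀ j, σ j (e y) = mfderiv 𝓘(ℂ, E) 𝓘(ℂ, E) e y (s j y) := by
    intro y hy j
    show (mfderiv 𝓘(ℂ, E) 𝓘(ℂ, E) e.symm (e y)).inverse (s j (e.symm (e y))) = _
    have h1 := chart_symm_inverse hed hy (s j y)
    rw [← h1]
    rw [e.left_inv hy]
  have hσana : ∀ j, ContDiffAt ℂ ω (σ j) p₀ := by
    intro j
    rw [← contMDiffAt_vectorSpace_iff_contDiffAt]
    refine ContMDiffAt.mpullback_vectorField_preimage (n := ω) ?_ ?_ ?_ (by simp)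
    · rw [hp₀, e.left_inv hx₀]
      exact (hs j).contMDiffAt (hU.mem_nhds hxU)
    · exact het.contMDiffAt (e.open_target.mem_nhds (e.map_source hx₀))
    · exact ⟨(hed.mfderiv hx₀).symm, rfl⟩
  have hspan : ∀ y ∈ e.source, y ∈ U → ∀ v : TangentSpace 𝓘(ℂ, E) y, v ∈ D y ↔
      (mfderiv 𝓘(ℂ, E) 𝓘(ℂ, E) e y v : E) ∈ Submodule.span ℂ (range fun j => σ j (e y)) := by
    intro y hy hyU v
    rw [← (hsp y hyU).2, Submodule.mem_span_range_iff_exists_fun,
      Submodule.mem_span_range_iff_exists_fun]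
    constructor
    · rintro ⟨c, rfl⟩
      refine ⟨c, ?_⟩
      simp only [hσe y hy]
      rw [map_sum]
      simp only [map_smul]
    · rintro ⟨c, hc⟩
      refine ⟨c, ?_⟩
      simp only [hσe y hy] at hc
      have h1 : mfderiv 𝓘(ℂ, E) 𝓘(ℂ, E) e y (∑ i, c i • s i y) =
          mfderiv 𝓘(ℂ, E) 𝓘(ℂ, E) e y v := by
        rw [map_sum]
        simp only [map_smul]
        exact hc
      exact hed.mfderiv_injective hy h1
  have hli : LinearIndependent ℂ fun j => σ j p₀ := by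
    have h1 := (hsp x₀ hxU).1
    have h2 := h1.map' (hed.mfderiv hx₀ : TangentSpace 𝓘(ℂ, E) x₀ ≃L[ℂ]
      TangentSpace 𝓘(ℂ, E) (e x₀)).toLinearMap (LinearEquiv.ker _)
    have h3 : (fun j => σ j p₀) = fun j => (mfderiv 𝓘(ℂ, E) 𝓘(ℂ, E) e x₀ (s j x₀) : E) :=
      funext fun j => hσe x₀ hx₀ j
    rw [h3]
    exact h2
  have hrank : finrank ℂ (D x₀) = r := by
    rw [← (hsp x₀ hxU).2, finrank_span_eq_card (hsp x₀ hxU).1, Fintype.card_fin]
  -- integrability in the chart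
  have hsrc : ∀ᶠ p in 𝓝 p₀, p ∈ e.target ∧ e.symm p ∈ U := by
    have h1 : e.target ∩ e.symm ⁻¹' U ∈ 𝓝 p₀ :=
      (e.isOpen_inter_preimage_symm hU).mem_nhds ⟨e.map_source hx₀, by
        show e.symm (e x₀) ∈ U
        rw [e.left_inv hx₀]; exact hxU⟩
    exact h1
  have hint : ∀ᶠ p in 𝓝 p₀, ∀ V W : E → E, ContDiffAt ℂ ω V p → ContDiffAt ℂ ω W p →
      (∀ᶠ q in 𝓝 p, V q ∈ Submodule.span ℂ (range fun j => σ j q)) →
      (∀ᶠ q in 𝓝 p, W q ∈ Submodule.span ℂ (range fun j => σ j q)) →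
      VectorField.lieBracket ℂ V W p ∈ Submodule.span ℂ (range fun j => σ j p) := by
    filter_upwards [hsrc] with p ⟨hp, hpU⟩ V W hV hW hVs hWs
    set x := e.symm p with hx
    have hxs : x ∈ e.source := e.map_target hp
    have hex : e x = p := e.right_inv hp
    have hcont : Tendsto e (𝓝 x) (𝓝 p) := by
      have := (e.continuousAt hxs).tendsto
      rwa [hex] at this
    let VX : ∀ y : X, TangentSpace 𝓘(ℂ, E) y := VectorField.mpullback 𝓘(ℂ, E) 𝓘(ℂ, E) e V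
    let WX : ∀ y : X, TangentSpace 𝓘(ℂ, E) y := VectorField.mpullback 𝓘(ℂ, E) 𝓘(ℂ, E) e W
    have hev : ∀ᶠ y in 𝓝 x, y ∈ e.source ∧ y ∈ U ∧ ContDiffAt ℂ ω V (e y) ∧
        ContDiffAt ℂ ω W (e y) ∧ V (e y) ∈ Submodule.span ℂ (range fun j => σ j (e y)) ∧
        W (e y) ∈ Submodule.span ℂ (range fun j => σ j (e y)) := by
      filter_upwards [e.open_source.mem_nhds hxs, hU.mem_nhds hpU,
        hcont.eventually (hV.eventually (by simp)), hcont.eventually (hW.eventually (by simp)),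
        hcont.eventually hVs, hcont.eventually hWs] with y h1 h2 h3 h4 h5 h6
      exact ⟨h1, h2, h3, h4, h5, h6⟩
    obtain ⟨O, hO, hOo, hxO⟩ := eventually_nhds_iff.1 hev
    have hfield : ∀ (V : E → E), (∀ y ∈ O, ContDiffAt ℂ ω V (e y)) →
        IsHolField O (VectorField.mpullback 𝓘(ℂ, E) 𝓘(ℂ, E) e V) := by
      intro V hV y hy
      apply ContMDiffAt.contMDiffWithinAt
      have hys := (hO y hy).1
      refine ContMDiffAt.mpullback_vectorField_preimage (n := ω) ?_ ?_ ?_ (by simp)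
      · exact contMDiffAt_vectorSpace_iff_contDiffAt.2 (hV y hy)
      · exact hes.contMDiffAt (e.open_source.mem_nhds hys)
      · exact ⟨hed.mfderiv hys, rfl⟩
    have hmem : ∀ (V : E → E), ∀ y ∈ O, V (e y) ∈ Submodule.span ℂ (range fun j => σ j (e y)) →
        VectorField.mpullback 𝓘(ℂ, E) 𝓘(ℂ, E) e V y ∈ D y := by
      intro V y hy hVy
      have hys := (hO y hy).1
      rw [hspan y hys (hO y hy).2.1, VectorField.mpullback_apply, chart_inverse hed hys,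
        chart_deriv_symm hed hys]
      exact hVy
    have h1 := hI O VX WX hOo (hfield V fun y hy => (hO y hy).2.2.1)
      (hfield W fun y hy => (hO y hy).2.2.2.1) (fun y hy => hmem V y hy (hO y hy).2.2.2.2.1)
      (fun y hy => hmem W y hy (hO y hy).2.2.2.2.2) x hxO
    have h2 : VectorField.mpullback 𝓘(ℂ, E) 𝓘(ℂ, E) e
        (VectorField.mlieBracket 𝓘(ℂ, E) V W) x = VectorField.mlieBracket 𝓘(ℂ, E) VX WX x := by
      refine VectorField.mpullback_mlieBracket (n := ω) ?_ ?_ ?_ (by simp)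
      · exact (contMDiffAt_vectorSpace_iff_contDiffAt.2
          ((hO x hxO).2.2.1)).mdifferentiableAt (by simp)
      · exact (contMDiffAt_vectorSpace_iff_contDiffAt.2
          ((hO x hxO).2.2.2.1)).mdifferentiableAt (by simp)
      · exact hes.contMDiffAt (e.open_source.mem_nhds hxs)
    rw [← h2, hspan x hxs hpU, VectorField.mpullback_apply, chart_inverse hed hxs,
        chart_deriv_symm hed hxs, mlieBracket_eq_lieBracket', hex] at h1
    exact h1
  obtain ⟨C, f, hf, hCr, hfk⟩ := exists_first_integral σ p₀ hσana hli hint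
  refine ⟨C, fun x => f (e x), ?_, ?_⟩
  · rw [hrank]; exact hCr
  · have hcont : Tendsto e (𝓝 x₀) (𝓝 p₀) := (e.continuousAt hx₀).tendsto
    filter_upwards [hcont.eventually hfk, hcont.eventually (hf.eventually (by simp)),
      e.open_source.mem_nhds hx₀, hU.mem_nhds hxU] with x h1 h2 h3 h4
    have h5 : ContMDiffAt 𝓘(ℂ, E) 𝓘(ℂ, E) ω e x := hes.contMDiffAt (e.open_source.mem_nhds h3)
    have h6 : ContMDiffAt 𝓘(ℂ, E) 𝓘(ℂ, C) ω f (e x) := h2.contMDiffAt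
    refine ⟨h6.comp x h5, fun v => ?_⟩
    have h7 : mfderiv 𝓘(ℂ, E) 𝓘(ℂ, C) (fun x => f (e x)) x =
        (mfderiv 𝓘(ℂ, E) 𝓘(ℂ, C) f (e x)).comp (mfderiv 𝓘(ℂ, E) 𝓘(ℂ, E) e x) :=
      mfderiv_comp x (h6.mdifferentiableAt (by simp)) (h5.mdifferentiableAt (by simp))
    rw [hspan x h3 h4, h1, h7, mfderiv_eq_fderiv]
    rfl

end Vale.Agent.P278
end
end

section

section

open Set Topology Filter Metric Module
open scoped ContDiff Manifold

set_option linter.unusedSectionVars false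

namespace Vale.Agent.P278

variable {E : Type*} [NormedAddCommGroup E] [NormedSpace ℂ E]
  {X : Type*} [TopologicalSpace X] [ChartedSpace E X] [IsManifold 𝓘(ℂ, E) ω X]
  {A B : Type*} [NormedAddCommGroup A] [NormedSpace ℂ A] [NormedAddCommGroup B] [NormedSpace ℂ B]

/-- The rank of a holomorphic subbundle is constant on a connected manifold. -/
theorem finrank_eq_of_preconnected [PreconnectedSpace X] {D : TangentDist E X}
    (hD : IsHolSubbundle D) (x y : X) : finrank ℂ (D x) = finrank ℂ (D y) := by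
  have h : IsLocallyConstant fun x : X => finrank ℂ (D x) := by
    rw [IsLocallyConstant.iff_eventually_eq]
    intro x₀
    obtain ⟨U, hU, hxU, r, s, -, hsp⟩ := hD x₀
    have hr : ∀ x ∈ U, finrank ℂ (D x) = r := by
      intro x hx
      rw [← (hsp x hx).2, finrank_span_eq_card (hsp x hx).1, Fintype.card_fin]
    filter_upwards [hU.mem_nhds hxU] with x hx
    rw [hr x hx, hr x₀ hxU]
  exact h.apply_eq_of_preconnectedSpace x y

/-- The product charts of a pair of complementary distributions. -/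
def prodCharts (F₁ F₂ : TangentDist E X) (A B : Type*) [NormedAddCommGroup A] [NormedSpace ℂ A]
    [NormedAddCommGroup B] [NormedSpace ℂ B] : Set (OpenPartialHomeomorph X (A × B)) :=
  {φ | ContMDiffOn 𝓘(ℂ, E) 𝓘(ℂ, A × B) ω φ φ.source ∧
    ContMDiffOn 𝓘(ℂ, A × B) 𝓘(ℂ, E) ω φ.symm φ.target ∧
    ∀ x ∈ φ.source, ∀ v : TangentSpace 𝓘(ℂ, E) x,
      (v ∈ F₁ x ↔ (mfderiv 𝓘(ℂ, E) 𝓘(ℂ, A × B) φ x v : A × B).2 = 0) ∧
      (v ∈ F₂ x ↔ (mfderiv 𝓘(ℂ, E) 𝓘(ℂ, A × B) φ x v : A × B).1 = 0)}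

variable {F₁ F₂ : TangentDist E X}

theorem prodCharts_mdiff {φ : OpenPartialHomeomorph X (A × B)} (hφ : φ ∈ prodCharts F₁ F₂ A B) :
    φ.MDifferentiable 𝓘(ℂ, E) 𝓘(ℂ, A × B) :=
  ⟨hφ.1.mdifferentiableOn (by simp), hφ.2.1.mdifferentiableOn (by simp)⟩

set_option backward.isDefEq.respectTransparency false in
/-- Derivatives of transition maps. -/
theorem fderiv_transition {φ ψ : OpenPartialHomeomorph X (A × B)} (hφ : φ ∈ prodCharts F₁ F₂ A B)
    (hψ : ψ ∈ prodCharts F₁ F₂ A B) {z : X} (hz : z ∈ φ.source) (hz' : z ∈ ψ.source) (w : A × B) :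
    DifferentiableAt ℂ (fun p => ψ (φ.symm p)) (φ z) ∧
    ∃ v : TangentSpace 𝓘(ℂ, E) z, mfderiv 𝓘(ℂ, E) 𝓘(ℂ, A × B) φ z v = w ∧
      mfderiv 𝓘(ℂ, E) 𝓘(ℂ, A × B) ψ z v = fderiv ℂ (fun p => ψ (φ.symm p)) (φ z) w := by
  have hφd := prodCharts_mdiff hφ
  have hψd := prodCharts_mdiff hψ
  have h1 : MDifferentiableAt 𝓘(ℂ, A × B) 𝓘(ℂ, E) φ.symm (φ z) :=
    hφd.mdifferentiableAt_symm (φ.map_source hz)
  have h2 : MDifferentiableAt 𝓘(ℂ, E) 𝓘(ℂ, A × B) ψ (φ.symm (φ z)) := by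
    rw [φ.left_inv hz]
    exact hψd.mdifferentiableAt hz'
  refine ⟨?_, mfderiv 𝓘(ℂ, A × B) 𝓘(ℂ, E) φ.symm (φ z) w, ?_, ?_⟩
  · exact (h2.comp (φ z) h1).differentiableAt
  · exact (hφd.mfderiv hz).right_inv w
  · have h3 : mfderiv 𝓘(ℂ, A × B) 𝓘(ℂ, A × B) (fun p => ψ (φ.symm p)) (φ z) =
        (mfderiv 𝓘(ℂ, E) 𝓘(ℂ, A × B) ψ (φ.symm (φ z))).comp
          (mfderiv 𝓘(ℂ, A × B) 𝓘(ℂ, E) φ.symm (φ z)) := mfderiv_comp (φ z) h2 h1
    rw [← mfderiv_eq_fderiv, h3, φ.left_inv hz]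
    rfl

theorem trans_snd {φ ψ : OpenPartialHomeomorph X (A × B)} (hφ : φ ∈ prodCharts F₁ F₂ A B)
    (hψ : ψ ∈ prodCharts F₁ F₂ A B) {x : X} (hx : x ∈ φ.source) (hx' : x ∈ ψ.source) :
    ∀ᶠ y in 𝓝 x, (φ y).2 = (φ x).2 → (ψ y).2 = (ψ x).2 := by
  have h1 : (φ.symm ≫ₕ ψ).source ∈ 𝓝 (φ x) := by
    refine (φ.symm ≫ₕ ψ).open_source.mem_nhds ⟨φ.map_source hx, ?_⟩
    show φ.symm (φ x) ∈ ψ.source
    rw [φ.left_inv hx]; exact hx'
  obtain ⟨r, hr, hrb⟩ := Metric.mem_nhds_iff.1 h1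
  filter_upwards [(φ.continuousAt hx).preimage_mem_nhds (ball_mem_nhds (φ x) hr),
    φ.open_source.mem_nhds hx] with y hy hys hyx
  have hsub : ∀ a ∈ ball (φ x).1 r, (a, (φ x).2) ∈ (φ.symm ≫ₕ ψ).source := by
    intro a ha
    apply hrb
    rw [mem_ball, Prod.dist_eq, dist_self]
    exact max_lt ha hr
  have hder : ∀ a ∈ ball (φ x).1 r, HasFDerivAt (fun a => (ψ (φ.symm (a, (φ x).2))).2)
      (0 : A →L[ℂ] B) a := by
    intro a ha
    obtain ⟨k1, k2⟩ := hsub a ha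
    set z := φ.symm (a, (φ x).2) with hz
    have hzs : z ∈ φ.source := φ.map_target k1
    have hφz : φ z = (a, (φ x).2) := φ.right_inv k1
    have h3 : HasFDerivAt (fun p => ψ (φ.symm p)) (fderiv ℂ (fun p => ψ (φ.symm p)) (φ z))
        (a, (φ x).2) := by
      rw [← hφz]
      exact (fderiv_transition hφ hψ hzs k2 0).1.hasFDerivAt
    have h4 := (hasFDerivAt_snd (𝕜 := ℂ) (p := ψ (φ.symm (a, (φ x).2)))).comp a
      (h3.comp (f := fun a : A => (a, (φ x).2)) a (hasFDerivAt_prodMk_left a (φ x).2))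
    have h5 : (ContinuousLinearMap.snd ℂ A B).comp ((fderiv ℂ (fun p => ψ (φ.symm p)) (φ z)).comp
        (ContinuousLinearMap.inl ℂ A B)) = 0 := by
      ext w
      obtain ⟨-, v, hv, hv'⟩ := fderiv_transition hφ hψ hzs k2 (w, 0)
      show (fderiv ℂ (fun p => ψ (φ.symm p)) (φ z) (w, 0)).2 = 0
      rw [← hv']
      apply ((hψ.2.2 z k2 v).1).1
      apply ((hφ.2.2 z hzs v).1).2
      rw [hv]
    rw [h5] at h4
    exact h4
  have hy1 : (φ y).1 ∈ ball (φ x).1 r := by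
    have := hy
    rw [mem_preimage, mem_ball, Prod.dist_eq, max_lt_iff] at this
    exact this.1
  have h6 := isOpen_ball.is_const_of_fderiv_eq_zero (𝕜 := ℂ)
    (f := fun a => (ψ (φ.symm (a, (φ x).2))).2)
    (convex_ball (φ x).1 r).isPreconnected
    (fun a ha => (hder a ha).differentiableAt.differentiableWithinAt)
    (fun a ha => (hder a ha).fderiv) hy1 (mem_ball_self hr)
  rw [← hyx, show ((φ y).1, (φ y).2) = φ y from rfl, φ.left_inv hys, hyx,
    show ((φ x).1, (φ x).2) = φ x from rfl, φ.left_inv hx] at h6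
  exact h6

theorem trans_fst {φ ψ : OpenPartialHomeomorph X (A × B)} (hφ : φ ∈ prodCharts F₁ F₂ A B)
    (hψ : ψ ∈ prodCharts F₁ F₂ A B) {x : X} (hx : x ∈ φ.source) (hx' : x ∈ ψ.source) :
    ∀ᶠ y in 𝓝 x, (φ y).1 = (φ x).1 → (ψ y).1 = (ψ x).1 := by
  have h1 : (φ.symm ≫ₕ ψ).source ∈ 𝓝 (φ x) := by
    refine (φ.symm ≫ₕ ψ).open_source.mem_nhds ⟨φ.map_source hx, ?_⟩
    show φ.symm (φ x) ∈ ψ.source
    rw [φ.left_inv hx]; exact hx'
  obtain ⟨r, hr, hrb⟩ := Metric.mem_nhds_iff.1 h1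
  filter_upwards [(φ.continuousAt hx).preimage_mem_nhds (ball_mem_nhds (φ x) hr),
    φ.open_source.mem_nhds hx] with y hy hys hyx
  have hsub : ∀ b ∈ ball (φ x).2 r, ((φ x).1, b) ∈ (φ.symm ≫ₕ ψ).source := by
    intro b hb
    apply hrb
    rw [mem_ball, Prod.dist_eq, dist_self]
    exact max_lt hr hb
  have hder : ∀ b ∈ ball (φ x).2 r, HasFDerivAt (fun b => (ψ (φ.symm ((φ x).1, b))).1)
      (0 : B →L[ℂ] A) b := by
    intro b hb
    obtain ⟨k1, k2⟩ := hsub b hb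
    set z := φ.symm ((φ x).1, b) with hz
    have hzs : z ∈ φ.source := φ.map_target k1
    have hφz : φ z = ((φ x).1, b) := φ.right_inv k1
    have h3 : HasFDerivAt (fun p => ψ (φ.symm p)) (fderiv ℂ (fun p => ψ (φ.symm p)) (φ z))
        ((φ x).1, b) := by
      rw [← hφz]
      exact (fderiv_transition hφ hψ hzs k2 0).1.hasFDerivAt
    have h4 := (hasFDerivAt_fst (𝕜 := ℂ) (p := ψ (φ.symm ((φ x).1, b)))).comp b
      (h3.comp (f := fun b : B => ((φ x).1, b)) b (hasFDerivAt_prodMk_right (φ x).1 b))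
    have h5 : (ContinuousLinearMap.fst ℂ A B).comp ((fderiv ℂ (fun p => ψ (φ.symm p)) (φ z)).comp
        (ContinuousLinearMap.inr ℂ A B)) = 0 := by
      ext w
      obtain ⟨-, v, hv, hv'⟩ := fderiv_transition hφ hψ hzs k2 (0, w)
      show (fderiv ℂ (fun p => ψ (φ.symm p)) (φ z) (0, w)).1 = 0
      rw [← hv']
      apply ((hψ.2.2 z k2 v).2).1
      apply ((hφ.2.2 z hzs v).2).2
      rw [hv]
    rw [h5] at h4
    exact h4
  have hy1 : (φ y).2 ∈ ball (φ x).2 r := by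
    have := hy
    rw [mem_preimage, mem_ball, Prod.dist_eq, max_lt_iff] at this
    exact this.2
  have h6 := isOpen_ball.is_const_of_fderiv_eq_zero (𝕜 := ℂ)
    (f := fun b => (ψ (φ.symm ((φ x).1, b))).1)
    (convex_ball (φ x).2 r).isPreconnected
    (fun a ha => (hder a ha).differentiableAt.differentiableWithinAt)
    (fun a ha => (hder a ha).fderiv) hy1 (mem_ball_self hr)
  rw [← hyx, show ((φ y).1, (φ y).2) = φ y from rfl, φ.left_inv hys, hyx,
    show ((φ x).1, (φ x).2) = φ x from rfl, φ.left_inv hx] at h6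
  exact h6

theorem mfderiv_clm_comp {G G' : Type*} [NormedAddCommGroup G] [NormedSpace ℂ G]
    [NormedAddCommGroup G'] [NormedSpace ℂ G'] (L : G →L[ℂ] G') {g : X → G} {x : X}
    (hg : MDifferentiableAt 𝓘(ℂ, E) 𝓘(ℂ, G) g x) (v : TangentSpace 𝓘(ℂ, E) x) :
    mfderiv 𝓘(ℂ, E) 𝓘(ℂ, G') (fun y => L (g y)) x v = L (mfderiv 𝓘(ℂ, E) 𝓘(ℂ, G) g x v) := by
  have h1 : mfderiv 𝓘(ℂ, E) 𝓘(ℂ, G') (fun y => L (g y)) x =
      (mfderiv 𝓘(ℂ, G) 𝓘(ℂ, G') L (g x)).comp (mfderiv 𝓘(ℂ, E) 𝓘(ℂ, G) g x) :=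
    mfderiv_comp x (L.differentiableAt.mdifferentiableAt) hg
  rw [h1, mfderiv_eq_fderiv, L.fderiv]
  rfl

set_option backward.isDefEq.respectTransparency false in
/-- Existence of product charts. -/
theorem exists_mem_prodCharts [FiniteDimensional ℂ E] [FiniteDimensional ℂ A]
    [FiniteDimensional ℂ B] (h₁ : IsHolSubbundle F₁) (h₂ : IsHolSubbundle F₂)
    (i₁ : IsIntegrable F₁) (i₂ : IsIntegrable F₂) (hc : ∀ x, IsCompl (F₁ x) (F₂ x)) (x₀ : X)
    (hA : finrank ℂ (F₁ x₀) = finrank ℂ A) (hB : finrank ℂ (F₂ x₀) = finrank ℂ B) :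
    ∃ φ ∈ prodCharts F₁ F₂ A B, x₀ ∈ φ.source := by
  have : CompleteSpace E := FiniteDimensional.complete ℂ E
  obtain ⟨C₁, g₁, hC₁, hg₁⟩ := exists_local_first_integral h₁ i₁ x₀
  obtain ⟨C₂, g₂, hC₂, hg₂⟩ := exists_local_first_integral h₂ i₂ x₀
  have hfd : FiniteDimensional ℂ (TangentSpace 𝓘(ℂ, E) x₀) :=
    inferInstanceAs (FiniteDimensional ℂ E)
  have hsum : finrank ℂ (F₁ x₀) + finrank ℂ (F₂ x₀) = finrank ℂ E :=
    Submodule.finrank_add_eq_of_isCompl (hc x₀)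
  let l₁ : C₁ ≃L[ℂ] B := ContinuousLinearEquiv.ofFinrankEq (by omega)
  let l₂ : C₂ ≃L[ℂ] A := ContinuousLinearEquiv.ofFinrankEq (by omega)
  let Ξ : X → A × B := fun x => (l₂ (g₂ x), l₁ (g₁ x))
  set e := chartAt E x₀ with he
  have hed : e.MDifferentiable 𝓘(ℂ, E) 𝓘(ℂ, E) := mdifferentiable_chart x₀
  have hes : ContMDiffOn 𝓘(ℂ, E) 𝓘(ℂ, E) ω e e.source := contMDiffOn_chart
  have het : ContMDiffOn 𝓘(ℂ, E) 𝓘(ℂ, E) ω e.symm e.target := contMDiffOn_chart_symm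
  have hx₀ : x₀ ∈ e.source := mem_chart_source E x₀
  obtain ⟨O, hO, hOo, hxO⟩ := eventually_nhds_iff.1 (hg₁.and hg₂)
  have hΞ : ∀ x ∈ O, ContMDiffAt 𝓘(ℂ, E) 𝓘(ℂ, A × B) ω Ξ x := by
    intro x hx
    have k1 : ContMDiffAt 𝓘(ℂ, E) 𝓘(ℂ, B) ω (fun y => l₁ (g₁ y)) x :=
      (l₁.contDiff.contMDiff.contMDiffAt).comp x (hO x hx).1.1
    have k2 : ContMDiffAt 𝓘(ℂ, E) 𝓘(ℂ, A) ω (fun y => l₂ (g₂ y)) x :=
      (l₂.contDiff.contMDiff.contMDiffAt).comp x (hO x hx).2.1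
    exact k2.prodMk_space k1
  have hΞd : ∀ x ∈ O, ∀ v : TangentSpace 𝓘(ℂ, E) x,
      (mfderiv 𝓘(ℂ, E) 𝓘(ℂ, A × B) Ξ x v : A × B) =
      ((l₂ (mfderiv 𝓘(ℂ, E) 𝓘(ℂ, C₂) g₂ x v : C₂)),
        (l₁ (mfderiv 𝓘(ℂ, E) 𝓘(ℂ, C₁) g₁ x v : C₁))) := by
    intro x hx v
    have k0 := (hΞ x hx).mdifferentiableAt (by simp)
    have k1 := mfderiv_clm_comp (ContinuousLinearMap.fst ℂ A B) k0 v
    have k2 := mfderiv_clm_comp (ContinuousLinearMap.snd ℂ A B) k0 v
    have k3 := mfderiv_clm_comp (l₂ : C₂ →L[ℂ] A) ((hO x hx).2.1.mdifferentiableAt (by simp)) v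
    have k4 := mfderiv_clm_comp (l₁ : C₁ →L[ℂ] B) ((hO x hx).1.1.mdifferentiableAt (by simp)) v
    exact Prod.ext (k1.symm.trans k3) (k2.symm.trans k4)
  have hΞk : ∀ x ∈ O, ∀ v : TangentSpace 𝓘(ℂ, E) x,
      (v ∈ F₁ x ↔ (mfderiv 𝓘(ℂ, E) 𝓘(ℂ, A × B) Ξ x v : A × B).2 = 0) ∧
      (v ∈ F₂ x ↔ (mfderiv 𝓘(ℂ, E) 𝓘(ℂ, A × B) Ξ x v : A × B).1 = 0) := by
    intro x hx v
    rw [hΞd x hx v]
    constructor
    · show _ ↔ l₁ (mfderiv 𝓘(ℂ, E) 𝓘(ℂ, C₁) g₁ x v : C₁) = 0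
      rw [l₁.map_eq_zero_iff]
      exact (hO x hx).1.2 v
    · show _ ↔ l₂ (mfderiv 𝓘(ℂ, E) 𝓘(ℂ, C₂) g₂ x v : C₂) = 0
      rw [l₂.map_eq_zero_iff]
      exact (hO x hx).2.2 v
  -- the map in the chart
  let Θ : E → A × B := fun q => Ξ (e.symm q)
  have hΘ : ∀ q ∈ e.target, e.symm q ∈ O → ContDiffAt ℂ ω Θ q ∧
      ∃ T : E ≃L[ℂ] (A × B), HasFDerivAt Θ (T : E →L[ℂ] (A × B)) q := by
    intro q hq hqO
    have k1 : ContMDiffAt 𝓘(ℂ, E) 𝓘(ℂ, E) ω e.symm q :=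
      het.contMDiffAt (e.open_target.mem_nhds hq)
    have k2 : ContMDiffAt 𝓘(ℂ, E) 𝓘(ℂ, A × B) ω Θ q := (hΞ _ hqO).comp q k1
    have k3 : ContDiffAt ℂ ω Θ q := k2.contDiffAt
    have k4 : mfderiv 𝓘(ℂ, E) 𝓘(ℂ, A × B) Θ q =
        (mfderiv 𝓘(ℂ, E) 𝓘(ℂ, A × B) Ξ (e.symm q)).comp (mfderiv 𝓘(ℂ, E) 𝓘(ℂ, E) e.symm q) :=
      mfderiv_comp q ((hΞ _ hqO).mdifferentiableAt (by simp)) (k1.mdifferentiableAt (by simp))
    rw [mfderiv_eq_fderiv] at k4
    have hinj : Function.Injective (fderiv ℂ Θ q) := by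
      rw [injective_iff_map_eq_zero]
      intro w hw
      rw [k4] at hw
      have hw' : (mfderiv 𝓘(ℂ, E) 𝓘(ℂ, A × B) Ξ (e.symm q)
        (mfderiv 𝓘(ℂ, E) 𝓘(ℂ, E) e.symm q w) : A × B) = 0 := hw
      have k5 := ((hΞk _ hqO (mfderiv 𝓘(ℂ, E) 𝓘(ℂ, E) e.symm q w)).1).2 (by rw [hw']; rfl)
      have k6 := ((hΞk _ hqO (mfderiv 𝓘(ℂ, E) 𝓘(ℂ, E) e.symm q w)).2).2 (by rw [hw']; rfl)
      have k7 : mfderiv 𝓘(ℂ, E) 𝓘(ℂ, E) e.symm q w = 0 :=
        Submodule.disjoint_def.1 (hc (e.symm q)).disjoint _ k5 k6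
      exact (injective_iff_map_eq_zero _).1 (hed.symm.mfderiv_injective hq) w k7
    have hdim : finrank ℂ E = finrank ℂ (A × B) := by
      rw [Module.finrank_prod]; omega
    let T₀ : E ≃ₗ[ℂ] (A × B) := LinearMap.linearEquivOfInjective
      (fderiv ℂ Θ q : E →ₗ[ℂ] (A × B)) hinj hdim
    refine ⟨k3, T₀.toContinuousLinearEquiv, ?_⟩
    have k8 : ((T₀.toContinuousLinearEquiv : E ≃L[ℂ] (A × B)) : E →L[ℂ] (A × B)) =
        fderiv ℂ Θ q := by
      ext w <;> rfl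
    rw [k8]
    exact (k3.differentiableAt (by simp)).hasFDerivAt
  obtain ⟨hΘ₀, T, hT⟩ := hΘ (e x₀) (e.map_source hx₀) (by rw [e.left_inv hx₀]; exact hxO)
  set h := hΘ₀.toOpenPartialHomeomorph Θ hT (by simp) with hh
  have hh0 : e x₀ ∈ h.source := hΘ₀.mem_toOpenPartialHomeomorph_source hT (by simp)
  set φ : OpenPartialHomeomorph X (A × B) := (e ≫ₕ h).restrOpen O hOo with hφ
  have hφeq : ∀ y ∈ e.source, φ y = Ξ y := by
    intro y hy
    show Ξ (e.symm (e y)) = Ξ y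
    rw [e.left_inv hy]
  have hφev : ∀ y ∈ φ.source, φ =ᶠ[𝓝 y] Ξ := by
    intro y hy
    filter_upwards [e.open_source.mem_nhds hy.1.1] with z hz
    exact hφeq z hz
  refine ⟨φ, ⟨?_, ?_, ?_⟩, ⟨⟨hx₀, hh0⟩, hxO⟩⟩
  · intro y hy
    exact ((hΞ y hy.2).congr_of_eventuallyEq (hφev y hy)).contMDiffWithinAt
  · intro p hp
    have hy := φ.map_target hp
    have k1 : h.symm p ∈ e.target := hp.1.2
    have k2 : p ∈ h.target := hp.1.1
    have k3 : e.symm (h.symm p) ∈ O := hy.2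
    obtain ⟨k4, T', hT'⟩ := hΘ _ k1 k3
    have k5 : ContDiffAt ℂ ω h.symm p := h.contDiffAt_symm k2 hT' k4
    have k6 : ContMDiffAt 𝓘(ℂ, E) 𝓘(ℂ, E) ω e.symm (h.symm p) :=
      het.contMDiffAt (e.open_target.mem_nhds k1)
    exact (k6.comp p k5.contMDiffAt).contMDiffWithinAt
  · intro y hy v
    rw [(hφev y hy).mfderiv_eq]
    exact hΞk y hy.2 v

/-- The product charts form a product atlas. -/
theorem prodAtlas_prodCharts [FiniteDimensional ℂ E] [FiniteDimensional ℂ A]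
    [FiniteDimensional ℂ B] (h₁ : IsHolSubbundle F₁) (h₂ : IsHolSubbundle F₂)
    (i₁ : IsIntegrable F₁) (i₂ : IsIntegrable F₂) (hc : ∀ x, IsCompl (F₁ x) (F₂ x))
    (hA : ∀ x, finrank ℂ (F₁ x) = finrank ℂ A) (hB : ∀ x, finrank ℂ (F₂ x) = finrank ℂ B) :
    ProdAtlas (E := E) (prodCharts F₁ F₂ A B) where
  cover x := exists_mem_prodCharts h₁ h₂ i₁ i₂ hc x (hA x) (hB x)
  toFun _ hφ := hφ.1
  invFun _ hφ := hφ.2.1
  trans _ hφ _ hψ _ hx hx' := trans_snd hφ hψ hx hx'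
  trans' _ hφ _ hψ _ hx hx' := trans_fst hφ hψ hx hx'

/-- On a connected manifold, a pair of complementary integrable holomorphic subbundles has a
product atlas with fixed model spaces. -/
theorem exists_prodAtlas [FiniteDimensional ℂ E] [PreconnectedSpace X] (x₀ : X)
    (h₁ : IsHolSubbundle F₁) (h₂ : IsHolSubbundle F₂)
    (i₁ : IsIntegrable F₁) (i₂ : IsIntegrable F₂) (hc : ∀ x, IsCompl (F₁ x) (F₂ x))
    [FiniteDimensional ℂ A] [FiniteDimensional ℂ B]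
    (hA : finrank ℂ (F₁ x₀) = finrank ℂ A) (hB : finrank ℂ (F₂ x₀) = finrank ℂ B) :
    ProdAtlas (E := E) (prodCharts F₁ F₂ A B) :=
  prodAtlas_prodCharts h₁ h₂ i₁ i₂ hc
    (fun x => (finrank_eq_of_preconnected h₁ x x₀).trans hA)
    (fun x => (finrank_eq_of_preconnected h₂ x x₀).trans hB)

end Vale.Agent.P278
end
end

section

section

/-! Lemma T, one step: every point is good. -/

open Set Topology Filter Metric MeasureTheory
open scoped ContDiff Manifold ComplexConjugate ENNReal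

set_option linter.all false

namespace Vale.Agent.P278.Full

variable {X : Type*} [TopologicalSpace X] {A B : Type*} [NormedAddCommGroup A] [NormedSpace ℂ A]
  [NormedAddCommGroup B] [NormedSpace ℂ B]
  {𝒬 : Set (OpenPartialHomeomorph X (A × B))}
  {H : OpenPartialHomeomorph X (A × B) → A × B → (A × B) →ₗ⋆[ℂ] (A × B) →ₗ[ℂ] ℂ}
  [FiniteDimensional ℂ A] [FiniteDimensional ℂ B]

/-- **The step of Lemma T** from (B1). -/
theorem good_of_locConst [CompactSpace X] [T2Space X] (K : KAtlas 𝒬 H)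
    (hB1 : ∃ ε₀ > 0, LocConstGood 𝒬 H ε₀)
    (Ψ : ℂ × ℂ → X) (z₀ : ℂ) (ρ T : ℝ) (hρ : 0 < ρ) (hT : 0 < T)
    (h1 : ∀ z ∈ closedBall z₀ ρ, ∀ t ∈ Ico (0 : ℝ) T, IsF 𝒬 Ψ (z, (t : ℂ)))
    (h2 : ∀ z ∈ sphere z₀ ρ, IsF 𝒬 Ψ (z, (T : ℂ))) :
    ∀ p ∈ closedBall z₀ ρ, Good 𝒬 Ψ T p := by
  haveI : CompleteSpace A := FiniteDimensional.complete ℂ A
  haveI : CompleteSpace B := FiniteDimensional.complete ℂ B
  obtain ⟨ε₀, hε, hLoc⟩ := hB1
  obtain ⟨A₀, hA⟩ := exists_energy_bound_T K h1 h2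
  have hfin := finite_bad hε hLoc hρ hT h1 h2 hA
  intro p hp
  rcases (mem_closedBall.1 hp).lt_or_eq with h | h
  · refine good_of_punctured K hT h1 hA (mem_ball.2 h) ?_
    have hcl : ({q | q ∈ closedBall z₀ ρ ∧ ¬ Good 𝒬 Ψ T q} \ {p})ᶜ ∈ 𝓝 p :=
      (hfin.subset diff_subset).isClosed.isOpen_compl.mem_nhds (by simp only [mem_closedBall, mem_compl_iff, Set.mem_sdiff, mem_ofPred_eq, mem_singleton_iff, not_true_eq_false, and_false, not_false_eq_true])
    have hb : ball z₀ ρ ∈ 𝓝 p := isOpen_ball.mem_nhds (mem_ball.2 h)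
    filter_upwards [mem_nhdsWithin_of_mem_nhds hcl, mem_nhdsWithin_of_mem_nhds hb,
      self_mem_nhdsWithin] with q hq1 hq2 hq3
    by_contra hbad
    exact hq1 ⟨⟨ball_subset_closedBall hq2, hbad⟩, hq3⟩
  · exact (h2 p (mem_sphere.2 h)).good

end Vale.Agent.P278.Full
end
end

section

section

/-! Lemma T, one step, unconditional: every point is good. -/

open Set Topology Filter Metric MeasureTheory
open scoped ContDiff Manifold ComplexConjugate ENNReal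

set_option linter.all false

namespace Vale.Agent.P278.Full

variable {X : Type*} [TopologicalSpace X] {A B : Type*} [NormedAddCommGroup A] [NormedSpace ℂ A]
  [NormedAddCommGroup B] [NormedSpace ℂ B]
  {𝒬 : Set (OpenPartialHomeomorph X (A × B))}
  {H : OpenPartialHomeomorph X (A × B) → A × B → (A × B) →ₗ⋆[ℂ] (A × B) →ₗ[ℂ] ℂ}
  [FiniteDimensional ℂ A] [FiniteDimensional ℂ B]

/-- **The step of Lemma T.** -/
theorem good_all [CompactSpace X] [T2Space X] (K : KAtlas 𝒬 H)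
    (Ψ : ℂ × ℂ → X) (z₀ : ℂ) (ρ T : ℝ) (hρ : 0 < ρ) (hT : 0 < T)
    (h1 : ∀ z ∈ closedBall z₀ ρ, ∀ t ∈ Ico (0 : ℝ) T, IsF 𝒬 Ψ (z, (t : ℂ)))
    (h2 : ∀ z ∈ sphere z₀ ρ, IsF 𝒬 Ψ (z, (T : ℂ))) :
    ∀ p ∈ closedBall z₀ ρ, Good 𝒬 Ψ T p :=
  good_of_locConst K (good_locConst K) Ψ z₀ ρ T hρ hT h1 h2

end Vale.Agent.P278.Full
end
end

section

section

open Set Topology Filter Metric
open scoped ContDiff Manifold ComplexConjugate

set_option linter.all false

namespace Vale.Agent.P278.Full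

variable {X : Type*} [TopologicalSpace X] {A B : Type*} [NormedAddCommGroup A] [NormedSpace ℂ A]
  [NormedAddCommGroup B] [NormedSpace ℂ B] {𝒬 : Set (OpenPartialHomeomorph X (A × B))}
  {H : OpenPartialHomeomorph X (A × B) → A × B → (A × B) →ₗ⋆[ℂ] (A × B) →ₗ[ℂ] ℂ}

/-- Exchange of the two factors of a chart. -/
def sw (φ : OpenPartialHomeomorph X (A × B)) : OpenPartialHomeomorph X (B × A) :=
  φ.transHomeomorph (Homeomorph.prodComm A B)

theorem sw_sw (φ : OpenPartialHomeomorph X (A × B)) : sw (sw φ) = φ := by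
  ext x
  · rfl
  · rfl
  · rfl
  · rfl

theorem mem_swapAtlas {ψ : OpenPartialHomeomorph X (B × A)} :
    ψ ∈ swapAtlas 𝒬 ↔ sw ψ ∈ 𝒬 := by
  constructor
  · rintro ⟨φ, hφ, rfl⟩
    exact (sw_sw φ).symm ▸ hφ
  · intro h
    exact ⟨sw ψ, h, (sw_sw ψ).symm⟩

theorem sw_mem {φ : OpenPartialHomeomorph X (A × B)} (hφ : φ ∈ 𝒬) : sw φ ∈ swapAtlas 𝒬 :=
  ⟨φ, hφ, rfl⟩

/-- The metric in the charts with the two factors exchanged. -/
noncomputable def swapH
    (H : OpenPartialHomeomorph X (A × B) → A × B → (A × B) →ₗ⋆[ℂ] (A × B) →ₗ[ℂ] ℂ)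
    (ψ : OpenPartialHomeomorph X (B × A)) (p : B × A) : (B × A) →ₗ⋆[ℂ] (B × A) →ₗ[ℂ] ℂ :=
  LinearMap.mk₂'ₛₗ (starRingEnd ℂ) (RingHom.id ℂ)
    (fun u v => H (sw ψ) (ContinuousLinearEquiv.prodComm ℂ B A p)
      (ContinuousLinearEquiv.prodComm ℂ B A u) (ContinuousLinearEquiv.prodComm ℂ B A v))
    (fun u u' v => by rw [map_add, map_add, LinearMap.add_apply])
    (fun c u v => by rw [map_smul, LinearMap.map_smulₛₗ, LinearMap.smul_apply])
    (fun u v v' => by rw [map_add, map_add])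
    (fun c u v => by rw [map_smul, LinearMap.map_smul, RingHom.id_apply])

theorem swapH_apply (ψ : OpenPartialHomeomorph X (B × A)) (p u v : B × A) :
    swapH H ψ p u v = H (sw ψ) (ContinuousLinearEquiv.prodComm ℂ B A p)
      (ContinuousLinearEquiv.prodComm ℂ B A u) (ContinuousLinearEquiv.prodComm ℂ B A v) := rfl

/-- The swapped Kähler atlas. -/
theorem KAtlas.swap (K : KAtlas 𝒬 H) : KAtlas (swapAtlas 𝒬) (swapH H) where
  cover x := by
    obtain ⟨φ, hφ, hx⟩ := K.cover x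
    exact ⟨sw φ, sw_mem hφ, hx⟩
  ana := by
    rintro _ ⟨φ, hφ, rfl⟩ _ ⟨ψ, hψ, rfl⟩ x hx hx'
    have h1 := K.ana φ hφ ψ hψ x hx hx'
    have h2 : AnalyticAt ℂ (fun p : A × B => (p.2, p.1)) (ψ (φ.symm (φ x))) :=
      analyticAt_snd.prod analyticAt_fst
    have h3 : AnalyticAt ℂ (fun p : B × A => (p.2, p.1)) ((φ x).2, (φ x).1) :=
      analyticAt_snd.prod analyticAt_fst
    have h4 : AnalyticAt ℂ (fun p : B × A => ψ (φ.symm (p.2, p.1))) ((φ x).2, (φ x).1) :=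
      AnalyticAt.comp (g := fun p => ψ (φ.symm p)) (f := fun p : B × A => (p.2, p.1))
        (x := ((φ x).2, (φ x).1)) h1 h3
    exact AnalyticAt.comp (g := fun p : A × B => (p.2, p.1))
      (f := fun p : B × A => ψ (φ.symm (p.2, p.1))) (x := ((φ x).2, (φ x).1)) h2 h4
  trans := by
    rintro _ ⟨φ, hφ, rfl⟩ _ ⟨ψ, hψ, rfl⟩ x hx hx'
    exact K.trans' φ hφ ψ hψ x hx hx'
  trans' := by
    rintro _ ⟨φ, hφ, rfl⟩ _ ⟨ψ, hψ, rfl⟩ x hx hx'
    exact K.trans φ hφ ψ hψ x hx hx'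
  kahler := by
    intro ψ hψ
    have h1 := K.kahler _ (mem_swapAtlas.1 hψ)
    refine FlatKahler.pullback h1 (ContinuousLinearEquiv.prodComm ℂ B A) ψ.open_target ?_ ?_
    · intro p hp
      exact hp
    · intro p _ u v
      rfl
  compat := by
    intro φ hφ ψ hψ x hx hx' u v
    have h1 := K.compat _ (mem_swapAtlas.1 hφ) _ (mem_swapAtlas.1 hψ) x hx hx'
      (ContinuousLinearEquiv.prodComm ℂ B A u) (ContinuousLinearEquiv.prodComm ℂ B A v)
    rw [swapH_apply, swapH_apply]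
    have h2 : ∀ w : B × A, ContinuousLinearEquiv.prodComm ℂ B A
        (fderiv ℂ (fun p => ψ (φ.symm p)) (φ x) w) =
        fderiv ℂ (fun p => sw ψ ((sw φ).symm p)) (sw φ x)
          (ContinuousLinearEquiv.prodComm ℂ B A w) := by
      intro w
      have e1 : (fun p => sw ψ ((sw φ).symm p)) = fun p : A × B =>
        ContinuousLinearEquiv.prodComm ℂ B A
          ((fun q => ψ (φ.symm q)) (ContinuousLinearEquiv.prodComm ℂ A B p)) := rfl
      rw [e1]
      have e2 : (fun p : A × B => ContinuousLinearEquiv.prodComm ℂ B A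
          ((fun q => ψ (φ.symm q)) (ContinuousLinearEquiv.prodComm ℂ A B p))) =
          (ContinuousLinearEquiv.prodComm ℂ B A) ∘ (((fun q => ψ (φ.symm q))) ∘
            (ContinuousLinearEquiv.prodComm ℂ A B)) := rfl
      rw [e2, ContinuousLinearEquiv.comp_fderiv, ContinuousLinearEquiv.comp_right_fderiv]
      rfl
    rw [h2, h2]
    exact h1

/-- F-maps and the exchange of the factors. -/
theorem isF_swap {Ψ : ℂ × ℂ → X} {p : ℂ × ℂ} (h : IsF 𝒬 Ψ (p.2, p.1)) :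
    IsF (swapAtlas 𝒬) (fun q => Ψ (q.2, q.1)) p := by
  obtain ⟨φ, hφ, f, g, hf, hg, h1⟩ := h
  refine ⟨sw φ, sw_mem hφ, g, f, hg, hf, ?_⟩
  have h2 : Tendsto (fun q : ℂ × ℂ => (q.2, q.1)) (𝓝 p) (𝓝 (p.2, p.1)) :=
    (continuous_snd.prodMk continuous_fst).continuousAt
  filter_upwards [h2.eventually h1] with q hq
  refine ⟨hq.1, ?_⟩
  show ((φ (Ψ (q.2, q.1))).2, (φ (Ψ (q.2, q.1))).1) = _
  rw [hq.2]

theorem isF_of_swap {Ψ : ℂ × ℂ → X} {p : ℂ × ℂ}
    (h : IsF (swapAtlas 𝒬) (fun q => Ψ (q.2, q.1)) (p.2, p.1)) : IsF 𝒬 Ψ p := by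
  obtain ⟨ψ, hψ, f, g, hf, hg, h1⟩ := h
  refine ⟨sw ψ, mem_swapAtlas.1 hψ, g, f, hg, hf, ?_⟩
  have h2 : Tendsto (fun q : ℂ × ℂ => (q.2, q.1)) (𝓝 p) (𝓝 (p.2, p.1)) :=
    (continuous_snd.prodMk continuous_fst).continuousAt
  filter_upwards [h2.eventually h1] with q hq
  refine ⟨hq.1, ?_⟩
  have h3 := hq.2
  show ((ψ (Ψ q)).2, (ψ (Ψ q)).1) = _
  have h4 : ψ (Ψ q) = (f q.2, g q.1) := h3
  rw [h4]

end Vale.Agent.P278.Full
end
end

section

section

/-! Glue: the ellipsoid extension property for F-maps from Lemma T (for the atlas and for the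
swapped atlas) and Lemma P. -/

open Set Topology Filter Metric MeasureTheory
open scoped ContDiff Manifold ComplexConjugate ENNReal

set_option linter.all false

namespace Vale.Agent.P278.Full

variable {X : Type*} [TopologicalSpace X] {A B : Type*} [NormedAddCommGroup A] [NormedSpace ℂ A]
  [NormedAddCommGroup B] [NormedSpace ℂ B]
  {𝒬 : Set (OpenPartialHomeomorph X (A × B))}
  {H : OpenPartialHomeomorph X (A × B) → A × B → (A × B) →ₗ⋆[ℂ] (A × B) →ₗ[ℂ] ℂ}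

/-- Lemma T, one-function form. -/
def LemmaT (𝒬 : Set (OpenPartialHomeomorph X (A × B))) : Prop :=
  ∀ (Ψ : ℂ × ℂ → X) (z₀ : ℂ) (R : ℝ) (w₀ w₁ : ℂ), 0 < R →
    (∀ z ∈ closedBall z₀ R, IsF 𝒬 Ψ (z, w₀)) →
    (∀ z ∈ sphere z₀ R, ∀ w ∈ segment ℝ w₀ w₁, IsF 𝒬 Ψ (z, w)) →
    ∃ Ψ₂ : ℂ × ℂ → X, (∀ z ∈ closedBall z₀ R, ∀ w ∈ segment ℝ w₀ w₁, IsF 𝒬 Ψ₂ (z, w)) ∧
      ∀ z ∈ closedBall z₀ R, Ψ₂ =ᶠ[𝓝 (z, w₀)] Ψ

/-- Affine change of the variables. -/
theorem IsF.affine {Ψ : ℂ × ℂ → X} {a b a' b' : ℂ} {p : ℂ × ℂ}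
    (h : IsF 𝒬 Ψ (a * p.1 + b, a' * p.2 + b')) :
    IsF 𝒬 (fun q => Ψ (a * q.1 + b, a' * q.2 + b')) p := by
  obtain ⟨φ, hφ, f, g, hf, hg, he⟩ := h
  refine ⟨φ, hφ, fun z => f (a * z + b), fun w => g (a' * w + b'), ?_, ?_, ?_⟩
  · exact AnalyticAt.comp' (g := f) (f := fun z : ℂ => a * z + b) hf (by fun_prop)
  · exact AnalyticAt.comp' (g := g) (f := fun z : ℂ => a' * z + b') hg (by fun_prop)
  · have hc : ContinuousAt (fun q : ℂ × ℂ => (a * q.1 + b, a' * q.2 + b')) p := by (clear * -; fun_prop)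
    exact hc.eventually he

/-- Exchange of the two variables for germs. -/
theorem eventuallyEq_swap {Ψ Ψ' : ℂ × ℂ → X} {z w : ℂ}
    (h : (fun q : ℂ × ℂ => Ψ (q.2, q.1)) =ᶠ[𝓝 (w, z)] fun q => Ψ' (q.2, q.1)) :
    Ψ =ᶠ[𝓝 (z, w)] Ψ' := by
  have hc : Tendsto (fun q : ℂ × ℂ => (q.2, q.1)) (𝓝 (z, w)) (𝓝 (w, z)) := by
    have : ContinuousAt (fun q : ℂ × ℂ => (q.2, q.1)) (z, w) := by fun_prop
    exact this
  exact hc.eventually h

variable [CompleteSpace A] [CompleteSpace B]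

/-- The theory of F-maps. -/
def fth [T2Space X] (K : KAtlas 𝒬 H) (hT : LemmaT 𝒬) (hT' : LemmaT (swapAtlas 𝒬)) : FTh X where
  IsF := IsF 𝒬
  ev h := h.eventually
  congr h he := h.congr he
  ident := by
    rintro Ψ Ψ' U hU h h' ⟨p, hp, he⟩
    exact FOn.eventuallyEq K h h' hU hp he
  T := by
    intro Ψ0 Ψ1 z0 R w0 w1 hR h0 h1 h01
    exact T_two_of_one (IsF := IsF 𝒬) (fun h he => h.congr he)
      (fun Ψ a1 a2 => hT Ψ z0 R w0 w1 hR a1 a2) hR h0 h1 h01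
  T' := by
    intro Ψ0 Ψ1 w0 R z0 z1 hR h0 h1 h01
    have key := T_two_of_one (IsF := IsF (swapAtlas 𝒬))
      (z0 := w0) (R := R) (w0 := z0) (w1 := z1)
      (fun h he => h.congr he)
      (fun Ψ a1 a2 => hT' Ψ w0 R z0 z1 hR a1 a2)
      (Ψ0 := fun q => Ψ0 (q.2, q.1)) (Ψ1 := fun q => Ψ1 (q.2, q.1)) hR
      (fun w hw => isF_swap (h0 w hw))
      (fun w hw z hz => isF_swap (h1 w hw z hz))
      (fun w hw => eventuallyEq_swap (Ψ := fun q => Ψ0 (q.2, q.1)) (Ψ' := fun q => Ψ1 (q.2, q.1))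
        (h01 w hw))
    obtain ⟨Ψ2, k1, k2⟩ := key
    refine ⟨fun q => Ψ2 (q.2, q.1), fun w hw z hz => ?_, fun w hw => ?_⟩
    · exact isF_of_swap (k1 w hw z hz)
    · exact eventuallyEq_swap (Ψ := fun q => Ψ2 (q.2, q.1)) (Ψ' := Ψ0) (k2 w hw)

/-- Lemma P, in the form used by `tt2_of`. -/
def LemmaP (𝒬 : Set (OpenPartialHomeomorph X (A × B)))
    (H : OpenPartialHomeomorph X (A × B) → A × B → (A × B) →ₗ⋆[ℂ] (A × B) →ₗ[ℂ] ℂ) : Prop :=
  ∀ Ψ : ℂ × ℂ → X, FOn 𝒬 Ψ touchBall → ∃ s₁ > 0, ∃ A₀ : ℝ≥0∞, A₀ ≠ ⊤ ∧ ∀ s : ℝ, 0 < s → s < s₁ →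
    energy 𝒬 H (fun z => Ψ (z, z - s)) (ball 0 (√s / 2)) ≤ A₀

/-- **TT for F-maps**: ellipsoid extension from Lemma T and Lemma P. -/
theorem ellExt_of_T_P [T2Space X] [CompactSpace X] [FiniteDimensional ℂ A] [FiniteDimensional ℂ B]
    (K : KAtlas 𝒬 H) (hT : LemmaT 𝒬) (hT' : LemmaT (swapAtlas 𝒬)) (hP : LemmaP 𝒬 H) :
    (fclass K).EllExt := by
  refine ellExt_of_annulus (fth K hT hT') (fclass K) (fun Ψ Ω => Iff.rfl)
    (fun Ψ a b a' b' p h => IsF.affine h) ?_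
  intro Ψ hΨ
  obtain ⟨s, r, hs, hr, h1, h2, Ψ₁, h3, h4⟩ := tt2_of K hΨ (hP Ψ hΨ)
  exact ⟨s, r, hs, hr, h1, h2, Ψ₁, fun z hz w hw => h3 (z, w) ⟨hz, hw⟩, h4⟩

/-- **Theorem C** (in the form `CrossExt`) from Lemma T and Lemma P. -/
theorem crossExt_of_T_P [T2Space X] [CompactSpace X] [FiniteDimensional ℂ A]
    [FiniteDimensional ℂ B] (K : KAtlas 𝒬 H) (hT : LemmaT 𝒬) (hT' : LemmaT (swapAtlas 𝒬))
    (hP : LemmaP 𝒬 H) : CrossExt 𝒬 :=
  crossExt_of_ellExt K (ellExt_of_T_P K hT hT' hP)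

end Vale.Agent.P278.Full
end
end

section

section

/-! Theorem C for F-maps in a compact Kähler atlas from Lemma T on unit parameter intervals. -/

open Set Topology Filter Metric MeasureTheory
open scoped ContDiff Manifold ComplexConjugate ENNReal

set_option linter.all false

namespace Vale.Agent.P278.Full

variable {X : Type*} [TopologicalSpace X] {A B : Type*} [NormedAddCommGroup A] [NormedSpace ℂ A]
  [NormedAddCommGroup B] [NormedSpace ℂ B]
  {𝒬 : Set (OpenPartialHomeomorph X (A × B))}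
  {H : OpenPartialHomeomorph X (A × B) → A × B → (A × B) →ₗ⋆[ℂ] (A × B) →ₗ[ℂ] ℂ}

/-- Lemma T on the unit parameter interval. -/
def TOne (𝒬 : Set (OpenPartialHomeomorph X (A × B))) : Prop :=
  ∀ (z₀ : ℂ) (R : ℝ) (Ψ : ℂ × ℂ → X), 0 < R →
    (∀ z ∈ closedBall z₀ R, IsF 𝒬 Ψ (z, 0)) →
    (∀ z ∈ sphere z₀ R, ∀ t ∈ Icc (0 : ℝ) 1, IsF 𝒬 Ψ (z, (t : ℂ))) →
    ∃ Ψ' : ℂ × ℂ → X, (∀ z ∈ closedBall z₀ R, ∀ t ∈ Icc (0 : ℝ) 1, IsF 𝒬 Ψ' (z, (t : ℂ))) ∧
      ∀ z ∈ closedBall z₀ R, Ψ' =ᶠ[𝓝 (z, 0)] Ψ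

theorem TOne.lemmaT [CompleteSpace A] [CompleteSpace B] (h : TOne 𝒬) : LemmaT 𝒬 := by
  intro Ψ z₀ R w₀ w₁ hR h0 h1
  rcases eq_or_ne w₁ w₀ with rfl | hne
  · refine ⟨Ψ, ?_, fun z _ => EventuallyEq.rfl⟩
    intro z hz w hw
    rw [segment_same, mem_singleton_iff] at hw
    subst hw
    exact h0 z hz
  have hd : w₁ - w₀ ≠ 0 := sub_ne_zero.2 hne
  have hseg : ∀ t ∈ Icc (0 : ℝ) 1, (w₁ - w₀) * (t : ℂ) + w₀ ∈ segment ℝ w₀ w₁ := by
    intro t ht
    rw [segment_eq_image']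
    refine ⟨t, ht, ?_⟩
    show w₀ + t • (w₁ - w₀) = _
    rw [Complex.real_smul]; ring
  obtain ⟨Ψ', k1, k2⟩ := h z₀ R (fun q => Ψ (1 * q.1 + 0, (w₁ - w₀) * q.2 + w₀)) hR
    (fun z hz => IsF.affine (by simpa using h0 z hz))
    (fun z hz t ht => IsF.affine (by simpa using h1 z hz _ (hseg t ht)))
  refine ⟨fun q => Ψ' (1 * q.1 + 0, (w₁ - w₀)⁻¹ * q.2 + -((w₁ - w₀)⁻¹ * w₀)), ?_, ?_⟩
  · intro z hz w hw
    rw [segment_eq_image'] at hw
    obtain ⟨t, ht, rfl⟩ := hw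
    refine IsF.affine ?_
    have e : (w₁ - w₀)⁻¹ * (z, w₀ + t • (w₁ - w₀)).2 + -((w₁ - w₀)⁻¹ * w₀) = (t : ℂ) := by
      show (w₁ - w₀)⁻¹ * (w₀ + t • (w₁ - w₀)) + -((w₁ - w₀)⁻¹ * w₀) = (t : ℂ)
      rw [Complex.real_smul]; field_simp; ring
    rw [e]
    simpa using k1 z hz t ht
  · intro z hz
    have hc : ContinuousAt (fun q : ℂ × ℂ =>
        (1 * q.1 + 0, (w₁ - w₀)⁻¹ * q.2 + -((w₁ - w₀)⁻¹ * w₀))) (z, w₀) := by (clear * -; fun_prop)
    have hc' : Tendsto (fun q : ℂ × ℂ =>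
        (1 * q.1 + 0, (w₁ - w₀)⁻¹ * q.2 + -((w₁ - w₀)⁻¹ * w₀))) (𝓝 (z, w₀)) (𝓝 (z, 0)) := by
      have := hc.tendsto
      simpa only [one_mul, add_zero, add_neg_cancel] using this
    filter_upwards [hc'.eventually (k2 z hz)] with q hq
    rw [hq]
    congr 1
    ext
    · simp
    · simp only; field_simp; ring

variable [FiniteDimensional ℂ A] [FiniteDimensional ℂ B]

theorem crossExt_of_TP [CompactSpace X] [T2Space X] (K : KAtlas 𝒬 H)
    (hT : TOne 𝒬) (hT' : TOne (swapAtlas 𝒬))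
    (hP : ∀ Ψ : ℂ × ℂ → X, FOn 𝒬 Ψ touchBall → ∃ s₁ > 0, ∃ A₀ : ℝ≥0∞, A₀ ≠ ⊤ ∧
      ∀ s : ℝ, 0 < s → s < s₁ → energy 𝒬 H (fun z => Ψ (z, z - s)) (ball 0 (√s / 2)) ≤ A₀) :
    CrossExt 𝒬 := by
  haveI : CompleteSpace A := FiniteDimensional.complete ℂ A
  haveI : CompleteSpace B := FiniteDimensional.complete ℂ B
  exact crossExt_of_T_P K hT.lemmaT hT'.lemmaT hP

theorem crossExt_of_T [CompactSpace X] [T2Space X] (K : KAtlas 𝒬 H)
    (hT : TOne 𝒬) (hT' : TOne (swapAtlas 𝒬)) : CrossExt 𝒬 :=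
  crossExt_of_TP K hT hT' fun Ψ hΨ => exists_diag_energy_bound K hΨ

end Vale.Agent.P278.Full
end
end

section

section

/-! Lemma T: gluing and the sup argument. -/

open Set Topology Filter Metric MeasureTheory
open scoped ContDiff Manifold ComplexConjugate ENNReal

set_option linter.all false

namespace Vale.Agent.P278.Full

variable {X : Type*} [TopologicalSpace X] {A B : Type*} [NormedAddCommGroup A] [NormedSpace ℂ A]
  [NormedAddCommGroup B] [NormedSpace ℂ B]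
  {𝒬 : Set (OpenPartialHomeomorph X (A × B))}
  {H : OpenPartialHomeomorph X (A × B) → A × B → (A × B) →ₗ⋆[ℂ] (A × B) →ₗ[ℂ] ℂ}

section glue
variable [CompleteSpace A] [CompleteSpace B]

/-- The set of complex numbers attached to a convex set of reals is convex. -/
lemma convex_ofReal_image {s : Set ℝ} (hs : Convex ℝ s) :
    Convex ℝ ((fun t : ℝ => (t : ℂ)) '' s) :=
  hs.linear_image Complex.ofRealCLM.toLinearMap

/-- A good point, uniformly. -/
lemma good_unif [T2Space X] (K : KAtlas 𝒬 H) {Ψ : ℂ × ℂ → X} {z₀ : ℂ} {R T : ℝ}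
    (hT : 0 < T)
    (h1 : ∀ z ∈ closedBall z₀ R, ∀ t ∈ Ico (0 : ℝ) T, IsF 𝒬 Ψ (z, (t : ℂ)))
    {p : ℂ} (hp : p ∈ closedBall z₀ R) (hg : Good 𝒬 Ψ T p) :
    ∃ ε > 0, ε < T ∧ ∃ Θ : ℂ × ℂ → X, (∀ z ∈ ball p ε, IsF 𝒬 Θ (z, (T : ℂ))) ∧
      ∀ z ∈ ball p ε, z ∈ closedBall z₀ R → ∀ t ∈ Ioo (T - ε) T, Θ =ᶠ[𝓝 (z, (t : ℂ))] Ψ := by
  obtain ⟨Θ, hΘ, he⟩ := hg
  obtain ⟨ε', hε', hball⟩ := Metric.eventually_nhds_iff_ball.1 hΘ.eventually
  set ε := min ε' (T / 2) with hεdef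
  have hε : 0 < ε := lt_min hε' (by linarith only [hT])
  have hεT : ε < T := lt_of_le_of_lt (min_le_right _ _) (by linarith only [hT])
  have hF : ∀ z ∈ ball p ε, ∀ w ∈ ball (T : ℂ) ε, IsF 𝒬 Θ (z, w) := by
    intro z hz w hw
    refine hball (z, w) ?_
    rw [← ball_prod_same]
    exact ⟨ball_subset_ball (min_le_left _ _) hz, ball_subset_ball (min_le_left _ _) hw⟩
  have htb : ∀ t ∈ Ioo (T - ε) T, (t : ℂ) ∈ ball (T : ℂ) ε := by
    intro t ht
    rw [mem_ball, dist_eq_norm, ← Complex.ofReal_sub, Complex.norm_real, Real.norm_eq_abs,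
      abs_of_neg (by linarith only [ht.2])]
    linarith only [ht.1]
  refine ⟨ε, hε, hεT, Θ, fun z hz => hF z hz _ (mem_ball_self hε), ?_⟩
  have hIoo : Ioo (T - ε) T ∈ 𝓝[<] T := Ioo_mem_nhdsLT (by linarith only [hε])
  obtain ⟨t₁, ht₁, ht₁I⟩ := (he.and hIoo).exists
  set S : Set (ℂ × ℂ) := (ball p ε ∩ closedBall z₀ R) ×ˢ ((fun t : ℝ => (t : ℂ)) '' Ioo (T - ε) T)
    with hS
  have hSc : IsPreconnected S :=
    ((((convex_ball _ _).inter (convex_closedBall _ _)).prod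
      (convex_ofReal_image (convex_Ioo _ _)))).isPreconnected
  have h3 : FOn 𝒬 Θ S := by
    rintro ⟨z, w⟩ ⟨hz, t, ht, rfl⟩
    exact hF z hz.1 _ (htb t ht)
  have h4 : FOn 𝒬 Ψ S := by
    rintro ⟨z, w⟩ ⟨hz, t, ht, rfl⟩
    exact h1 z hz.2 t ⟨by linarith only [hεT, ht.1], ht.2⟩
  intro z hz hzR t ht
  exact FOn.eventuallyEq K h3 h4 hSc (p := (p, (t₁ : ℂ))) ⟨⟨mem_ball_self hε, hp⟩, t₁, ht₁I, rfl⟩
    ht₁ (z, (t : ℂ)) ⟨⟨hz, hzR⟩, t, ht, rfl⟩

lemma tendsto_ofReal_left {z : ℂ} {T : ℝ} :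
    Tendsto (fun t : ℝ => (z, (t : ℂ))) (𝓝[<] T) (𝓝 (z, (T : ℂ))) := by
  have hc : Continuous fun t : ℝ => (z, (t : ℂ)) := by fun_prop
  exact (hc.tendsto T).mono_left nhdsWithin_le_nhds

/-- **Gluing at level `T`.** -/
theorem glue_good [T2Space X] (K : KAtlas 𝒬 H) {Ψ : ℂ × ℂ → X} {z₀ : ℂ} {R T : ℝ}
    (hT : 0 < T)
    (h1 : ∀ z ∈ closedBall z₀ R, ∀ t ∈ Ico (0 : ℝ) T, IsF 𝒬 Ψ (z, (t : ℂ)))
    (hg : ∀ p ∈ closedBall z₀ R, Good 𝒬 Ψ T p) :
    ∃ Ψ' : ℂ × ℂ → X, (∀ z ∈ closedBall z₀ R, IsF 𝒬 Ψ' (z, (T : ℂ))) ∧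
      ∀ z ∈ closedBall z₀ R, ∀ t ∈ Ico (0 : ℝ) T, Ψ' =ᶠ[𝓝 (z, (t : ℂ))] Ψ := by
  classical
  have hex : ∀ p : ℂ, ∃ ε : ℝ, 0 < ε ∧ ∃ Θ : ℂ × ℂ → X, p ∈ closedBall z₀ R → ε < T ∧
      (∀ z ∈ ball p ε, IsF 𝒬 Θ (z, (T : ℂ))) ∧
      ∀ z ∈ ball p ε, z ∈ closedBall z₀ R → ∀ t ∈ Ioo (T - ε) T, Θ =ᶠ[𝓝 (z, (t : ℂ))] Ψ := by
    intro p
    by_cases hp : p ∈ closedBall z₀ R
    · obtain ⟨ε, hε, h2, Θ, h3, h4⟩ := good_unif K hT h1 hp (hg p hp)
      exact ⟨ε, hε, Θ, fun _ => ⟨h2, h3, h4⟩⟩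
    · exact ⟨1, one_pos, Ψ, fun h => absurd h hp⟩
  choose ε hε Θ hΘ using hex
  obtain ⟨s, hs, hcov⟩ := (isCompact_closedBall z₀ R).elim_nhds_subcover
    (fun p => ball p (ε p / 2)) (fun p _ => ball_mem_nhds p (half_pos (hε p)))
  -- a common width
  obtain ⟨δ, hδ, hδs⟩ : ∃ δ > 0, ∀ p ∈ s, δ < ε p := by
    rcases s.eq_empty_or_nonempty with rfl | hne
    · exact ⟨1, one_pos, by simp⟩
    · refine ⟨s.inf' hne (fun p => ε p / 2), ?_, fun p hp => ?_⟩
      · rw [gt_iff_lt, Finset.lt_inf'_iff]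
        exact fun p _ => half_pos (hε p)
      · exact lt_of_le_of_lt (Finset.inf'_le _ hp) (half_lt_self (hε p))
  -- the choice
  let sel : ℂ → ℂ := fun z => if h : ∃ p ∈ s, z ∈ ball p (ε p / 2) then h.choose else 0
  have hsel : ∀ z, (∃ p ∈ s, z ∈ ball p (ε p / 2)) → sel z ∈ s ∧ z ∈ ball (sel z) (ε (sel z) / 2) := by
    intro z h
    have : sel z = h.choose := dif_pos h
    rw [this]
    exact h.choose_spec
  have hev : ∀ z' ∈ closedBall z₀ R, ∀ᶠ z in 𝓝 z', sel z ∈ s ∧ z' ∈ ball (sel z) (ε (sel z)) := by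
    intro z' hz'
    have ho : IsOpen (⋃ p ∈ s, ball p (ε p / 2)) := isOpen_biUnion fun p _ => isOpen_ball
    have h2 : ∀ᶠ z in 𝓝 z', ∀ p ∈ s, z' ∉ ball p (ε p) → z ∉ ball p (ε p / 2) := by
      refine (Filter.eventually_all_finset s).2 fun p _ => ?_
      by_cases hp : z' ∈ ball p (ε p)
      · exact Eventually.of_forall fun z h => absurd hp h
      · have hcl : (closedBall p (ε p / 2))ᶜ ∈ 𝓝 z' := by
          refine isClosed_closedBall.isOpen_compl.mem_nhds fun h => hp ?_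
          rw [mem_ball]
          exact lt_of_le_of_lt (mem_closedBall.1 h) (half_lt_self (hε p))
        filter_upwards [hcl] with z hz _ h
        exact hz (ball_subset_closedBall h)
    filter_upwards [ho.mem_nhds (hcov hz'), h2] with z hz hz2
    have hz3 : ∃ p ∈ s, z ∈ ball p (ε p / 2) := by simpa only [mem_ball, mem_iUnion, exists_prop] using hz
    obtain ⟨h3, h4⟩ := hsel z hz3
    refine ⟨h3, ?_⟩
    by_contra h5
    exact hz2 _ h3 h5 h4
  let Ψ' : ℂ × ℂ → X := fun q => if q.2.re ≤ T - δ then Ψ q else Θ (sel q.1) q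
  refine ⟨Ψ', fun z hz => ?_, fun z hz t ht => ?_⟩
  · obtain ⟨h2, h3⟩ := (hev z hz).self_of_nhds
    have hF : IsF 𝒬 (Θ (sel z)) (z, (T : ℂ)) := (hΘ (sel z) (hs _ h2)).2.1 z h3
    refine hF.congr ?_
    -- all the candidates agree near `(z, T)`
    have hag : ∀ p ∈ s, z ∈ ball p (ε p) → Θ (sel z) =ᶠ[𝓝 (z, (T : ℂ))] Θ p := by
      intro p hp hzp
      refine hF.eventuallyEq_of_frequently K ((hΘ p (hs p hp)).2.1 z hzp) ?_
      refine (tendsto_ofReal_left (z := z) (T := T)).frequently ?_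
      refine Filter.Eventually.frequently ?_
      have h6 : Ioo (T - δ) T ∈ 𝓝[<] T := Ioo_mem_nhdsLT (by linarith only [hδ])
      filter_upwards [h6] with t ht
      have h7 := (hΘ p (hs p hp)).2.2 z hzp hz t ⟨by linarith only [ht.1, hδs p hp], ht.2⟩
      have h8 := (hΘ (sel z) (hs _ h2)).2.2 z h3 hz t ⟨by linarith only [ht.1, hδs _ h2], ht.2⟩
      exact h8.trans h7.symm
    have hag' : ∀ᶠ q in 𝓝 (z, (T : ℂ)), ∀ p ∈ s, z ∈ ball p (ε p) → Θ (sel z) q = Θ p q := by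
      refine (Filter.eventually_all_finset s).2 fun p hp => ?_
      by_cases hzp : z ∈ ball p (ε p)
      · exact (hag p hp hzp).mono fun q hq _ => hq
      · exact Eventually.of_forall fun q h => absurd h hzp
    have hre : ∀ᶠ q : ℂ × ℂ in 𝓝 (z, (T : ℂ)), T - δ < q.2.re := by
      have hc : Continuous fun q : ℂ × ℂ => q.2.re := by fun_prop
      exact hc.continuousAt.eventually (Ioi_mem_nhds (by simpa using hδ))
    filter_upwards [hag', hre, continuousAt_fst.eventually (hev z hz)] with q h9 h10 h11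
    show Θ (sel z) q = if q.2.re ≤ T - δ then Ψ q else Θ (sel q.1) q
    rw [if_neg (not_le.2 h10)]
    exact h9 _ h11.1 h11.2
  · by_cases hlt : t < T - δ
    · have hre : ∀ᶠ q : ℂ × ℂ in 𝓝 (z, (t : ℂ)), q.2.re < T - δ := by
        have hc : Continuous fun q : ℂ × ℂ => q.2.re := by fun_prop
        exact hc.continuousAt.eventually (Iio_mem_nhds (by simpa using hlt))
      filter_upwards [hre] with q hq
      exact if_pos hq.le
    · have hag' : ∀ᶠ q in 𝓝 (z, (t : ℂ)), ∀ p ∈ s, z ∈ ball p (ε p) → Θ p q = Ψ q := by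
        refine (Filter.eventually_all_finset s).2 fun p hp => ?_
        by_cases hzp : z ∈ ball p (ε p)
        · refine ((hΘ p (hs p hp)).2.2 z hzp hz t ⟨?_, ht.2⟩).mono fun q hq _ => hq
          linarith only [hlt, hδs p hp]
        · exact Eventually.of_forall fun q h => absurd h hzp
      filter_upwards [hag', continuousAt_fst.eventually (hev z hz)] with q h9 h11
      show (if q.2.re ≤ T - δ then Ψ q else Θ (sel q.1) q) = Ψ q
      split_ifs
      · rfl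
      · exact h9 _ h11.1 h11.2

/-- **Collar.** -/
theorem collar [T2Space X] (K : KAtlas 𝒬 H) {Ψ₀ Ψ : ℂ × ℂ → X} {z₀ : ℂ} {R T : ℝ}
    (hT : 0 < T) (hT1 : T ≤ 1)
    (h0 : ∀ z ∈ closedBall z₀ R, Ψ =ᶠ[𝓝 (z, 0)] Ψ₀)
    (h1 : ∀ z ∈ closedBall z₀ R, ∀ t ∈ Ico (0 : ℝ) T, IsF 𝒬 Ψ (z, (t : ℂ)))
    (h2 : ∀ z ∈ sphere z₀ R, ∀ t ∈ Icc (0 : ℝ) 1, IsF 𝒬 Ψ₀ (z, (t : ℂ))) :
    ∃ Ψ' : ℂ × ℂ → X, (∀ z ∈ sphere z₀ R, IsF 𝒬 Ψ' (z, (T : ℂ))) ∧
      ∀ z ∈ closedBall z₀ R, ∀ t ∈ Ico (0 : ℝ) T, Ψ' =ᶠ[𝓝 (z, (t : ℂ))] Ψ := by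
  classical
  have hO : IsOpen {q | IsF 𝒬 Ψ₀ q} := by
    rw [isOpen_iff_mem_nhds]
    intro p hp
    exact IsF.eventually hp
  have hco : Continuous fun t : ℝ => (t : ℂ) := Complex.continuous_ofReal
  obtain ⟨U, V, hU, hV, hsU, hIV, hUV⟩ := generalized_tube_lemma (isCompact_sphere z₀ R)
    (isCompact_Icc.image hco) hO (show sphere z₀ R ×ˢ ((fun t : ℝ => (t : ℂ)) '' Icc (0 : ℝ) 1) ⊆
      {q | IsF 𝒬 Ψ₀ q} by
      rintro ⟨z, w⟩ ⟨hz, t, ht, rfl⟩
      exact h2 z hz t ht)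
  obtain ⟨δ, hδ, hδU⟩ := (isCompact_sphere z₀ R).exists_thickening_subset_open hU hsU
  set W := thickening (δ / 2) (sphere z₀ R) with hW
  have hWo : IsOpen W := isOpen_thickening
  have hsW : sphere z₀ R ⊆ W := self_subset_thickening (half_pos hδ) _
  have hWU : closure W ⊆ U := (closure_thickening_subset_cthickening _ _).trans
    ((cthickening_subset_thickening' hδ (half_lt_self hδ) _).trans hδU)
  have hF0 : ∀ z ∈ closure W, ∀ t ∈ Icc (0 : ℝ) 1, IsF 𝒬 Ψ₀ (z, (t : ℂ)) := fun z hz t ht =>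
    hUV ⟨hWU hz, hIV ⟨t, ht, rfl⟩⟩
  let Ψ' : ℂ × ℂ → X := fun q => if q.1 ∈ W then Ψ₀ q else Ψ q
  refine ⟨Ψ', fun z hz => ?_, fun z hz t ht => ?_⟩
  · refine (h2 z hz T ⟨hT.le, hT1⟩).congr ?_
    filter_upwards [continuousAt_fst.eventually (hWo.mem_nhds (hsW hz))] with q hq
    exact (if_pos hq).symm
  · by_cases hzW : z ∈ closure W
    · have key : Ψ =ᶠ[𝓝 (z, (t : ℂ))] Ψ₀ := by
        refine FOn.eventuallyEq K (S := {z} ×ˢ ((fun t : ℝ => (t : ℂ)) '' Ico (0 : ℝ) T)) ?_ ?_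
          (((convex_singleton z).prod (convex_ofReal_image (convex_Ico _ _))).isPreconnected)
          (p := (z, (0 : ℂ))) ⟨rfl, 0, ⟨le_rfl, hT⟩, by simp⟩ (h0 z hz) _ ⟨rfl, t, ht, rfl⟩
        · rintro ⟨z', w⟩ ⟨hz', t', ht', rfl⟩
          obtain rfl : z' = z := hz'
          exact h1 z' hz t' ht'
        · rintro ⟨z', w⟩ ⟨hz', t', ht', rfl⟩
          obtain rfl : z' = z := hz'
          exact hF0 z' hzW t' ⟨ht'.1, ht'.2.le.trans hT1⟩
      filter_upwards [key] with q hq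
      show (if q.1 ∈ W then Ψ₀ q else Ψ q) = Ψ q
      split_ifs
      · exact hq.symm
      · rfl
    · filter_upwards [continuousAt_fst.eventually (isClosed_closure.isOpen_compl.mem_nhds hzW)]
        with q hq
      exact if_neg fun h => hq (subset_closure h)

/-- Existence of an extension up to time `T`. -/
def TExt (𝒬 : Set (OpenPartialHomeomorph X (A × B))) (Ψ₀ : ℂ × ℂ → X) (z₀ : ℂ) (R T : ℝ)
    (Ψ : ℂ × ℂ → X) : Prop :=
  (∀ z ∈ closedBall z₀ R, ∀ t ∈ Icc (0 : ℝ) T, IsF 𝒬 Ψ (z, (t : ℂ))) ∧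
    ∀ z ∈ closedBall z₀ R, Ψ =ᶠ[𝓝 (z, 0)] Ψ₀

/-- Uniqueness. -/
lemma TExt.unique [T2Space X] (K : KAtlas 𝒬 H) {Ψ₀ Ψ Ψ' : ℂ × ℂ → X} {z₀ : ℂ} {R T T' t : ℝ}
    (h : TExt 𝒬 Ψ₀ z₀ R T Ψ) (h' : TExt 𝒬 Ψ₀ z₀ R T' Ψ') (ht0 : 0 ≤ t) (ht : t ≤ T) (ht' : t ≤ T')
    {z : ℂ} (hz : z ∈ closedBall z₀ R) : Ψ =ᶠ[𝓝 (z, (t : ℂ))] Ψ' := by
  refine FOn.eventuallyEq K (S := {z} ×ˢ ((fun t : ℝ => (t : ℂ)) '' Icc (0 : ℝ) t)) ?_ ?_
    (((convex_singleton z).prod (convex_ofReal_image (convex_Icc _ _))).isPreconnected)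
    (p := (z, (0 : ℂ))) ⟨rfl, 0, ⟨le_rfl, ht0⟩, by simp⟩ ((h.2 z hz).trans (h'.2 z hz).symm) _
    ⟨rfl, t, ⟨ht0, le_rfl⟩, rfl⟩
  · rintro ⟨z', w⟩ ⟨hz', t', ht2, rfl⟩
    obtain rfl : z' = z := hz'
    exact h.1 z' hz t' ⟨ht2.1, ht2.2.trans ht⟩
  · rintro ⟨z', w⟩ ⟨hz', t', ht2, rfl⟩
    obtain rfl : z' = z := hz'
    exact h'.1 z' hz t' ⟨ht2.1, ht2.2.trans ht'⟩

/-- Gluing of the extensions up to the times `t < T`. -/
theorem glue_lim [T2Space X] (K : KAtlas 𝒬 H) {Ψ₀ : ℂ × ℂ → X} {z₀ : ℂ} {R T : ℝ} (hT : 0 < T)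
    (h : ∀ t < T, ∃ Ψ, TExt 𝒬 Ψ₀ z₀ R t Ψ) :
    ∃ Ψ : ℂ × ℂ → X, (∀ z ∈ closedBall z₀ R, ∀ t ∈ Ico (0 : ℝ) T, IsF 𝒬 Ψ (z, (t : ℂ))) ∧
      ∀ z ∈ closedBall z₀ R, Ψ =ᶠ[𝓝 (z, 0)] Ψ₀ := by
  classical
  obtain ⟨u, hu, huT, hlim⟩ := exists_seq_strictMono_tendsto T
  choose P hP using fun n => h (u n) (huT n)
  have hex : ∀ t < T, ∃ n, t < u n := fun t ht =>
    (hlim.eventually (Ioi_mem_nhds ht)).exists
  let Ψ : ℂ × ℂ → X := fun q => if hq : ∃ n, q.2.re < u n then P (Nat.find hq) q else Ψ₀ q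
  have key : ∀ z ∈ closedBall z₀ R, ∀ t ∈ Ico (0 : ℝ) T, ∃ m, t < u m ∧
      Ψ =ᶠ[𝓝 (z, (t : ℂ))] P m := by
    intro z hz t ht
    have hq := hex t ht.2
    set m := Nat.find hq with hm
    have htm : t < u m := Nat.find_spec hq
    refine ⟨m, htm, ?_⟩
    have hc : Continuous fun q : ℂ × ℂ => q.2.re := by fun_prop
    have h1 : ∀ᶠ q : ℂ × ℂ in 𝓝 (z, (t : ℂ)), q.2.re < u m :=
      hc.continuousAt.eventually (Iio_mem_nhds (by simpa using htm))
    have h2 : ∀ᶠ q : ℂ × ℂ in 𝓝 (z, (t : ℂ)), ∀ k ∈ Finset.range (m + 1), u k < t → u k < q.2.re := by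
      refine (Filter.eventually_all_finset _).2 fun k _ => ?_
      by_cases hk : u k < t
      · exact (hc.continuousAt.eventually (Ioi_mem_nhds (by simpa using hk))).mono fun q hq _ => hq
      · exact Eventually.of_forall fun q hq => absurd hq hk
    have h3 : ∀ᶠ q : ℂ × ℂ in 𝓝 (z, (t : ℂ)), ∀ k ∈ Finset.range (m + 1), t ≤ u k →
        P k q = P m q := by
      refine (Filter.eventually_all_finset _).2 fun k _ => ?_
      by_cases hk : t ≤ u k
      · exact ((hP k).unique K (hP m) ht.1 hk htm.le hz).mono fun q hq _ => hq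
      · exact Eventually.of_forall fun q hq => absurd hq hk
    filter_upwards [h1, h2, h3] with q h4 h5 h6
    have hq' : ∃ n, q.2.re < u n := ⟨m, h4⟩
    have h7 : Nat.find hq' ≤ m := Nat.find_min' hq' h4
    have h8 : Nat.find hq' ∈ Finset.range (m + 1) := Finset.mem_range.2 (by omega)
    have h9 : t ≤ u (Nat.find hq') := by
      by_contra hlt
      exact absurd (h5 _ h8 (not_le.1 hlt)) (not_lt.2 (Nat.find_spec hq').le)
    show (if hq : ∃ n, q.2.re < u n then P (Nat.find hq) q else Ψ₀ q) = P m q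
    rw [dif_pos hq']
    exact h6 _ h8 h9
  refine ⟨Ψ, fun z hz t ht => ?_, fun z hz => ?_⟩
  · obtain ⟨m, hm, he⟩ := key z hz t ht
    exact ((hP m).1 z hz t ⟨ht.1, hm.le⟩).congr he.symm
  · obtain ⟨m, hm, he⟩ := key z hz 0 ⟨le_rfl, hT⟩
    rw [Complex.ofReal_zero] at he
    exact he.trans ((hP m).2 z hz)

end glue

/-- **Lemma T** for a compact Kähler atlas. -/
theorem tOne_of_kAtlas [CompactSpace X] [T2Space X] [FiniteDimensional ℂ A]
    [FiniteDimensional ℂ B] (K : KAtlas 𝒬 H) : TOne 𝒬 := by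
  haveI : CompleteSpace A := FiniteDimensional.complete ℂ A
  haveI : CompleteSpace B := FiniteDimensional.complete ℂ B
  intro z₀ R Ψ₀ hR h0 h1
  set S : Set ℝ := {T | T ∈ Icc (0 : ℝ) 1 ∧ ∃ Ψ, TExt 𝒬 Ψ₀ z₀ R T Ψ} with hS
  have h0S : (0 : ℝ) ∈ S := by
    refine ⟨⟨le_rfl, zero_le_one⟩, Ψ₀, fun z hz t ht => ?_, fun z _ => EventuallyEq.rfl⟩
    obtain rfl : t = 0 := le_antisymm ht.2 ht.1
    simpa using h0 z hz
  have hbdd : BddAbove S := ⟨1, fun T hT => hT.1.2⟩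
  set T := sSup S with hTdef
  have hT0 : 0 ≤ T := le_csSup hbdd h0S
  have hT1 : T ≤ 1 := csSup_le ⟨0, h0S⟩ fun T hT => hT.1.2
  have hlt : ∀ t < T, ∃ Ψ, TExt 𝒬 Ψ₀ z₀ R t Ψ := by
    intro t ht
    obtain ⟨s, hs, hts⟩ := exists_lt_of_lt_csSup ⟨0, h0S⟩ ht
    obtain ⟨Ψ, hΨ⟩ := hs.2
    exact ⟨Ψ, fun z hz t' ht' => hΨ.1 z hz t' ⟨ht'.1, ht'.2.trans hts.le⟩, hΨ.2⟩
  have hTS : T ∈ S := by
    rcases hT0.eq_or_lt with hT00 | hTpos
    · rw [← hT00]; exact h0S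
    obtain ⟨Ψ, k1, k2⟩ := glue_lim K hTpos hlt
    obtain ⟨Ψ', k3, k4⟩ := collar K hTpos hT1 k2 k1 h1
    have k5 : ∀ z ∈ closedBall z₀ R, ∀ t ∈ Ico (0 : ℝ) T, IsF 𝒬 Ψ' (z, (t : ℂ)) :=
      fun z hz t ht => (k1 z hz t ht).congr (k4 z hz t ht).symm
    obtain ⟨Ψ'', k6, k7⟩ := glue_good K hTpos k5 (good_all K Ψ' z₀ R T hR hTpos k5 k3)
    refine ⟨⟨hT0, hT1⟩, Ψ'', fun z hz t ht => ?_, fun z hz => ?_⟩
    · rcases ht.2.eq_or_lt with rfl | hlt'
      · exact k6 z hz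
      · exact (k5 z hz t ⟨ht.1, hlt'⟩).congr (k7 z hz t ⟨ht.1, hlt'⟩).symm
    · have e1 := k7 z hz 0 ⟨le_rfl, hTpos⟩
      have e2 := k4 z hz 0 ⟨le_rfl, hTpos⟩
      rw [Complex.ofReal_zero] at e1 e2
      exact e1.trans (e2.trans (k2 z hz))
  have hT_eq : T = 1 := by
    by_contra hne
    have hTlt : T < 1 := lt_of_le_of_ne hT1 hne
    obtain ⟨_, Ψ, hΨ⟩ := hTS
    have hO : IsOpen {q | IsF 𝒬 Ψ q} := by
      rw [isOpen_iff_mem_nhds]
      intro p hp
      exact IsF.eventually hp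
    obtain ⟨U, V, hU, hV, hsU, hIV, hUV⟩ := generalized_tube_lemma (isCompact_closedBall z₀ R)
      (isCompact_Icc.image Complex.continuous_ofReal) hO
      (show closedBall z₀ R ×ˢ ((fun t : ℝ => (t : ℂ)) '' Icc (0 : ℝ) T) ⊆ {q | IsF 𝒬 Ψ q} by
        rintro ⟨z, w⟩ ⟨hz, t, ht, rfl⟩
        exact hΨ.1 z hz t ht)
    obtain ⟨δ, hδ, hδV⟩ := Metric.isOpen_iff.1 (hV.preimage Complex.continuous_ofReal) T
      (hIV ⟨T, ⟨hT0, le_rfl⟩, rfl⟩)
    set T' := min 1 (T + δ / 2) with hT'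
    have hTT' : T < T' := lt_min hTlt (by linarith only [hδ])
    have hT'S : T' ∈ S := by
      refine ⟨⟨hT0.trans hTT'.le, min_le_left _ _⟩, Ψ, fun z hz t ht => ?_, hΨ.2⟩
      rcases le_or_gt t T with h | h
      · exact hΨ.1 z hz t ⟨ht.1, h⟩
      · refine hUV ⟨hsU hz, hδV ?_⟩
        rw [mem_ball, Real.dist_eq, abs_of_pos (by linarith only [h])]
        have := ht.2.trans (min_le_right _ _)
        linarith only [h, this]
    exact absurd (le_csSup hbdd hT'S) (not_le.2 hTT')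
  rw [hT_eq] at hTS
  obtain ⟨_, Ψ, hΨ⟩ := hTS
  exact ⟨Ψ, hΨ.1, hΨ.2⟩

end Vale.Agent.P278.Full
end
end

section

section

open Set Topology Filter
open scoped ContDiff Manifold ComplexConjugate

namespace Vale.Agent.P278.Full

/-- **Theorem C** for a compact Kähler atlas. -/
theorem crossExt_of_kAtlas {X A B : Type*} [TopologicalSpace X] [CompactSpace X] [T2Space X]
    [NormedAddCommGroup A] [NormedSpace ℂ A] [NormedAddCommGroup B] [NormedSpace ℂ B]
    [FiniteDimensional ℂ A] [FiniteDimensional ℂ B] {𝒬 : Set (OpenPartialHomeomorph X (A × B))}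
    {H : OpenPartialHomeomorph X (A × B) → A × B → (A × B) →ₗ⋆[ℂ] (A × B) →ₗ[ℂ] ℂ}
    (K : KAtlas 𝒬 H) : CrossExt 𝒬 :=
  crossExt_of_T K (tOne_of_kAtlas K) (tOne_of_kAtlas K.swap)

end Vale.Agent.P278.Full
end
end

section

section

open Set Topology Filter Metric TopologicalSpace
open scoped Manifold ContDiff unitInterval

set_option linter.unusedSectionVars false

namespace Vale.Agent.P278.Full

variable {M A B E : Type*} [TopologicalSpace M] [NormedAddCommGroup A] [NormedSpace ℂ A]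
  [NormedAddCommGroup B] [NormedSpace ℂ B] [NormedAddCommGroup E] [NormedSpace ℂ E]
  [ChartedSpace E M] {𝒜 : Set (OpenPartialHomeomorph M (A × B))} [h𝒜 : BoxAtlas 𝒜]

/-- The value of a germ. -/
def valE (s : Etale (AdmGerm 𝒜)) : Leaf 𝒜 := Germ.value s.2.1

theorem valE_adm {x : M} {f : M → Leaf 𝒜} (h : Adm 𝒜 x f) : valE (adm 𝒜 h) = f x := rfl

set_option maxHeartbeats 800000 in
/-- Extension of an admissible germ over a box. -/
theorem adm_extend_box [T2Space M] [CompleteSpace A] [hA : AnaCompat (E := E) 𝒜]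
    (hD : ∀ (x : M) (f : M → Leaf 𝒜), Adm 𝒜 x f → DiscLift 𝒜 x f)
    {φ : OpenPartialHomeomorph M (A × B)} (hφ : φ ∈ 𝒜) {a₀ : A} {b₀ : B} {ρ : ℝ} (hρ : 0 < ρ)
    (hb : ∀ a ∈ ball a₀ ρ, ∀ b ∈ ball b₀ ρ, (a, b) ∈ φ.target) {a₁ : A} {b₁ : B}
    (ha₁ : a₁ ∈ ball a₀ (ρ / 5)) (hb₁ : b₁ ∈ ball b₀ ρ) {f₀ : M → Leaf 𝒜}
    (hf₀ : Adm 𝒜 (φ.symm (a₁, b₁)) f₀) :
    ∃ G : M → Leaf 𝒜, (∀ a ∈ ball a₀ (ρ / 5), ∀ b ∈ ball b₀ ρ, Adm 𝒜 (φ.symm (a, b)) G) ∧
      G =ᶠ[𝓝 (φ.symm (a₁, b₁))] f₀ := by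
  classical
  set V := ball a₀ (ρ / 5) with hV
  have hVρ : V ⊆ ball a₀ ρ := ball_subset_ball (by linarith only [hρ])
  have hray : ∀ a ∈ V, ∀ z : ℂ, ‖z‖ < 2 → a₁ + z • (a - a₁) ∈ ball a₀ ρ := by
    intro a ha z hz
    have h1 : ‖a₁ - a₀‖ < ρ / 5 := by rwa [← mem_ball_iff_norm]
    have h2 : ‖a - a₀‖ < ρ / 5 := by rwa [← mem_ball_iff_norm]
    have h3 : ‖a - a₁‖ ≤ ‖a - a₀‖ + ‖a₁ - a₀‖ := by
      calc ‖a - a₁‖ = ‖(a - a₀) - (a₁ - a₀)‖ := by congr 1; abel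
        _ ≤ _ := norm_sub_le _ _
    rw [mem_ball_iff_norm]
    calc ‖a₁ + z • (a - a₁) - a₀‖ = ‖(a₁ - a₀) + z • (a - a₁)‖ := by congr 1; abel
      _ ≤ ‖a₁ - a₀‖ + ‖z‖ * ‖a - a₁‖ := by
          rw [← norm_smul]; exact norm_add_le _ _
      _ ≤ ‖a₁ - a₀‖ + 2 * (‖a - a₀‖ + ‖a₁ - a₀‖) := by (clear * - hz h3; gcongr)
      _ < ρ := by linarith only [h1, h2]
  have hnI : ∀ t : I, ‖((t : ℝ) : ℂ)‖ < 3 / 2 := by
    intro t
    rw [Complex.norm_real, Real.norm_eq_abs, abs_of_nonneg t.2.1]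
    linarith only [t.2.2]
  have hrayI : ∀ (t : I) (a : V), (a₁ + ((t : ℝ) : ℂ) • ((a : A) - a₁), b₁) ∈ φ.target :=
    fun t a => hb _ (hray a a.2 _ ((hnI t).trans (by norm_num))) _ hb₁
  let H : C(I × V, M) :=
    { toFun := fun p => φ.symm (a₁ + ((p.1 : ℝ) : ℂ) • ((p.2 : A) - a₁), b₁)
      continuous_toFun := by
        rw [continuous_iff_continuousAt]
        intro p
        have k1 := φ.continuousAt_symm (hrayI p.1 p.2)
        have k2 : ContinuousAt (fun p : I × V =>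
            (a₁ + ((p.1 : ℝ) : ℂ) • ((p.2 : A) - a₁), b₁)) p := by
          have : Continuous (fun p : I × V =>
            (a₁ + ((p.1 : ℝ) : ℂ) • ((p.2 : A) - a₁), b₁)) := by (clear * -; fun_prop)
          exact this.continuousAt
        exact ContinuousAt.comp (g := φ.symm) (f := fun p : I × V =>
            (a₁ + ((p.1 : ℝ) : ℂ) • ((p.2 : A) - a₁), b₁)) k1 k2 }
  have hH : ∀ p, H p = φ.symm (a₁ + ((p.1 : ℝ) : ℂ) • ((p.2 : A) - a₁), b₁) := fun p => rfl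
  obtain ⟨g, hgc, hgp, hg0⟩ := exists_lift_homotopy (V := AdmGerm 𝒜) isLocalHomeomorph_adm
    (isSeparatedMap_adm (E := E)) H (fun _ => adm 𝒜 hf₀) continuous_const (by
      intro a
      obtain ⟨h', Hl⟩ := hD _ _ hf₀
      obtain ⟨s, hs1, hs2, hs3⟩ := Hl 2 (3/2) (by norm_num) (by norm_num)
        (fun z => φ.symm (a₁ + z • ((a : A) - a₁), b₁)) (by
          intro z hz
          rw [mem_ball_zero_iff] at hz
          refine ⟨φ, hφ, fun z => a₁ + z • ((a : A) - a₁), ?_, ?_⟩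
          · exact analyticAt_const.add (analyticAt_id.smul analyticAt_const)
          · have hzt := hb _ (hray a a.2 z hz) _ hb₁
            have : ∀ᶠ y : ℂ in 𝓝 z, ‖y‖ < 2 :=
              (continuous_norm.continuousAt).eventually_lt continuousAt_const hz
            filter_upwards [this] with y hy
            have hyt := hb _ (hray a a.2 y hy) _ hb₁
            refine ⟨φ.map_target hyt, ?_⟩
            rw [φ.right_inv hyt, φ.right_inv hzt])
        (by show φ.symm (a₁ + (0 : ℂ) • ((a : A) - a₁), b₁) = _; rw [zero_smul, add_zero])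
      have hmem : ∀ t : I, ((t : ℝ) : ℂ) ∈ ball (0 : ℂ) (3/2) := by
        intro t
        rw [mem_ball_zero_iff]; exact hnI t
      refine ⟨fun t => s ⟨((t : ℝ) : ℂ), hmem t⟩, hs1.comp (by fun_prop), ?_, ?_⟩
      · intro t
        rw [hs2, hH]
      · rw [← hs3]
        exact congrArg s (Subtype.ext (by simp only [Icc.coe_zero, Complex.ofReal_zero])))
  -- the section over the ball
  let sec : V → Etale (AdmGerm 𝒜) := fun a => g (1, a)
  have hσc : Continuous sec := hgc.comp (by fun_prop)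
  have hσp : ∀ a : V, Etale.proj (sec a) = φ.symm ((a : A), b₁) := by
    intro a
    show Etale.proj (g (1, a)) = _
    rw [hgp, hH]
    have : ((((1 : I) : ℝ) : ℂ)) = 1 := by simp only [Icc.coe_one, Complex.ofReal_one]
    show φ.symm (a₁ + ((((1 : I) : ℝ) : ℂ)) • ((a : A) - a₁), b₁) = _
    rw [this, one_smul, add_sub_cancel]
  have hσ1 : sec ⟨a₁, ha₁⟩ = adm 𝒜 hf₀ := by
    have h1 : ∀ t t' : I, g (t, ⟨a₁, ha₁⟩) = g (t', ⟨a₁, ha₁⟩) := by
      intro t t'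
      refine (isSeparatedMap_adm (E := E) (𝒜 := 𝒜)).const_of_comp
        (isLocalHomeomorph_adm (𝒜 := 𝒜)).isLocallyInjective
        (g := fun t : I => g (t, ⟨a₁, ha₁⟩)) (hgc.comp (by fun_prop)) ?_ t t'
      intro t t'
      rw [hgp, hgp, hH, hH]
      simp only [sub_self, smul_zero, add_zero]
    show g (1, _) = _
    rw [h1 1 0, hg0]
  let G : M → Leaf 𝒜 := fun y => if h : (φ y).1 ∈ V then valE (sec ⟨(φ y).1, h⟩) else f₀ y
  have key : ∀ (a : A) (ha : a ∈ V) (f : M → Leaf 𝒜) (hf : Adm 𝒜 (φ.symm (a, b₁)) f),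
      sec ⟨a, ha⟩ = adm 𝒜 hf → G =ᶠ[𝓝 (φ.symm (a, b₁))] f := by
    intro a ha f hf hσa
    have hat : (a, b₁) ∈ φ.target := hb _ (hVρ ha) _ hb₁
    have hxs : φ.symm (a, b₁) ∈ φ.source := φ.map_target hat
    have hφx : φ (φ.symm (a, b₁)) = (a, b₁) := φ.right_inv hat
    have e1 := eventually_eq_adm hσc.continuousAt hσa
    have e2 : ∀ᶠ a' in 𝓝 a, ∀ h : a' ∈ V, valE (sec ⟨a', h⟩) = f (φ.symm (a', b₁)) := by
      rw [nhds_subtype_eq_comap, Filter.eventually_comap] at e1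
      filter_upwards [e1] with a' h1 h
      obtain ⟨h2, h3⟩ := h1 ⟨a', h⟩ rfl
      rw [h3, valE_adm]
      show f (Etale.proj (sec ⟨a', h⟩)) = _
      rw [hσp]
    have e3 : Tendsto φ (𝓝 (φ.symm (a, b₁))) (𝓝 (a, b₁)) := by
      have := (φ.continuousAt hxs).tendsto
      rwa [hφx] at this
    have e4 : Tendsto (fun y => (φ y).1) (𝓝 (φ.symm (a, b₁))) (𝓝 a) :=
      (continuous_fst.tendsto (a, b₁)).comp e3
    have e5 := hf.inv2 hφ hxs
    rw [hφx] at e5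
    filter_upwards [e4.eventually e2, e4.eventually_mem (isOpen_ball.mem_nhds ha), e3.eventually e5,
      φ.open_source.mem_nhds hxs] with y y1 y2 y3 y4
    show (if h : (φ y).1 ∈ V then valE (sec ⟨(φ y).1, h⟩) else f₀ y) = f y
    rw [dif_pos y2, y1 y2, ← y3, φ.left_inv y4]
  refine ⟨G, ?_, key a₁ ha₁ f₀ hf₀ hσ1⟩
  -- admissibility on the plaque
  have hplaque : ∀ a ∈ V, Adm 𝒜 (φ.symm (a, b₁)) G := by
    intro a ha
    obtain ⟨x', f, hf, hfs⟩ := exists_eq_adm (sec ⟨a, ha⟩)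
    have hx' : x' = φ.symm (a, b₁) := by
      have := hσp ⟨a, ha⟩
      rw [hfs] at this
      exact this
    subst hx'
    exact Adm.germ _ f G hf (key a ha f hf hfs)
  intro a ha b hb'
  refine Adm.cont φ hφ V (ball b₀ ρ) isOpen_ball isOpen_ball (convex_ball _ _).isPreconnected
    (fun a ha b hb' => hb a (hVρ ha) b hb') G ?_ a ha b₁ b hb₁ hb' (hplaque a ha)
  intro u hu c hc c' hc'
  show (if h : (φ (φ.symm (u, c))).1 ∈ V then valE (sec ⟨(φ (φ.symm (u, c))).1, h⟩)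
      else f₀ (φ.symm (u, c))) =
    if h : (φ (φ.symm (u, c'))).1 ∈ V then valE (sec ⟨(φ (φ.symm (u, c'))).1, h⟩)
      else f₀ (φ.symm (u, c'))
  have q1 : (φ (φ.symm (u, c))).1 = u := by rw [φ.right_inv (hb u (hVρ hu) c hc)]
  have q2 : (φ (φ.symm (u, c'))).1 = u := by rw [φ.right_inv (hb u (hVρ hu) c' hc')]
  have q3 : (φ (φ.symm (u, c))).1 ∈ V := by rw [q1]; exact hu
  have q4 : (φ (φ.symm (u, c'))).1 ∈ V := by rw [q2]; exact hu
  rw [dif_pos q3, dif_pos q4]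
  congr 2
  exact Subtype.ext (q1.trans q2.symm)

/-- **Local triviality** of the system of admissible germs. -/
theorem locTriv_of_discLift [T2Space M] [CompleteSpace A] [hA : AnaCompat (E := E) 𝒜]
    (hD : ∀ (x : M) (f : M → Leaf 𝒜), Adm 𝒜 x f → DiscLift 𝒜 x f) : LocTriv 𝒜 := by
  intro x
  obtain ⟨φ, hφ, hx⟩ := FolAtlas.cover (𝒜 := 𝒜) x
  obtain ⟨ρ, hρ, hbox⟩ := exists_box hx (O := univ) univ_mem
  have hb : ∀ a ∈ ball (φ x).1 ρ, ∀ b ∈ ball (φ x).2 ρ, (a, b) ∈ φ.target :=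
    fun a ha b hb => (hbox a ha b hb).1
  have hVρ : ball (φ x).1 (ρ / 5) ⊆ ball (φ x).1 ρ := ball_subset_ball (by linarith)
  have hU : IsOpen {y | y ∈ φ.source ∧ φ y ∈ ball (φ x).1 (ρ / 5) ×ˢ ball (φ x).2 ρ} :=
    φ.isOpen_inter_preimage (isOpen_ball.prod isOpen_ball)
  have hUpre : IsPreconnected {y | y ∈ φ.source ∧ φ y ∈ ball (φ x).1 (ρ / 5) ×ˢ ball (φ x).2 ρ} :=
    isPreconnected_box (convex_ball _ _).isPreconnected (convex_ball _ _).isPreconnected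
      fun a ha b hb' => hb a (hVρ ha) b hb'
  refine ⟨{y | y ∈ φ.source ∧ φ y ∈ ball (φ x).1 (ρ / 5) ×ˢ ball (φ x).2 ρ},
    {f | ∀ u, u ∈ φ.source → φ u ∈ ball (φ x).1 (ρ / 5) ×ˢ ball (φ x).2 ρ → Adm 𝒜 u f}, hU,
    ⟨hx, mem_ball_self (by (clear * - hρ; positivity)), mem_ball_self hρ⟩, ?_, ?_, ?_⟩
  · intro f hf y hy
    exact coe_mem_admGerm.2 (hf y hy.1 hy.2)
  · rintro y ⟨hys, hyV, hyB⟩ γ ⟨f₀, rfl, hadm⟩
    have hyy : φ.symm ((φ y).1, (φ y).2) = y := φ.left_inv hys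
    have hadm' : Adm 𝒜 (φ.symm ((φ y).1, (φ y).2)) f₀ := by rwa [hyy]
    obtain ⟨G, h1, h2⟩ := adm_extend_box (E := E) hD hφ hρ hb hyV hyB hadm'
    rw [hyy] at h2
    refine ⟨G, ?_, Germ.coe_eq.2 h2⟩
    intro u hus hu
    have := h1 _ hu.1 _ hu.2
    rwa [show ((φ u).1, (φ u).2) = φ u from rfl, φ.left_inv hus] at this
  · intro f hf f' hf' y hy hff' z hz
    exact adm_ident (E := E) hUpre (fun u hu => hf u hu.1 hu.2) (fun u hu => hf' u hu.1 hu.2)
      hy hff' z hz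

/-- The extension property along segments implies local triviality. -/
theorem locTriv_of_segExt [T2Space M] [CompleteSpace A] [hA : AnaCompat (E := E) 𝒜]
    (hS : SegExt 𝒜) : LocTriv 𝒜 :=
  locTriv_of_discLift (E := E) fun _ _ h => discLift_of_adm (E := E) hS h

end Vale.Agent.P278.Full
end
end

section

section

open Set Topology Filter Metric TopologicalSpace
open scoped Manifold ContDiff unitInterval

set_option linter.unusedSectionVars false

namespace Vale.Agent.P278.Full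

variable {M A B E : Type*} [TopologicalSpace M] [NormedAddCommGroup A] [NormedSpace ℂ A]
  [NormedAddCommGroup B] [NormedSpace ℂ B] [NormedAddCommGroup E] [NormedSpace ℂ E]
  [ChartedSpace E M] {𝒜 : Set (OpenPartialHomeomorph M (A × B))}

end Vale.Agent.P278.Full
end
end

section

section

open Set Topology Filter Metric TopologicalSpace
open scoped Manifold ContDiff unitInterval

set_option linter.unusedSectionVars false

namespace Vale.Agent.P278.Full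

variable {M A B E : Type*} [TopologicalSpace M] [NormedAddCommGroup A] [NormedSpace ℂ A]
  [NormedAddCommGroup B] [NormedSpace ℂ B] [NormedAddCommGroup E] [NormedSpace ℂ E]
  [ChartedSpace E M] {𝒜 : Set (OpenPartialHomeomorph M (A × B))} [h𝒜 : BoxAtlas 𝒜]

theorem IsF.congr_eventually {Ψ Ψ' : ℂ × ℂ → M} {p : ℂ × ℂ} (h : IsF 𝒜 Ψ p)
    (he : Ψ' =ᶠ[𝓝 p] Ψ) : IsF 𝒜 Ψ' p := by
  obtain ⟨φ, hφ, f, g, hf, hg, hq⟩ := h
  refine ⟨φ, hφ, f, g, hf, hg, ?_⟩
  filter_upwards [hq, he] with q h1 h2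
  rw [h2]; exact h1

open Classical in
/-- The extension property for crosses gives the extension property along segments. -/
theorem segExt_of_crossExt [T2Space M] [CompleteSpace A] [CompleteSpace B] (hC : CrossExt 𝒜) :
    SegExt 𝒜 := by
  intro R r hr hrR l hl φ hφ a b c ht hl0
  have hR : 0 < R := hr.trans hrR
  have h0 : (0 : ℂ) ∈ ball (0 : ℂ) 2 := mem_ball_self (by norm_num)
  have hab : (a, b) ∈ φ.target := by
    have := ht 0 h0
    rwa [zero_smul, add_zero] at this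
  have hl0s : l 0 ∈ φ.source := by rw [hl0]; exact φ.map_target hab
  have hφl0 : φ (l 0) = (a, b) := by rw [hl0, φ.right_inv hab]
  let v : ℂ → B := fun w => b + w • c
  have hv : ∀ w, AnalyticAt ℂ v w := fun w =>
    analyticAt_const.add (analyticAt_id.smul analyticAt_const)
  obtain ⟨Ψt, ht1, ht2, ht3⟩ := exists_tube h𝒜 hR hl hφ hl0s (hv 0)
    (by show b + (0 : ℂ) • c = _; rw [zero_smul, add_zero, hφl0])
  -- the disc in the chart
  have K := BoxAtlas.pAtlas h𝒜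
  obtain ⟨f, g, hf, hg, he⟩ := ((hl 0 (mem_ball_self hR)).isF 0).chart_prod K hφ hl0s
  have hc : Tendsto (fun y : ℂ => (y, (0 : ℂ))) (𝓝 0) (𝓝 (0, 0)) := by
    have : ContinuousAt (fun y : ℂ => (y, (0 : ℂ))) 0 := by fun_prop
    exact this.tendsto
  have he1 : ∀ᶠ y in 𝓝 (0 : ℂ), l y ∈ φ.source ∧ φ (l y) = (f y, g 0) := hc.eventually he
  have hg0 : g 0 = b := by
    have := he1.self_of_nhds.2
    rw [hφl0] at this
    exact (Prod.mk.inj this).2.symm
  have hf' : ∀ᶠ y in 𝓝 (0 : ℂ), AnalyticAt ℂ f y := hf.eventually_analyticAt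
  obtain ⟨δ, hδ, hball⟩ := Metric.eventually_nhds_iff_ball.1 ((he1.and hf').and
    (isOpen_ball.mem_nhds (mem_ball_self hR)))
  have hφl : ∀ z ∈ ball (0 : ℂ) δ, l z ∈ φ.source ∧ φ (l z) = (f z, b) := by
    intro z hz
    have := (hball z hz).1.1
    rwa [hg0] at this
  have htb : ∀ z ∈ ball (0 : ℂ) δ, ∀ w ∈ ball (0 : ℂ) 2, (f z, v w) ∈ φ.target := by
    intro z hz w hw
    have h1 : (f z, b) ∈ φ.target := by
      rw [← (hφl z hz).2]; exact φ.map_source (hφl z hz).1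
    exact box_mem hφ h1 (ht w hw)
  let Ψb : ℂ × ℂ → M := fun q => φ.symm (f q.1, v q.2)
  have hΨb : ∀ p ∈ ball (0 : ℂ) δ ×ˢ ball (0 : ℂ) 2, IsF 𝒜 Ψb p := by
    intro p hp
    exact isF_of_chart hφ (hball p.1 hp.1).1.2 (hv p.2) (htb p.1 hp.1 p.2 hp.2)
  -- agreement of the two maps
  have hagree0 : Ψb =ᶠ[𝓝 ((0 : ℂ), (0 : ℂ))] Ψt := by
    have h1 : ∀ᶠ q in 𝓝 ((0 : ℂ), (0 : ℂ)), q.1 ∈ ball (0 : ℂ) δ :=
      continuousAt_fst.eventually_mem (ball_mem_nhds _ hδ)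
    filter_upwards [ht3, h1] with q h2 h3
    rw [h2, (hφl _ h3).2]
  have hagree : ∀ p ∈ ball (0 : ℂ) δ ×ˢ ({0} : Set ℂ), Ψb =ᶠ[𝓝 p] Ψt := by
    refine isF_ident h𝒜 ((convex_ball _ _).isPreconnected.prod isPreconnected_singleton)
      ?_ ?_ (p := ((0 : ℂ), (0 : ℂ))) ⟨mem_ball_self hδ, rfl⟩ hagree0
    · rintro ⟨z, w⟩ ⟨hz, hw⟩
      have hw' : w = 0 := hw
      subst hw'
      exact hΨb _ ⟨hz, h0⟩
    · rintro ⟨z, w⟩ ⟨hz, hw⟩
      exact ht1 _ ⟨(hball z hz).2, hw⟩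
  let Ψ : ℂ × ℂ → M := fun q => if ‖q.1‖ < δ / 2 then Ψb q else Ψt q
  have hΨt : ∀ z ∈ ball (0 : ℂ) R, Ψ =ᶠ[𝓝 (z, 0)] Ψt := by
    intro z hz
    by_cases hzδ : ‖z‖ < δ
    · have := hagree (z, 0) ⟨by rwa [mem_ball_zero_iff], rfl⟩
      filter_upwards [this] with q hq
      show (if ‖q.1‖ < δ / 2 then Ψb q else Ψt q) = Ψt q
      split_ifs
      · exact hq
      · rfl
    · have h1 : ∀ᶠ q : ℂ × ℂ in 𝓝 (z, 0), δ / 2 < ‖q.1‖ := by
        have : ContinuousAt (fun q : ℂ × ℂ => ‖q.1‖) (z, 0) := by fun_prop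
        exact this.eventually_const_lt (by
          show δ / 2 < ‖z‖
          linarith only [hδ, hzδ])
      filter_upwards [h1] with q hq
      show (if ‖q.1‖ < δ / 2 then Ψb q else Ψt q) = Ψt q
      rw [if_neg (not_lt.2 hq.le)]
  have hΨb' : ∀ w ∈ ball (0 : ℂ) 2, Ψ =ᶠ[𝓝 (0, w)] Ψb := by
    intro w hw
    have h1 : ∀ᶠ q : ℂ × ℂ in 𝓝 (0, w), ‖q.1‖ < δ / 2 := by
      have : ContinuousAt (fun q : ℂ × ℂ => ‖q.1‖) (0, w) := by fun_prop
      exact this.eventually_lt_const (by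
        show ‖(0 : ℂ)‖ < δ / 2
        rw [norm_zero]; (clear * - hδ; (clear * - hδ; positivity)))
    filter_upwards [h1] with q hq
    show (if ‖q.1‖ < δ / 2 then Ψb q else Ψt q) = Ψb q
    rw [if_pos hq]
  obtain ⟨Ψ', h1, h2⟩ := hC R (ball 0 2) hR isOpen_ball (convex_ball _ _) h0 Ψ (by
    rintro ⟨z, w⟩ (⟨hz, hw⟩ | ⟨hz, hw⟩)
    · have hw' : w = 0 := hw
      subst hw'
      exact (ht1 _ ⟨hz, rfl⟩).congr_eventually (hΨt z hz)
    · have hz' : z = 0 := hz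
      subst hz'
      exact (hΨb _ ⟨mem_ball_self hδ, hw⟩).congr_eventually (hΨb' w hw))
  have hf0 : f 0 = a := by
    have := (hφl 0 (mem_ball_self hδ)).2
    rw [hφl0] at this
    exact (Prod.mk.inj this).1.symm
  refine ⟨Ψ', ?_, ?_, ?_⟩
  · rintro ⟨z, w⟩ ⟨hz, hw⟩
    exact h1 _ ⟨ball_subset_ball hrR.le hz, ball_subset_ball (by norm_num) hw⟩
  · intro z hz
    have hz' : z ∈ ball (0 : ℂ) R := ball_subset_ball hrR.le hz
    rw [(h2 (z, 0) (Or.inl ⟨hz', rfl⟩)).self_of_nhds, (hΨt z hz').self_of_nhds]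
    exact ht2 z hz'
  · intro w hw
    have hw' : w ∈ ball (0 : ℂ) 2 := ball_subset_ball (by norm_num) hw
    rw [(h2 (0, w) (Or.inr ⟨rfl, hw'⟩)).self_of_nhds, (hΨb' w hw').self_of_nhds]
    show φ.symm (f 0, b + w • c) = _
    rw [hf0]

/-- **END1**: the extension theorem implies local triviality of the system of admissible germs. -/
theorem locTriv_of_crossExt [T2Space M] [CompleteSpace A] [CompleteSpace B]
    [hA : AnaCompat (E := E) 𝒜] (hC : CrossExt 𝒜) : LocTriv 𝒜 :=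
  locTriv_of_segExt (E := E) (segExt_of_crossExt hC)

end Vale.Agent.P278.Full
end
end

section

section

open Set Topology Filter Metric
open scoped ContDiff Manifold

set_option linter.all false

namespace Vale.Agent.P278.Full

variable {X M : Type*} [TopologicalSpace X] [TopologicalSpace M] {A B : Type*}
  [NormedAddCommGroup A] [NormedSpace ℂ A] [NormedAddCommGroup B] [NormedSpace ℂ B]
  {𝒬 : Set (OpenPartialHomeomorph X (A × B))} {π : M → X} [CompleteSpace A] [CompleteSpace B]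

/-- The projection of an F-map. -/
theorem isF_proj {Ψ : ℂ × ℂ → M} {p : ℂ × ℂ} (h : IsF (liftAtlas π 𝒬) Ψ p) :
    IsF 𝒬 (fun q => π (Ψ q)) p := by
  obtain ⟨χ, ⟨-, φ, hφ, h1, h2⟩, f, g, hf, hg, h3⟩ := h
  refine ⟨φ, hφ, f, g, hf, hg, ?_⟩
  filter_upwards [h3] with q hq
  exact ⟨h1 hq.1, by rw [← h2, hq.2]⟩

/-- A continuous lift of an F-map is an F-map. -/
theorem isF_lift (hπ : IsCoveringMap π) {Ψ : ℂ × ℂ → X} {Ψ' : ℂ × ℂ → M} {p : ℂ × ℂ}
    (h : IsF 𝒬 Ψ p) (hc : ContinuousAt Ψ' p) (he : ∀ᶠ q in 𝓝 p, π (Ψ' q) = Ψ q) :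
    IsF (liftAtlas π 𝒬) Ψ' p := by
  obtain ⟨φ, hφ, f, g, hf, hg, h1⟩ := h
  have hy : π (Ψ' p) ∈ φ.source := by
    rw [he.self_of_nhds]; exact h1.self_of_nhds.1
  obtain ⟨χ, h2, h3, h4, h5⟩ := exists_mem_liftAtlas hπ hφ hy
  refine ⟨χ, h2, f, g, hf, hg, ?_⟩
  filter_upwards [h1, he, hc.eventually_mem (χ.open_source.mem_nhds h3)] with q q1 q2 q3
  exact ⟨q3, by rw [h5, q2]; exact q1.2⟩

/-- F-maps on convex open sets lift to covering spaces. -/
theorem exists_lift_fmap (hπ : IsCoveringMap π) {S : Set (ℂ × ℂ)} (hSo : IsOpen S)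
    (hSc : Convex ℝ S) {Ψ : ℂ × ℂ → X} (hΨ : FOn 𝒬 Ψ S) {p₀ : ℂ × ℂ} (hp₀ : p₀ ∈ S) {m₀ : M}
    (hm : π m₀ = Ψ p₀) :
    ∃ Ψ' : ℂ × ℂ → M, FOn (liftAtlas π 𝒬) Ψ' S ∧ (∀ p ∈ S, π (Ψ' p) = Ψ p) ∧ Ψ' p₀ = m₀ := by
  classical
  haveI : ContractibleSpace S := hSc.contractibleSpace ⟨p₀, hp₀⟩
  haveI : LocallyPathConnectedSpace S := hSo.locallyPathConnectedSpace
  have hcΨ : ContinuousOn Ψ S := fun p hp => (hΨ p hp).continuousAt.continuousWithinAt
  let F : C(S, X) := ⟨S.restrict Ψ, continuousOn_iff_continuous_restrict.1 hcΨ⟩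
  obtain ⟨G, ⟨hG0, hG1⟩, -⟩ := hπ.existsUnique_continuousMap_lifts F (a₀ := ⟨p₀, hp₀⟩) (e₀ := m₀)
    (by exact hm)
  let Ψ' : ℂ × ℂ → M := fun p => if h : p ∈ S then G ⟨p, h⟩ else m₀
  have h1 : ∀ p (h : p ∈ S), Ψ' p = G ⟨p, h⟩ := fun p h => dif_pos h
  have h2 : ∀ p ∈ S, π (Ψ' p) = Ψ p := by
    intro p hp
    rw [h1 p hp]
    exact congrFun hG1 ⟨p, hp⟩
  have h3 : ContinuousOn Ψ' S := by
    rw [continuousOn_iff_continuous_restrict]
    have : S.domRestrict Ψ' = G := by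
      funext ⟨p, hp⟩
      exact h1 p hp
    rw [this]; exact G.continuous
  refine ⟨Ψ', fun p hp => ?_, h2, ?_⟩
  · refine isF_lift hπ (hΨ p hp) (h3.continuousAt (hSo.mem_nhds hp)) ?_
    filter_upwards [hSo.mem_nhds hp] with q hq using h2 q hq
  · rw [h1 p₀ hp₀]; exact hG0

theorem isPreconnected_cross {R : ℝ} {D : Set ℂ} (hR : 0 < R) (hDc : Convex ℝ D)
    (hD : (0 : ℂ) ∈ D) :
    IsPreconnected (ball (0 : ℂ) R ×ˢ ({0} : Set ℂ) ∪ ({0} : Set ℂ) ×ˢ D) := by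
  refine IsPreconnected.union (0, 0) ⟨mem_ball_self hR, rfl⟩ ⟨rfl, hD⟩ ?_ ?_
  · exact (convex_ball _ _).isPreconnected.prod isPreconnected_singleton
  · exact isPreconnected_singleton.prod hDc.isPreconnected

/-- (LIFT) Theorem C for a covering. -/
theorem crossExt_lift (hπ : IsCoveringMap π)
    (hC : CrossExt 𝒬) : CrossExt (liftAtlas π 𝒬) := by
  intro R D hR hDo hDc hD Ψ h1
  obtain ⟨Ψ₁, h3, h4⟩ := hC R D hR hDo hDc hD (fun q => π (Ψ q)) (fun p hp => isF_proj (h1 p hp))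
  have h0 : ((0 : ℂ), (0 : ℂ)) ∈ ball (0 : ℂ) R ×ˢ D := ⟨mem_ball_self hR, hD⟩
  have h0' : ((0 : ℂ), (0 : ℂ)) ∈ ball (0 : ℂ) R ×ˢ ({0} : Set ℂ) ∪ ({0} : Set ℂ) ×ˢ D :=
    Or.inl ⟨mem_ball_self hR, rfl⟩
  have hsub : ball (0 : ℂ) R ×ˢ ({0} : Set ℂ) ∪ ({0} : Set ℂ) ×ˢ D ⊆ ball (0 : ℂ) R ×ˢ D := by
    rintro p (⟨hp1, hp2⟩ | ⟨hp1, hp2⟩)
    · exact ⟨hp1, by rw [mem_singleton_iff.1 hp2]; exact hD⟩
    · exact ⟨by rw [mem_singleton_iff.1 hp1]; exact mem_ball_self hR, hp2⟩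
  obtain ⟨Ψ', h5, h6, h7⟩ := exists_lift_fmap hπ (isOpen_ball.prod hDo)
    ((convex_ball _ _).prod hDc) h3 h0 (m₀ := Ψ (0, 0)) (h4 _ h0').self_of_nhds.symm
  refine ⟨Ψ', h5, ?_⟩
  have heq : EqOn Ψ' Ψ (ball (0 : ℂ) R ×ˢ ({0} : Set ℂ) ∪ ({0} : Set ℂ) ×ˢ D) := by
    refine hπ.eqOn_of_comp_eqOn (isPreconnected_cross hR hDc hD) ?_ ?_ ?_ h0' h7
    · exact fun q hq => (h5 q (hsub hq)).continuousAt.continuousWithinAt
    · exact fun q hq => (h1 q hq).continuousAt.continuousWithinAt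
    · exact fun q hq => (h6 q (hsub hq)).trans (h4 q hq).self_of_nhds
  intro p hp
  obtain ⟨ρ, hρ, hb⟩ := Metric.eventually_nhds_iff_ball.1
    ((h1 p hp).eventually.and ((h4 p hp).and ((isOpen_ball.prod hDo).mem_nhds (hsub hp))))
  have heq' : EqOn Ψ' Ψ (ball p ρ) := by
    refine hπ.eqOn_of_comp_eqOn (convex_ball _ ρ).isPreconnected ?_ ?_ ?_ (mem_ball_self hρ)
      (heq hp)
    · exact fun q hq => (h5 q (hb q hq).2.2).continuousAt.continuousWithinAt
    · exact fun q hq => (hb q hq).1.continuousAt.continuousWithinAt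
    · exact fun q hq => (h6 q (hb q hq).2.2).trans (hb q hq).2.1
  filter_upwards [ball_mem_nhds _ hρ] with q hq using heq' hq

end Vale.Agent.P278.Full
end
end

section

section

open Topology Set Filter TopologicalSpace
open scoped ContDiff Manifold

set_option linter.unusedSectionVars false

namespace Vale.Agent.P278

universe u

lemma secondCountable_fst {Y Z M : Type*} [TopologicalSpace Y] [TopologicalSpace Z]
    [TopologicalSpace M] [SecondCountableTopology M] (e : M ≃ₜ Y × Z) [Nonempty Z] :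
    SecondCountableTopology Y :=
  (e.symm.isInducing.comp (isInducing_prodMkLeft (Classical.arbitrary Z))).secondCountableTopology

lemma secondCountable_snd {Y Z M : Type*} [TopologicalSpace Y] [TopologicalSpace Z]
    [TopologicalSpace M] [SecondCountableTopology M] (e : M ≃ₜ Y × Z) [Nonempty Y] :
    SecondCountableTopology Z :=
  (e.symm.isInducing.comp (isInducing_prodMkRight (Classical.arbitrary Y))).secondCountableTopology

lemma t2Space_fst {Y Z M : Type*} [TopologicalSpace Y] [TopologicalSpace Z] [TopologicalSpace M]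
    [T2Space M] (e : M ≃ₜ Y × Z) [Nonempty Z] : T2Space Y := by
  have h1 : T2Space (Y × Z) := e.t2Space
  exact (isEmbedding_prodMkLeft (X := Y) (Classical.arbitrary Z)).t2Space

lemma t2Space_snd {Y Z M : Type*} [TopologicalSpace Y] [TopologicalSpace Z] [TopologicalSpace M]
    [T2Space M] (e : M ≃ₜ Y × Z) [Nonempty Y] : T2Space Z := by
  have h1 : T2Space (Y × Z) := e.t2Space
  exact (isEmbedding_prodMkRight (Y := Z) (Classical.arbitrary Y)).t2Space

section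
variable {E : Type*} [NormedAddCommGroup E] [NormedSpace ℂ E]
  {X : Type*} [TopologicalSpace X] [ChartedSpace E X]
  {M : Type u} [TopologicalSpace M] [ChartedSpace E M]

/-- A pair of families of subspaces of the tangent spaces of `M` comes from a product
decomposition `M ≃ Y × Z` with simply connected factors. -/
def IsProductPair (G₁ G₂ : TangentDist E M) : Prop :=
  ∃ (Y Z : CxManifold.{u}) (Φ : Diffeomorph 𝓘(ℂ, E)
      (𝓘(ℂ, Y.Model).prod 𝓘(ℂ, Z.Model)) M (Y.Pt × Z.Pt) ω),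
    SimplyConnectedSpace Y.Pt ∧ SimplyConnectedSpace Z.Pt ∧
      (∀ (x : M) (v : TangentSpace 𝓘(ℂ, E) x), v ∈ G₁ x ↔
        mfderiv 𝓘(ℂ, E) 𝓘(ℂ, Z.Model) (fun y => (Φ y).2) x v = 0) ∧
      (∀ (x : M) (v : TangentSpace 𝓘(ℂ, E) x), v ∈ G₂ x ↔
        mfderiv 𝓘(ℂ, E) 𝓘(ℂ, Y.Model) (fun y => (Φ y).1) x v = 0)

end

section
variable {E : Type*} [NormedAddCommGroup E] [NormedSpace ℂ E] [FiniteDimensional ℂ E]
  {X : Type*} [TopologicalSpace X] [ChartedSpace E X] [IsManifold 𝓘(ℂ, E) ω X]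
  {M : Type u} [TopologicalSpace M] [ChartedSpace E M] [IsManifold 𝓘(ℂ, E) ω M]
  {r s : ℕ} {F₁ F₂ : TangentDist E X}
  {𝒬 : Set (OpenPartialHomeomorph X (EuclideanSpace ℂ (Fin r) × EuclideanSpace ℂ (Fin s)))}
  {N : OpenPartialHomeomorph X (EuclideanSpace ℂ (Fin r) × EuclideanSpace ℂ (Fin s)) →
    EuclideanSpace ℂ (Fin r) × EuclideanSpace ℂ (Fin s) → Seminorm ℝ (EuclideanSpace ℂ (Fin r))}

end

section
variable {E : Type*} [NormedAddCommGroup E] [NormedSpace ℂ E] [FiniteDimensional ℂ E]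
  {X : Type*} [TopologicalSpace X] [ChartedSpace E X] [IsManifold 𝓘(ℂ, E) ω X]
  {M : Type u} [TopologicalSpace M] [ChartedSpace E M] [IsManifold 𝓘(ℂ, E) ω M]
  {F₁ F₂ : TangentDist E X}

/-- The product charts of complementary foliations. -/
theorem isProdCharts_prodCharts {A B : Type*} [NormedAddCommGroup A] [NormedSpace ℂ A]
    [NormedAddCommGroup B] [NormedSpace ℂ B] [FiniteDimensional ℂ A] [FiniteDimensional ℂ B]
    [PreconnectedSpace X] (x₀ : X)
    (h₁ : IsHolSubbundle F₁) (h₂ : IsHolSubbundle F₂)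
    (i₁ : IsIntegrable F₁) (i₂ : IsIntegrable F₂) (hc : ∀ x, IsCompl (F₁ x) (F₂ x))
    (hA : Module.finrank ℂ (F₁ x₀) = Module.finrank ℂ A)
    (hB : Module.finrank ℂ (F₂ x₀) = Module.finrank ℂ B) :
    ProdCharts F₁ F₂ (prodCharts F₁ F₂ A B) where
  atlas := exists_prodAtlas x₀ h₁ h₂ i₁ i₂ hc hA hB
  mem₁ := fun _ hφ x hx v => (hφ.2.2 x hx v).1
  mem₂ := fun _ hφ x hx v => (hφ.2.2 x hx v).2

end

end Vale.Agent.P278
end
end

section

section

open Set Topology Filter TopologicalSpace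
open scoped ContDiff Manifold

set_option linter.unusedSectionVars false

namespace Vale.Agent.P278.Full

universe u

variable {E : Type*} [NormedAddCommGroup E] [NormedSpace ℂ E] [FiniteDimensional ℂ E]
  {X : Type*} [TopologicalSpace X] [ChartedSpace E X] [IsManifold 𝓘(ℂ, E) ω X]
  {M : Type u} [TopologicalSpace M] [ChartedSpace E M] [IsManifold 𝓘(ℂ, E) ω M]
  {r s : ℕ} {F₁ F₂ : TangentDist E X}
  {𝒬 : Set (OpenPartialHomeomorph X (EuclideanSpace ℂ (Fin r) × EuclideanSpace ℂ (Fin s)))}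

set_option backward.isDefEq.respectTransparency false in
/-- **Product theorem** for a pair of complementary foliations with the extension property. -/
theorem isProductPair_of_crossExt [T2Space X] [SecondCountableTopology M]
    [SimplyConnectedSpace M]
    {π : M → X} (hπ : IsCoveringMap π) (hπl : IsLocalDiffeomorph 𝓘(ℂ, E) 𝓘(ℂ, E) ω π)
    (hQ : ProdCharts F₁ F₂ 𝒬) (hC : CrossExt 𝒬) :
    IsProductPair (pullDist π F₁) (pullDist π F₂) := by
  have hT2 : T2Space M := by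
    refine ⟨fun x y hxy => ?_⟩
    by_cases h : π x = π y
    · exact hπ.isSeparatedMap x y h hxy
    · obtain ⟨U, V, hU, hV, hxU, hyV, hUV⟩ := t2_separation h
      exact ⟨π ⁻¹' U, π ⁻¹' V, hU.preimage hπ.continuous, hV.preimage hπ.continuous, hxU, hyV,
        hUV.preimage π⟩
  have hlpc : LocallyPathConnectedSpace M := ChartedSpace.locallyPathConnectedSpace E M
  have h𝒜 := boxAtlas_liftAtlas hQ.atlas hπ hπl
  have hA := anaCompat_liftAtlas hQ.atlas hπl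
  have hC' := crossExt_lift hπ hC
  have hLT : LocTriv (liftAtlas π 𝒬) := locTriv_of_crossExt (E := E) hC'
  obtain ⟨C₁, C₂, Φ, h1, h2, h3, h4⟩ := exists_product_of_locTriv (E := E) hLT
  have e : M ≃ₜ C₁ × C₂ := Φ.toHomeomorph
  have := t2Space_fst e
  have := t2Space_snd e
  have := secondCountable_fst e
  have := secondCountable_snd e
  have key : ∀ (x : M) (v : TangentSpace 𝓘(ℂ, E) x),
      (v ∈ pullDist π F₁ x ↔
        mfderiv 𝓘(ℂ, E) 𝓘(ℂ, EuclideanSpace ℂ (Fin s)) (fun y => (Φ y).2) x v = 0) ∧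
      (v ∈ pullDist π F₂ x ↔
        mfderiv 𝓘(ℂ, E) 𝓘(ℂ, EuclideanSpace ℂ (Fin r)) (fun y => (Φ y).1) x v = 0) := by
    intro x v
    obtain ⟨φ, hφ, hx⟩ := hQ.atlas.cover (π x)
    have hd : MDifferentiableAt 𝓘(ℂ, E) 𝓘(ℂ, E) π x :=
      (hπl.contMDiff.mdifferentiable (by simp)) x
    have hφd : MDifferentiableAt 𝓘(ℂ, E)
        𝓘(ℂ, EuclideanSpace ℂ (Fin r) × EuclideanSpace ℂ (Fin s)) φ (π x) :=
      ((hQ.atlas.toFun φ hφ).contMDiffAt (φ.open_source.mem_nhds hx)).mdifferentiableAt (by simp only [ne_eq, WithTop.top_ne_zero, not_false_eq_true])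
    have k1 := mfderiv_clm_comp
      (ContinuousLinearMap.fst ℂ (EuclideanSpace ℂ (Fin r)) (EuclideanSpace ℂ (Fin s)))
      (hφd.comp x hd) v
    have k2 := mfderiv_clm_comp
      (ContinuousLinearMap.snd ℂ (EuclideanSpace ℂ (Fin r)) (EuclideanSpace ℂ (Fin s)))
      (hφd.comp x hd) v
    have k3 := mfderiv_comp x hφd hd
    have k4 : mfderiv 𝓘(ℂ, E) 𝓘(ℂ, EuclideanSpace ℂ (Fin r) × EuclideanSpace ℂ (Fin s))
        (φ ∘ π) x v =
        mfderiv 𝓘(ℂ, E) 𝓘(ℂ, EuclideanSpace ℂ (Fin r) × EuclideanSpace ℂ (Fin s)) φ (π x)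
          (mfderiv 𝓘(ℂ, E) 𝓘(ℂ, E) π x v) := congrArg (fun L => L v) k3
    rw [k4] at k1 k2
    obtain ⟨χ, l1, l2, l3, l4⟩ := exists_mem_liftAtlas hπ hφ hx
    have l5 : (fun y => (χ y).1) = fun y => (φ (π y)).1 := funext fun y => by rw [l4]
    have l6 : (fun y => (χ y).2) = fun y => (φ (π y)).2 := funext fun y => by rw [l4]
    have l7 := h3 χ l1 x l2 v
    rw [l5] at l7
    have l8 := h4 χ l1 x l2 v
    rw [l6] at l8
    constructor
    · rw [l8]
      exact (hQ.mem₁ φ hφ (π x) hx _).trans (Eq.congr_left k2).symm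
    · rw [l7]
      exact (hQ.mem₂ φ hφ (π x) hx _).trans (Eq.congr_left k1).symm
  exact ⟨{ dim := r, Pt := C₁ }, { dim := s, Pt := C₂ }, Φ, h1, h2, fun x v => (key x v).1,
    fun x v => (key x v).2⟩

end Vale.Agent.P278.Full
end
end

section

section

open Set Topology Filter Metric
open scoped ContDiff Manifold ComplexConjugate

set_option linter.all false

namespace Vale.Agent.P278.Full

variable {E : Type*} [NormedAddCommGroup E] [NormedSpace ℂ E] [FiniteDimensional ℂ E]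
  {X : Type*} [TopologicalSpace X] [ChartedSpace E X] [IsManifold 𝓘(ℂ, E) ω X]
  {A B : Type*} [NormedAddCommGroup A] [NormedSpace ℂ A] [NormedAddCommGroup B] [NormedSpace ℂ B]
  [FiniteDimensional ℂ A] [FiniteDimensional ℂ B] {F₁ F₂ : TangentDist E X}

/-- The product charts of a pair of complementary integrable subbundles, with a Kähler metric. -/
theorem kAtlas_prodCharts [PreconnectedSpace X] {h : TangentForm E X} (hh : IsKahlerMetric h)
    (h₁ : IsHolSubbundle F₁) (h₂ : IsHolSubbundle F₂) (i₁ : IsIntegrable F₁)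
    (i₂ : IsIntegrable F₂) (hc : ∀ x, IsCompl (F₁ x) (F₂ x)) (x₀ : X)
    (hA : Module.finrank ℂ (F₁ x₀) = Module.finrank ℂ A)
    (hB : Module.finrank ℂ (F₂ x₀) = Module.finrank ℂ B) :
    KAtlas (prodCharts F₁ F₂ A B) (fun φ => localForm h φ) := by
  haveI : CompleteSpace E := FiniteDimensional.complete ℂ E
  haveI : CompleteSpace A := FiniteDimensional.complete ℂ A
  haveI : CompleteSpace B := FiniteDimensional.complete ℂ B
  have hPA := exists_prodAtlas x₀ h₁ h₂ i₁ i₂ hc hA hB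
  have hdim : Module.finrank ℂ (A × B) = Module.finrank ℂ E := by
    rw [Module.finrank_prod, ← hA, ← hB]
    haveI : FiniteDimensional ℂ (TangentSpace 𝓘(ℂ, E) x₀) :=
      inferInstanceAs (FiniteDimensional ℂ E)
    exact Submodule.finrank_add_eq_of_isCompl (hc x₀)
  have hchart : ∀ φ ∈ prodCharts F₁ F₂ A B, IsHolChart (E := E) φ := fun φ hφ => ⟨hφ.1, hφ.2.1⟩
  refine { cover := hPA.cover, ana := ?_, trans := hPA.trans, trans' := hPA.trans',
           kahler := ?_, compat := ?_ }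
  · intro φ hφ ψ hψ x hx hx'
    have h1 : ContMDiffAt 𝓘(ℂ, A × B) 𝓘(ℂ, E) ω φ.symm (φ x) :=
      (hφ.2.1).contMDiffAt (φ.open_target.mem_nhds (φ.map_source hx))
    have h2 : ContMDiffAt 𝓘(ℂ, E) 𝓘(ℂ, A × B) ω ψ (φ.symm (φ x)) := by
      rw [φ.left_inv hx]
      exact (hψ.1).contMDiffAt (ψ.open_source.mem_nhds hx')
    have h3 : ContMDiffAt 𝓘(ℂ, A × B) 𝓘(ℂ, A × B) ω (fun p => ψ (φ.symm p)) (φ x) :=
      h2.comp (φ x) h1
    exact h3.contDiffAt.analyticAt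
  · intro φ hφ
    exact (hh.flat' (hchart φ hφ) (ContinuousLinearEquiv.ofFinrankEq hdim)).1
  · intro φ hφ ψ hψ x hx hx' u v
    have h1 := localForm_trans h (hchart φ hφ) (hchart ψ hψ) (φ.map_source hx)
      (by rw [φ.left_inv hx]; exact hx') u v
    rw [φ.left_inv hx] at h1
    exact h1

end Vale.Agent.P278.Full
end
end

section

section

open Topology Set Filter Complex

set_option linter.unusedSectionVars false
open scoped ContDiff Manifold Matrix ComplexConjugate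

namespace Vale.Agent.P278

variable {E : Type*} [NormedAddCommGroup E] [NormedSpace ℂ E] [FiniteDimensional ℂ E]
  {X : Type*} [TopologicalSpace X] [ChartedSpace E X] [IsManifold 𝓘(ℂ, E) ω X]
  {A : Type*} [NormedAddCommGroup A] [NormedSpace ℂ A] [FiniteDimensional ℂ A]
  {B : Type*} [NormedAddCommGroup B] [NormedSpace ℂ B] [FiniteDimensional ℂ B]
  {F₁ F₂ : TangentDist E X} {𝒬 : Set (OpenPartialHomeomorph X (A × B))}

end Vale.Agent.P278
end
end

section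

section

open Topology Set Filter Complex
open scoped ContDiff Manifold ComplexConjugate

set_option linter.unusedSectionVars false

namespace Vale.Agent.P278

universe u

section
variable {E : Type*} [NormedAddCommGroup E] [NormedSpace ℂ E]
  {X : Type*} [TopologicalSpace X] [ChartedSpace E X]
  {M : Type u} [TopologicalSpace M] [ChartedSpace E M]

end

variable {E : Type*} [NormedAddCommGroup E] [NormedSpace ℂ E] [FiniteDimensional ℂ E]
  {X : Type*} [TopologicalSpace X] [ChartedSpace E X] [IsManifold 𝓘(ℂ, E) ω X]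
  {M : Type u} [TopologicalSpace M] [ChartedSpace E M] [IsManifold 𝓘(ℂ, E) ω M]

end Vale.Agent.P278
end
end

section

section

open Topology Set Filter Complex
open scoped ContDiff Manifold ComplexConjugate

set_option linter.unusedSectionVars false

namespace Vale.Agent.P278

universe u

variable {E : Type*} [NormedAddCommGroup E] [NormedSpace ℂ E]
  {X : Type*} [TopologicalSpace X] [ChartedSpace E X]

lemma isHolSubbundle_of_foliation [IsManifold 𝓘(ℂ, E) 1 X] {F : TangentDist E X}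
    (hF : Stmt.IsFoliation F) : IsHolSubbundle F := by
  intro x₀
  obtain ⟨U, hU, r, s, hs, hsp⟩ := hF.frame x₀
  refine ⟨interior U, isOpen_interior, mem_interior_iff_mem_nhds.mpr hU, r, s, fun j => ?_,
    fun x hx => hsp x (interior_subset hx)⟩
  exact (hs j).mono interior_subset

lemma isIntegrable_of_foliation [IsManifold 𝓘(ℂ, E) 1 X] {F : TangentDist E X}
    (hF : Stmt.IsFoliation F) : IsIntegrable F := by
  intro U V W hU hV hW hVF hWF x hx
  exact hF.bracket U V W hU hV hW (fun x hx => ⟨hVF x hx, hWF x hx⟩) x hx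

end Vale.Agent.P278
end
end

section

section

open Topology Set Filter TopologicalSpace
open scoped ContDiff Manifold

set_option linter.unusedSectionVars false

namespace Vale.Agent.P278

universe u

section
variable {E : Type*} [NormedAddCommGroup E] [NormedSpace ℂ E]
  {M : Type u} [TopologicalSpace M] [ChartedSpace E M] [IsManifold 𝓘(ℂ, E) ω M]

end

end Vale.Agent.P278
end
end

section

section

open Set Topology Filter TopologicalSpace Complex
open scoped ContDiff Manifold ComplexConjugate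

set_option linter.unusedSectionVars false

namespace Vale.Agent.P278.Full

universe u

section form
variable {E : Type*} [NormedAddCommGroup E] [NormedSpace ℂ E]
  {X : Type*} [TopologicalSpace X] [ChartedSpace E X]

/-- The sesquilinear map attached to a Hermitian form given as a function. -/
noncomputable def bundleF {h : StmtF.Form E X} (hl : ∀ x u, IsLinearMap ℂ (h x u))
    (hs : ∀ x u v, conj (h x u v) = h x v u) : TangentForm E X := fun x =>
  LinearMap.mk₂'ₛₗ (starRingEnd ℂ) (RingHom.id ℂ) (h x)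
    (fun u u' v => by
      rw [← hs x v (u + u'), (hl x v).map_add, map_add, hs, hs])
    (fun c u v => by
      rw [← hs x v (c • u), (hl x v).map_smul, smul_eq_mul, map_mul, hs]
      rfl)
    (fun u v v' => (hl x u).map_add v v')
    (fun c u v => (hl x u).map_smul c v)

lemma isKahlerMetric_bundleF {h : StmtF.Form E X} (hh : StmtF.IsKahler h) :
    IsKahlerMetric (bundleF hh.lin hh.symm) where
  symm := fun x u v => hh.symm x u v
  pos := fun x u hu => hh.pos x u hu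
  smooth := fun φ hφ u v => hh.smooth φ hφ u v
  closed := fun φ hφ p hp u v w => by
    have hd : ∀ u v, DifferentiableAt ℝ (StmtF.loc h φ u v) p := fun u v =>
      ((hh.smooth φ hφ u v).contDiffAt (φ.open_target.mem_nhds hp)).differentiableAt (by simp)
    have him : ∀ u v x, fderiv ℝ (fun q =>
          (localForm (bundleF hh.lin hh.symm) φ q u v).im) p x =
        (fderiv ℝ (StmtF.loc h φ u v) p x).im := by
      intro u v x
      have := (Complex.imCLM.hasFDerivAt.comp p (hd u v).hasFDerivAt).fderiv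
      rw [show (fun q => (localForm (bundleF hh.lin hh.symm) φ q u v).im) =
        Complex.imCLM ∘ (StmtF.loc h φ u v) from rfl, this]
      rfl
    rw [him, him, him]
    have := hh.closed φ hφ p hp u v w
    simpa only [add_im] using this

end form

variable {E : Type*} [NormedAddCommGroup E] [NormedSpace ℂ E] [FiniteDimensional ℂ E]
  {X : Type*} [TopologicalSpace X] [ChartedSpace E X] [IsManifold 𝓘(ℂ, E) ω X]
  {M : Type u} [TopologicalSpace M] [ChartedSpace E M] [IsManifold 𝓘(ℂ, E) ω M]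

/-- **Splitting theorem**, two summands. -/
theorem isProductPair_full [CompactSpace X] [T2Space X] [ConnectedSpace X]
    [SecondCountableTopology M] [SimplyConnectedSpace M]
    {π : M → X} (hπ : IsCoveringMap π) (hπl : IsLocalDiffeomorph 𝓘(ℂ, E) 𝓘(ℂ, E) ω π)
    {h : TangentForm E X} (hh : IsKahlerMetric h) {F₁ F₂ : TangentDist E X}
    (h₁ : IsHolSubbundle F₁) (h₂ : IsHolSubbundle F₂) (i₁ : IsIntegrable F₁)
    (i₂ : IsIntegrable F₂) (hc : ∀ x, IsCompl (F₁ x) (F₂ x)) :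
    IsProductPair (pullDist π F₁) (pullDist π F₂) := by
  obtain ⟨x₀⟩ : Nonempty X := inferInstance
  have hP := isProdCharts_prodCharts (F₁ := F₁) (F₂ := F₂)
    (A := EuclideanSpace ℂ (Fin (Module.finrank ℂ (F₁ x₀))))
    (B := EuclideanSpace ℂ (Fin (Module.finrank ℂ (F₂ x₀)))) x₀ h₁ h₂ i₁ i₂ hc
    (by simp only [finrank_euclideanSpace, Fintype.card_fin]) (by simp only [finrank_euclideanSpace, Fintype.card_fin])
  have hK := kAtlas_prodCharts (F₁ := F₁) (F₂ := F₂)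
    (A := EuclideanSpace ℂ (Fin (Module.finrank ℂ (F₁ x₀))))
    (B := EuclideanSpace ℂ (Fin (Module.finrank ℂ (F₂ x₀)))) hh h₁ h₂ i₁ i₂ hc x₀
    (by simp only [finrank_euclideanSpace, Fintype.card_fin]) (by simp only [finrank_euclideanSpace, Fintype.card_fin])
  exact isProductPair_of_crossExt hπ hπl hP (crossExt_of_kAtlas hK)

/-- **Assembly** of the general case from the pairs. -/
theorem inducesProductF_of_pairs {k : ℕ} [PreconnectedSpace M] [Nonempty M]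
    {G : Fin k → TangentDist E M} (htop : ∀ x, ⨆ i, G i x = ⊤)
    (h : ∀ i, IsProductPair (G i) (fun x => ⨆ j, ⨆ _ : j ≠ i, G j x)) :
    StmtF.InducesProduct G := by
  classical
  choose Y Z Φ hY hZ hk1 hk2 using h
  have hYpc : ∀ i, PreconnectedSpace (Y i).Pt := fun i => by
    have := hY i
    infer_instance
  have H1 : ∀ i j, i ≠ j → ∀ (x : M) (v : TangentSpace 𝓘(ℂ, E) x),
      mfderiv 𝓘(ℂ, E) 𝓘(ℂ, (Z i).Model) (fun y => (Φ i y).2) x v = 0 →
      mfderiv 𝓘(ℂ, E) 𝓘(ℂ, (Y j).Model) (fun y => (Φ j y).1) x v = 0 := by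
    intro i j hij x v hv
    rw [← hk1 i x v] at hv
    rw [← hk2 j x v]
    exact (le_iSup₂ (f := fun l (_ : l ≠ j) => G l x) i hij) hv
  have H2 : ∀ (x : M) (v : TangentSpace 𝓘(ℂ, E) x), ∃ w : Fin k → TangentSpace 𝓘(ℂ, E) x,
      v = ∑ i, w i ∧
      ∀ i, mfderiv 𝓘(ℂ, E) 𝓘(ℂ, (Z i).Model) (fun y => (Φ i y).2) x (w i) = 0 := by
    intro x v
    have h1 : v ∈ ⨆ i, G i x := by rw [htop]; trivial
    rw [Submodule.mem_iSup_iff_exists_finsupp] at h1
    obtain ⟨f, hf, hfs⟩ := h1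
    refine ⟨f, ?_, fun i => (hk1 i x (f i)).mp (hf i)⟩
    rw [← hfs, Finsupp.sum_fintype _ _ (fun _ => rfl)]
  obtain ⟨Ψ, hΨ, hker⟩ := exists_diffeomorph_pi (Y := fun i => (Y i).Pt) Φ H1 H2
  refine ⟨fun i => (Y i).Model, inferInstance, inferInstance, fun i => (Y i).Pt, inferInstance,
    inferInstance, Ψ, fun i => ?_, ⟨Ψ.bijective, Ψ.isLocalDiffeomorph⟩, fun i x => ?_⟩
  · exact { fd := inferInstance
            mfd := inferInstance
            t2 := inferInstance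
            sc := inferInstance
            simply := hY i }
  · ext v
    rw [hk1 i x v, hker x v i]
    simp only [Submodule.mem_iInf]
    refine forall₂_congr fun j hj => ?_
    rw [mfderiv_pi_apply (Ψ.mdifferentiable (by simp) x) v j]
    exact Iff.rfl

/-- **Beauville's splitting conjecture.** -/
theorem bridgeF [CompactSpace X] [T2Space X] [ConnectedSpace X] [SimplyConnectedSpace M]
    (π : M → X) (hπ : IsCoveringMap π) (hπl : IsLocalDiffeomorph 𝓘(ℂ, E) 𝓘(ℂ, E) ω π)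
    (h : StmtF.Form E X) (hh : StmtF.IsKahler h) {k : ℕ} (F : Fin k → StmtF.Dist E X)
    (hF : ∀ i, StmtF.IsSubbundle (F i))
    (hI : ∀ I : Set (Fin k), StmtF.IsIntegrable fun x => ⨆ i ∈ I, F i x)
    (hc : ∀ x, DirectSum.IsInternal fun i => F i x) :
    StmtF.InducesProduct fun i x =>
      (F i (π x)).comap (mfderiv 𝓘(ℂ, E) 𝓘(ℂ, E) π x).toLinearMap := by
  have hpc : PathConnectedSpace M := inferInstance
  have hsc : SecondCountableTopology M := secondCountable_of_covering (E := E) hπ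
  have hi : ∀ I : Set (Fin k), Stmt.IsFoliation fun x => ⨆ i ∈ I, F i x :=
    isFoliation_sum hF hI hc
  have htop : ∀ x, ⨆ i, pullDist π (F i) x = ⊤ := by
    intro x
    rw [← pullDist_iSup hπl F x]
    have h1 := (DirectSum.isInternal_submodule_iff_iSupIndep_and_iSup_eq_top _).mp (hc (π x))
    show (⨆ i, F i (π x)).comap _ = ⊤
    rw [h1.2, Submodule.comap_top]
  refine inducesProductF_of_pairs (G := fun i => pullDist π (F i)) htop fun i => ?_
  have e : (fun x => ⨆ j, ⨆ _ : j ≠ i, pullDist π (F j) x) =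
      pullDist π fun x => ⨆ j ≠ i, F j x := by
    funext x
    rw [pullDist_iSup hπl (fun j x => ⨆ _ : j ≠ i, F j x) x]
    congr 1
    funext j
    rw [pullDist_iSup hπl (fun _ : j ≠ i => F j) x]
  rw [e]
  exact isProductPair_full hπ hπl (isKahlerMetric_bundleF hh)
    (isHolSubbundle_of_foliation (foliation_single hi i))
    (isHolSubbundle_of_foliation (foliation_compl hi i))
    (isIntegrable_of_foliation (foliation_single hi i))
    (isIntegrable_of_foliation (foliation_compl hi i)) (isCompl_of_isInternal hc i)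

end Vale.Agent.P278.Full
end
end
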